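import Vale.Agent.P277Z.Val.Fin

/-!
# P277, block VAL: monomials, logarithmic orders, crepant pull back
-/

set_option linter.unusedSectionVars false

open scoped Manifold ContDiff Topology
open Vale.Agent.P272.K Vale.Agent.P285.H281.FD Vale.Agent.P277 Set Filter Metric
open Vale.Agent.P277.PH (HolF at_chartAt)

noncomputable section

namespace Vale.Agent.P277Z.Val

section loc
variable {n : ℕ}

theorem freq_all {ι : Type*} (s : Finset ι) {F : ι → Cm n → ℂ} {w : Cm n}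
    (h : ∀ i ∈ s, AnalyticAt ℂ (F i) w) (h' : ∀ i ∈ s, ∃ᶠ z in 𝓝 w, F i z ≠ 0) :
    ∃ᶠ z in 𝓝 w, ∀ i ∈ s, F i z ≠ 0 := by
  classical
  induction s using Finset.induction_on with
  | empty => exact Frequently.of_forall (by simp)
  | insert j s hj ih =>
    simp only [Finset.forall_mem_insert] at h h' ⊢
    have h1 : ∀ᶠ z in 𝓝 w, ∃ᶠ y in 𝓝 z, F j y ≠ 0 := by
      by_contra e
      rw [not_eventually] at e
      exact h'.1 ((ev_zero_of_freq h.1 (e.mono fun z hz => by simpa using hz)).mono fun _ h k => k h)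
    refine frequently_frequently_nhds.1 (((ih h.2 h'.2).and_eventually (h1.and
      ((eventually_all_finset s).2 fun i hi => (h.2 i hi).eventually_analyticAt))).mono ?_)
    rintro z ⟨a, b, c⟩
    exact b.and_eventually ((eventually_all_finset s).2 fun i hi =>
      (c i hi).continuousAt.eventually_ne (a i hi))

/-- a function with zeros only on coordinate hyperplanes, which does not vanish on any of them -/
theorem unit_of (I : Finset (Fin n)) {u : Cm n → ℂ} (hu : AnalyticAt ℂ u 0)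
    (hne : ∀ᶠ w in 𝓝 (0 : Cm n), (∀ i ∈ I, w i ≠ 0) → u w ≠ 0)
    (hI : ∀ i ∈ I, ∃ᶠ w in 𝓝 (0 : Cm n), w i = 0 ∧ u w ≠ 0) : u 0 ≠ 0 := by
  have h4 : ∃ᶠ p in 𝓝 (0 : Cm n), ∀ i ∈ I, u (p - fun _ => p i) ≠ 0 := by
    refine freq_all I (F := fun i p => u (p - fun _ => p i)) (fun i _ => ?_) fun i hi =>
      (hI i hi).mono fun w hw => ?_
    · refine AnalyticAt.fun_comp (g := u) (f := fun p : Cm n => p - fun _ => p i) ?_
        (analyticAt_id.sub (analyticAt_pi_iff.2 fun _ => an_coord i _))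
      convert hu using 1
      funext j
      simp
    · convert hw.2 using 2
      funext j
      simp [hw.1]
  obtain ⟨r, hr, hb⟩ : ∃ r > 0, ∀ w ∈ closedBall (0 : Cm n) (3 * r), AnalyticAt ℂ u w ∧
      ((∀ i ∈ I, w i ≠ 0) → u w ≠ 0) := by
    obtain ⟨r, hr, h⟩ := Metric.eventually_nhds_iff_ball.1 (hu.eventually_analyticAt.and hne)
    exact ⟨r / 4, by positivity, fun w hw => h w (closedBall_subset_ball (by linarith) hw)⟩
  set K : Set (Cm n) := closedBall 0 (3 * r) ∩ ⋂ i, {w | r ≤ ‖w i‖} with hK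
  have hKc : IsCompact K := (isCompact_closedBall _ _).inter_right
    (isClosed_iInter fun i => isClosed_le continuous_const (continuous_apply i).norm)
  obtain ⟨C, hC⟩ := hKc.exists_bound_of_continuousOn (f := fun w => (u w)⁻¹) fun w hw =>
    ((hb w hw.1).1.continuousAt.inv₀ ((hb w hw.1).2 fun i _ =>
      norm_pos_iff.1 (hr.trans_le (mem_iInter.1 hw.2 i)))).continuousWithinAt
  set v : Cm n := fun _ => (2 * r : ℝ) with hv
  have h2r : ‖((2 * r : ℝ) : ℂ)‖ = 2 * r := by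
    rw [Complex.norm_real, Real.norm_of_nonneg (by positivity)]
  have h6 : ∃ᶠ w in 𝓝 (0 : Cm n), 1 ≤ C * ‖u w‖ := by
    refine (h4.and_eventually (closedBall_mem_nhds 0 hr)).mono ?_
    rintro w ⟨e1, e3⟩
    rw [dist_zero_right] at e3
    have e4 : ∀ ζ ∈ closedBall (0 : ℂ) 1, w + ζ • v ∈ closedBall (0 : Cm n) (3 * r) := by
      intro ζ hζ
      rw [mem_closedBall, dist_zero_right] at hζ ⊢
      have := (pi_norm_const_le ((2 * r : ℝ) : ℂ) : ‖v‖ ≤ _)
      calc ‖w + ζ • v‖ ≤ ‖w‖ + ‖ζ‖ * ‖v‖ := by rw [← norm_smul]; exact norm_add_le _ _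
        _ ≤ 3 * r := by nlinarith [norm_nonneg v, norm_nonneg ζ]
    have e5 : ∀ ζ ∈ closedBall (0 : ℂ) 1, u (w + ζ • v) ≠ 0 := by
      intro ζ hζ
      by_cases h0 : ∀ i ∈ I, (w + ζ • v) i ≠ 0
      · exact (hb _ (e4 ζ hζ)).2 h0
      · push Not at h0
        obtain ⟨i, hi, h0⟩ := h0
        convert e1 i hi using 2
        funext j
        simp only [Pi.add_apply, Pi.smul_apply, smul_eq_mul, hv, Pi.sub_apply] at h0 ⊢
        linear_combination h0
    have e6 : ‖(u w)⁻¹‖ ≤ C := by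
      refine P277.H762.disc_bound (f := fun w => (u w)⁻¹) (v := v)
        (fun ζ hζ => (hb _ (e4 ζ hζ)).1.inv (e5 ζ hζ)) fun ζ hζ =>
        hC _ ⟨e4 ζ (sphere_subset_closedBall hζ), mem_iInter.2 fun i => ?_⟩
      rw [mem_sphere, dist_zero_right] at hζ
      have a1 := norm_sub_norm_le (ζ * (2 * r : ℝ)) (-w i)
      rw [norm_mul, hζ, h2r, norm_neg, sub_neg_eq_add, add_comm (ζ * _)] at a1
      have a2 := (norm_le_pi_norm w i).trans e3
      show r ≤ ‖w i + ζ * (2 * r : ℝ)‖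
      linarith
    have e2 : u w ≠ 0 := by simpa using e5 0 (by simp)
    rwa [norm_inv, inv_le_iff_one_le_mul₀ (norm_pos_iff.2 e2)] at e6
  intro hz
  have h7 : ∀ᶠ w in 𝓝 (0 : Cm n), C * ‖u w‖ < 1 :=
    (continuousAt_const.mul hu.continuousAt.norm).eventually_lt continuousAt_const (by simp [hz])
  exact (h6.and_eventually h7).exists.elim fun w hw => absurd hw.1 (not_le.2 hw.2)

theorem exists_div_coord {f : Cm (n + 1) → ℂ} (hf : AnalyticAt ℂ f 0)
    (hne : ∃ᶠ w in 𝓝 (0 : Cm (n + 1)), f w ≠ 0) (i : Fin (n + 1)) :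
    ∃ (g : ℕ) (u : Cm (n + 1) → ℂ), AnalyticAt ℂ u 0 ∧ (∀ᶠ w in 𝓝 0, f w = w i ^ g * u w) ∧
      ∃ᶠ w in 𝓝 (0 : Cm (n + 1)), w i = 0 ∧ u w ≠ 0 := by
  set s : Cm (n + 1) → Cm (n + 1) := fun w j => w (Equiv.swap 0 i j) with hs
  have ss : ∀ w, s (s w) = w := fun w => by simp [hs]
  have st : Tendsto s (𝓝 0) (𝓝 0) := (an_perm (Equiv.swap 0 i) 0).continuousAt
  obtain ⟨g, ⟨u, h1, h2⟩, h3⟩ := exists_ord (f := fun w => f (s w)) (w₁ := 0)
    (AnalyticAt.fun_comp (g := f) (f := s) hf (an_perm _ _)) rfl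
    (st.frequently (hne.mono fun w hw => by rwa [ss]))
  refine ⟨g, fun w => u (s w), AnalyticAt.fun_comp (g := u) (f := s) h1 (an_perm _ _), ?_,
    st.frequently ?_⟩
  · filter_upwards [st.eventually h2] with w hw
    rw [ss] at hw
    simpa [hs] using hw
  · refine (h3.and_eventually (h1.eventually_analyticAt.and h2.eventually_nhds)).mono ?_
    rintro w ⟨⟨e1, u', e2, e3, e4⟩, e5, e6⟩
    refine ⟨by simpa [hs] using e1, ?_⟩
    show u (s (s w)) ≠ 0
    rw [ss, eq_of_ne (F := u) (G := u') e5.continuousAt e2.continuousAt ?_]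
    · exact e3
    · filter_upwards [e4, e6] with z e7 e8 e9
      exact mul_left_cancel₀ (pow_ne_zero g e9) (e8.symm.trans e7)

/-- a function with zeros only on coordinate hyperplanes is a unit times a monomial -/
theorem exists_mon0 {ι : Type} [Fintype ι] (lab : ι → Option (Fin (n + 1))) {f : Cm (n + 1) → ℂ}
    (hf : AnalyticAt ℂ f 0)
    (hne : ∀ᶠ w in 𝓝 (0 : Cm (n + 1)), (∀ l i, lab l = some i → w i ≠ 0) → f w ≠ 0) :
    ∃ (g : ι → ℕ) (u : Cm (n + 1) → ℂ), AnalyticAt ℂ u 0 ∧ u 0 ≠ 0 ∧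
      ∀ᶠ w in 𝓝 0, f w = u w * ∏ l, eqn id lab l w ^ g l := by
  classical
  have h0 : ∃ᶠ w in 𝓝 (0 : Cm (n + 1)), f w ≠ 0 :=
    ((freq_strat ∅ (by simp)).and_eventually hne).mono fun w hw => hw.2 fun _ i _ e =>
      (hw.1 i).1 e
  have key : ∀ s : Finset ι, ∃ (g : ι → ℕ) (u : Cm (n + 1) → ℂ), AnalyticAt ℂ u 0 ∧
      (∀ᶠ w in 𝓝 0, f w = u w * ∏ l ∈ s, eqn id lab l w ^ g l) ∧
      ∀ l ∈ s, ∀ i, lab l = some i → ∃ᶠ w in 𝓝 (0 : Cm (n + 1)), w i = 0 ∧ u w ≠ 0 := by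
    intro s
    induction s using Finset.induction_on with
    | empty => exact ⟨0, f, hf, by simp, by simp⟩
    | insert k s hk ih =>
      obtain ⟨g, u, h1, h2, h3⟩ := ih
      cases hl : lab k with
      | none => exact ⟨g, u, h1, by simpa [Finset.prod_insert hk, eqn, hl] using h2,
          by simpa [hl] using h3⟩
      | some j =>
        obtain ⟨a, u', k1, k2, k3⟩ := exists_div_coord h1 ((h0.and_eventually h2).mono
          fun w hw e => hw.1 (by rw [hw.2, e, zero_mul])) j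
        refine ⟨Function.update g k a, u', k1, ?_, Finset.forall_mem_insert _ _ _ |>.2
          ⟨fun i hi => Option.some.inj (hl.symm.trans hi) ▸ k3, fun l hls i hi => ?_⟩⟩
        · filter_upwards [h2, k2] with w e1 e2
          rw [Finset.prod_insert hk, Function.update_self, e1, e2, Finset.prod_congr
            (f := fun l => eqn id lab l w ^ Function.update g k a l) rfl
            fun l (hls : l ∈ s) => by rw [Function.update_of_ne (ne_of_mem_of_not_mem hls hk)]]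
          simp only [eqn, hl, Option.elim_some, id]
          ring
        · exact ((h3 l hls i hi).and_eventually k2).mono fun w hw =>
            ⟨hw.1.1, fun e => hw.1.2 (by rw [hw.2, e, mul_zero])⟩
  obtain ⟨g, u, h1, h2, h3⟩ := key Finset.univ
  refine ⟨g, u, h1, unit_of (Finset.univ.filter fun i => ∃ l, lab l = some i) h1 ?_ ?_, h2⟩
  · filter_upwards [hne, h2] with w e1 e2 e3 e4
    exact e1 (fun l i hi => e3 i (by simpa using ⟨l, hi⟩)) (by rw [e2, e4, zero_mul])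
  · intro i hi
    obtain ⟨l, hl⟩ := (Finset.mem_filter.1 hi).2
    exact h3 l (Finset.mem_univ _) i hl

end loc

theorem holF_prod {W ι : Type} [TopologicalSpace W] {n : ℕ} [ChartedSpace (Cm n) W] {s : Finset ι}
    {f : ι → W → ℂ} {y : W} (h : ∀ i ∈ s, HolF n (f i) y) (m : ι → ℕ) :
    HolF n (fun x => ∏ i ∈ s, f i x ^ m i) y :=
  fun e he => Finset.analyticAt_fun_prod s fun i hi => (h i hi e he).pow _

variable {V : Lg} {y : V.W}

/-- `f` is a unit times the monomial with exponents `n` near `y`. -/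
def Mon (V : Lg) (y : V.W) (f : V.W → ℂ) (n : Fin V.r → ℕ) : Prop :=
  ∀ ζ, V.Eq y ζ → ∃ u : V.W → ℂ, HolF 4 u y ∧ u y ≠ 0 ∧ ∀ᶠ x in 𝓝 y, f x = u x * ∏ l, ζ l x ^ n l

theorem Mon.of_exists {f u : V.W → ℂ} {n : Fin V.r → ℕ} {ζ} (hζ : V.Eq y ζ) (h1 : HolF 4 u y)
    (h2 : u y ≠ 0) (h3 : ∀ᶠ x in 𝓝 y, f x = u x * ∏ l, ζ l x ^ n l) : Mon V y f n := by
  intro ζ' hζ'
  obtain ⟨t, k1, k2⟩ := hζ'.unit hζ
  refine ⟨fun x => u x * ∏ l, t l x ^ n l, h1.mul (holF_prod (fun l _ => (k1 l).1) n),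
    mul_ne_zero h2 (Finset.prod_ne_zero_iff.2 fun l _ => pow_ne_zero _ (k1 l).2), ?_⟩
  filter_upwards [h3, k2] with x e1 e2
  simp only [e1, e2, mul_pow, Finset.prod_mul_distrib]
  ring

theorem exists_mon {f : V.W → ℂ} (hf : HolF 4 f y) (hne : ∀ᶠ x in 𝓝 y, x ∉ V.E → f x ≠ 0) :
    ∃ n, Mon V y f n := by
  obtain ⟨Φ, ρ, lab, h, hp⟩ := V.snc.nch y hne
  have hc := h.crd y h.src
  obtain ⟨g, u, h1, h2, h3⟩ := exists_mon0 lab (f := fun w => f (Φ.symm w))
    (h.zero ▸ hc.an.hol (by rwa [hc.inv])) (by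
      filter_upwards [ball_mem_nhds _ h.pos] with w hw e
      refine hp _ (h.symm_mem hw).1 fun e' => ?_
      obtain ⟨l, hl⟩ := mem_iUnion.1 e'
      obtain ⟨i, a, b⟩ := (h.iff _ (h.symm_mem hw).1 l).1 hl
      exact e l i a ((h.symm_mem hw).2 ▸ b))
  rw [← h.zero] at h1 h2 h3
  refine ⟨g, .of_exists (h.eq h.src) (hc.holF h1) h2 ?_⟩
  filter_upwards [hc.cont.eventually h3, hc.left] with x e1 e2
  rwa [e2] at e1

theorem Mon.eventually {f : V.W → ℂ} {n : Fin V.r → ℕ} (h : Mon V y f n) :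
    ∀ᶠ x in 𝓝 y, Mon V x f n := by
  obtain ⟨ζ, hζ⟩ := V.exEq y
  obtain ⟨u, h1, h2, h3⟩ := h ζ hζ
  filter_upwards [hζ.eventually, holF_ev h1, (holF_cont h1).eventually_ne h2, h3.eventually_nhds]
    with x a b c d using .of_exists a b c d

theorem Mon.unit {f f' u : V.W → ℂ} {n : Fin V.r → ℕ} (h : Mon V y f n) (h1 : HolF 4 u y)
    (h2 : u y ≠ 0) (h3 : ∀ᶠ x in 𝓝 y, f' x = u x * f x) : Mon V y f' n := by
  intro ζ hζ
  obtain ⟨t, k1, k2, k3⟩ := h ζ hζ
  exact ⟨_, h1.mul k1, mul_ne_zero h2 k2, by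
    filter_upwards [h3, k3] with x a b using by rw [a, b, mul_assoc]⟩

/-- the exponents of the components which do not pass through `y` are arbitrary -/
theorem Mon.change {f : V.W → ℂ} {n n' : Fin V.r → ℕ} (h : Mon V y f n)
    (e : ∀ l, y ∈ V.G l → n l = n' l) : Mon V y f n' := by
  classical
  intro ζ hζ
  obtain ⟨u, k1, k2, k3⟩ := h ζ hζ
  have h0 : ∀ l, y ∉ V.G l → ζ l y ≠ 0 := fun l a b => a ((hζ.iff.self_of_nhds l).1 b)
  have h1 : ∀ m : Fin V.r → ℕ, ∏ l with y ∉ V.G l, ζ l y ^ m l ≠ 0 := fun m =>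
    Finset.prod_ne_zero_iff.2 fun l hl => pow_ne_zero _ (h0 l (Finset.mem_filter.1 hl).2)
  have h2 := fun m => holF_prod (s := Finset.univ.filter fun l => y ∉ V.G l)
    (fun l _ => hζ.hol l) m
  refine ⟨fun x => u x * ((∏ l with y ∉ V.G l, ζ l x ^ n l) / ∏ l with y ∉ V.G l, ζ l x ^ n' l),
    k1.mul fun c hc => (h2 n c hc).div (h2 n' c hc) (by rw [c.left_inv hc.2]; exact h1 n'),
    mul_ne_zero k2 (div_ne_zero (h1 n) (h1 n')), ?_⟩
  filter_upwards [k3, (holF_cont (h2 n')).eventually_ne (h1 n')] with x a b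
  rw [a, ← Finset.prod_filter_mul_prod_filter_not Finset.univ (fun l => y ∈ V.G l),
    ← Finset.prod_filter_mul_prod_filter_not Finset.univ (fun l => y ∈ V.G l)
      (fun l => ζ l x ^ n' l), Finset.prod_congr rfl fun l hl => by
        rw [e l (Finset.mem_filter.1 hl).2]]
  field_simp

/-- local data which are unique along the components give global data -/
theorem exists_glob {A : Type*} (P : V.W → (Fin V.r → A) → Prop) (ex : ∀ y, ∃ n, P y n)
    (ev : ∀ y n, P y n → ∀ᶠ x in 𝓝 y, P x n)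
    (un : ∀ y n n' l, y ∈ V.G l → P y n → P y n' → n l = n' l)
    (ch : ∀ y n n', P y n → (∀ l, y ∈ V.G l → n l = n' l) → P y n') : ∃ n, ∀ y, P y n := by
  choose N hN using ex
  choose b hb using fun l => (V.conn l).nonempty
  refine ⟨fun l => N (b l) l, fun y => ch y _ _ (hN y) fun l hl => ?_⟩
  exact (V.conn l).isPreconnected.induction₂ (fun x y => N x l = N y l) (fun x _ =>
    eventually_nhdsWithin_iff.2 ((ev x _ (hN x)).mono fun z a b => un z _ _ l b a (hN z)))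
    (fun _ _ _ _ _ _ => Eq.trans) (fun _ _ _ _ => Eq.symm) hl (hb l)

/-! ### bounded functions -/

/-- `F` is bounded near `y`, outside the components. -/
def Bdd (V : Lg) (y : V.W) (F : V.W → ℝ) : Prop := ∃ C, ∀ᶠ x in 𝓝 y, x ∉ V.E → |F x| ≤ C

theorem Bdd.congr {F F' : V.W → ℝ} (h : Bdd V y F) (e : ∀ᶠ x in 𝓝 y, x ∉ V.E → F x = F' x) :
    Bdd V y F' :=
  h.imp fun _ h => by filter_upwards [h, e] with x a b c using b c ▸ a c

theorem Bdd.add {F F' : V.W → ℝ} (h : Bdd V y F) (h' : Bdd V y F') :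
    Bdd V y fun x => F x + F' x := by
  obtain ⟨C, h⟩ := h
  obtain ⟨C', h'⟩ := h'
  exact ⟨C + C', by
    filter_upwards [h, h'] with x a b c using (abs_add_le _ _).trans (add_le_add (a c) (b c))⟩

theorem Bdd.mul {F : V.W → ℝ} (h : Bdd V y F) (t : ℝ) : Bdd V y fun x => t * F x := by
  obtain ⟨C, h⟩ := h
  exact ⟨|t| * C, h.mono fun x a c => by
    rw [abs_mul]; exact mul_le_mul_of_nonneg_left (a c) (abs_nonneg _)⟩

theorem Bdd.sub {F F' : V.W → ℝ} (h : Bdd V y F) (h' : Bdd V y F') :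
    Bdd V y fun x => F x - F' x :=
  (h.add (h'.mul (-1))).congr (.of_forall fun x _ => by ring)

theorem bdd_cont {F : V.W → ℝ} (h : ContinuousAt F y) : Bdd V y F :=
  ⟨|F y| + 1, (h.abs.eventually_lt continuousAt_const (lt_add_one _)).mono fun _ a _ => a.le⟩

theorem bdd_log {u : V.W → ℂ} (h : ContinuousAt u y) (h' : u y ≠ 0) :
    Bdd V y fun x => Real.log ‖u x‖ :=
  bdd_cont (h.norm.log (norm_ne_zero_iff.2 h'))

theorem bdd_sum {ι : Type*} (s : Finset ι) {F : ι → V.W → ℝ} (h : ∀ i ∈ s, Bdd V y (F i)) :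
    Bdd V y fun x => ∑ i ∈ s, F i x := by
  classical
  induction s using Finset.induction_on with
  | empty => exact bdd_cont (by simpa using continuousAt_const)
  | insert j s hj ih =>
    simp only [Finset.forall_mem_insert] at h
    simpa only [Finset.sum_insert hj] using h.1.add (ih h.2)

theorem Bdd.eventually {F : V.W → ℝ} (h : Bdd V y F) : ∀ᶠ x in 𝓝 y, Bdd V x F :=
  h.elim fun C h => h.eventually_nhds.mono fun _ h => ⟨C, h⟩

theorem Bdd.comp {V' : Lg} {π : V'.W → V.W} {y : V'.W} {F : V.W → ℝ} (h : Bdd V (π y) F)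
    (hc : ContinuousAt π y) (hp : ∀ x, π x ∈ V.E → x ∈ V'.E) : Bdd V' y fun x => F (π x) :=
  h.imp fun _ h => (hc.eventually h).mono fun x a b => a fun c => b (hp x c)

theorem Lg.Eq.ne {ζ} (hζ : V.Eq y ζ) : ∀ᶠ x in 𝓝 y, x ∉ V.E → ∀ l, ζ l x ≠ 0 :=
  hζ.iff.mono fun _ a b l c => b (mem_iUnion.2 ⟨l, (a l).1 c⟩)

/-- the logarithms of the equations are independent modulo bounded functions -/
theorem Bdd.eq_zero {ζ} (hζ : V.Eq y ζ) {c : Fin V.r → ℝ}
    (h : Bdd V y fun x => ∑ k, c k * Real.log ‖ζ k x‖) {l : Fin V.r} (hl : y ∈ V.G l) :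
    c l = 0 := by
  obtain ⟨z, ⟨h1, h2⟩, h3, h4⟩ :=
    ((Lg.freq1 hl).and_eventually (hζ.eventually.and h.eventually)).exists
  obtain ⟨C, h5⟩ : Bdd V z fun x => c l * Real.log ‖ζ l x‖ :=
    (h4.sub (bdd_sum (Finset.univ.erase l) fun k hk => (bdd_log (holF_cont (h3.hol k)) fun e =>
      h2 k (Finset.mem_erase.1 hk).1 ((h3.iff.self_of_nhds k).1 e)).mul (c k))).congr
      (.of_forall fun x _ => by rw [← Finset.add_sum_erase _ _ (Finset.mem_univ l)]; ring)
  by_contra e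
  have h6 : ∀ᶠ x in 𝓝 z, ‖ζ l x‖ < Real.exp (-((C + 1) / |c l|)) :=
    (holF_cont (h3.hol l)).norm.eventually_lt continuousAt_const
      (by simpa [(h3.iff.self_of_nhds l).2 h1] using Real.exp_pos _)
  obtain ⟨x, a1, a2, a3, a4⟩ := ((V.freqE z).and_eventually (h5.and (h6.and h3.ne))).exists
  have b1 := (Real.log_lt_iff_lt_exp (norm_pos_iff.2 (a4 a1 l))).2 a3
  have b2 := a2 a1
  rw [abs_mul] at b2
  have b3 := neg_abs_le (Real.log ‖ζ l x‖)
  have b4 : (C + 1) / |c l| < |Real.log ‖ζ l x‖| := by linarith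
  rw [div_lt_iff₀ (abs_pos.2 e)] at b4
  linarith

/-- `F` is `∑ a l * log ‖ζ l‖` up to a bounded function. -/
def LB (V : Lg) (y : V.W) (F : V.W → ℝ) (a : Fin V.r → ℝ) : Prop :=
  ∀ ζ, V.Eq y ζ → Bdd V y fun x => F x - ∑ l, a l * Real.log ‖ζ l x‖

theorem LB.of_exists {F : V.W → ℝ} {a : Fin V.r → ℝ} {ζ} (hζ : V.Eq y ζ)
    (h : Bdd V y fun x => F x - ∑ l, a l * Real.log ‖ζ l x‖) : LB V y F a := by
  intro ζ' hζ'
  obtain ⟨t, k1, k2⟩ := hζ.unit hζ'
  refine (h.sub (bdd_sum Finset.univ fun l _ =>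
    (bdd_log (holF_cont (k1 l).1) (k1 l).2).mul (a l))).congr ?_
  filter_upwards [k2, hζ.ne, eventually_all.2 fun l => (holF_cont (k1 l).1).eventually_ne (k1 l).2]
    with x e1 e2 e3 e4
  simp only [e1, norm_mul, fun l => Real.log_mul (norm_ne_zero_iff.2 (e2 e4 l))
    (norm_ne_zero_iff.2 (e3 l)), mul_add, Finset.sum_add_distrib]
  ring

theorem LB.unique {F : V.W → ℝ} {a a' : Fin V.r → ℝ} (h : LB V y F a) (h' : LB V y F a')
    {l : Fin V.r} (hl : y ∈ V.G l) : a l = a' l := by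
  obtain ⟨ζ, hζ⟩ := V.exEq y
  exact sub_eq_zero.1 (Bdd.eq_zero hζ (c := fun l => a l - a' l) (((h' ζ hζ).sub (h ζ hζ)).congr
    (.of_forall fun x _ => by simp [sub_mul])) hl)

theorem LB.eventually {F : V.W → ℝ} {a : Fin V.r → ℝ} (h : LB V y F a) :
    ∀ᶠ x in 𝓝 y, LB V x F a := by
  obtain ⟨ζ, hζ⟩ := V.exEq y
  filter_upwards [hζ.eventually, (h ζ hζ).eventually] with x a b using .of_exists a b

theorem LB.change {F : V.W → ℝ} {a a' : Fin V.r → ℝ} (h : LB V y F a)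
    (e : ∀ l, y ∈ V.G l → a l = a' l) : LB V y F a' := by
  intro ζ hζ
  refine ((h ζ hζ).add (bdd_sum Finset.univ (F := fun l x => (a l - a' l) * Real.log ‖ζ l x‖)
    fun l _ => ?_)).congr (.of_forall fun x _ => by simp [sub_mul])
  by_cases hl : y ∈ V.G l
  · exact bdd_cont (by simpa [e l hl] using continuousAt_const)
  · exact (bdd_log (holF_cont (hζ.hol l)) fun b => hl ((hζ.iff.self_of_nhds l).1 b)).mul _

theorem LB.bdd {F F' : V.W → ℝ} {a : Fin V.r → ℝ} (h : LB V y F a)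
    (e : Bdd V y fun x => F' x - F x) : LB V y F' a :=
  fun ζ hζ => ((h ζ hζ).add e).congr (.of_forall fun x _ => by ring)

theorem LB.add {F F' : V.W → ℝ} {a a' : Fin V.r → ℝ} (h : LB V y F a) (h' : LB V y F' a') :
    LB V y (fun x => F x + F' x) fun l => a l + a' l :=
  fun ζ hζ => ((h ζ hζ).add (h' ζ hζ)).congr (.of_forall fun x _ => by
    simp only [add_mul, Finset.sum_add_distrib]; ring)

theorem lb_sum {ι : Type*} (s : Finset ι) (t : ι → ℝ) {F : ι → V.W → ℝ} {a : ι → Fin V.r → ℝ}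
    (h : ∀ i ∈ s, LB V y (F i) (a i)) :
    LB V y (fun x => ∑ i ∈ s, t i * F i x) fun l => ∑ i ∈ s, t i * a i l :=
  fun ζ hζ => (bdd_sum s fun i hi => (h i hi ζ hζ).mul (t i)).congr (.of_forall fun x _ => by
    simp only [mul_sub, Finset.sum_sub_distrib, Finset.mul_sum, Finset.sum_mul, mul_assoc]
    rw [Finset.sum_comm])

theorem Mon.lb {f : V.W → ℂ} {n : Fin V.r → ℕ} (h : Mon V y f n) :
    LB V y (fun x => Real.log ‖f x‖) fun l => n l := by
  intro ζ hζ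
  obtain ⟨u, k1, k2, k3⟩ := h ζ hζ
  refine (bdd_log (holF_cont k1) k2).congr ?_
  filter_upwards [k3, hζ.ne, (holF_cont k1).eventually_ne k2] with x a b c d
  have e : ∀ l ∈ Finset.univ, ‖ζ l x ^ n l‖ ≠ 0 := fun l _ =>
    norm_ne_zero_iff.2 (pow_ne_zero _ (b d l))
  rw [a, norm_mul, norm_prod, Real.log_mul (norm_ne_zero_iff.2 c) (Finset.prod_ne_zero_iff.2 e),
    Real.log_prod e]
  simp

theorem Mon.unique {f : V.W → ℂ} {n n' : Fin V.r → ℕ} (h : Mon V y f n) (h' : Mon V y f n')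
    {l : Fin V.r} (hl : y ∈ V.G l) : n l = n' l :=
  Nat.cast_injective (h.lb.unique h'.lb hl)

/-- global exponents of a family of germs which agree up to units -/
theorem exists_mon_glob (f : V.W → V.W → ℂ) (hf : ∀ y, HolF 4 (f y) y)
    (hne : ∀ y, ∀ᶠ x in 𝓝 y, x ∉ V.E → f y x ≠ 0)
    (hc : ∀ y, ∀ᶠ z in 𝓝 y, ∃ u, HolF 4 u z ∧ u z ≠ 0 ∧ ∀ᶠ x in 𝓝 z, f z x = u x * f y x) :
    ∃ n, ∀ y, Mon V y (f y) n :=
  exists_glob _ (fun y => exists_mon (hf y) (hne y)) (fun y _ h => by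
    filter_upwards [h.eventually, hc y] with z a ⟨u, b, c, d⟩ using a.unit b c d)
    (fun _ _ _ _ a b c => b.unique c a) fun _ _ _ => Mon.change

/-! ### crepant pull back -/

section crep
variable {W W' W'' : Type} [TopologicalSpace W] [ChartedSpace (Cm 4) W] [TopologicalSpace W']
  [ChartedSpace (Cm 4) W'] [TopologicalSpace W''] [ChartedSpace (Cm 4) W'']

theorem jac_comp {π : W' → W} {σ : W'' → W'} {e'' : Chart 4 W''} {e' : Chart 4 W'} {e : Chart 4 W}
    {x : W''} (hc : ContinuousAt σ x) (he'' : x ∈ e''.source) (he' : σ x ∈ e'.source)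
    (h1 : AnalyticAt ℂ (fun z => e (π (e'.symm z))) (e' (σ x)))
    (h2 : AnalyticAt ℂ (fun z => e' (σ (e''.symm z))) (e'' x)) :
    jac (fun y => π (σ y)) e'' e x = jac π e' e (σ x) * jac σ e'' e' x := by
  have h3 := det_comp (φ := fun z => e (π (e'.symm z))) (θ := fun z => e' (σ (e''.symm z)))
    (w := e'' x) (by rw [e''.left_inv he'']; exact h1.differentiableAt) h2.differentiableAt
  rw [e''.left_inv he''] at h3
  refine Eq.trans (congrArg ContinuousLinearMap.det (EventuallyEq.fderiv_eq ?_)) h3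
  filter_upwards [PH.ev_symm he'' (hc.eventually (e'.eventually_left_inverse he'))] with z hz
  rw [hz]

variable [IsManifold 𝓘(ℂ, Cm 4) ω W] [IsManifold 𝓘(ℂ, Cm 4) ω W']

theorem holF_jac {π : W' → W} {e' : Chart 4 W'} {e : Chart 4 W} {x : W'} (he' : At e' x)
    (h : AnalyticAt ℂ (fun z => e (π (e'.symm z))) (e' x)) : HolF 4 (jac π e' e) x :=
  (crd_chart he').holF (an_jac h)

theorem jac_id {e' e : Chart 4 W} {x : W} (he' : At e' x) (he : At e x) :
    HolF 4 (jac (fun y => y) e' e) x ∧ jac (fun y => y) e' e x ≠ 0 :=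
  ⟨holF_jac he' (PH.chg_analyticAt he he'), ((crd_chart he').chg (crd_chart he)).2⟩

theorem ev_at {e : Chart 4 W} {x : W} (he : At e x) : ∀ᶠ z in 𝓝 x, At e z :=
  (e.open_source.eventually_mem he.2).mono fun _ h => ⟨he.1, h⟩

end crep

/-- a holomorphic map of models which is a local isomorphism outside the components -/
structure Hom0 (V' V : Lg) (π : V'.W → V.W) : Prop where
  cont : Continuous π
  hol : ∀ y (e' : Chart 4 V'.W) (e : Chart 4 V.W), At e' y → At e (π y) →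
    AnalyticAt ℂ (fun z => e (π (e'.symm z))) (e' y)
  pre : ∀ y, π y ∈ V.E → y ∈ V'.E
  det : ∀ y ∉ V'.E, ∀ (e' : Chart 4 V'.W) (e : Chart 4 V.W), At e' y → At e (π y) →
    jac π e' e y ≠ 0

variable {V' V'' : Lg} {π : V'.W → V.W} {σ : V''.W → V'.W}

theorem Hom.hom0 (h : Hom V' V π) : Hom0 V' V π := ⟨h.cont, h.hol, h.pre, h.det⟩

theorem Hom0.holF (h : Hom0 V' V π) {y : V'.W} {f : V.W → ℂ} (hf : HolF 4 f (π y)) :
    HolF 4 (fun x => f (π x)) y := fun e' he' =>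
  AnM.hol (γ := fun z => π (e'.symm z)) ⟨h.cont.continuousAt.comp
    (e'.continuousAt_symm (e'.map_source he'.2)), fun e he =>
      h.hol y e' e he' (by simpa only [e'.left_inv he'.2] using he)⟩ (by rwa [e'.left_inv he'.2])

theorem Hom0.comp (h : Hom0 V' V π) (h' : Hom0 V'' V' σ) : Hom0 V'' V fun y => π (σ y) where
  cont := h.cont.comp h'.cont
  hol _ _ _ he' he := analyticAt_pi_iff.2 fun i => h'.holF (h.holF (holF_chart he i)) _ he'
  pre y hy := h'.pre y (h.pre _ hy)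
  det y hy e'' e he'' he := by
    have he' := at_chartAt (n := 4) (σ y)
    rw [jac_comp h'.cont.continuousAt he''.2 he'.2 (h.hol _ _ _ he' he) (h'.hol _ _ _ he'' he')]
    exact mul_ne_zero (h.det _ (fun c => hy (h'.pre y c)) _ _ he' he) (h'.det y hy _ _ he'' he')

/-- change of the charts -/
theorem Hom0.jac_chg (h : Hom0 V' V π) {y : V'.W} {e' e₁' : Chart 4 V'.W} {e e₁ : Chart 4 V.W}
    (he' : At e' y) (he : At e (π y)) (he₁' : At e₁' y) (he₁ : At e₁ (π y)) :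
    ∃ u : V'.W → ℂ, HolF 4 u y ∧ u y ≠ 0 ∧ ∀ᶠ x in 𝓝 y, jac π e₁' e₁ x = u x * jac π e' e x := by
  refine ⟨fun x => jac (fun y => y) e e₁ (π x) * jac (fun y => y) e₁' e' x,
    (h.holF (jac_id he he₁).1).mul (jac_id he₁' he').1,
    mul_ne_zero (jac_id he he₁).2 (jac_id he₁' he').2, ?_⟩
  filter_upwards [ev_at he', ev_at he₁', h.cont.continuousAt.eventually (ev_at he),
    h.cont.continuousAt.eventually (ev_at he₁)] with x a b c d
  rw [jac_comp (π := π) (σ := fun y => y) continuousAt_id b.2 a.2 (h.hol x _ _ a d)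
    (PH.chg_analyticAt a b), jac_comp (π := fun y => y) (σ := π) h.cont.continuousAt a.2 c.2
    (PH.chg_analyticAt d c) (h.hol x _ _ a c)]
  ring

theorem Hom0.jac_ne (h : Hom0 V' V π) {y : V'.W} {e' : Chart 4 V'.W} {e : Chart 4 V.W}
    (he' : At e' y) (he : At e (π y)) : ∀ᶠ x in 𝓝 y, x ∉ V'.E → jac π e' e x ≠ 0 := by
  filter_upwards [ev_at he', h.cont.continuousAt.eventually (ev_at he)] with x a b c
    using h.det x c _ _ a b

theorem Hom0.eq_ne (h : Hom0 V' V π) {y : V'.W} {ζ} (hζ : V.Eq (π y) ζ) :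
    ∀ᶠ x in 𝓝 y, x ∉ V'.E → ∀ l, ζ l (π x) ≠ 0 :=
  (h.cont.continuousAt.eventually hζ.ne).mono fun x a b => a fun c => b (h.pre x c)

/-- the orders of the Jacobian -/
theorem Hom0.exists_jac (h : Hom0 V' V π) : ∃ n, ∀ y (e' : Chart 4 V'.W) (e : Chart 4 V.W),
    At e' y → At e (π y) → Mon V' y (jac π e' e) n := by
  obtain ⟨n, hn⟩ := exists_mon_glob (fun y => jac π (chartAt (Cm 4) y) (chartAt (Cm 4) (π y)))
    (fun y => holF_jac (at_chartAt y) (h.hol y _ _ (at_chartAt y) (at_chartAt _)))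
    (fun y => h.jac_ne (at_chartAt y) (at_chartAt _)) fun y => by
      filter_upwards [ev_at (at_chartAt (n := 4) y), h.cont.continuousAt.eventually
        (ev_at (at_chartAt (n := 4) (π y)))] with z a b
        using h.jac_chg a b (at_chartAt z) (at_chartAt _)
  refine ⟨n, fun y e' e he' he => ?_⟩
  obtain ⟨u, a, b, c⟩ := h.jac_chg (at_chartAt y) (at_chartAt _) he' he
  exact (hn y).unit a b c

/-- the multiplicities of the total transforms -/
theorem Hom0.exists_tot (h : Hom0 V' V π) : ∃ m : Fin V.r → Fin V'.r → ℕ, ∀ y ζ,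
    V.Eq (π y) ζ → ∀ l, Mon V' y (fun x => ζ l (π x)) (m l) := by
  choose ζ hζ using V.exEq
  have hu : ∀ y ζ ζ', V.Eq (π y) ζ → V.Eq (π y) ζ' → ∀ l, ∃ u, HolF 4 u y ∧ u y ≠ 0 ∧
      ∀ᶠ x in 𝓝 y, ζ' l (π x) = u x * ζ l (π x) := fun y ζ ζ' a b l => by
    obtain ⟨t, c, d⟩ := a.unit b
    exact ⟨_, h.holF (c l).1, (c l).2,
      (h.cont.continuousAt.eventually d).mono fun x e => by rw [e l, mul_comm]⟩
  choose m hm using fun l => exists_mon_glob (fun y x => ζ (π y) l (π x))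
    (fun y => h.holF ((hζ _).hol l)) (fun y => (h.eq_ne (hζ _)).mono fun _ a b => a b l) fun y =>
    (h.cont.continuousAt.eventually (hζ (π y)).eventually).mono fun z a => hu z _ _ a (hζ _) l
  refine ⟨m, fun y ζ' a l => ?_⟩
  obtain ⟨u, b, c, d⟩ := hu y _ _ (hζ _) a l
  exact (hm l y).unit b c d

theorem crep_iff {a' a} : Crep V' V π a' a ↔ ∀ y (e' : Chart 4 V'.W) (e : Chart 4 V.W) ζ,
    At e' y → At e (π y) → V.Eq (π y) ζ → LB V' y
      (fun x => Real.log ‖jac π e' e x‖ + ∑ l, a l * Real.log ‖ζ l (π x)‖) a' :=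
  ⟨fun h y e' e ζ a b c ζ' d => h y e' e ζ' ζ a b d c,
    fun h y e' e ζ' ζ a b d c => h y e' e ζ a b c ζ' d⟩

/-- the discrepancies in terms of the orders -/
theorem crep_of_mon {n : Fin V'.r → ℕ} {m : Fin V.r → Fin V'.r → ℕ}
    (hn : ∀ y (e' : Chart 4 V'.W) (e : Chart 4 V.W), At e' y → At e (π y) →
      Mon V' y (jac π e' e) n)
    (hm : ∀ y ζ, V.Eq (π y) ζ → ∀ l, Mon V' y (fun x => ζ l (π x)) (m l)) (a : Fin V.r → ℝ) :
    Crep V' V π (fun k => n k + ∑ l, a l * m l k) a :=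
  crep_iff.2 fun y e' e ζ h1 h2 h3 =>
    (hn y e' e h1 h2).lb.add (lb_sum Finset.univ a fun l _ => (hm y ζ h3 l).lb)

theorem Hom0.exists_crep (h : Hom0 V' V π) (a : Fin V.r → ℝ) : ∃ a', Crep V' V π a' a :=
  h.exists_jac.elim fun _ hn => h.exists_tot.elim fun _ hm => ⟨_, crep_of_mon hn hm a⟩

theorem Crep.unique {a' a'' a} (h : Crep V' V π a' a) (h' : Crep V' V π a'' a) : a' = a'' := by
  funext k
  obtain ⟨y, hy⟩ := (V'.conn k).nonempty
  obtain ⟨ζ, hζ⟩ := V.exEq (π y)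
  exact (crep_iff.1 h y _ _ ζ (at_chartAt y) (at_chartAt _) hζ).unique
    (crep_iff.1 h' y _ _ ζ (at_chartAt y) (at_chartAt _) hζ) hy

/-- it is enough to check one choice of charts and equations at every point -/
theorem Crep.of_exists (h : Hom0 V' V π) {a' a} (H : ∀ y, ∃ (e' : Chart 4 V'.W) (e : Chart 4 V.W)
    (ζ' : Fin V'.r → V'.W → ℂ) (ζ : Fin V.r → V.W → ℂ), At e' y ∧ At e (π y) ∧ V'.Eq y ζ' ∧
      V.Eq (π y) ζ ∧ Bdd V' y fun x => Real.log ‖jac π e' e x‖ +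
        ∑ l, a l * Real.log ‖ζ l (π x)‖ - ∑ k, a' k * Real.log ‖ζ' k x‖) : Crep V' V π a' a := by
  obtain ⟨a'', h1⟩ := h.exists_crep a
  convert h1 using 1
  funext k
  obtain ⟨y, hy⟩ := (V'.conn k).nonempty
  obtain ⟨e', e, ζ', ζ, b1, b2, b3, b4, b5⟩ := H y
  exact (LB.of_exists b3 b5).unique (crep_iff.1 h1 y e' e ζ b1 b2 b4) hy

theorem Crep.trans (h : Hom0 V' V π) (h' : Hom0 V'' V' σ) {a'' a' a} (H : Crep V' V π a' a)
    (H' : Crep V'' V' σ a'' a') : Crep V'' V (fun y => π (σ y)) a'' a := by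
  intro y e'' e ζ'' ζ b1 b2 b3 b4
  have he' := at_chartAt (n := 4) (σ y)
  obtain ⟨ζ', hζ⟩ := V'.exEq (σ y)
  refine Bdd.congr (Bdd.add (H' y e'' _ ζ'' ζ' b1 he' b3 hζ) (Bdd.comp (H _ _ e ζ' ζ he' b2 hζ b4)
    h'.cont.continuousAt h'.pre)) ?_
  filter_upwards [ev_at b1, h'.cont.continuousAt.eventually (ev_at he'),
    (h.comp h').cont.continuousAt.eventually (ev_at b2)] with x c1 c2 c3 c4
  rw [jac_comp h'.cont.continuousAt c1.2 c2.2 (h.hol _ _ _ c2 c3) (h'.hol _ _ _ c1 c2), norm_mul,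
    Real.log_mul (norm_ne_zero_iff.2 (h.det _ (fun c => c4 (h'.pre x c)) _ _ c2 c3))
      (norm_ne_zero_iff.2 (h'.det x c4 _ _ c1 c2))]
  ring

theorem Crep.cancel (h : Hom0 V' V π) (h' : Hom0 V'' V' σ) {a'' a' a} (H : Crep V' V π a' a)
    (H' : Crep V'' V (fun y => π (σ y)) a'' a) : Crep V'' V' σ a'' a' := by
  obtain ⟨b, hb⟩ := h'.exists_crep a'
  rwa [H'.unique (H.trans h h' hb)]

end Vale.Agent.P277Z.Val
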