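import Vale.Agent.P277Z.Val.Rank
import Vale.Agent.P277.H622.B2

/-!
# P277, block VAL: identity theorems outside thin sets
-/

open Set Filter Metric Topology
open Vale.Agent.P272.K
open Vale.Agent.P277.H762 (Cv)

noncomputable section

namespace Vale.Agent.P277Z.Val

variable {m : ℕ}

/-- complements of thin sets in convex open sets are connected and dense -/
theorem conn_cv {U E : Set (Cm (m + 1))} (hU : IsOpen U) (hc : Convex ℝ U) (hE : Cv m E) :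
    IsPreconnected (U \ E) ∧ U ⊆ closure (U \ E) := by
  obtain ⟨W, g, hW, hg, hcov⟩ := hE
  have hg' : ∀ k, ContDiffOn ℝ 1 (g k) (W k) := fun k p hp =>
    ((hg k p hp).restrictScalars (𝕜 := ℝ)).contDiffAt.contDiffWithinAt
  have hd : ∀ p : Cm (m + 1), dimH (⋃ k, (fun ut : Cm m × ℝ => p + ut.2 • (g k ut.1 - p)) ''
      (W k ×ˢ (univ : Set ℝ))) ≤ (2 * m + 1 : ℕ) := by
    intro p
    rw [dimH_iUnion]
    refine iSup_le fun k => ?_
    have h1 : ContDiffOn ℝ 1 (fun ut : Cm m × ℝ => g k ut.1) (W k ×ˢ (univ : Set ℝ)) :=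
      (hg' k).comp contDiff_fst.contDiffOn fun x hx => hx.1
    refine (P277.H622.dimH_image_open_le ((hW k).prod isOpen_univ)
      (contDiffOn_const.add (contDiff_snd.contDiffOn.smul (h1.sub contDiffOn_const)))).trans ?_
    rw [Module.finrank_prod, P277.finrank_Cm]
    simp
  have hlt : ((2 * m + 1 : ℕ) : ENNReal) < Module.finrank ℝ (Cm (m + 1)) := by
    rw [P277.finrank_Cm]
    exact_mod_cast (by omega : 2 * m + 1 < 2 * (m + 1))
  have hseg : ∀ p ∈ U \ E, ∀ x ∈ U, x ∉ (⋃ k, (fun ut : Cm m × ℝ => p + ut.2 • (g k ut.1 - p)) ''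
      (W k ×ˢ (univ : Set ℝ))) → segment ℝ p x ⊆ U \ E := by
    intro p hp x hx hxn z hz
    refine ⟨hc.segment_subset hp.1 hx hz, fun hzE => ?_⟩
    rw [segment_eq_image'] at hz
    obtain ⟨t, -, rfl⟩ := hz
    have ht0 : t ≠ 0 := by
      rintro rfl
      simp only [zero_smul, add_zero] at hzE
      exact hp.2 hzE
    obtain ⟨k, u, hu, hgu⟩ := mem_iUnion.1 (hcov hzE)
    refine hxn (mem_iUnion.2 ⟨k, (u, t⁻¹), ⟨hu, mem_univ _⟩, ?_⟩)
    simp only [hgu]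
    rw [add_sub_cancel_left, smul_smul, inv_mul_cancel₀ ht0, one_smul]
    abel
  constructor
  · refine isPreconnected_of_forall_pair fun p hp q hq => ?_
    have h2 := dense_compl_of_dimH_lt_finrank
      (((dimH_union _ _).le.trans (max_le (hd p) (hd q))).trans_lt hlt)
    obtain ⟨x, hx, hxn⟩ := h2.inter_open_nonempty U hU ⟨p, hp.1⟩
    rw [mem_compl_iff, mem_union, not_or] at hxn
    refine ⟨segment ℝ p x ∪ segment ℝ q x,
      union_subset (hseg p hp x hx hxn.1) (hseg q hq x hx hxn.2),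
      Or.inl (left_mem_segment ℝ p x), Or.inr (left_mem_segment ℝ q x), ?_⟩
    exact IsPreconnected.union x (right_mem_segment ℝ p x) (right_mem_segment ℝ q x)
      (convex_segment p x).isPreconnected (convex_segment q x).isPreconnected
  · have h1 : Dense Eᶜ := by
      refine (dense_compl_of_dimH_lt_finrank ((hd 0).trans_lt hlt)).mono ?_
      refine compl_subset_compl.2 fun z hz => ?_
      obtain ⟨k, u, hu, hgu⟩ := mem_iUnion.1 (hcov hz)
      exact mem_iUnion.2 ⟨k, (u, 1), ⟨hu, mem_univ _⟩, by simp [hgu]⟩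
    have h2 := h1.open_subset_closure_inter hU
    rwa [← Set.sdiff_eq] at h2

/-- `Z` is near `w` the set of common zeros of finitely many analytic functions. -/
def AnAt {n : ℕ} (Z : Set (Cm n)) (w : Cm n) : Prop :=
  ∃ (k : ℕ) (h : Fin k → Cm n → ℂ), (∀ i, AnalyticAt ℂ (h i) w) ∧
    ∀ᶠ z in 𝓝 w, z ∈ Z ↔ ∀ i, h i z = 0

theorem ev_zero_of_freq {n : ℕ} {f : Cm n → ℂ} {w : Cm n} (hf : AnalyticAt ℂ f w)
    (h : ∃ᶠ z in 𝓝 w, ∀ᶠ y in 𝓝 z, f y = 0) : ∀ᶠ z in 𝓝 w, f z = 0 := by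
  obtain ⟨r, hr, hb⟩ := Metric.eventually_nhds_iff_ball.1 hf.eventually_analyticAt
  obtain ⟨z, hz, hz'⟩ := (h.and_eventually (ball_mem_nhds w hr)).exists
  have h1 : AnalyticOnNhd ℂ f (ball w r) := hb
  have h2 := h1.eqOn_zero_of_preconnected_of_eventuallyEq_zero (convex_ball w r).isPreconnected
    hz' hz
  filter_upwards [ball_mem_nhds w hr] with y hy using h2 hy

theorem AnAt.mem_nhds {n : ℕ} {Z : Set (Cm n)} {w : Cm n} (h : AnAt Z w)
    (h' : ∃ᶠ z in 𝓝 w, Z ∈ 𝓝 z) : Z ∈ 𝓝 w := by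
  obtain ⟨k, f, h1, h2⟩ := h
  have h3 : ∀ i, ∀ᶠ z in 𝓝 w, f i z = 0 := fun i => by
    refine ev_zero_of_freq (h1 i) ((h'.and_eventually h2.eventually_nhds).mono ?_)
    rintro z ⟨e1, e2⟩
    filter_upwards [e1, e2] with y e3 e4 using e4.1 e3 i
  filter_upwards [h2, eventually_all.2 h3] with z e1 e2 using e1.2 e2

/-- identity theorem on a connected set -/
theorem ident_conn {n : ℕ} {S Z : Set (Cm n)} (hS : IsPreconnected S) (hZ : ∀ z ∈ S, AnAt Z z)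
    {z₁ z₂ : Cm n} (h1 : z₁ ∈ S) (h2 : z₂ ∈ S) (h : Z ∈ 𝓝 z₁) : Z ∈ 𝓝 z₂ := by
  have h3 : S ⊆ interior Z := by
    refine hS.subset_of_closure_inter_subset isOpen_interior
      ⟨z₁, h1, mem_interior_iff_mem_nhds.2 h⟩ ?_
    rintro z ⟨e1, e2⟩
    refine mem_interior_iff_mem_nhds.2 ((hZ z e2).mem_nhds ?_)
    exact (mem_closure_iff_frequently.1 e1).mono fun y hy => mem_interior_iff_mem_nhds.1 hy
  exact mem_interior_iff_mem_nhds.1 (h3 h2)

/-- identity theorem on a convex open set outside a thin set -/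
theorem ident_cv {U T Z : Set (Cm (m + 1))} (hU : IsOpen U) (hc : Convex ℝ U) (hT : Cv m T)
    (hZ : ∀ z ∈ U \ T, AnAt Z z) {z₁ z₂ : Cm (m + 1)} (h1 : z₁ ∈ U) (h2 : z₂ ∈ U)
    (h2' : AnAt Z z₂) (h : Z ∈ 𝓝 z₁) : Z ∈ 𝓝 z₂ := by
  obtain ⟨e1, e2⟩ := conn_cv hU hc hT
  obtain ⟨z, hz, hz'⟩ := mem_closure_iff_nhds.1 (e2 h1) _ (eventually_mem_nhds_iff.2 h)
  refine h2'.mem_nhds ((mem_closure_iff_frequently.1 (e2 h2)).mono fun y hy => ?_)
  exact ident_conn e1 hZ hz' hy hz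

theorem AnAt.comp {n k : ℕ} {Z : Set (Cm n)} {F : Cm k → Cm n} {w : Cm k} (h : AnAt Z (F w))
    (hF : AnalyticAt ℂ F w) : AnAt (F ⁻¹' Z) w := by
  obtain ⟨l, f, h1, h2⟩ := h
  exact ⟨l, fun i z => f i (F z), fun i => (h1 i).comp hF, hF.continuousAt.eventually h2⟩

theorem ev_hyp_iff {p : Cm (m + 1) → Prop} {w : Cm (m + 1)} (h0 : w 0 = 0) :
    (∀ᶠ z in 𝓝 w, z 0 = 0 → p z) ↔ ∀ᶠ y in 𝓝 (tl m w), p (inc m y) := by
  constructor
  · intro h
    exact ((tendsto_inc h0).eventually h).mono fun y hy => hy (inc_zero y)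
  · intro h
    refine (((tl m).continuous.tendsto w).eventually h).mono fun z hz e => ?_
    rwa [inc_tl e] at hz

/-- identity theorem on the hyperplane `{w 0 = 0}` outside a thin set -/
theorem ident_hyp {U : Set (Cm (m + 1))} {T Z : Set (Cm (m + 2))} (hU : IsOpen U)
    (hc : Convex ℝ U) (hT : Cv m T)
    (hZ : ∀ w, w 0 = 0 → tl (m + 1) w ∈ U → w ∉ T → AnAt Z w) {w₁ w₂ : Cm (m + 2)}
    (h1 : w₁ 0 = 0) (h1' : tl (m + 1) w₁ ∈ U) (h2 : w₂ 0 = 0) (h2' : tl (m + 1) w₂ ∈ U)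
    (h2'' : AnAt Z w₂) (h : ∀ᶠ w in 𝓝 w₁, w 0 = 0 → w ∈ Z) : ∀ᶠ w in 𝓝 w₂, w 0 = 0 → w ∈ Z := by
  rw [ev_hyp_iff h1] at h
  rw [ev_hyp_iff h2]
  have hT' : Cv m (tl (m + 1) '' T) :=
    hT.image isOpen_univ (subset_univ _) fun z _ => (tl (m + 1)).analyticAt z
  refine ident_cv (Z := inc (m + 1) ⁻¹' Z) hU hc hT' (fun z hz => ?_) h1' h2' ?_ h
  · exact (hZ _ (inc_zero z) hz.1 fun e => hz.2 ⟨_, e, tl_inc z⟩).comp ((inc (m + 1)).analyticAt z)
  · refine AnAt.comp ?_ ((inc (m + 1)).analyticAt _)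
    rwa [inc_tl h2]

end Vale.Agent.P277Z.Val
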