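import Vale.Agent.P277Z.Val.Echo
import Vale.Agent.P277Z.Val.Ident
import Vale.Agent.P277.H29.PH.Basic
import Mathlib.Analysis.Calculus.InverseFunctionTheorem.ContDiff

/-!
# P277, block VAL: holomorphic maps and local coordinates on manifolds
-/

set_option linter.unusedSectionVars false

open scoped Manifold ContDiff
open Set Filter Metric Topology
open Vale.Agent.P272.K Vale.Agent.P277.PH

noncomputable section

namespace Vale.Agent.P277Z.Val

section iso
variable {n : ℕ}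

theorem det_comp {φ θ : Cm n → Cm n} {w : Cm n} (h : DifferentiableAt ℂ φ (θ w))
    (h' : DifferentiableAt ℂ θ w) : (fderiv ℂ (fun w => φ (θ w)) w).det =
      (fderiv ℂ φ (θ w)).det * (fderiv ℂ θ w).det := by
  have e : fderiv ℂ (fun w => φ (θ w)) w = (fderiv ℂ φ (θ w)).comp (fderiv ℂ θ w) :=
    (h.hasFDerivAt.comp w h'.hasFDerivAt).fderiv
  rw [e]
  exact LinearMap.det_comp (fderiv ℂ φ (θ w) : Cm n →ₗ[ℂ] Cm n) (fderiv ℂ θ w : Cm n →ₗ[ℂ] Cm n)

theorem LocIso.congr {φ φ' : Cm n → Cm n} {w : Cm n} (h : LocIso φ w) (h' : φ =ᶠ[𝓝 w] φ') :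
    LocIso φ' w := ⟨h.1.congr h', by rw [← h'.fderiv_eq]; exact h.2⟩

theorem LocIso.comp {φ θ : Cm n → Cm n} {w : Cm n} (h : LocIso φ (θ w)) (h' : LocIso θ w) :
    LocIso (fun w => φ (θ w)) w :=
  ⟨h.1.comp h'.1, by
    rw [det_comp h.1.differentiableAt h'.1.differentiableAt]
    exact mul_ne_zero h.2 h'.2⟩

theorem LocIso.eventually {φ : Cm n → Cm n} {w : Cm n} (h : LocIso φ w) :
    ∀ᶠ z in 𝓝 w, LocIso φ z :=
  h.1.eventually_analyticAt.and ((an_jac h.1).continuousAt.eventually_ne h.2)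

theorem locIso_of_inv {φ θ : Cm n → Cm n} {w : Cm n} (h : AnalyticAt ℂ φ w)
    (h' : AnalyticAt ℂ θ (φ w)) (e : ∀ᶠ y in 𝓝 w, θ (φ y) = y) : LocIso φ w := by
  refine ⟨h, fun h0 => ?_⟩
  have h1 := det_comp h'.differentiableAt h.differentiableAt
  rw [h0, mul_zero, EventuallyEq.fderiv_eq (f := fun y => y) e, fderiv_fun_id] at h1
  exact one_ne_zero ((LinearMap.det_id (M := Cm n) (A := ℂ)).symm.trans h1)

theorem locIso_of_inj {φ : Cm n → Cm n} {w : Cm n} (h : AnalyticAt ℂ φ w)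
    (h' : Function.Injective (fderiv ℂ φ w)) : LocIso φ w := by
  refine ⟨h, fun h0 => ?_⟩
  have h1 := LinearMap.det_eq_zero_iff_ker_ne_bot.1 h0
  exact h1 (LinearMap.ker_eq_bot.2 h')

theorem LocIso.inj {φ : Cm n → Cm n} {w : Cm n} (h : LocIso φ w) :
    Function.Injective (fderiv ℂ φ w) :=
  (LinearMap.equivOfDetNeZero (fderiv ℂ φ w : Cm n →ₗ[ℂ] Cm n) h.2).injective

/-- local inverse -/
theorem LocIso.exists_inv {φ : Cm n → Cm n} {w : Cm n} (h : LocIso φ w) :
    ∃ θ : Cm n → Cm n, LocIso θ (φ w) ∧ θ (φ w) = w ∧ (∀ᶠ y in 𝓝 w, θ (φ y) = y) ∧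
      ∀ᶠ s in 𝓝 (φ w), φ (θ s) = s := by
  let L : Cm n ≃L[ℂ] Cm n :=
    (LinearMap.equivOfDetNeZero (fderiv ℂ φ w : Cm n →ₗ[ℂ] Cm n) h.2).toContinuousLinearEquiv
  have hL : (L : Cm n →L[ℂ] Cm n) = fderiv ℂ φ w := by
    ext v : 1
    rfl
  have hcd : ContDiffAt ℂ ω φ w := h.1.contDiffAt
  have hA : HasFDerivAt φ (L : Cm n →L[ℂ] Cm n) w := by
    rw [hL]
    exact h.1.differentiableAt.hasFDerivAt
  set e := hcd.toOpenPartialHomeomorph φ hA (by simp) with he
  have hsrc : w ∈ e.source := hcd.mem_toOpenPartialHomeomorph_source hA (by simp)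
  have hinv : AnalyticAt ℂ e.symm (φ w) :=
    (hcd.to_localInverse hA (by simp) : ContDiffAt ℂ ω e.symm (φ w)).analyticAt
  have h1 : ∀ᶠ y in 𝓝 w, e.symm (φ y) = y := e.eventually_left_inverse hsrc
  have h2 : ∀ᶠ s in 𝓝 (φ w), φ (e.symm s) = s := e.eventually_right_inverse' hsrc
  exact ⟨e.symm, locIso_of_inv hinv (by rw [h1.self_of_nhds]; exact h.1) h2, h1.self_of_nhds, h1, h2⟩

theorem LocIso.ordEq {m : ℕ} {φ γ : Cm (m + 1) → Cm (m + 1)} {w : Cm (m + 1)} {J : ℕ}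
    (h : LocIso φ (γ w)) (hγ : AnalyticAt ℂ γ w) (hJ : OrdEq (fun w => (fderiv ℂ γ w).det) w J) :
    OrdEq (fun w => (fderiv ℂ (fun w => φ (γ w)) w).det) w J := by
  have h1 : OrdEq (fun w => (fderiv ℂ φ (γ w)).det) w 0 :=
    ordEq_zero ((an_jac h.1).comp hγ) h.2
  have h2 := h1.mul hJ
  rw [zero_add] at h2
  refine h2.congr ?_
  filter_upwards [hγ.eventually_analyticAt, hγ.continuousAt.eventually h.1.eventually_analyticAt]
    with z e1 e2
  exact (det_comp e2.differentiableAt e1.differentiableAt).symm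

end iso

variable {M M' : Type} [TopologicalSpace M] [TopologicalSpace M']

/-- `γ` is holomorphic near `w`. -/
def AnM (n : ℕ) [ChartedSpace (Cm n) M] {k : ℕ} (γ : Cm k → M) (w : Cm k) : Prop :=
  ContinuousAt γ w ∧ ∀ e : Chart n M, At e (γ w) → AnalyticAt ℂ (fun w => e (γ w)) w

/-- `π` is holomorphic near `y`. -/
def HolM (n n' : ℕ) [ChartedSpace (Cm n) M] [ChartedSpace (Cm n') M'] (π : M → M') (y : M) : Prop :=
  ContinuousAt π y ∧ ∀ f : M' → ℂ, HolF n' f (π y) → HolF n (fun y => f (π y)) y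

/-- `c` is a system of coordinates near `z`, with inverse `ξ`. -/
structure Crd {n : ℕ} [ChartedSpace (Cm n) M] (c : M → Cm n) (ξ : Cm n → M) (z : M) : Prop where
  hol : ∀ i, HolF n (fun y => c y i) z
  an : AnM n ξ (c z)
  left : ∀ᶠ y in 𝓝 z, ξ (c y) = y
  right : ∀ᶠ w in 𝓝 (c z), c (ξ w) = w

variable {n n' k l : ℕ} [ChartedSpace (Cm n) M] [ChartedSpace (Cm n') M']

theorem AnM.hol {γ : Cm k → M} {w : Cm k} (h : AnM n γ w) {f : M → ℂ} (hf : HolF n f (γ w)) :
    AnalyticAt ℂ (fun w => f (γ w)) w := by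
  have he := at_chartAt (n := n) (γ w)
  refine (AnalyticAt.fun_comp (g := fun z => f ((chartAt (Cm n) (γ w)).symm z))
    (f := fun z => chartAt (Cm n) (γ w) (γ z)) (hf _ he) (h.2 _ he)).congr ?_
  filter_upwards [h.1.eventually ((chartAt (Cm n) (γ w)).open_source.mem_nhds he.2)] with q hq
  rw [(chartAt (Cm n) (γ w)).left_inv hq]

theorem AnM.comp {γ : Cm k → M} {F : Cm l → Cm k} {p : Cm l} (h : AnM n γ (F p))
    (hF : AnalyticAt ℂ F p) : AnM n (fun p => γ (F p)) p :=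
  ⟨h.1.comp hF.continuousAt, fun e he => (h.2 e he).comp hF⟩

theorem AnM.congr {γ γ' : Cm k → M} {w : Cm k} (h : AnM n γ w) (e : γ =ᶠ[𝓝 w] γ') :
    AnM n γ' w :=
  ⟨h.1.congr e, fun c hc => (h.2 c (by rwa [e.eq_of_nhds])).congr (e.fun_comp c)⟩

theorem holF_cont {f : M → ℂ} {x : M} (h : HolF n f x) : ContinuousAt f x := by
  have he := at_chartAt (n := n) x
  refine ((h _ he).continuousAt.comp ((chartAt (Cm n) x).continuousAt he.2)).congr ?_
  filter_upwards [(chartAt (Cm n) x).open_source.mem_nhds he.2] with y hy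
  show f _ = f y
  rw [(chartAt (Cm n) x).left_inv hy]

theorem Crd.cont {c : M → Cm n} {ξ : Cm n → M} {z : M} (h : Crd c ξ z) : ContinuousAt c z :=
  continuousAt_pi.2 fun i => holF_cont (h.hol i)

theorem Crd.inv {c : M → Cm n} {ξ : Cm n → M} {z : M} (h : Crd c ξ z) : ξ (c z) = z :=
  h.left.self_of_nhds

theorem Crd.tend {c : M → Cm n} {ξ : Cm n → M} {z : M} (h : Crd c ξ z) :
    Tendsto ξ (𝓝 (c z)) (𝓝 z) := by
  have := h.an.1
  rwa [ContinuousAt, h.inv] at this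

theorem Crd.an_comp {c : M → Cm n} {ξ : Cm n → M} {γ : Cm k → M} {w : Cm k}
    (h : Crd c ξ (γ w)) (hγ : AnM n γ w) : AnalyticAt ℂ (fun w => c (γ w)) w :=
  analyticAt_pi_iff.2 fun i => hγ.hol (h.hol i)

/-- change of coordinates -/
theorem Crd.chg {c c' : M → Cm n} {ξ ξ' : Cm n → M} {z : M} (h : Crd c ξ z) (h' : Crd c' ξ' z) :
    LocIso (fun w => c' (ξ w)) (c z) := by
  have h1 : Crd c' ξ' (ξ (c z)) := by rwa [h.inv]
  refine locIso_of_inv (θ := fun w => c (ξ' w)) (h1.an_comp h.an) ?_ ?_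
  · show AnalyticAt ℂ _ (c' (ξ (c z)))
    rw [h.inv]
    exact Crd.an_comp (ξ := ξ) (by rwa [h'.inv]) h'.an
  · filter_upwards [h.tend.eventually h'.left, h.right] with w e1 e2
    rw [e1, e2]

variable [IsManifold 𝓘(ℂ, Cm n) ω M]

theorem holF_chart {e : Chart n M} {x : M} (he : At e x) (i : Fin n) :
    HolF n (fun y => e y i) x := fun _ he' => analyticAt_pi_iff.1 (chg_analyticAt he he') i

theorem anM_of {γ : Cm k → M} {w : Cm k} (h : ContinuousAt γ w) {e : Chart n M} (he : At e (γ w))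
    (h' : AnalyticAt ℂ (fun w => e (γ w)) w) : AnM n γ w := by
  refine ⟨h, fun e' he' => ?_⟩
  refine (AnalyticAt.fun_comp (g := fun z => e' (e.symm z)) (f := fun z => e (γ z))
    (chg_analyticAt he' he) h').congr ?_
  filter_upwards [h.eventually (e.open_source.mem_nhds he.2)] with q hq
  rw [e.left_inv hq]

theorem AnM.eventually {γ : Cm k → M} {w : Cm k} (h : AnM n γ w) : ∀ᶠ z in 𝓝 w, AnM n γ z := by
  have he := at_chartAt (n := n) (γ w)
  set e := chartAt (Cm n) (γ w)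
  have h1 := h.1.eventually (e.open_source.mem_nhds he.2)
  filter_upwards [(h.2 e he).eventually_analyticAt, h1.eventually_nhds] with z e1 e2
  refine anM_of ?_ ⟨he.1, e2.self_of_nhds⟩ e1
  refine (ContinuousAt.comp (f := fun z => e (γ z))
    (e.continuousAt_symm (e.map_source e2.self_of_nhds)) e1.continuousAt).congr ?_
  filter_upwards [e2] with y hy
  exact e.left_inv hy

theorem holF_ev {f : M → ℂ} {x : M} (h : HolF n f x) : ∀ᶠ y in 𝓝 x, HolF n f y := by
  have he := at_chartAt (n := n) x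
  filter_upwards [((chartAt (Cm n) x).continuousAt he.2).eventually
    (h _ he).eventually_analyticAt, (chartAt (Cm n) x).open_source.mem_nhds he.2] with y h1 h2
    using holF_of ⟨he.1, h2⟩ h1

theorem crd_chart {e : Chart n M} {x : M} (he : At e x) : Crd e e.symm x where
  hol := holF_chart he
  an := ⟨e.continuousAt_symm (e.map_source he.2), fun e' he' =>
    chg_analyticAt (by rwa [e.left_inv he.2] at he') he⟩
  left := e.eventually_left_inverse he.2
  right := e.eventually_right_inverse' he.2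

theorem Crd.eventually {c : M → Cm n} {ξ : Cm n → M} {z : M} (h : Crd c ξ z) :
    ∀ᶠ y in 𝓝 z, Crd c ξ y := by
  filter_upwards [eventually_all.2 fun i => holF_ev (h.hol i), h.cont.eventually h.an.eventually,
    h.left.eventually_nhds, h.cont.eventually h.right.eventually_nhds] with y e1 e2 e3 e4
  exact ⟨e1, e2, e3, e4⟩

theorem Crd.holF {c : M → Cm n} {ξ : Cm n → M} {z : M} (h : Crd c ξ z) {g : Cm n → ℂ}
    (hg : AnalyticAt ℂ g (c z)) : HolF n (fun y => g (c y)) z := by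
  intro e he
  refine AnalyticAt.fun_comp (g := g) (f := fun w => c (e.symm w)) (by rwa [e.left_inv he.2]) ?_
  exact ((crd_chart he).chg h).1

theorem Crd.anM {c : M → Cm n} {ξ : Cm n → M} {γ : Cm k → M} {w : Cm k} (h : Crd c ξ (γ w))
    (h1 : ContinuousAt γ w) (h2 : AnalyticAt ℂ (fun w => c (γ w)) w) : AnM n γ w :=
  (AnM.comp (F := fun w => c (γ w)) h.an h2).congr (h1.eventually h.left)

theorem Crd.comp {c : M → Cm n} {ξ : Cm n → M} {z : M} (h : Crd c ξ z) {Ψ θ : Cm n → Cm n}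
    (hΨ : AnalyticAt ℂ Ψ (c z)) (hθ : AnalyticAt ℂ θ (Ψ (c z)))
    (h1 : ∀ᶠ y in 𝓝 (c z), θ (Ψ y) = y) (h2 : ∀ᶠ s in 𝓝 (Ψ (c z)), Ψ (θ s) = s) :
    Crd (fun y => Ψ (c y)) (fun w => ξ (θ w)) z where
  hol i := h.holF (analyticAt_pi_iff.1 hΨ i)
  an := AnM.comp (F := θ) (by rw [h1.self_of_nhds]; exact h.an) hθ
  left := by
    filter_upwards [h.cont.eventually h1, h.left] with y e1 e2
    rw [e1, e2]
  right := by
    have h3 : Tendsto θ (𝓝 (Ψ (c z))) (𝓝 (c z)) := by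
      have := hθ.continuousAt
      rwa [ContinuousAt, h1.self_of_nhds] at this
    filter_upwards [h3.eventually h.right, h2] with w e1 e2
    rw [e1, e2]

theorem AnM.map [IsManifold 𝓘(ℂ, Cm n') ω M'] {γ : Cm k → M} {w : Cm k} (h : AnM n γ w)
    {π : M → M'} (hπ : HolM n n' π (γ w)) : AnM n' (fun w => π (γ w)) w :=
  ⟨hπ.1.comp h.1, fun _ he => analyticAt_pi_iff.2 fun i => h.hol (hπ.2 _ (holF_chart he i))⟩

end Vale.Agent.P277Z.Val
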