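import Vale.Agent.P277Z.Val.Fin
import Vale.Agent.P284.H730.S5G1

/-!
# P277, block VAL: smooth hypersurfaces as manifolds
-/

set_option linter.unusedSectionVars false

open scoped Manifold ContDiff Topology
open Vale.Agent.P272.K Vale.Agent.P277 Vale.Agent.P277.PH Set Filter
open Vale.Agent.P284.H730.G (Imm ImmY isKahler_pb)
open Vale.Agent.P272.K.QN (pb)

noncomputable section

namespace Vale.Agent.P277Z.Val

section co
variable {n : ℕ} {W : Type} [TopologicalSpace W] [ChartedSpace (Cm n) W]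
  [IsManifold 𝓘(ℂ, Cm n) ω W]

theorem IsCo.crd {t : W → Cm n} {y : W} (h : IsCo n t y) : ∃ ξ, Crd t ξ y := h.crd'

theorem Crd.isCo {t : W → Cm n} {ξ : Cm n → W} {y : W} (h : Crd t ξ y) : IsCo n t y := h.isCo'

theorem IsSnc.closed {κ : Type} {G : κ → Set W} (h : IsSnc n G) (l : κ) : IsClosed (G l) :=
  h.closed' l

theorem IsCo.eventually {t : W → Cm n} {y : W} (h : IsCo n t y) : ∀ᶠ y' in 𝓝 y, IsCo n t y' := by
  obtain ⟨ξ, h1⟩ := h.crd
  exact h1.eventually.mono fun _ h => h.isCo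

theorem IsCo.hol {t : W → Cm n} {y : W} (h : IsCo n t y) (i : Fin n) : HolF n (fun y => t y i) y :=
  fun e he => analyticAt_pi_iff.1 (h e he).1 i

theorem isCo_of {t : W → Cm n} {y : W} {e : Chart n W} (he : At e y)
    (h : LocIso (fun z => t (e.symm z)) (e y)) : IsCo n t y := by
  intro e' he'
  have h1 := (crd_chart he').chg (crd_chart he)
  have h2 : LocIso (fun z => t (e.symm z)) (e (e'.symm (e' y))) := by rwa [e'.left_inv he'.2]
  refine (LocIso.comp (θ := fun w => e (e'.symm w)) h2 h1).congr ?_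
  filter_upwards [ev_symm he'.2 (e.eventually_left_inverse he.2)] with z hz
  rw [hz]

end co

/-- `w ↦ (w, 0)`, the zero at the place `i` -/
def insL {n : ℕ} (i : Fin (n + 1)) : Cm n →L[ℂ] Cm (n + 1) :=
  LinearMap.toContinuousLinearMap
    { toFun := fun w => i.insertNth 0 w
      map_add' := fun a b => by
        funext k
        refine Fin.succAboveCases i ?_ (fun j => ?_) k <;> simp
      map_smul' := fun c a => by
        funext k
        refine Fin.succAboveCases i ?_ (fun j => ?_) k <;> simp }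

/-- forget the coordinate `i` -/
def remL {n : ℕ} (i : Fin (n + 1)) : Cm (n + 1) →L[ℂ] Cm n :=
  ContinuousLinearMap.pi fun j => ContinuousLinearMap.proj (i.succAbove j)

theorem remL_apply {n : ℕ} (i : Fin (n + 1)) (z : Cm (n + 1)) (j : Fin n) :
    remL i z j = z (i.succAbove j) := rfl

theorem insL_self {n : ℕ} (i : Fin (n + 1)) (w : Cm n) : insL i w i = 0 := by
  simp [insL]

theorem rem_ins {n : ℕ} (i : Fin (n + 1)) (w : Cm n) : remL i (insL i w) = w := by
  funext j
  simp [insL, remL_apply]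

theorem ins_rem {n : ℕ} {i : Fin (n + 1)} {z : Cm (n + 1)} (h : z i = 0) :
    insL i (remL i z) = z := by
  funext k
  refine Fin.succAboveCases i ?_ (fun j => ?_) k
  · rw [insL_self, h]
  · exact congrFun (rem_ins i (remL i z)) j

/-- `ι : H → W` is an injective holomorphic immersion -/
structure Sb (m n : ℕ) {H W : Type} [TopologicalSpace H] [TopologicalSpace W]
    [ChartedSpace (Cm m) H] [ChartedSpace (Cm n) W] (ι : H → W) : Prop where
  cont : Continuous ι
  inj : Function.Injective ι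
  holo : ∀ (y : H) (e : Chart m H) (e' : Chart n W), At e y → At e' (ι y) →
    AnalyticAt ℂ (fun z => e' (ι (e.symm z))) (e y) ∧
      Function.Injective (fderiv ℂ (fun z => e' (ι (e.symm z))) (e y))

theorem sb_iff {H W : Type} [TopologicalSpace H] [TopologicalSpace W] [ChartedSpace (Cm 3) H]
    [ChartedSpace (Cm 4) W] {ι : H → W} : Sb 3 4 ι ↔ T3.IsSub ι :=
  ⟨fun h => ⟨h.1, h.2, h.3⟩, fun h => ⟨h.1, h.2, h.3⟩⟩

/-- `G` is locally a coordinate hyperplane -/
def Hyp (n : ℕ) {W : Type} [TopologicalSpace W] [ChartedSpace (Cm n) W] (G : Set W) : Prop :=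
  ∀ y ∈ G, ∃ (t : W → Cm n) (i : Fin n), IsCo n t y ∧ ∀ᶠ y' in 𝓝 y, y' ∈ G ↔ t y' i = 0

section hyp
variable {n : ℕ} {W : Type} [TopologicalSpace W] [ChartedSpace (Cm n) W]

theorem IsSnc.hyp {κ : Type} {G : κ → Set W} (h : IsSnc n G) (l : κ) : Hyp n (G l) := by
  intro y hy
  obtain ⟨t, lab, h1, -, h3⟩ := h y
  obtain ⟨i, hi, -⟩ := (h3.self_of_nhds l).1 hy
  refine ⟨t, i, h1, h3.mono fun y' h4 => (h4 l).trans ⟨?_, fun h5 => ⟨i, hi, h5⟩⟩⟩
  rintro ⟨j, hj, h5⟩
  rwa [Option.some.inj (hi.symm.trans hj)]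

end hyp

section sub
variable {n : ℕ} {W : Type} [TopologicalSpace W] [ChartedSpace (Cm (n + 1)) W]
  [IsManifold 𝓘(ℂ, Cm (n + 1)) ω W]

theorem Hyp.immY {G : Set W} (hG : Hyp (n + 1) G) : ImmY (n + 1) n (Subtype.val : G → W) := by
  classical
  refine ⟨continuous_subtype_val, fun y => ?_⟩
  obtain ⟨t, i, h1, h2⟩ := hG y y.2
  obtain ⟨ξ, h3⟩ := h1.crd
  obtain ⟨U, hU, hUo, hyU⟩ := eventually_nhds_iff.1 (h3.eventually.and h2)
  have k1 : ∀ x : G, x.1 ∈ U → insL i (remL i (t x)) = t x := fun x hx =>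
    ins_rem ((hU _ hx).2.1 x.2)
  have k2 : ∀ w : Cm n, ξ (insL i w) ∈ U → t (ξ (insL i w)) = insL i w → ξ (insL i w) ∈ G :=
    fun w a b => (hU _ a).2.2 (by rw [b, insL_self])
  have k3 : ∀ w : Cm (n + 1), ξ w ∈ U → t (ξ w) = w → AnM (n + 1) ξ w ∧
      ∀ᶠ w' in 𝓝 w, ξ w' ∈ U ∧ t (ξ w') = w' := fun w a b => by
    have c1 := (hU _ a).1.an
    have c2 := (hU _ a).1.right
    rw [b] at c1 c2
    exact ⟨c1, (c1.1.eventually (hUo.mem_nhds a)).and c2⟩
  let σ : Cm n → G := fun w => if h : ξ (insL i w) ∈ G then ⟨_, h⟩ else y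
  have k4 : ∀ w : Cm n, ξ (insL i w) ∈ U ∧ t (ξ (insL i w)) = insL i w → (σ w : W) = ξ (insL i w) :=
    fun w a => by simp only [σ, dif_pos (k2 w a.1 a.2)]
  have k5 : ∀ w : Cm n, ξ (insL i w) ∈ U ∧ t (ξ (insL i w)) = insL i w →
      ∀ᶠ w' in 𝓝 w, ξ (insL i w') ∈ U ∧ t (ξ (insL i w')) = insL i w' := fun w a =>
    (insL i).continuous.continuousAt.eventually (k3 _ a.1 a.2).2
  let c : OpenPartialHomeomorph G (Cm n) :=
    { toFun := fun x => remL i (t x)
      invFun := σ
      source := {x | x.1 ∈ U}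
      target := {w | ξ (insL i w) ∈ U ∧ t (ξ (insL i w)) = insL i w}
      map_source' := fun x hx => by
        show _ ∧ _
        rw [k1 x hx, (hU _ hx).1.inv]
        exact ⟨hx, rfl⟩
      map_target' := fun w hw => by
        show (σ w : W) ∈ U
        rw [k4 w hw]
        exact hw.1
      left_inv' := fun x hx => by
        refine Subtype.ext ?_
        rw [k4, k1 x hx, (hU _ hx).1.inv]
        rw [k1 x hx, (hU _ hx).1.inv]
        exact ⟨hx, rfl⟩
      right_inv' := fun w hw => by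
        show remL i (t (σ w)) = w
        rw [k4 w hw, hw.2, rem_ins]
      open_source := hUo.preimage continuous_subtype_val
      open_target := isOpen_iff_eventually.2 k5
      continuousOn_toFun := fun x hx =>
        ((remL i).continuous.continuousAt.comp (ContinuousAt.comp (f := Subtype.val)
          (hU _ hx).1.cont continuous_subtype_val.continuousAt)).continuousWithinAt
      continuousOn_invFun := fun w hw => by
        refine ContinuousAt.continuousWithinAt ?_
        rw [Topology.IsInducing.subtypeVal.continuousAt_iff]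
        refine (ContinuousAt.comp (f := insL i) (k3 _ hw.1 hw.2).1.1
          (insL i).continuous.continuousAt).congr ?_
        filter_upwards [k5 w hw] with w' hw' using (k4 w' hw').symm }
  refine ⟨c, hyU, fun w hw e he => ?_⟩
  have hw' : ξ (insL i w) ∈ U ∧ t (ξ (insL i w)) = insL i w := hw
  have he' : At e (ξ (insL i w)) := by
    rw [← k4 w hw']
    exact he
  have h4 := (hU _ hw'.1).1.chg (crd_chart he')
  rw [hw'.2] at h4
  have h5 : (fun z => e (c.symm z : W)) =ᶠ[𝓝 w] fun z => e (ξ (insL i z)) := by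
    filter_upwards [k5 w hw'] with w' h6
    exact congrArg e (k4 w' h6)
  have h6 := h4.1.differentiableAt.hasFDerivAt.comp w (insL i).hasFDerivAt
  refine ⟨h6.differentiableAt.congr_of_eventuallyEq h5, ?_⟩
  rw [h5.fderiv_eq]
  have h7 : fderiv ℂ (fun z => e (ξ (insL i z))) w = _ := h6.fderiv
  rw [h7]
  exact h4.inj.comp (Function.LeftInverse.injective (rem_ins i))

/-- a smooth hypersurface is a manifold -/
theorem Hyp.exists_sb {G : Set W} (hG : Hyp (n + 1) G) :
    ∃ (_ : ChartedSpace (Cm n) G) (_ : IsManifold 𝓘(ℂ, Cm n) ω G),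
      Sb n (n + 1) (Subtype.val : G → W) ∧
      ∀ χ : Chart (n + 1) W → Cm (n + 1) → Matrix (Fin (n + 1)) (Fin (n + 1)) ℂ, IsKahler χ →
        IsKahler (n := n) (X := G) (pb Subtype.val χ) := by
  refine ⟨hG.immY.cs, hG.immY.isManifold, ?_, fun χ h => isKahler_pb hG.immY h⟩
  let := hG.immY.cs
  refine ⟨continuous_subtype_val, Subtype.val_injective, fun y e e' he he' => ?_⟩
  have h1 : Imm (n + 1) (Subtype.val : G → W) e := he.1
  have h2 : At e' (e.symm (e y) : W) := by rwa [he.left_inv]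
  exact ⟨(h1.omega continuous_subtype_val he.mem_target h2).analyticAt,
    (h1 _ he.mem_target e' h2).2⟩

end sub

section sb
variable {m n : ℕ} {H W : Type} [TopologicalSpace H] [TopologicalSpace W] [ChartedSpace (Cm m) H]
  [ChartedSpace (Cm n) W] [IsManifold 𝓘(ℂ, Cm m) ω H] [IsManifold 𝓘(ℂ, Cm n) ω W] {ι : H → W}

theorem Sb.anM (h : Sb m n ι) {x : H} {e : Chart m H} (he : At e x) :
    AnM n (fun z => ι (e.symm z)) (e x) :=
  ⟨h.cont.continuousAt.comp (e.continuousAt_symm he.mem_target), fun e' he' =>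
    (h.holo x e e' he (by simpa only [he.left_inv] using he')).1⟩

theorem Sb.holF (h : Sb m n ι) {x : H} {f : W → ℂ} (hf : HolF n f (ι x)) :
    HolF m (fun y => f (ι y)) x := fun e he =>
  (h.anM he).hol (by rwa [he.left_inv])

theorem Sb.holM (h : Sb m n ι) (x : H) : HolM m n ι x :=
  ⟨h.cont.continuousAt, fun _ hf => h.holF hf⟩

theorem Sb.contMDiff (h : Sb m n ι) : ContMDiff 𝓘(ℂ, Cm m) 𝓘(ℂ, Cm n) ω ι := by
  intro y
  rw [contMDiffAt_iff]
  exact ⟨h.cont.continuousAt,
    (h.holo y _ _ (at_chartAt y) (at_chartAt (ι y))).1.contDiffAt.contDiffWithinAt⟩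

/-- the immersion in arbitrary coordinates of `W` -/
theorem Sb.inj_co (h : Sb m n ι) {x : H} {t : W → Cm n} (ht : IsCo n t (ι x)) {e : Chart m H}
    (he : At e x) : AnalyticAt ℂ (fun z => t (ι (e.symm z))) (e x) ∧
      Function.Injective (fderiv ℂ (fun z => t (ι (e.symm z))) (e x)) := by
  have he' := at_chartAt (n := n) (ι x)
  set e' := chartAt (Cm n) (ι x)
  obtain ⟨h1, h2⟩ := h.holo x e e' he he'
  have h3 : LocIso (fun z => t (e'.symm z)) (e' (ι (e.symm (e x)))) := by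
    rw [he.left_inv]
    exact ht e' he'
  have h4 : (fun z => t (ι (e.symm z))) =ᶠ[𝓝 (e x)] fun z => t (e'.symm (e' (ι (e.symm z)))) := by
    filter_upwards [ev_symm he.2 (h.cont.continuousAt.eventually
      (e'.eventually_left_inverse he'.2))] with z hz
    rw [hz]
  refine ⟨(AnalyticAt.fun_comp (g := fun z => t (e'.symm z)) (f := fun z => e' (ι (e.symm z)))
    h3.1 h1).congr h4.symm, ?_⟩
  have h5 := (HasFDerivAt.comp (g := fun z => t (e'.symm z)) (f := fun z => e' (ι (e.symm z))) (e x)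
    h3.1.differentiableAt.hasFDerivAt h1.differentiableAt.hasFDerivAt).congr_of_eventuallyEq h4
  rw [h5.fderiv]
  exact h3.inj.comp h2

/-- holomorphic germs extend -/
theorem Sb.ext (h : Sb m n ι) {x : H} {f : H → ℂ} (hf : HolF m f x) :
    ∃ F : W → ℂ, HolF n F (ι x) ∧ ∀ᶠ y in 𝓝 x, f y = F (ι y) := by
  have he := at_chartAt (n := m) x
  have he' := at_chartAt (n := n) (ι x)
  set e := chartAt (Cm m) x
  set e' := chartAt (Cm n) (ι x)
  obtain ⟨h1, h2⟩ := h.holo x e e' he he'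
  obtain ⟨L, hL⟩ := ((fderiv ℂ (fun z => e' (ι (e.symm z))) (e x) : Cm m →L[ℂ] Cm n) :
    Cm m →ₗ[ℂ] Cm n).exists_leftInverse_of_injective (LinearMap.ker_eq_bot.2 h2)
  let L' : Cm n →L[ℂ] Cm m := LinearMap.toContinuousLinearMap L
  have h3 : LocIso (fun z => L' (e' (ι (e.symm z)))) (e x) := by
    refine locIso_of_inj (AnalyticAt.fun_comp (g := L') (L'.analyticAt _) h1) ?_
    have h4 : fderiv ℂ (fun z => L' (e' (ι (e.symm z)))) (e x) = _ :=
      (L'.hasFDerivAt.comp (e x) h1.differentiableAt.hasFDerivAt).fderiv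
    rw [h4]
    intro a b hab
    exact (LinearMap.congr_fun hL a).symm.trans (hab.trans (LinearMap.congr_fun hL b))
  obtain ⟨η, h4⟩ := (isCo_of (t := fun y => L' (e' (ι y))) he h3).crd
  refine ⟨fun y => f (η (L' (e' y))), ?_, h4.left.mono fun y hy => (congrArg f hy).symm⟩
  refine (crd_chart he').holF (g := fun z => f (η (L' z))) ?_
  exact AnalyticAt.fun_comp (g := fun w => f (η w)) (h4.an.hol (by rwa [h4.inv])) (L'.analyticAt _)

end sb

/-- the coordinates of a hypersurface -/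
theorem Sb.isCo {n : ℕ} {H W : Type} [TopologicalSpace H] [TopologicalSpace W]
    [ChartedSpace (Cm n) H] [ChartedSpace (Cm (n + 1)) W] [IsManifold 𝓘(ℂ, Cm n) ω H]
    [IsManifold 𝓘(ℂ, Cm (n + 1)) ω W] {ι : H → W} (h : Sb n (n + 1) ι) {x : H}
    {t : W → Cm (n + 1)} {i : Fin (n + 1)} (ht : IsCo (n + 1) t (ι x))
    (h0 : ∀ᶠ y in 𝓝 x, t (ι y) i = 0) : IsCo n (fun y j => t (ι y) (i.succAbove j)) x := by
  intro e he
  obtain ⟨h1, h2⟩ := h.inj_co ht he
  have h3 : AnalyticAt ℂ (fun z => remL i (t (ι (e.symm z)))) (e x) :=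
    AnalyticAt.fun_comp (g := remL i) ((remL i).analyticAt _) h1
  refine locIso_of_inj (φ := fun z => remL i (t (ι (e.symm z)))) h3 ?_
  have h4 : (fun z => t (ι (e.symm z))) =ᶠ[𝓝 (e x)]
      fun z => insL i (remL i (t (ι (e.symm z)))) :=
    (ev_symm he.2 h0).mono fun _ hz => (ins_rem hz).symm
  have h5 : fderiv ℂ (fun z => insL i (remL i (t (ι (e.symm z))))) (e x) = _ :=
    ((insL i).hasFDerivAt.comp (e x) h3.differentiableAt.hasFDerivAt).fderiv
  rw [h4.fderiv_eq, h5] at h2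
  exact Function.Injective.of_comp (f := insL i) h2

theorem IsSub.isCo {H W : Type} [TopologicalSpace H] [TopologicalSpace W]
    [ChartedSpace (Cm 3) H] [ChartedSpace (Cm 4) W] [IsManifold 𝓘(ℂ, Cm 3) ω H]
    [IsManifold 𝓘(ℂ, Cm 4) ω W] {ι : H → W} (h : T3.IsSub ι) {G : Set W} (hG : range ι = G) {x : H}
    {t : W → Cm 4} {i : Fin 4} (ht : IsCo 4 t (ι x)) (h0 : ∀ᶠ y in 𝓝 (ι x), y ∈ G ↔ t y i = 0) :
    IsCo 3 (fun y j => t (ι y) (i.succAbove j)) x :=
  (sb_iff.2 h).isCo ht ((h.cont.continuousAt.eventually h0).mono fun y hy =>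
    hy.1 (hG ▸ mem_range_self y))

/-- (SUB) the component `G l` is a compact connected threefold, Kähler if `W` is Kähler -/
theorem stSub' (V : Lg) (l : Fin V.r) :
    ∃ (H : Type) (_ : TopologicalSpace H) (_ : T2Space H) (_ : CompactSpace H)
      (_ : ConnectedSpace H) (_ : ChartedSpace (Cm 3) H) (_ : IsManifold 𝓘(ℂ, Cm 3) ω H)
      (ι : H → V.W), T3.IsSub ι ∧ range ι = V.G l ∧
        ∀ χ : Chart 4 V.W → Cm 4 → Matrix (Fin 4) (Fin 4) ℂ, IsKahler χ →
          IsKahler (n := 3) (X := H) (pb ι χ) := by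
  obtain ⟨c, m, h1, h2⟩ := @Hyp.exists_sb 3 V.W _ V.ch V.mf _ (V.snc.hyp l)
  exact ⟨V.G l, inferInstance, inferInstance,
    isCompact_iff_compactSpace.1 (V.snc.closed l).isCompact,
    isConnected_iff_connectedSpace.1 (V.conn l), c, m, Subtype.val, sb_iff.1 h1,
    Subtype.range_coe, h2⟩

/-- (SUB) -/
theorem stSub (V : Lg) (l : Fin V.r) :
    ∃ (H : Type) (_ : TopologicalSpace H) (_ : T2Space H) (_ : CompactSpace H)
      (_ : ConnectedSpace H) (_ : ChartedSpace (Cm 3) H) (_ : IsManifold 𝓘(ℂ, Cm 3) ω H)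
      (ι : H → V.W), T3.IsSub ι ∧ range ι = V.G l := by
  obtain ⟨H, a, b, c, d, e, f, ι, h1, h2, -⟩ := stSub' V l
  exact ⟨H, a, b, c, d, e, f, ι, h1, h2⟩

end Vale.Agent.P277Z.Val
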