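import Vale.Agent.P277.H60.Z.XH
import Vale.Agent.P277.Stmts10
import Vale.Agent.P277Z.Num.Thr
import Vale.Agent.P277Z.Num.Term

/-!
# P277, block VAL: models, discrepancies, the difficulty (definitions)
-/

open scoped Manifold ContDiff Topology
open Vale.Agent.P272.K Vale.Agent.P285.H281.FD Vale.Agent.P277 Set Filter
open Vale.Agent.P277.T2 (IsLEq IsCmpV)
open Vale.Agent.P277.PH (HolF)
open Vale.Agent.P277.T3 (ThinM Lifts)
open P277Z.Num (wt Slice)

noncomputable section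

namespace Vale.Agent.P277Z.Val

section
variable {W : Type} [TopologicalSpace W]

/-- `t` is a system of holomorphic coordinates at `y`. -/
def IsCo (n : ℕ) [ChartedSpace (Cm n) W] (t : W → Cm n) (y : W) : Prop :=
  ∀ e : Chart n W, At e y → AnalyticAt ℂ (fun z => t (e.symm z)) (e y) ∧
    (fderiv ℂ (fun z => t (e.symm z)) (e y)).det ≠ 0

/-- simple normal crossings: the `G l` are locally distinct coordinate hyperplanes. -/
def IsSnc (n : ℕ) [ChartedSpace (Cm n) W] {ι : Type} (G : ι → Set W) : Prop :=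
  ∀ y, ∃ (t : W → Cm n) (lab : ι → Option (Fin n)), IsCo n t y ∧
    (∀ l l' i, lab l = some i → lab l' = some i → l = l') ∧
    ∀ᶠ y' in 𝓝 y, ∀ l, y' ∈ G l ↔ ∃ i, lab l = some i ∧ t y' i = 0

end

/-- A compact complex fourfold with a simple normal crossing family of connected hypersurfaces. -/
structure Lg where
  /-- the manifold -/
  W : Type
  [top : TopologicalSpace W]
  [t2 : T2Space W]
  [cpt : CompactSpace W]
  [ch : ChartedSpace (Cm 4) W]
  [mf : IsManifold 𝓘(ℂ, Cm 4) ω W]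
  /-- the number of components -/
  r : ℕ
  /-- the components -/
  G : Fin r → Set W
  conn : ∀ l, IsConnected (G l)
  snc : IsSnc 4 G

attribute [instance] Lg.top Lg.t2 Lg.cpt Lg.ch Lg.mf

/-- the complex space -/
abbrev Lg.X (V : Lg) : CSp := H60.Z.XH 4 V.W

/-- the union of the components -/
def Lg.E (V : Lg) : Set V.W := ⋃ l, V.G l

/-- `ζ l` is a local equation of `G l` at `y`, for all `l`. -/
def Lg.Eq (V : Lg) (y : V.W) (ζ : Fin V.r → V.W → ℂ) : Prop := ∀ l, IsLEq (V.G l) y (ζ l)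

/-- the Jacobian determinant in charts -/
def jac {W' W : Type} [TopologicalSpace W'] [ChartedSpace (Cm 4) W'] [TopologicalSpace W]
    [ChartedSpace (Cm 4) W] (π : W' → W) (e' : Chart 4 W') (e : Chart 4 W) (y : W') : ℂ :=
  (fderiv ℂ (fun z => e (π (e'.symm z))) (e' y)).det

/-- A modification of models. -/
structure Hom (V' V : Lg) (π : V'.W → V.W) : Prop where
  cont : Continuous π
  hol : ∀ y (e' : Chart 4 V'.W) (e : Chart 4 V.W), At e' y → At e (π y) →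
    AnalyticAt ℂ (fun z => e (π (e'.symm z))) (e' y)
  surj : Function.Surjective π
  pre : ∀ y, π y ∈ V.E → y ∈ V'.E
  inj : ∀ y y', y ∉ V'.E → π y' = π y → y' = y
  det : ∀ y ∉ V'.E, ∀ (e' : Chart 4 V'.W) (e : Chart 4 V.W), At e' y → At e (π y) →
    jac π e' e y ≠ 0
  nex : ∀ k, π '' V'.G k ⊆ V.E ∨ ThinM 4 2 (π '' V'.G k)
  lifts : Lifts V.X V'.Eᶜ π

/-- `K_{W'} - ∑ a' k • G' k` is the pull back of `K_W - ∑ a l • G l`. -/
def Crep (V' V : Lg) (π : V'.W → V.W) (a' : Fin V'.r → ℝ) (a : Fin V.r → ℝ) : Prop :=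
  ∀ y (e' : Chart 4 V'.W) (e : Chart 4 V.W) ζ' ζ, At e' y → At e (π y) → V'.Eq y ζ' →
    V.Eq (π y) ζ → ∃ C : ℝ, ∀ᶠ y' in 𝓝 y, y' ∉ V'.E →
      |Real.log ‖jac π e' e y'‖ + ∑ l, a l * Real.log ‖ζ l (π y')‖ -
        ∑ k, a' k * Real.log ‖ζ' k y'‖| ≤ C

/-- klt, and the components with negative discrepancy are disjoint. -/
structure Good (V : Lg) (a : Fin V.r → ℝ) : Prop where
  klt : ∀ l, -1 < a l
  disj : ∀ l l', l ≠ l' → a l < 0 → a l' < 0 → Disjoint (V.G l) (V.G l')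

/-- `s l` is the strict transform of `l`. -/
structure IsStr (V' V : Lg) (π : V'.W → V.W) (s : Fin V.r → Fin V'.r) : Prop where
  img : ∀ l, π '' V'.G (s l) = V.G l
  exc : ∀ k, k ∉ range s → ThinM 4 2 (π '' V'.G k)

/-! ### the pair data -/

/-- `τ` is a section of `L` with the divisor `∑ c l • G l`. -/
structure IsDiv (V : Lg) (L : Bd V.W) (τ : L.ι → V.W → ℂ) (c : Fin V.r → ℕ) : Prop where
  sec : IsSec 4 L τ
  div : ∀ y i ζ, y ∈ L.U i → V.Eq y ζ → ∃ u : V.W → ℂ, HolF 4 u y ∧ u y ≠ 0 ∧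
    ∀ᶠ y' in 𝓝 y, τ i y' = u y' * ∏ l, ζ l y' ^ c l

/-- `p` is a projective log resolution, `exc` is the set of the exceptional components, and
`- ∑ c l • G l` is `p`-ample. -/
structure Res (V : Lg) (X : CSp) (p : V.W → X.pt) (exc : Finset (Fin V.r)) : Prop where
  cont : Continuous p
  hol : ∀ y g, X.Hol g (p y) → HolF 4 (fun y => g (p y)) y
  surj : Function.Surjective p
  emb : IsOpenEmb X (⋃ l ∈ exc, V.G l)ᶜ p
  inj : ∀ y y', y ∉ ⋃ l ∈ exc, V.G l → p y' = p y → y' = y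
  an : IsAn X univ (p '' ⋃ l ∈ exc, V.G l)
  dim : DimLe X 2 (p '' ⋃ l ∈ exc, V.G l)
  amp : ∃ (P : Bd V.W) (c : Fin V.r → ℕ) (τ : (Bd.inv P).ι → V.W → ℂ), IsLB 4 P ∧
    RelAmple V.X X p P ∧ (∀ l, 0 < c l ↔ l ∈ exc) ∧ IsDiv V (Bd.inv P) τ c

/-- `p^* D e = m e • K + M e - ∑ l, (n e l / c e) • G l`, where `L e` is the line bundle of
`c e • D e`, and the `M e` are nef. -/
structure IsPM {k : ℕ} (m : Fin k → ℕ) (V : Lg) (χ : Chart 4 V.W → Cm 4 → Matrix (Fin 4) (Fin 4) ℂ)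
    (M : Fin k → Bd V.W) (X : CSp) (L : Fin k → Bd X.pt) (c : Fin k → ℕ) (p : V.W → X.pt)
    (exc : Finset (Fin V.r)) (n : Fin k → Fin V.r → ℤ) : Prop where
  kahler : IsKahler χ
  lb : ∀ e, IsLB 4 (M e)
  nef : ∀ e, Nef χ (M e)
  res : Res V X p exc
  cmp : ∃ t, IsCmpV p L (fun e => (((Bd.can 4 V.W).pow (m e)).mul (M e)).pow (c e)) V.G n t

/-- the discrepancies -/
def disc {k r : ℕ} (ρ : Fin k → ℝ) (c : Fin k → ℕ) (n : Fin k → Fin r → ℤ) (l : Fin r) : ℝ :=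
  ∑ e, ρ e * n e l / c e

/-! ### the difficulty -/

/-- the pairs `(l, S)`, `S` a connected component of `G l ∩ G k` for some `k ≠ l` -/
def Lg.cmpS (V : Lg) : Set (Fin V.r × Set V.W) :=
  {c | ∃ k, k ≠ c.1 ∧ ∃ y ∈ V.G c.1 ∩ V.G k, c.2 = connectedComponentIn (V.G c.1 ∩ V.G k) y}

open Classical in
/-- the same, as a finite set (`mem_cmp` in `Val/Fin`) -/
def Lg.cmp (V : Lg) : Finset (Fin V.r × Set V.W) := if h : V.cmpS.Finite then h.toFinset else ∅

open Classical in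
/-- the discrepancy of the other component through the surface `c.2 ⊆ G c.1` -/
def Lg.eC (V : Lg) (a : Fin V.r → ℝ) (c : Fin V.r × Set V.W) : ℝ :=
  ∑ k with k ≠ c.1 ∧ c.2 ⊆ V.G k, a k

open Classical in
/-- the number of the divisors and of the echoes with discrepancy `< α` -/
def Lg.nA (V : Lg) (a : Fin V.r → ℝ) (α : ℝ) : ℕ :=
  (Finset.univ.filter fun k => a k < α).card +
    ∑ c ∈ V.cmp with a c.1 < 0, wt α (-a c.1) (V.eC a c)

/-- The divisor `∑ ρ S • S` of the threefold `G l` has a Green function. -/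
def Lg.Green (V : Lg) (l : Fin V.r) (ρ : Set V.W → ℝ) : Prop :=
  ∃ g : V.W → ℝ, ∀ y ∈ V.G l, ∀ ζ, V.Eq y ζ → ∃ (F : V.W → ℂ) (cf : Fin V.r → ℝ), HolF 4 F y ∧
    (∀ k, k ≠ l → y ∈ V.G k → cf k = ρ (connectedComponentIn (V.G l ∩ V.G k) y)) ∧
    ∀ᶠ y' in 𝓝 y, y' ∈ V.G l → (∀ k, k ≠ l → y' ∉ V.G k) →
      g y' = (F y').re + ∑ k with k ≠ l, cf k * Real.log ‖ζ k y'‖

/-- the families of divisors with support in `T` which have Green functions -/
def Lg.RG (V : Lg) (T : Finset (Fin V.r × Set V.W)) : Submodule ℝ (Fin V.r × Set V.W → ℝ) where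
  carrier := {ρ | (∀ c ∉ T, ρ c = 0) ∧ ∀ l, V.Green l fun S => ρ (l, S)}
  zero_mem' := ⟨fun _ _ => rfl, fun _ => ⟨0, fun y _ ζ _ => ⟨0, 0,
    fun _ _ => analyticAt_const, fun _ _ _ => rfl, Eventually.of_forall fun _ _ _ => by simp⟩⟩⟩
  add_mem' := by
    rintro ρ ρ' ⟨h1, h2⟩ ⟨k1, k2⟩
    refine ⟨fun c hc => by simp [h1 c hc, k1 c hc], fun l => ?_⟩
    obtain ⟨g, hg⟩ := h2 l
    obtain ⟨g', hg'⟩ := k2 l
    refine ⟨g + g', fun y hy ζ hζ => ?_⟩
    obtain ⟨F, cf, a1, a2, a3⟩ := hg y hy ζ hζ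
    obtain ⟨F', cf', b1, b2, b3⟩ := hg' y hy ζ hζ
    refine ⟨F + F', cf + cf', fun e he => (a1 e he).add (b1 e he), fun k hk hy => by
      simp [a2 k hk hy, b2 k hk hy], ?_⟩
    filter_upwards [a3, b3] with y' c1 c2 c3 c4
    simp only [Pi.add_apply, c1 c3 c4, c2 c3 c4, Complex.add_re, add_mul, Finset.sum_add_distrib]
    ring
  smul_mem' := by
    rintro x ρ ⟨h1, h2⟩
    refine ⟨fun c hc => by simp [h1 c hc], fun l => ?_⟩
    obtain ⟨g, hg⟩ := h2 l
    refine ⟨x • g, fun y hy ζ hζ => ?_⟩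
    obtain ⟨F, cf, a1, a2, a3⟩ := hg y hy ζ hζ
    refine ⟨fun y => x * F y, x • cf, fun e he => analyticAt_const.mul (a1 e he), fun k hk hy => by
      simp [a2 k hk hy], ?_⟩
    filter_upwards [a3] with y' c1 c3 c4
    simp only [Pi.smul_apply, c1 c3 c4, smul_eq_mul, mul_add, Finset.mul_sum, mul_assoc,
      Complex.re_ofReal_mul]

section top

variable (V : Lg) (a : Fin V.r → ℝ) (Y : CSp) (ψ : V.W → Y.pt) (α : ℝ)

open Classical in
/-- the surfaces `c.2 ⊆ G c.1 ∩ G k` with `w (c.1) ≥ 1` and `a k > 0` -/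
def Tp : Finset (Fin V.r × Set V.W) := V.cmp.filter fun c => a c.1 + 1 < α ∧ 0 < V.eC a c

open Classical in
/-- the number of the alive divisors with a centre of dimension `≤ 1` on `Y` -/
def N3 : ℕ := (Finset.univ.filter fun k => 0 < a k ∧ a k < α ∧ DimLe Y 1 (ψ '' V.G k)).card

open Classical in
/-- the surfaces of `Y` under a surface of `Tp` -/
def Sf : Finset (Set Y.pt) :=
  ((Tp V a α).filter fun c => ¬ DimLe Y 1 (ψ '' c.2)).image fun c => ψ '' c.2

open Classical in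
/-- (SURF) the count at the generic point of a surface of the terminal model -/
def Surf : Prop := ∀ C ∈ Sf V a Y ψ α,
  1 + ∑ c ∈ Tp V a α with ψ '' c.2 = C, wt α (-a c.1) 0 ≤
    (Finset.univ.filter fun k => 0 < a k ∧ a k < α ∧ ψ '' V.G k = C).card +
      ∑ c ∈ Tp V a α with ψ '' c.2 = C, wt α (-a c.1) (V.eC a c) +
      ((Tp V a α).filter fun c => ψ '' c.2 = C).card

/-- (TOP) the bound for the relations -/
def Top (h : ℕ) : Prop :=
  Module.finrank ℝ (V.RG (Tp V a α)) ≤ h + N3 V a Y ψ α + (Sf V a Y ψ α).card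

end top

/-- (SL) the compact curves of a slice over the generic point of a flipped surface -/
def SL (Λ : AddSubmonoid ℝ) {r : ℕ} (a a' : Fin r → ℝ) : Prop :=
  ∃ (J : Type) (_ : Fintype J) (_ : Nonempty J) (κ : J → Fin r),
    Slice Λ (fun c => 1 + a' (κ c)) ∧ ∀ c, a (κ c) < a' (κ c)

end Vale.Agent.P277Z.Val
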