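import Vale.Agent.P277Z.Val.Ord

/-!
# P277, block VAL: the order of the Jacobian of a wedge
-/

open Set Filter Metric Topology
open Vale.Agent.P272.K

noncomputable section

namespace Vale.Agent.P277Z.Val

variable {m : ℕ}

/-- partial derivatives -/
def pd {n : ℕ} (j : Fin n) (h : Cm n → ℂ) (w : Cm n) : ℂ := fderiv ℂ h w (Pi.single j 1)

/-- Jacobian matrix -/
def Jm {n k : ℕ} (γ : Cm n → Cm k) (w : Cm n) : Matrix (Fin k) (Fin n) ℂ :=
  Matrix.of fun i j => fderiv ℂ γ w (Pi.single j 1) i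

/-- Jacobian matrix in the directions of the hyperplane `{w 0 = 0}` -/
def Tm {k : ℕ} (γ : Cm (m + 1) → Cm k) (w : Cm (m + 1)) : Matrix (Fin k) (Fin m) ℂ :=
  Matrix.of fun i j => fderiv ℂ γ w (Pi.single j.succ 1) i

section
variable {n k : ℕ}

theorem det_eq_Jm (γ : Cm n → Cm n) (w : Cm n) : (fderiv ℂ γ w).det = (Jm γ w).det := by
  have h : LinearMap.toMatrix' (fderiv ℂ γ w : Cm n →ₗ[ℂ] Cm n) = Jm γ w := by
    ext i j
    rw [LinearMap.toMatrix'_apply]
    rfl
  rw [← h, LinearMap.det_toMatrix']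

theorem Jm_apply {γ : Cm n → Cm k} {w : Cm n} (h : DifferentiableAt ℂ γ w) (i : Fin k)
    (j : Fin n) : Jm γ w i j = pd j (fun w => γ w i) w := by
  have h1 := (hasFDerivAt_pi'.1 h.hasFDerivAt i).fderiv
  rw [pd, h1]
  rfl

theorem pd_congr {f f' : Cm n → ℂ} {w : Cm n} (h : f =ᶠ[𝓝 w] f') (j : Fin n) :
    pd j f w = pd j f' w := by
  rw [pd, pd, h.fderiv_eq]

theorem pd_mul {f f' : Cm n → ℂ} {w : Cm n} (h : DifferentiableAt ℂ f w)
    (h' : DifferentiableAt ℂ f' w) (j : Fin n) :
    pd j (fun w => f w * f' w) w = f w * pd j f' w + pd j f w * f' w := by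
  rw [pd, fderiv_fun_mul h h']
  show f w * fderiv ℂ f' w _ + f' w * fderiv ℂ f w _ = _
  rw [pd, pd]
  ring

theorem pd_pow {f : Cm n → ℂ} {w : Cm n} (h : DifferentiableAt ℂ f w) (g : ℕ) (j : Fin n) :
    pd j (fun w => f w ^ g) w = g * f w ^ (g - 1) * pd j f w := by
  rw [pd, fderiv_fun_pow g h]
  show (g • f w ^ (g - 1)) • fderiv ℂ f w _ = _
  rw [nsmul_eq_mul, smul_eq_mul]
  rfl

theorem pd_coord (i j : Fin n) (w : Cm n) :
    pd j (fun w : Cm n => w i) w = if i = j then 1 else 0 := by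
  have h : HasFDerivAt (fun w : Cm n => w i) (ContinuousLinearMap.proj (R := ℂ)
      (φ := fun _ : Fin n => ℂ) i) w := (ContinuousLinearMap.proj (R := ℂ)
      (φ := fun _ : Fin n => ℂ) i).hasFDerivAt
  rw [pd, h.fderiv]
  show (Pi.single j (1 : ℂ) : Fin n → ℂ) i = _
  rw [Pi.single_apply]

theorem an_pd {f : Cm n → ℂ} {w : Cm n} (h : AnalyticAt ℂ f w) (j : Fin n) :
    AnalyticAt ℂ (pd j f) w :=
  ((ContinuousLinearMap.apply ℂ ℂ (Pi.single j 1 : Cm n)).analyticAt _).comp h.fderiv

theorem an_det {M : Cm n → Matrix (Fin k) (Fin k) ℂ} {w : Cm n}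
    (h : ∀ i j, AnalyticAt ℂ (fun w => M w i j) w) : AnalyticAt ℂ (fun w => (M w).det) w := by
  simp only [Matrix.det_apply']
  exact Finset.analyticAt_fun_sum _ fun σ _ =>
    analyticAt_const.mul (Finset.analyticAt_fun_prod _ fun k _ => h _ _)

theorem an_jac {γ : Cm n → Cm n} {w : Cm n} (h : AnalyticAt ℂ γ w) :
    AnalyticAt ℂ (fun w => (fderiv ℂ γ w).det) w := by
  simp only [det_eq_Jm]
  refine an_det fun i j => ?_
  exact analyticAt_pi_iff.1
    (((ContinuousLinearMap.apply ℂ (Cm n) (Pi.single j 1 : Cm n)).analyticAt _).comp h.fderiv) i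

/-- a matrix which has more than `rank A` rows in common with `A` is singular -/
theorem det_piecewise {A B : Matrix (Fin k) (Fin k) ℂ} (S : Finset (Fin k))
    (h : A.rank + S.card < k) : (Matrix.of (S.piecewise B A)).det = 0 := by
  by_contra hne
  have h1 : LinearIndependent ℂ (Matrix.of (S.piecewise B A)).row :=
    Matrix.linearIndependent_rows_iff_isUnit.2
      ((Matrix.isUnit_iff_isUnit_det _).2 (isUnit_iff_ne_zero.2 hne))
  have h2 : LinearIndependent ℂ fun i : (Sᶜ : Finset (Fin k)) => A i := by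
    have h3 := h1.comp (fun i : (Sᶜ : Finset (Fin k)) => (i : Fin k)) Subtype.val_injective
    convert h3 using 1
    funext i
    exact (S.piecewise_eq_of_notMem B A (Finset.mem_compl.1 i.2)).symm
  have h4 : LinearIndependent ℂ fun i : (Sᶜ : Finset (Fin k)) =>
      (⟨A i, Submodule.subset_span ⟨i, rfl⟩⟩ : Submodule.span ℂ (range A.row)) :=
    LinearIndependent.of_comp (Submodule.subtype _) h2
  have h5 := h4.fintype_card_le_finrank
  rw [← Matrix.rank_eq_finrank_span_row, Fintype.card_coe, Finset.card_compl,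
    Fintype.card_fin] at h5
  omega

end

theorem an_upd (w : Cm (m + 1)) : AnalyticAt ℂ (fun w : Cm (m + 1) => P277.H19.upd w 0) w := by
  refine analyticAt_pi_iff.2 fun i => ?_
  by_cases hi : i = 0
  · simp only [P277.H19.upd, hi, if_true]
    exact analyticAt_const
  · simp only [P277.H19.upd, hi, if_false]
    exact an_coord i w

theorem upd_eq {w : Cm (m + 1)} (h : w 0 = 0) : P277.H19.upd w 0 = w := by
  conv_lhs => rw [← h]
  exact P277.H19.upd_self w

/-- the determinant of a matrix of rank `≤ s` along `{w 0 = 0}` has order `≥ k - s` -/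
theorem ordGe_det {k : ℕ} {M : Cm (m + 1) → Matrix (Fin k) (Fin k) ℂ} {w₁ : Cm (m + 1)}
    (h : ∀ i j, AnalyticAt ℂ (fun w => M w i j) w₁) (h0 : w₁ 0 = 0) {s : ℕ}
    (hs : ∀ᶠ w in 𝓝 w₁, w 0 = 0 → (M w).rank ≤ s) : OrdGe (fun w => (M w).det) w₁ (k - s) := by
  classical
  set pr : Cm (m + 1) → Cm (m + 1) := fun w => P277.H19.upd w 0 with hpr
  have hpt : Tendsto pr (𝓝 w₁) (𝓝 w₁) := by
    have := (an_upd w₁).continuousAt
    rwa [ContinuousAt, upd_eq h0] at this
  have hM0 : ∀ i j, AnalyticAt ℂ (fun w => M (pr w) i j) w₁ := fun i j =>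
    AnalyticAt.comp (g := fun w => M w i j) (f := pr) (by
      show AnalyticAt ℂ _ (P277.H19.upd w₁ 0)
      rw [upd_eq h0]
      exact h i j) (an_upd w₁)
  have hN : ∀ i j, ∃ N : Cm (m + 1) → ℂ, AnalyticAt ℂ N w₁ ∧
      ∀ᶠ w in 𝓝 w₁, M w i j - M (pr w) i j = w 0 * N w := fun i j =>
    P277.H19.exists_div ((h i j).sub (hM0 i j)) h0 (Eventually.of_forall fun w hw => by
      show M w i j - M (P277.H19.upd w 0) i j = 0
      rw [upd_eq hw, sub_self])
  choose N hN1 hN2 using hN
  set f := (Matrix.detRowAlternating (n := Fin k) (R := ℂ)).toMultilinearMap with hf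
  have hfd : ∀ A : Fin k → Fin k → ℂ, f A = (Matrix.of A).det := fun A => rfl
  have key : ∀ᶠ w in 𝓝 w₁, (M w).det = ∑ S : Finset (Fin k),
      w 0 ^ S.card * (Matrix.of (S.piecewise (fun i j => N i j w) (M (pr w)))).det := by
    filter_upwards [eventually_all.2 fun i => eventually_all.2 fun j => hN2 i j] with w e1
    have e2 : (fun i j => M w i j) =
        (fun i => w 0 • fun j => N i j w) + (fun i j => M (pr w) i j) := by
      funext i j
      have := e1 i j
      simp only [Pi.add_apply, Pi.smul_apply, smul_eq_mul]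
      linear_combination this
    have e3 : (M w).det = f (fun i j => M w i j) := rfl
    rw [e3, e2, f.map_add_univ]
    refine Finset.sum_congr rfl fun S _ => ?_
    have e4 := f.map_piecewise_smul (fun _ => w 0)
      (S.piecewise (fun i j => N i j w) (M (pr w))) S
    rw [Finset.prod_const, smul_eq_mul] at e4
    refine Eq.trans (congrArg f (funext fun i => ?_)) e4
    by_cases hi : i ∈ S
    · simp only [Finset.piecewise_eq_of_mem _ _ _ hi]
      exact congrArg (w 0 • ·) (S.piecewise_eq_of_mem (fun i j => N i j w) (M (pr w)) hi).symm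
    · simp only [Finset.piecewise_eq_of_notMem _ _ _ hi]
      exact (S.piecewise_eq_of_notMem (fun i j => N i j w) (M (pr w)) hi).symm
  refine (ordGe_sum Finset.univ fun S _ => ?_).congr (key.mono fun w hw => hw.symm)
  by_cases hS : k - s ≤ S.card
  · refine OrdGe.mono ⟨_, an_det fun i j => ?_, Eventually.of_forall fun w => rfl⟩ hS
    by_cases hi : i ∈ S
    · refine (hN1 i j).congr (Eventually.of_forall fun w => ?_)
      exact (congrFun (S.piecewise_eq_of_mem (fun i j => N i j w) (M (pr w)) hi) j).symm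
    · refine (hM0 i j).congr (Eventually.of_forall fun w => ?_)
      exact (congrFun (S.piecewise_eq_of_notMem (fun i j => N i j w) (M (pr w)) hi) j).symm
  · refine ordGe_of_zero ?_
    filter_upwards [hpt.eventually hs] with w e1
    have e2 := e1 (P277.H19.upd_zero w 0)
    rw [det_piecewise (A := M (pr w)) (B := fun i j => N i j w) S (by omega), mul_zero]

/-- partial derivatives of `w 0 ^ (g + 1) * u` -/
theorem pd_pow_mul {g : ℕ} {u : Cm (m + 1) → ℂ} {w : Cm (m + 1)} (hu : AnalyticAt ℂ u w)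
    (j : Fin (m + 1)) : pd j (fun w => w 0 ^ (g + 1) * u w) w =
      w 0 ^ g * ((if 0 = j then (g + 1 : ℂ) * u w else 0) + w 0 * pd j u w) := by
  have h0 := (an_coord 0 w).differentiableAt
  rw [pd_mul (h0.fun_pow _) hu.differentiableAt, pd_pow h0, pd_coord]
  push_cast
  split_ifs <;> simp <;> ring

theorem rank_le_succ {k : ℕ} (A : Matrix (Fin k) (Fin (m + 1)) ℂ) :
    A.rank ≤ (Matrix.of fun i (j : Fin m) => A i j.succ).rank + 1 := by
  rw [Matrix.rank_eq_finrank_span_cols, Matrix.rank_eq_finrank_span_cols]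
  have h1 : Submodule.span ℂ (range A.col) ≤
      Submodule.span ℂ (range (Matrix.of fun i (j : Fin m) => A i j.succ).col) ⊔
        Submodule.span ℂ {A.col 0} := by
    rw [Submodule.span_le]
    rintro _ ⟨j, rfl⟩
    refine Fin.cases ?_ (fun j => ?_) j
    · exact Submodule.mem_sup_right (Submodule.subset_span rfl)
    · exact Submodule.mem_sup_left (Submodule.subset_span ⟨j, rfl⟩)
  refine (Submodule.finrank_mono h1).trans ((Submodule.finrank_add_le_finrank_add_finrank _ _).trans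
    (Nat.add_le_add_left ?_ _))
  exact (finrank_span_le_card ({A.col 0} : Set (Fin k → ℂ))).trans (by simp)

/-- (JAC) the order of the Jacobian of a wedge `γ`: `g i` is the order of the coordinate `i`, and
`r` bounds the rank of the restriction of `γ` to `{w 0 = 0}`. -/
theorem jac_ordGe {γ : Cm (m + 1) → Cm (m + 1)} {w₁ : Cm (m + 1)} (h0 : w₁ 0 = 0)
    {g : Fin (m + 1) → ℕ} (hg : ∀ i, OrdGe (fun w => γ w i) w₁ (g i)) {r : ℕ}
    (hr : ∀ᶠ w in 𝓝 w₁, w 0 = 0 → (Tm γ w).rank ≤ r) :
    OrdGe (fun w => (fderiv ℂ γ w).det) w₁ (∑ i, (g i - 1) + (m - r)) := by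
  have hγ : AnalyticAt ℂ γ w₁ := analyticAt_pi_iff.2 fun i => (hg i).an
  choose u hu1 hu2 using hg
  set M : Cm (m + 1) → Matrix (Fin (m + 1)) (Fin (m + 1)) ℂ := fun w => Matrix.of fun i j =>
    if g i = 0 then pd j (fun w => γ w i) w
    else (if 0 = j then (g i : ℂ) * u i w else 0) + w 0 * pd j (u i) w with hM
  have hMa : ∀ i j, AnalyticAt ℂ (fun w => M w i j) w₁ := by
    intro i j
    by_cases hi : g i = 0
    · simp only [hM, Matrix.of_apply, if_pos hi]
      exact an_pd (analyticAt_pi_iff.1 hγ i) j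
    · simp only [hM, Matrix.of_apply, if_neg hi]
      refine AnalyticAt.add ?_ ((an_coord 0 w₁).mul (an_pd (hu1 i) j))
      by_cases hj : 0 = j
      · simp only [if_pos hj]
        exact analyticAt_const.mul (hu1 i)
      · simp only [if_neg hj]
        exact analyticAt_const
  have hJ : ∀ᶠ w in 𝓝 w₁, ∀ i j, Jm γ w i j = w 0 ^ (g i - 1) * M w i j := by
    filter_upwards [hγ.eventually_analyticAt, eventually_all.2 fun i => (hu1 i).eventually_analyticAt,
      eventually_all.2 fun i => (hu2 i).eventually_nhds] with w e1 e2 e3 i j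
    rw [Jm_apply e1.differentiableAt]
    by_cases hi : g i = 0
    · simp only [hM, Matrix.of_apply, if_pos hi]
      rw [hi]
      simp
    · simp only [hM, Matrix.of_apply, if_neg hi]
      obtain ⟨g', hg'⟩ : ∃ g', g i = g' + 1 := ⟨g i - 1, by omega⟩
      have e4 := e3 i
      rw [hg'] at e4
      rw [pd_congr e4, pd_pow_mul (e2 i), hg']
      simp
  have hD : OrdGe (fun w => (M w).det) w₁ (m + 1 - (r + 1)) := by
    refine ordGe_det hMa h0 ?_
    filter_upwards [hr, hJ] with w e1 e2 e3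
    refine (rank_le_succ (M w)).trans (Nat.add_le_add_right (le_of_eq_of_le ?_ (e1 e3)) 1)
    congr 1
    ext i j
    have e4 : Tm γ w i j = Jm γ w i j.succ := rfl
    rw [e4, e2, e3]
    by_cases hi : g i = 0
    · rw [hi]
      simp
    · have e5 : M w i j.succ = 0 := by
        simp only [hM, Matrix.of_apply, if_neg hi, e3, if_neg (Fin.succ_ne_zero j).symm]
        simp
      rw [Matrix.of_apply, e5, mul_zero]
  rw [Nat.add_sub_add_right] at hD
  refine (OrdGe.mul (f := fun w => w 0 ^ ∑ i, (g i - 1))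
    ⟨fun _ => 1, analyticAt_const, Eventually.of_forall fun w => (mul_one _).symm⟩ hD).congr ?_
  filter_upwards [hJ] with w e1
  rw [det_eq_Jm, show Jm γ w = Matrix.of fun i j => w 0 ^ (g i - 1) * M w i j from
    Matrix.ext fun i j => e1 i j, Matrix.det_mul_column, Finset.prod_pow_eq_pow_sum]

/-- (JAC), numerical form -/
theorem jac_le {γ : Cm (m + 1) → Cm (m + 1)} {w₁ : Cm (m + 1)} (h0 : w₁ 0 = 0)
    {g : Fin (m + 1) → ℕ} (hg : ∀ i, OrdGe (fun w => γ w i) w₁ (g i)) {r : ℕ}
    (hr : ∀ᶠ w in 𝓝 w₁, w 0 = 0 → (Tm γ w).rank ≤ r) {J : ℕ}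
    (hJ : OrdEq (fun w => (fderiv ℂ γ w).det) w₁ J) : ∑ i, (g i - 1) + (m - r) ≤ J :=
  (jac_ordGe h0 hg hr).le h0 hJ

end Vale.Agent.P277Z.Val
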