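import Vale.Agent.P277Z.Val.Mod
import Vale.Agent.P277Z.Val.Man
import Vale.Agent.P277.H762.P.A1
import Vale.Agent.P277.H884.W.OrdT

/-!
# P277, block VAL: normalised charts, the components of the double locus
-/

set_option linter.unusedSectionVars false

open scoped Manifold ContDiff Topology
open Vale.Agent.P272.K Vale.Agent.P285.H281.FD Vale.Agent.P277 Set Filter Metric
open Vale.Agent.P277.T2 (IsLEq IsCmpV)
open Vale.Agent.P277.PH (HolF at_chartAt)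

noncomputable section

namespace Vale.Agent.P277Z.Val

section gen
variable {W : Type} [TopologicalSpace W] {n : ℕ} [ChartedSpace (Cm n) W]
  [IsManifold 𝓘(ℂ, Cm n) ω W] {ι : Type} {G : ι → Set W}

theorem Crd.congr {c c' : W → Cm n} {ξ : Cm n → W} {z : W} (h : Crd c ξ z) (e : c =ᶠ[𝓝 z] c') :
    Crd c' ξ z where
  hol i := (h.hol i).congr (e.mono fun _ h => congrFun h i)
  an := e.eq_of_nhds ▸ h.an
  left := by filter_upwards [h.left, e] with y e1 e2 using e2 ▸ e1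
  right := by
    rw [← e.eq_of_nhds]
    filter_upwards [h.right, h.tend.eventually e] with w e1 e2 using e2 ▸ e1

theorem Crd.isCo' {c : W → Cm n} {ξ : Cm n → W} {z : W} (h : Crd c ξ z) : IsCo n c z :=
  fun _ he => (crd_chart he).chg h

theorem IsCo.crd' {t : W → Cm n} {y : W} (h : IsCo n t y) : ∃ ξ, Crd t ξ y := by
  have he := at_chartAt (n := n) y
  obtain ⟨θ, h1, -, h3, h4⟩ := LocIso.exists_inv (h _ he)
  refine ⟨_, ((crd_chart he).comp (h _ he).1 h1.1 h3 h4).congr ?_⟩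
  filter_upwards [(chartAt (Cm n) y).eventually_left_inverse he.2] with x hx
  rw [hx]

/-- a system of coordinates gives a chart onto a polydisc -/
theorem Crd.exists_chart {c : W → Cm n} {ξ : Cm n → W} {y : W} (h : Crd c ξ y) {p : W → Prop}
    (hp : ∀ᶠ x in 𝓝 y, p x) : ∃ (Φ : Chart n W) (ρ : ℝ), 0 < ρ ∧ ⇑Φ = c ∧ ⇑Φ.symm = ξ ∧
      y ∈ Φ.source ∧ Φ.target = ball (c y) ρ ∧ ∀ x ∈ Φ.source, Crd c ξ x ∧ p x := by
  obtain ⟨N, hN, No, yN⟩ := mem_nhds_iff.1 (h.eventually.and hp)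
  obtain ⟨ρ, hρ, hb⟩ := Metric.eventually_nhds_iff_ball.1
    ((h.tend.eventually (No.mem_nhds yN)).and h.right)
  have hc : ContinuousOn c N := fun x hx => (hN hx).1.cont.continuousWithinAt
  refine ⟨⟨⟨⟨c, ξ, N ∩ c ⁻¹' ball (c y) ρ, ball (c y) ρ, fun x hx => hx.2, fun w hw =>
    ⟨(hb w hw).1, ?_⟩, fun x hx => (hN hx.1).1.inv, fun w hw => (hb w hw).2⟩,
    hc.mono inter_subset_left, fun w hw => ?_⟩, hc.isOpen_inter_preimage No isOpen_ball,
    isOpen_ball⟩, ρ, hρ, rfl, rfl, ⟨yN, mem_ball_self hρ⟩, rfl, fun x hx => hN hx.1⟩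
  · rw [mem_preimage, (hb w hw).2]
    exact hw
  · have := (hN (hb w hw).1).1.an.1
    rw [(hb w hw).2] at this
    exact this.continuousWithinAt

/-- coordinates centred at `y` in which the `G l` through `y` are coordinate hyperplanes -/
structure Loc (G : ι → Set W) (y : W) (c : W → Cm n) (ξ : Cm n → W) (lab : ι → Option (Fin n)) :
    Prop where
  crd : Crd c ξ y
  zero : c y = 0
  inj : ∀ l l' i, lab l = some i → lab l' = some i → l = l'
  iff : ∀ᶠ x in 𝓝 y, ∀ l, x ∈ G l ↔ ∃ i, lab l = some i ∧ c x i = 0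

theorem IsSnc.loc (h : IsSnc n G) (y : W) :
    ∃ (c : W → Cm n) (ξ : Cm n → W) (lab : ι → Option (Fin n)), Loc G y c ξ lab := by
  classical
  obtain ⟨t, lab, h1, h2, h3⟩ := h y
  obtain ⟨ξ, hξ⟩ := h1.crd'
  refine ⟨fun x => t x - t y, fun w => ξ (w + t y), fun l => (lab l).filter fun i => t y i = 0,
    hξ.comp (Ψ := fun w => w - t y) (θ := fun w => w + t y) (by fun_prop) (by fun_prop)
      (by simp) (by simp), sub_self _, fun l l' i e1 e2 =>
      h2 l l' i (Option.filter_eq_some_iff.1 e1).1 (Option.filter_eq_some_iff.1 e2).1, ?_⟩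
  have h4 : ∀ᶠ x in 𝓝 y, ∀ i, t y i ≠ 0 → t x i ≠ 0 := eventually_all.2 fun i => by
    by_cases h0 : t y i = 0
    · simp [h0]
    · exact ((holF_cont (hξ.hol i)).eventually_ne h0).mono fun _ h _ => h
  filter_upwards [h3, h4] with x e1 e2 l
  rw [e1 l]
  refine exists_congr fun i => ?_
  simp only [Option.filter_eq_some_iff, decide_eq_true_eq, Pi.sub_apply]
  constructor
  · rintro ⟨a, b⟩
    have : t y i = 0 := by_contra fun h => e2 i h b
    exact ⟨⟨a, this⟩, by rw [b, this, sub_zero]⟩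
  · rintro ⟨⟨a, b⟩, c⟩
    exact ⟨a, by rwa [b, sub_zero] at c⟩

theorem an_perm (σ : Equiv.Perm (Fin n)) (w : Cm n) :
    AnalyticAt ℂ (fun w : Cm n => fun i => w (σ i)) w :=
  analyticAt_pi_iff.2 fun _ => an_coord _ _

theorem Loc.perm {y : W} {c : W → Cm n} {ξ : Cm n → W} {lab : ι → Option (Fin n)}
    (h : Loc G y c ξ lab) (σ : Equiv.Perm (Fin n)) : Loc G y (fun x i => c x (σ.symm i))
      (fun w => ξ fun i => w (σ i)) fun l => (lab l).map σ where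
  crd := h.crd.comp (Ψ := fun w i => w (σ.symm i)) (θ := fun w i => w (σ i)) (an_perm _ _)
    (an_perm _ _) (by simp) (by simp)
  zero := by
    funext i
    simp [h.zero]
  inj l l' i e1 e2 := by
    obtain ⟨j, a, rfl⟩ := Option.map_eq_some_iff.1 e1
    obtain ⟨j', a', b⟩ := Option.map_eq_some_iff.1 e2
    exact h.inj l l' j a (σ.injective b ▸ a')
  iff := by
    filter_upwards [h.iff] with x e l
    rw [e l]
    constructor
    · rintro ⟨i, a, b⟩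
      exact ⟨σ i, by simp [a], by simpa using b⟩
    · rintro ⟨i, a, b⟩
      obtain ⟨j, a', rfl⟩ := Option.map_eq_some_iff.1 a
      exact ⟨j, a', by simpa using b⟩

theorem Loc.mem {y : W} {c : W → Cm n} {ξ : Cm n → W} {lab : ι → Option (Fin n)}
    (h : Loc G y c ξ lab) {l : ι} : y ∈ G l ↔ ∃ i, lab l = some i := by
  simp [h.iff.self_of_nhds l, h.zero]

/-- A chart onto a polydisc centred at `y`, in which the `G l` are empty or coordinate
hyperplanes. -/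
structure Nch (G : ι → Set W) (y : W) (Φ : Chart n W) (ρ : ℝ) (lab : ι → Option (Fin n)) :
    Prop where
  pos : 0 < ρ
  src : y ∈ Φ.source
  zero : Φ y = 0
  tgt : Φ.target = ball 0 ρ
  crd : ∀ x ∈ Φ.source, Crd Φ Φ.symm x
  inj : ∀ l l' i, lab l = some i → lab l' = some i → l = l'
  iff : ∀ x ∈ Φ.source, ∀ l, x ∈ G l ↔ ∃ i, lab l = some i ∧ Φ x i = 0

theorem Loc.nch {y : W} {c : W → Cm n} {ξ : Cm n → W} {lab : ι → Option (Fin n)}
    (h : Loc G y c ξ lab) {p : W → Prop} (hp : ∀ᶠ x in 𝓝 y, p x) :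
    ∃ (Φ : Chart n W) (ρ : ℝ), Nch G y Φ ρ lab ∧ ∀ x ∈ Φ.source, p x := by
  obtain ⟨Φ, ρ, h1, rfl, h3, h4, h5, h6⟩ := h.crd.exists_chart (h.iff.and hp)
  exact ⟨Φ, ρ, ⟨h1, h4, h.zero, h.zero ▸ h5, fun x hx => h3 ▸ (h6 x hx).1, h.inj,
    fun x hx => (h6 x hx).2.1⟩, fun x hx => (h6 x hx).2.2⟩

theorem IsSnc.nch (h : IsSnc n G) (y : W) {p : W → Prop} (hp : ∀ᶠ x in 𝓝 y, p x) :
    ∃ (Φ : Chart n W) (ρ : ℝ) (lab : ι → Option (Fin n)), Nch G y Φ ρ lab ∧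
      ∀ x ∈ Φ.source, p x := by
  obtain ⟨c, ξ, lab, h⟩ := h.loc y
  obtain ⟨Φ, ρ, h⟩ := h.nch hp
  exact ⟨Φ, ρ, lab, h⟩

/-- a chart in which `G l` is the hyperplane `i` -/
theorem IsSnc.nch1 (h : IsSnc n G) {y : W} {l : ι} (hy : y ∈ G l) (i : Fin n) {p : W → Prop}
    (hp : ∀ᶠ x in 𝓝 y, p x) : ∃ (Φ : Chart n W) (ρ : ℝ) (lab : ι → Option (Fin n)),
      Nch G y Φ ρ lab ∧ lab l = some i ∧ ∀ x ∈ Φ.source, p x := by
  obtain ⟨c, ξ, lab, h⟩ := h.loc y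
  obtain ⟨j, hj⟩ := h.mem.1 hy
  obtain ⟨Φ, ρ, h1, h2⟩ := (h.perm (Equiv.swap j i)).nch hp
  exact ⟨Φ, ρ, _, h1, by simp [hj], h2⟩

/-- a chart in which `G l`, `G k` are the hyperplanes `i`, `j` -/
theorem IsSnc.nch2 (h : IsSnc n G) {y : W} {l k : ι} (hlk : l ≠ k) (hl : y ∈ G l) (hk : y ∈ G k)
    {i j : Fin n} (hij : i ≠ j) {p : W → Prop} (hp : ∀ᶠ x in 𝓝 y, p x) :
    ∃ (Φ : Chart n W) (ρ : ℝ) (lab : ι → Option (Fin n)),
      Nch G y Φ ρ lab ∧ lab l = some i ∧ lab k = some j ∧ ∀ x ∈ Φ.source, p x := by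
  obtain ⟨c, ξ, lab, h⟩ := h.loc y
  obtain ⟨i', hi⟩ := h.mem.1 hl
  have h' := h.perm (Equiv.swap i' i)
  obtain ⟨j', hj⟩ := h'.mem.1 hk
  have hi' : (lab l).map (Equiv.swap i' i) = some i := by simp [hi]
  have hne : i ≠ j' := fun e => hlk (h'.inj l k i hi' (e ▸ hj))
  obtain ⟨Φ, ρ, h1, h2⟩ := (h'.perm (Equiv.swap j' j)).nch hp
  exact ⟨Φ, ρ, _, h1, by rw [hi', Option.map_some, Equiv.swap_apply_of_ne_of_ne hne hij],
    by rw [hj, Option.map_some, Equiv.swap_apply_left], h2⟩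

variable {y : W} {Φ : Chart n W} {ρ : ℝ} {lab : ι → Option (Fin n)}

theorem Nch.nhds (h : Nch G y Φ ρ lab) : Φ.source ∈ 𝓝 y := Φ.open_source.mem_nhds h.src

theorem Nch.mem (h : Nch G y Φ ρ lab) {l : ι} : y ∈ G l ↔ ∃ i, lab l = some i := by
  simp [h.iff y h.src l, h.zero]

theorem Nch.iff1 (h : Nch G y Φ ρ lab) {l : ι} {i : Fin n} (hl : lab l = some i) {x : W}
    (hx : x ∈ Φ.source) : x ∈ G l ↔ Φ x i = 0 := by
  simp [h.iff x hx l, hl]

theorem Nch.sub (h : Nch G y Φ ρ lab) {l : ι} {x : W} (hx : x ∈ Φ.source) (hl : x ∈ G l) :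
    y ∈ G l :=
  h.mem.2 (((h.iff x hx l).1 hl).imp fun _ h => h.1)

theorem Nch.symm_mem (h : Nch G y Φ ρ lab) {w : Cm n} (hw : w ∈ ball (0 : Cm n) ρ) :
    Φ.symm w ∈ Φ.source ∧ Φ (Φ.symm w) = w :=
  ⟨Φ.map_target (h.tgt ▸ hw), Φ.right_inv (h.tgt ▸ hw)⟩

theorem IsSnc.closed' (h : IsSnc n G) (l : ι) : IsClosed (G l) := by
  refine isOpen_compl_iff.1 (isOpen_iff_mem_nhds.2 fun y hy => ?_)
  obtain ⟨Φ, ρ, lab, h, -⟩ := h.nch y (Eventually.of_forall fun _ => trivial)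
  filter_upwards [h.nhds] with x hx hl using hy (h.sub hx hl)

theorem freq_strat (I : Set (Fin n)) {w : Cm n} (hw : ∀ i ∈ I, w i = 0) :
    ∃ᶠ z in 𝓝 w, ∀ i, z i = 0 ↔ i ∈ I := by
  classical
  have h : w ∈ closure (Set.pi univ fun i => if i ∈ I then ({0} : Set ℂ) else {0}ᶜ) := by
    refine mem_closure_pi.2 fun i _ => ?_
    split_ifs with hi
    · exact subset_closure (hw i hi)
    · exact dense_compl_singleton 0 _
  refine (mem_closure_iff_frequently.1 h).mono fun z hz i => ?_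
  have := hz i (mem_univ _)
  by_cases hi : i ∈ I <;> simpa [hi] using this

/-- the open strata are dense -/
theorem IsSnc.freq (h : IsSnc n G) {y : W} (T : Set ι) (hy : ∀ l ∈ T, y ∈ G l) :
    ∃ᶠ x in 𝓝 y, ∀ l, x ∈ G l ↔ l ∈ T := by
  obtain ⟨Φ, ρ, lab, h, -⟩ := h.nch y (Eventually.of_forall fun _ => trivial)
  have h1 := freq_strat {i | ∃ l ∈ T, lab l = some i} (w := Φ y) (by simp [h.zero])
  have h2 : ∀ᶠ w in 𝓝 (Φ y), w ∈ ball (0 : Cm n) ρ := h.zero ▸ ball_mem_nhds _ h.pos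
  refine (h.crd y h.src).tend.frequently ((h1.and_eventually h2).mono fun w ⟨e1, e2⟩ l => ?_)
  rw [h.iff _ (h.symm_mem e2).1, (h.symm_mem e2).2]
  constructor
  · rintro ⟨i, a, b⟩
    obtain ⟨l', c, d⟩ := (e1 i).1 b
    exact h.inj l' l i d a ▸ c
  · intro hl
    obtain ⟨i, hi⟩ := h.mem.1 (hy l hl)
    exact ⟨i, hi, (e1 i).2 ⟨l, hl, hi⟩⟩

/-- the strata are connected in the chart -/
theorem Nch.preconn (h : Nch G y Φ ρ lab) (T : Set ι) (hy : ∀ l ∈ T, y ∈ G l) :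
    IsPreconnected (Φ.source ∩ ⋂ l ∈ T, G l) := by
  have hc : Convex ℝ (ball (0 : Cm n) ρ ∩ {w | ∀ l ∈ T, ∀ i, lab l = some i → w i = 0}) :=
    (convex_ball _ _).inter fun w hw w' hw' s t _ _ _ l hl i hi => by
      simp [hw l hl i hi, hw' l hl i hi]
  have h1 := hc.isPreconnected.image Φ.symm
    (Φ.continuousOn_symm.mono (h.tgt ▸ inter_subset_left))
  convert h1 using 1
  ext x
  simp only [mem_inter_iff, mem_iInter, mem_image, mem_ofPred_eq]
  constructor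
  · rintro ⟨a, b⟩
    exact ⟨Φ x, ⟨h.tgt ▸ Φ.map_source a, fun l hl i hi => (h.iff1 hi a).1 (b l hl)⟩, Φ.left_inv a⟩
  · rintro ⟨w, ⟨a, b⟩, rfl⟩
    refine ⟨(h.symm_mem a).1, fun l hl => ?_⟩
    obtain ⟨i, hi⟩ := h.mem.1 (hy l hl)
    rw [h.iff1 hi (h.symm_mem a).1, (h.symm_mem a).2]
    exact b l hl i hi

/-- the components of `G l ∩ G k` are relatively open -/
theorem IsSnc.ev_cc (h : IsSnc n G) {l k : ι} {y : W} (hy : y ∈ G l ∩ G k) :
    ∀ᶠ x in 𝓝 y, x ∈ G l ∩ G k → x ∈ connectedComponentIn (G l ∩ G k) y := by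
  obtain ⟨Φ, ρ, lab, h, -⟩ := h.nch y (Eventually.of_forall fun _ => trivial)
  have h1 := h.preconn {l, k} (by simpa using hy)
  rw [biInter_pair] at h1
  filter_upwards [h.nhds] with x hx hx'
  exact h1.subset_connectedComponentIn ⟨h.src, hy⟩ inter_subset_right ⟨hx, hx'⟩

end gen

variable (V : Lg)

theorem Lg.closed (l : Fin V.r) : IsClosed (V.G l) := V.snc.closed' l

theorem Lg.closedE : IsClosed V.E := isClosed_iUnion_of_finite V.closed

theorem Lg.freqE (y : V.W) : ∃ᶠ x in 𝓝 y, x ∉ V.E :=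
  (V.snc.freq ∅ (by simp)).mono fun x h => by simpa [Lg.E] using h

theorem Lg.dense : Dense V.Eᶜ := fun y => mem_closure_iff_frequently.2 (V.freqE y)

variable {V}

theorem Lg.freq1 {y : V.W} {l : Fin V.r} (hy : y ∈ V.G l) :
    ∃ᶠ x in 𝓝 y, x ∈ V.G l ∧ ∀ k, k ≠ l → x ∉ V.G k :=
  (V.snc.freq {l} (by simpa using hy)).mono fun x h =>
    ⟨(h l).2 rfl, fun k hk e => hk ((h k).1 e)⟩

theorem Lg.freq2 {y : V.W} {l k : Fin V.r} (hy : y ∈ V.G l ∩ V.G k) :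
    ∃ᶠ x in 𝓝 y, x ∈ V.G l ∩ V.G k ∧ ∀ m, m ≠ l → m ≠ k → x ∉ V.G m :=
  (V.snc.freq {l, k} (by simpa using hy)).mono fun x h =>
    ⟨⟨(h l).2 (by simp), (h k).2 (by simp)⟩, fun m a b e => by simpa [a, b] using (h m).1 e⟩

theorem Lg.not_sub {l k : Fin V.r} (h : V.G l ⊆ V.G k) : l = k := by
  obtain ⟨y, hy⟩ := (V.conn l).nonempty
  obtain ⟨x, a, b⟩ := (Lg.freq1 hy).exists
  exact by_contra fun e => b k (Ne.symm e) (h a)

theorem Lg.hyp (V : Lg) (l : Fin V.r) : T2.IsHyp (V.G l) := by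
  intro y hy
  obtain ⟨Φ, ρ, lab, h, hl, -⟩ := V.snc.nch1 hy 0 (Eventually.of_forall fun _ => trivial)
  refine ⟨Φ.symm, 0, ρ, ⟨h.pos, rfl, h.tgt ▸ Φ.symm.injOn, fun S hS So =>
    Φ.symm.isOpen_image_of_subset_source So (hS.trans h.tgt.ge), fun w hw =>
    Φ.continuousAt_symm (h.tgt ▸ hw), fun w hw e he => ?_, fun w hw => ?_⟩,
    h.zero ▸ Φ.left_inv h.src⟩
  · have := (h.crd _ (h.symm_mem hw).1).chg (crd_chart he)
    rwa [(h.symm_mem hw).2] at this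
  · rw [h.iff1 hl (h.symm_mem hw).1, (h.symm_mem hw).2]

/-- the local equations given by a normalised chart -/
def eqn {W ι : Type} {n : ℕ} (c : W → Cm n) (lab : ι → Option (Fin n)) (l : ι) (x : W) : ℂ :=
  (lab l).elim 1 (c x)

theorem Nch.eq {y : V.W} {Φ : Chart 4 V.W} {ρ : ℝ} {lab : Fin V.r → Option (Fin 4)}
    (h : Nch V.G y Φ ρ lab) {x : V.W} (hx : x ∈ Φ.source) : V.Eq x (eqn Φ lab) := by
  intro l
  refine ⟨?_, fun e he => ?_⟩
  · filter_upwards [Φ.open_source.mem_nhds hx] with z hz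
    rw [h.iff z hz]
    unfold eqn
    cases lab l <;> simp
  · unfold eqn
    cases lab l with
    | none => exact ⟨analyticAt_const, fun h => absurd h one_ne_zero⟩
    | some i =>
      have h1 := (crd_chart he).chg (h.crd x hx)
      refine ⟨analyticAt_pi_iff.1 h1.1 i, fun _ h0 => ?_⟩
      obtain ⟨v, hv⟩ := (LinearMap.equivOfDetNeZero (fderiv ℂ (fun w => Φ (e.symm w)) (e x) :
        Cm 4 →ₗ[ℂ] Cm 4) h1.2).surjective (Pi.single i 1)
      have h2 := congrArg (fun L : Cm 4 →L[ℂ] ℂ => L v)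
        (hasFDerivAt_pi'.1 h1.1.differentiableAt.hasFDerivAt i).fderiv
      have h3 : fderiv ℂ (fun w => Φ (e.symm w)) (e x) v = Pi.single i 1 := hv
      simp only [Option.elim_some] at h0
      simp [h0, h3] at h2

theorem Lg.exEq (V : Lg) (y : V.W) : ∃ ζ, V.Eq y ζ := by
  obtain ⟨Φ, ρ, lab, h, -⟩ := V.snc.nch y (Eventually.of_forall fun _ => trivial)
  exact ⟨_, h.eq h.src⟩

theorem Lg.Eq.hol {y : V.W} {ζ} (h : V.Eq y ζ) (l : Fin V.r) : HolF 4 (ζ l) y :=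
  fun e he => ((h l).2 e he).1

theorem Lg.Eq.iff {y : V.W} {ζ} (h : V.Eq y ζ) : ∀ᶠ x in 𝓝 y, ∀ l, ζ l x = 0 ↔ x ∈ V.G l :=
  eventually_all.2 fun l => (h l).1

theorem Lg.Eq.eventually {y : V.W} {ζ} (h : V.Eq y ζ) : ∀ᶠ x in 𝓝 y, V.Eq x ζ :=
  eventually_all.2 fun l => H762.P.isLEq_eventually (h l)

/-- two systems of local equations differ by units -/
theorem Lg.Eq.unit {y : V.W} {ζ ζ'} (h : V.Eq y ζ) (h' : V.Eq y ζ') :
    ∃ u : Fin V.r → V.W → ℂ, (∀ l, HolF 4 (u l) y ∧ u l y ≠ 0) ∧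
      ∀ᶠ x in 𝓝 y, ∀ l, ζ' l x = ζ l x * u l x := by
  have he := at_chartAt (n := 4) y
  choose U h1 h2 h3 using fun l => H884.W.leq_unit (h l) (h' l) he
  exact ⟨fun l x => U l (chartAt (Cm 4) y x), fun l => ⟨(crd_chart he).holF (h1 l), h2 l⟩,
    eventually_all.2 h3⟩

/-! ### the components of the double locus -/

theorem Lg.cmpS_fin (V : Lg) : V.cmpS.Finite := by
  have key : ∀ l k, {S | ∃ y ∈ V.G l ∩ V.G k, S = connectedComponentIn (V.G l ∩ V.G k) y}.Finite := by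
    intro l k
    obtain ⟨t, -, ht⟩ := ((V.closed l).inter (V.closed k)).isCompact.elim_nhds_subcover'
      (fun y _ => {x | x ∈ V.G l ∩ V.G k → x ∈ connectedComponentIn (V.G l ∩ V.G k) y})
      (fun y hy => V.snc.ev_cc hy) |>.imp fun t h => (⟨trivial, h⟩ : True ∧ _)
    refine (t.finite_toSet.image fun y => connectedComponentIn (V.G l ∩ V.G k) y.1).subset ?_
    rintro S ⟨x, hx, rfl⟩
    obtain ⟨y, hy, h⟩ := mem_iUnion₂.1 (ht hx)
    exact ⟨y, hy, connectedComponentIn_eq (h hx)⟩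
  refine (finite_iUnion fun l => finite_iUnion fun k => (key l k).image (Prod.mk l)).subset ?_
  rintro ⟨l, S⟩ ⟨k, -, h⟩
  exact mem_iUnion₂.2 ⟨l, k, S, h, rfl⟩

theorem Lg.mem_cmp {c : Fin V.r × Set V.W} : c ∈ V.cmp ↔ ∃ k, k ≠ c.1 ∧
    ∃ y ∈ V.G c.1 ∩ V.G k, c.2 = connectedComponentIn (V.G c.1 ∩ V.G k) y := by
  rw [Lg.cmp, dif_pos V.cmpS_fin, Finite.mem_toFinset]
  rfl

/-- `S` is a connected component of `G l ∩ G k`, `l ≠ k`. -/
structure IsCC (V : Lg) (l k : Fin V.r) (S : Set V.W) : Prop where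
  ne : k ≠ l
  conn : IsConnected S
  closed : IsClosed S
  sub : S ⊆ V.G l ∩ V.G k
  loc : ∀ y ∈ S, ∀ᶠ x in 𝓝 y, x ∈ S ↔ x ∈ V.G l ∩ V.G k
  eq : ∀ y ∈ S, S = connectedComponentIn (V.G l ∩ V.G k) y
  uniq : ∀ m, S ⊆ V.G m → m = l ∨ m = k

theorem isCC_cc {l k : Fin V.r} (h : k ≠ l) {y : V.W} (hy : y ∈ V.G l ∩ V.G k) :
    IsCC V l k (connectedComponentIn (V.G l ∩ V.G k) y) := by
  have hs := connectedComponentIn_subset (V.G l ∩ V.G k) y
  have hl : ∀ z ∈ connectedComponentIn (V.G l ∩ V.G k) y, ∀ᶠ x in 𝓝 z,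
      x ∈ connectedComponentIn (V.G l ∩ V.G k) y ↔ x ∈ V.G l ∩ V.G k := fun z hz =>
    (V.snc.ev_cc (hs hz)).mono fun x hx => ⟨@hs x, connectedComponentIn_eq hz ▸ hx⟩
  refine ⟨h, isConnected_connectedComponentIn_iff.2 hy, isClosed_of_closure_subset fun z hz => ?_,
    hs, hl, fun z hz => connectedComponentIn_eq hz, fun m hm => ?_⟩
  · have h1 := ((V.closed l).inter (V.closed k)).closure_subset_iff.2 hs hz
    obtain ⟨x, a, b⟩ := ((mem_closure_iff_frequently.1 hz).and_eventually (V.snc.ev_cc h1)).exists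
    rw [connectedComponentIn_eq a, ← connectedComponentIn_eq (b (hs a))]
    exact mem_connectedComponentIn h1
  · obtain ⟨x, ⟨a, b⟩, c⟩ :=
      ((Lg.freq2 hy).and_eventually (hl y (mem_connectedComponentIn hy))).exists
    by_contra e
    push Not at e
    exact b m e.1 e.2 (hm (c.2 a))

theorem Lg.cmp_iff {c : Fin V.r × Set V.W} : c ∈ V.cmp ↔ ∃ k, IsCC V c.1 k c.2 := by
  rw [Lg.mem_cmp]
  refine exists_congr fun k => ⟨?_, fun h => ?_⟩
  · rintro ⟨a, y, b, e⟩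
    exact e ▸ isCC_cc a b
  · obtain ⟨y, hy⟩ := h.conn.nonempty
    exact ⟨h.ne, y, h.sub hy, h.eq y hy⟩

theorem IsCC.symm {l k : Fin V.r} {S : Set V.W} (h : IsCC V l k S) : IsCC V k l S :=
  ⟨h.ne.symm, h.conn, h.closed, inter_comm _ _ ▸ h.sub, inter_comm _ _ ▸ h.loc,
    inter_comm _ _ ▸ h.eq, fun m hm => (h.uniq m hm).symm⟩

theorem IsCC.unique {l k k' : Fin V.r} {S : Set V.W} (h : IsCC V l k S) (h' : IsCC V l k' S) :
    k = k' :=
  ((h'.uniq k fun _ hx => (h.sub hx).2).resolve_left h.ne)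

theorem IsCC.eC {l k : Fin V.r} {S : Set V.W} (h : IsCC V l k S) (a : Fin V.r → ℝ) :
    V.eC a (l, S) = a k := by
  classical
  rw [Lg.eC, Finset.sum_eq_single k]
  · intro m hm e
    simp only [Finset.mem_filter, Finset.mem_univ, true_and] at hm
    exact absurd ((h.uniq m hm.2).resolve_left hm.1) e
  · intro e
    exact absurd (Finset.mem_filter.2 ⟨Finset.mem_univ _, h.ne, fun _ hx => (h.sub hx).2⟩) e

end Vale.Agent.P277Z.Val
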