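import Vale.Agent.P277Z.Val.Sk
import Vale.Agent.P277Z.Val.Man
import Vale.Agent.P277.H335.Lifts
import Vale.Agent.P277.H335.HypB

/-!
# P277, block VAL: wedges lift to a log resolution
-/

open scoped Manifold ContDiff Topology
open Vale.Agent.P272.K Vale.Agent.P285.H281.FD Vale.Agent.P277 Set Filter Metric
open Vale.Agent.P277.T2 (IsLEq IsHyp IsPar)
open Vale.Agent.P277.PH (HolF)
open Vale.Agent.P277.T3 (ThinM Lifts)

noncomputable section

namespace Vale.Agent.P277Z.Val.Lf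

/-- a coordinate of a local isomorphism has a non-zero derivative -/
theorem fderiv_coord_ne {n : ℕ} {φ : Cm n → Cm n} {w : Cm n} (h : LocIso φ w) (i : Fin n) :
    fderiv ℂ (fun z => φ z i) w ≠ 0 := by
  intro h0
  have h1 : fderiv ℂ (fun z => φ z i) w =
      (ContinuousLinearMap.proj i : Cm n →L[ℂ] ℂ).comp (fderiv ℂ φ w) :=
    ((ContinuousLinearMap.proj i : Cm n →L[ℂ] ℂ).hasFDerivAt.comp w
      h.1.differentiableAt.hasFDerivAt).fderiv
  obtain ⟨v, hv⟩ := (LinearMap.equivOfDetNeZero (fderiv ℂ φ w : Cm n →ₗ[ℂ] Cm n) h.2).surjective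
    (Pi.single i 1)
  have h2 : fderiv ℂ φ w v = Pi.single i 1 := hv
  have h3 : fderiv ℂ (fun z => φ z i) w v = 1 := by
    rw [h1]
    show fderiv ℂ φ w v i = 1
    rw [h2, Pi.single_eq_same]
  rw [h0] at h3
  exact zero_ne_one h3

/-- local equations exist -/
theorem exEq (V : Lg) (y : V.W) : ∃ ζ, V.Eq y ζ := by
  obtain ⟨t, lab, ht, -, hG⟩ := V.snc y
  have key : ∀ l, ∃ ζ : V.W → ℂ, IsLEq (V.G l) y ζ := by
    intro l
    rcases hl : lab l with _ | i
    · refine ⟨fun _ => 1, ?_, fun e _ => ⟨analyticAt_const, fun h => (one_ne_zero h).elim⟩⟩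
      filter_upwards [hG] with y' hy'
      rw [hy' l, hl]
      simp
    · refine ⟨fun y' => t y' i, ?_, fun e he => ⟨analyticAt_pi_iff.1 (ht e he).1 i,
        fun _ => fderiv_coord_ne (φ := fun z => t (e.symm z)) (ht e he) i⟩⟩
      filter_upwards [hG] with y' hy'
      rw [hy' l, hl]
      simp
  choose ζ hζ using key
  exact ⟨ζ, hζ⟩

section
variable {Y : Type} [TopologicalSpace Y] [ChartedSpace (Cm 4) Y] {G : Set Y} {y : Y} {ζ : Y → ℂ}

theorem leq_holF (h : IsLEq G y ζ) : HolF 4 ζ y := fun e he => (h.2 e he).1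

theorem leq_not_nhds (h : IsLEq G y ζ) : G ∉ 𝓝 y := by
  intro hG
  have he := PH.at_chartAt (n := 4) y
  have h1 : ∀ᶠ y' in 𝓝 y, ζ y' = 0 := by
    filter_upwards [h.1, hG] with y' e1 e2 using e1.2 e2
  refine (h.2 _ he).2 h1.self_of_nhds ?_
  have h2 : (fun z => ζ ((chartAt (Cm 4) y).symm z)) =ᶠ[𝓝 (chartAt (Cm 4) y y)] fun _ => 0 :=
    PH.ev_symm he.2 h1
  rw [h2.fderiv_eq]
  exact fderiv_const_apply 0

end

theorem closed (V : Lg) (l : Fin V.r) : IsClosed (V.G l) := by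
  rw [← isOpen_compl_iff, isOpen_iff_mem_nhds]
  intro y hy
  obtain ⟨ζ, hζ⟩ := exEq V y
  have h1 : ζ l y ≠ 0 := fun h => hy ((hζ l).1.self_of_nhds.1 h)
  filter_upwards [(hζ l).1, (holF_cont (leq_holF (hζ l))).eventually_ne h1] with y' e1 e2
    using fun h => e2 (e1.2 h)

theorem hyp (V : Lg) (l : Fin V.r) : IsHyp (V.G l) := by
  intro y hy
  obtain ⟨ζ, hζ⟩ := exEq V y
  have he := PH.at_chartAt (n := 4) y
  have h0 : ζ l y = 0 := (hζ l).1.self_of_nhds.2 hy
  obtain ⟨Ψ, h1, h2, h3, h4⟩ := H335.HY.exists_straight ((hζ l).2 _ he).1 (((hζ l).2 _ he).2 h0)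
  obtain ⟨r, hr⟩ := H335.RR.isPar_of_chart (G := V.G l) he h1 h2 h3 (by
    rw [h4, OpenPartialHomeomorph.left_inv _ he.2]
    exact h0) (by
    filter_upwards [(hζ l).1, (OpenPartialHomeomorph.open_source _).mem_nhds he.2] with y' hy' hs
    rw [h4, OpenPartialHomeomorph.left_inv _ hs]
    exact hy'.symm)
  refine ⟨_, _, r, hr, ?_⟩
  rw [Ψ.left_inv h1, OpenPartialHomeomorph.left_inv _ he.2]

theorem dense_compl (V : Lg) : Dense V.Eᶜ := by
  rw [Lg.E, compl_iUnion]
  refine dense_iInter_of_isOpen (fun l => (closed V l).isOpen_compl) fun l y => ?_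
  obtain ⟨ζ, hζ⟩ := exEq V y
  rw [mem_closure_iff_frequently]
  intro h
  refine leq_not_nhds (hζ l) ?_
  filter_upwards [h] with y' hy' using not_not.1 hy'

theorem emb_id (V : Lg) : IsOpenEmb V.X (univ : Set V.W) id where
  isOpen := isOpen_univ
  cont := continuousOn_id
  inj := injOn_id _
  isOpenMap W _ hW := by
    have h : IsOpen ((id : V.W → V.W) '' W) := by rwa [image_id]
    exact h
  hol y _ e he g := ⟨fun h => h e he, fun h => PH.holF_of he h⟩

theorem sub_E (V : Lg) (exc : Finset (Fin V.r)) : (⋃ l ∈ exc, V.G l) ⊆ V.E :=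
  iUnion₂_subset fun l _ => subset_iUnion V.G l

theorem union_eq (V : Lg) (exc : Finset (Fin V.r)) :
    (⋃ i : Fin exc.card, V.G (exc.equivFin.symm i)) = ⋃ l ∈ exc, V.G l := by
  ext y
  simp only [mem_iUnion]
  constructor
  · rintro ⟨i, hi⟩
    exact ⟨_, (exc.equivFin.symm i).2, hi⟩
  · rintro ⟨l, hl, hy⟩
    exact ⟨exc.equivFin ⟨l, hl⟩, by rwa [Equiv.symm_apply_apply]⟩

/-- the log resolution in the sense of the earlier files -/
theorem isRes {V : Lg} {X : CSp} {p : V.W → X.pt} {exc : Finset (Fin V.r)} (h : Res V X p exc) :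
    ∃ P : Bd V.X.pt, T2.IsRes (W := V.X) (Y := V.W) id p P
      (fun i : Fin exc.card => V.G (exc.equivFin.symm i)) := by
  obtain ⟨P, c, τ, hP, hamp, hc, hτ⟩ := h.amp
  have hU := union_eq V exc
  refine ⟨P, emb_id V, Function.surjective_id, h.cont, fun x g hg => h.hol x g hg, h.surj,
    fun i => closed V _, fun i => (V.conn _).isPreconnected, fun i => hyp V _, ?_, ?_, ?_, ?_,
    ⟨hP.isOpen, hP.cover, fun i j x hi hj e he => (hP.holo i j e x he hi hj).analyticAt,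
      hP.ne_zero, hP.cocycle⟩, hamp, fun z => ⟨univ, τ, isOpen_univ, mem_univ z,
      ⟨fun i x _ hi e he => (hτ.sec.holo i e x he hi).analyticAt,
        fun i j x _ hi hj => hτ.sec.change i j x hi hj⟩, ?_⟩⟩
  · rw [hU]
    exact h.emb
  · rw [hU]
    exact fun y x hy hx => h.inj y x hy hx
  · rw [hU]
    exact h.an
  · rw [hU]
    exact h.dim
  · rw [hU]
    intro y i _ hy hi
    obtain ⟨ζ, hζ⟩ := exEq V y
    obtain ⟨u, -, hu, hd⟩ := hτ.div y i ζ hi hζ
    show τ i y ≠ 0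
    rw [hd.self_of_nhds]
    refine mul_ne_zero hu (Finset.prod_ne_zero_iff.2 fun l _ => ?_)
    by_cases hl : l ∈ exc
    · exact pow_ne_zero _ fun h0 => hy (mem_biUnion hl ((hζ l).1.self_of_nhds.1 h0))
    · have h0 : c l = 0 := Nat.eq_zero_of_not_pos fun h => hl ((hc l).1 h)
      rw [h0, pow_zero]
      exact one_ne_zero

end Vale.Agent.P277Z.Val.Lf

namespace Vale.Agent.P277Z.Val

/-- (LIFTS) -/
theorem stResLifts : StResLifts := by
  intro V X p exc hX h
  obtain ⟨P, hP⟩ := Lf.isRes h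
  have h1 := H335.LI.stLifts0 V.W V.X X hX _ id p P _ hP
  rw [Lf.union_eq V exc] at h1
  exact h1

end Vale.Agent.P277Z.Val
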