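import Vale.Agent.P277Z.Val.Mod

/-!
# P277, block VAL: the statements
-/

open scoped Manifold ContDiff Topology
open Vale.Agent.P272.K Vale.Agent.P285.H281.FD Vale.Agent.P277 Set Filter
open Vale.Agent.P277.T2 (IsLEq IsCmpV)
open Vale.Agent.P277.PH (HolF)
open Vale.Agent.P277.T3 (ThinM Lifts)
open P277Z.Num (wt Slice)

noncomputable section

namespace Vale.Agent.P277Z.Val

/-- (STR) strict transforms -/
def StStr : Prop :=
  ∀ (V' V : Lg) (π : V'.W → V.W), Hom V' V π → ∃ s, IsStr V' V π s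

/-- (STRA) the discrepancies of the strict transforms -/
def StStrA : Prop :=
  ∀ (V' V : Lg) (π : V'.W → V.W) s a' a, Hom V' V π → IsStr V' V π s → Crep V' V π a' a →
    Function.Injective s ∧ ∀ l, a' (s l) = a l

/-- (GD) the discrepancies of the exceptional divisors -/
def StGd : Prop :=
  ∀ (V' V : Lg) (π : V'.W → V.W) s a' a, Hom V' V π → IsStr V' V π s → Crep V' V π a' a →
    (∀ l, -1 < a l) → ∀ k, k ∉ range s → 0 < a' k ∨ ∃ l l', l ≠ l' ∧ a l < 0 ∧ a l' < 0 ∧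
      ¬ Disjoint (V.G l) (V.G l') ∧ (1 + a l) + (1 + a l') ≤ 1 + a' k

open Classical in
/-- (UPPER) -/
def StUp : Prop :=
  ∀ (V' V : Lg) (π : V'.W → V.W) s a' a (α : ℝ), Hom V' V π → IsStr V' V π s →
    Crep V' V π a' a → Good V a → α ≤ 1 →
    V'.nA a' α ≤ V.r + ∑ l, wt α (-a l) 0 *
      (V'.cmp.filter fun c => c.1 = s l ∧ ¬ ThinM 4 1 (π '' c.2)).card

open Classical in
/-- (RK) -/
def StRK : Prop :=
  ∀ (V : Lg) (l : Fin V.r), ∃ β : ℕ, ∀ (V' : Lg) (π : V'.W → V.W) (k : Fin V'.r), Hom V' V π →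
    π '' V'.G k = V.G l →
    (V'.cmp.filter fun c => c.1 = k ∧ ¬ ThinM 4 1 (π '' c.2)).card ≤
      β + Module.finrank ℝ (V'.RG (V'.cmp.filter fun c => c.1 = k))

open Classical in
/-- (NEG3) -/
def StNeg3 : Prop :=
  ∀ (V : Lg) (Y : CSp) (ψ : V.W → Y.pt) exc, Res V Y ψ exc → ∀ l ∉ exc,
    ∀ ρ ∈ V.RG (V.cmp.filter fun c => c.1 = l ∧ DimLe Y 1 (ψ '' c.2)), ρ = 0

/-- (LIFTS) wedges lift to a log resolution -/
def StResLifts : Prop :=
  ∀ (V : Lg) (X : CSp) (p : V.W → X.pt) exc, IsNormal 4 X → Res V X p exc →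
    Lifts X (⋃ l ∈ exc, V.G l)ᶜ p

/-- (HOM) a map of log resolutions of the same normal space is a modification of models -/
def StHom : Prop :=
  ∀ (V' V : Lg) (X : CSp) (p : V.W → X.pt) (π : V'.W → V.W) exc exc', IsNormal 4 X →
    Res V X p exc → Res V' X (fun y => p (π y)) exc' → Continuous π →
    (∀ y (e' : Chart 4 V'.W) (e : Chart 4 V.W), At e' y → At e (π y) →
      AnalyticAt ℂ (fun z => e (π (e'.symm z))) (e' y)) →
    (∀ y, π y ∈ V.E → y ∈ V'.E) → (∀ k ∉ exc', π '' V'.G k ⊆ V.E) → Hom V' V π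

/-- the input of the counting argument: separation of the components -/
def Sep (Lv : ℕ → (V : Lg) → (Fin V.r → ℝ) → Prop) : Prop :=
  ∀ j V a, Lv j V a → ∃ (V' : Lg) (π : V'.W → V.W) (a' : Fin V'.r → ℝ) (s : Fin V.r → Fin V'.r),
    Lv j V' a' ∧ Hom V' V π ∧ Crep V' V π a' a ∧ IsStr V' V π s ∧
      ∀ l l', l ≠ l' → Disjoint (V'.G (s l)) (V'.G (s l'))

open Classical in
/-- the input of the counting argument: common models -/
def Up (Lv : ℕ → (V : Lg) → (Fin V.r → ℝ) → Prop) (P : ℕ → Prop) (I : Set ℝ) : Prop :=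
  ∀ j₀ V₀ a₀, Lv j₀ V₀ a₀ → Good V₀ a₀ → ∃ h : ℕ, ∀ N, j₀ ≤ N →
    ∃ (V : Lg) (π : V.W → V₀.W) (a : ℕ → Fin V.r → ℝ) (Y : CSp) (ψ : V.W → Y.pt),
      Hom V V₀ π ∧ Crep V V₀ π (a j₀) a₀ ∧ Lv N V (a N) ∧
      (∀ j, j₀ ≤ j → j < N → a j ≤ a (j + 1) ∧
        (P j → SL (AddSubmonoid.closure I) (a j) (a (j + 1)))) ∧
      Res V Y ψ (Finset.univ.filter fun k => 0 < a N k) ∧
      (Good V (a N) → ∀ α, 0 < α → α ≤ 1 → Surf V (a N) Y ψ α ∧ Top V (a N) Y ψ α h)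

/-- (VAL) only finitely many steps have the property `P` (a flipped surface) -/
def StVal : Prop :=
  ∀ (Lv : ℕ → (V : Lg) → (Fin V.r → ℝ) → Prop) (P : ℕ → Prop) (I : Set ℝ), I.Finite →
    (∀ x ∈ I, 0 ≤ x) → (∃ j V a, Lv j V a ∧ ∀ l, -1 < a l) → Sep Lv → Up Lv P I →
    ∃ J, ∀ j ≥ J, ¬ P j

end Vale.Agent.P277Z.Val
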