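import Vale.Agent.P277Z.Val.Snc
import Vale.Agent.P277.H619.T3.ThinM

/-!
# P277, block VAL: local isomorphisms, thin sets
-/

set_option linter.unusedSectionVars false

open scoped Manifold ContDiff
open Set Filter Metric Topology
open Vale.Agent.P272.K Vale.Agent.P277.PH
open Vale.Agent.P277.T2 (IsLEq)
open Vale.Agent.P277.T3 (ThinM IsAnAt thinM_of_local thinM_iUnion thinM_of_family)
open Vale.Agent.P277.H762 (Cv)

noncomputable section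

namespace Vale.Agent.P277Z.Val.U

section man
variable {M M' : Type} [TopologicalSpace M] [TopologicalSpace M'] {n n' : ℕ}
  [ChartedSpace (Cm n) M] [IsManifold 𝓘(ℂ, Cm n) ω M]

theorem thinM_mono {d : ℕ} {S S' : Set M} (h : ThinM n d S) (h' : S' ⊆ S) : ThinM n d S' :=
  let ⟨Ω, g, h1, h2, h3⟩ := h
  ⟨Ω, g, h1, h2, h'.trans h3⟩

theorem thinM_image [ChartedSpace (Cm n') M'] [IsManifold 𝓘(ℂ, Cm n') ω M'] {d : ℕ} {S : Set M'}
    (h : ThinM n' d S) {π : M' → M} (hπ : ∀ y, HolM n' n π y) : ThinM n d (π '' S) := by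
  obtain ⟨Ω, g, h1, h2, h3⟩ := h
  refine ⟨Ω, fun l p => π (g l p), h1, fun l p hp => AnM.map (h2 l p hp) (hπ _), ?_⟩
  rintro _ ⟨y, hy, rfl⟩
  obtain ⟨l, p, hp, rfl⟩ := mem_iUnion.1 (h3 hy)
  exact mem_iUnion.2 ⟨l, p, hp, rfl⟩

theorem thinM_single {d : ℕ} {Ω : Set (Cm d)} {g : Cm d → M} (h1 : IsOpen Ω)
    (h2 : ∀ p ∈ Ω, AnM n g p) : ThinM n d (g '' Ω) :=
  ⟨fun _ => Ω, fun _ => g, fun _ => h1, fun _ => h2, subset_iUnion (fun _ : ℕ => g '' Ω) 0⟩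

theorem nul_of_local [SecondCountableTopology M'] {s k : ℕ} {S : Set M'} {f : M' → Cm k}
    (h : ∀ y ∈ S, ∃ N ∈ 𝓝 y, Nul s (f '' (N ∩ S))) : Nul s (f '' S) := by
  choose! N hN hd using h
  obtain ⟨t, htT, htc, ht⟩ := TopologicalSpace.countable_cover_nhdsWithin
    (f := N) (s := S) fun p hp => mem_nhdsWithin_of_mem_nhds (hN p hp)
  have : Countable t := htc
  refine (nul_iUnion fun p : t => hd p (htT p.2)).mono ?_
  rintro _ ⟨x, hx, rfl⟩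
  obtain ⟨p, hp, hxp⟩ := mem_iUnion₂.1 (ht hx)
  exact mem_iUnion.2 ⟨⟨p, hp⟩, x, ⟨hxp, hx⟩, rfl⟩

variable [ChartedSpace (Cm n) M'] [IsManifold 𝓘(ℂ, Cm n) ω M'] {π : M' → M} {y : M'}

theorem an_loc (hπ : HolM n n π y) {c' : M' → Cm n} {ξ' : Cm n → M'} {c : M → Cm n} {ξ : Cm n → M}
    (h' : Crd c' ξ' y) (h : Crd c ξ (π y)) : AnalyticAt ℂ (fun w => c (π (ξ' w))) (c' y) :=
  Crd.an_comp (γ := fun w => π (ξ' w)) (ξ := ξ) (by rwa [h'.inv])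
    (h'.an.map (by rwa [h'.inv]))

theorem locIso_chg (hπ : HolM n n π y) {c₁' c₂' : M' → Cm n} {ξ₁' ξ₂' : Cm n → M'}
    {c₁ c₂ : M → Cm n} {ξ₁ ξ₂ : Cm n → M} (h₁' : Crd c₁' ξ₁' y) (h₂' : Crd c₂' ξ₂' y)
    (h₁ : Crd c₁ ξ₁ (π y)) (h₂ : Crd c₂ ξ₂ (π y))
    (h : LocIso (fun w => c₁ (π (ξ₁' w))) (c₁' y)) : LocIso (fun w => c₂ (π (ξ₂' w))) (c₂' y) := by
  have e1 := h₂'.chg h₁'
  have e2 := h₁.chg h₂
  have e3 : LocIso (fun w => c₁ (π (ξ₁' (c₁' (ξ₂' w))))) (c₂' y) :=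
    LocIso.comp (φ := fun w => c₁ (π (ξ₁' w))) (by rwa [h₂'.inv]) e1
  have e4 : LocIso (fun w => c₂ (ξ₁ (c₁ (π (ξ₁' (c₁' (ξ₂' w))))))) (c₂' y) :=
    LocIso.comp (φ := fun w => c₂ (ξ₁ w)) (by rwa [h₂'.inv, h₁'.inv]) e3
  refine e4.congr ?_
  filter_upwards [h₂'.tend.eventually h₁'.left, (hπ.1.tendsto.comp h₂'.tend).eventually h₁.left]
    with w f1 f2
  rw [f1]
  exact congrArg c₂ f2

theorem crd_pull (hπ : HolM n n π y) {c' : M' → Cm n} {ξ' : Cm n → M'} {c : M → Cm n}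
    {ξ : Cm n → M} (h' : Crd c' ξ' y) (h : Crd c ξ (π y))
    (hl : LocIso (fun w => c (π (ξ' w))) (c' y)) : ∃ ξ₂, Crd (fun y => c (π y)) ξ₂ y := by
  refine crd_of_isCo fun e he => ?_
  exact locIso_chg hπ h' (crd_chart he) h h hl

end man

variable {V V' : Lg} {π : V'.W → V.W} {y : V'.W}

theorem holM (h : Hom V' V π) (y : V'.W) : HolM 4 4 π y := by
  refine ⟨h.cont.continuousAt, fun f hf e' he' => ?_⟩
  have he := at_chartAt (n := 4) (π y)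
  have h1 : AnM 4 (fun z => π (e'.symm z)) (e' y) :=
    anM_of (h.cont.continuousAt.comp (e'.continuousAt_symm (e'.map_source he'.2)))
      (e := chartAt (Cm 4) (π y)) (by rwa [e'.left_inv he'.2]) (h.hol y e' _ he' he)
  exact h1.hol (by rwa [e'.left_inv he'.2])

/-- `π` is a local isomorphism at `y` -/
def LI (π : V'.W → V.W) (y : V'.W) : Prop :=
  ∀ (e' : Chart 4 V'.W) (e : Chart 4 V.W), At e' y → At e (π y) → jac π e' e y ≠ 0

section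
variable {c' : V'.W → Cm 4} {ξ' : Cm 4 → V'.W} {c : V.W → Cm 4} {ξ : Cm 4 → V.W}

theorem li_iff (h : Hom V' V π) (h' : Crd c' ξ' y) (hc : Crd c ξ (π y)) :
    LI π y ↔ LocIso (fun w => c (π (ξ' w))) (c' y) := by
  constructor
  · intro hl
    have he' := at_chartAt (n := 4) y
    have he := at_chartAt (n := 4) (π y)
    exact locIso_chg (holM h y) (crd_chart he') h' (crd_chart he) hc
      ⟨h.hol y _ _ he' he, hl _ _ he' he⟩
  · intro hl e' e he' he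
    exact (locIso_chg (holM h y) h' (crd_chart he') hc (crd_chart he) hl).2

theorem li_ev (h : Hom V' V π) (h' : Crd c' ξ' y) (hc : Crd c ξ (π y)) :
    ∀ᶠ y' in 𝓝 y, (LI π y' ↔ (fderiv ℂ (fun w => c (π (ξ' w))) (c' y')).det ≠ 0) := by
  filter_upwards [h'.eventually, h.cont.continuousAt.eventually hc.eventually] with y' e1 e2
  rw [li_iff h e1 e2]
  exact ⟨fun e => e.2, fun e => ⟨an_loc (holM h y') e1 e2, e⟩⟩

theorem li_par (h : Hom V' V π) (h' : Crd c' ξ' y) (hc : Crd c ξ (π y)) :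
    ∀ᶠ w in 𝓝 (c' y), (LI π (ξ' w) ↔ (fderiv ℂ (fun w => c (π (ξ' w))) w).det ≠ 0) := by
  filter_upwards [h'.tend.eventually (li_ev h h' hc), h'.right] with w e1 e2
  rwa [e2] at e1

end

theorem isAnAt_notLI (h : Hom V' V π) (y : V'.W) : IsAnAt 4 {y | ¬ LI π y} y := by
  have h' := crd_chart (at_chartAt (n := 4) y)
  have hc := crd_chart (at_chartAt (n := 4) (π y))
  refine ⟨1, fun _ y' => (fderiv ℂ (fun w => chartAt (Cm 4) (π y) (π ((chartAt (Cm 4) y).symm w)))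
    (chartAt (Cm 4) y y')).det, fun _ => h'.holF (an_jac (an_loc (holM h y) h' hc)), ?_⟩
  filter_upwards [li_ev h h' hc] with y' e1
  simp only [e1, not_not, forall_const]

/-- a local section -/
theorem LI.sec (h : Hom V' V π) (hl : LI π y) : ∃ σ : V.W → V'.W, Tendsto σ (𝓝 (π y)) (𝓝 y) ∧
    ∀ᶠ z in 𝓝 (π y), π (σ z) = z := by
  have h' := crd_chart (at_chartAt (n := 4) y)
  have hc := crd_chart (at_chartAt (n := 4) (π y))
  obtain ⟨ξ₂, h2⟩ := crd_pull (holM h y) h' hc ((li_iff h h' hc).1 hl)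
  have h3 : Tendsto (fun z => ξ₂ (chartAt (Cm 4) (π y) z)) (𝓝 (π y)) (𝓝 y) :=
    h2.tend.comp hc.cont
  refine ⟨_, h3, ?_⟩
  filter_upwards [hc.cont.eventually h2.right, hc.left,
    (h.cont.continuousAt.tendsto.comp h3).eventually hc.left] with z e1 e2 e3
  exact e3.symm.trans ((congrArg _ e1).trans e2)

/-- (INJ) -/
theorem LI.inj (h : Hom V' V π) (hl : LI π y) {y₁ : V'.W} (e : π y₁ = π y) : y₁ = y := by
  by_contra hne
  obtain ⟨σ, h1, h2⟩ := hl.sec h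
  obtain ⟨N₁, N, o1, o2, m1, m2, hd⟩ := t2_separation hne
  have h3 : Tendsto π (𝓝 y₁) (𝓝 (π y)) := e ▸ h.cont.continuousAt
  obtain ⟨y', e1, e2, e3, e4⟩ := ((freq_notE V' y₁).and_eventually ((h3.eventually h2).and
    (((h1.comp h3).eventually (o2.mem_nhds m2)).and (o1.mem_nhds m1)))).exists
  have e5 := h.inj y' _ e1 e2
  exact Set.disjoint_left.1 hd e4 (e5 ▸ e3)

/-- the plane `{w 0 = w 1 = 0}` -/
def pl : Cm 2 →L[ℂ] Cm 4 := (inc 3).comp (inc 2)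

/-- the projection to the plane -/
def pr : Cm 4 →L[ℂ] Cm 2 := (tl 2).comp (tl 3)

theorem pl_zero (p : Cm 2) : pl p 0 = 0 := rfl

theorem pl_one (p : Cm 2) : pl p 1 = 0 := rfl

theorem pr_pl (p : Cm 2) : pr (pl p) = p := rfl

theorem pl_pr {w : Cm 4} (h0 : w 0 = 0) (h1 : w 1 = 0) : pl (pr w) = w := by
  show inc 3 (inc 2 (tl 2 (tl 3 w))) = w
  rw [inc_tl (w := tl 3 w) h1, inc_tl h0]

theorem thin_inter {k l : Fin V.r} (hkl : k ≠ l) : ThinM 4 2 (V.G k ∩ V.G l) := by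
  have : SecondCountableTopology V.W := ChartedSpace.secondCountable_of_sigmaCompact (Cm 4) V.W
  have : Nonempty V.W := ⟨(V.conn k).1.some⟩
  refine thinM_of_local fun y hy => ?_
  obtain ⟨c, ξ, lab, h, h0, h1⟩ := exists_ch2 hkl hy.1 hy.2
  obtain ⟨Ω, o1, o2, o3⟩ := _root_.eventually_nhds_iff.1 h.crd.an.eventually
  refine ⟨_, (h.crd.cont.eventually (o2.mem_nhds o3)).and (h.crd.left.and
    ((h.mem_iff h0).and (h.mem_iff h1))), thinM_mono (thinM_single (g := fun p => ξ (pl p))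
      (o2.preimage pl.continuous) fun p hp => (o1 _ hp).comp (pl.analyticAt p)) ?_⟩
  rintro y' ⟨⟨e1, e2, e3, e4⟩, e5, e6⟩
  have e7 := pl_pr (e3.1 e5) (e4.1 e6)
  exact ⟨pr (c y'), by show pl _ ∈ Ω; rwa [e7], by simp only [e7, e2]⟩

theorem thin_notGen (V : Lg) (k : Fin V.r) : ThinM 4 2 {y | y ∈ V.G k ∧ ¬ Gen V k y} := by
  have : Nonempty V.W := ⟨(V.conn k).1.some⟩
  refine thinM_mono (thinM_iUnion fun j : {j // j ≠ k} => thin_inter j.2.symm) ?_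
  rintro y ⟨e1, e2⟩
  by_contra hcon
  exact e2 ⟨e1, fun j hj e3 => hcon (mem_iUnion.2 ⟨⟨j, hj⟩, e1, e3⟩)⟩

theorem closed_notGen (V : Lg) (k : Fin V.r) : IsClosed {y | y ∈ V.G k ∧ ¬ Gen V k y} := by
  have e : {y | y ∈ V.G k ∧ ¬ Gen V k y} = ⋃ j : {j // j ≠ k}, V.G k ∩ V.G j := by
    ext y
    constructor
    · rintro ⟨e1, e2⟩
      by_contra hcon
      exact e2 ⟨e1, fun j hj e3 => hcon (mem_iUnion.2 ⟨⟨j, hj⟩, e1, e3⟩)⟩
    · intro h
      obtain ⟨j, e1, e2⟩ := mem_iUnion.1 h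
      exact ⟨e1, fun e3 => e3.2 j j.2 e2⟩
  rw [e]
  exact isClosed_iUnion_of_finite fun j => (closed_G V k).inter (closed_G V j)

/-- an open part of a component is not thin -/
theorem not_thin {l : Fin V.r} {z : V.W} (hz : z ∈ V.G l) {B : Set V.W} (hB : ThinM 4 2 B) :
    ∃ᶠ z' in 𝓝 z, z' ∈ V.G l ∧ z' ∉ B := by
  by_contra hcon
  have h1 : ∀ᶠ z' in 𝓝 z, z' ∈ V.G l → z' ∈ B :=
    (not_frequently.1 hcon).mono fun z' e1 e2 => by_contra fun e3 => e1 ⟨e2, e3⟩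
  obtain ⟨c, ξ, lab, h, h0⟩ := exists_ch1 hz 0
  obtain ⟨T, t1, t2⟩ := cv_of_thinM hB h.crd
  have h2 := (ev_hyp_iff ((h.mem_iff h0).self_of_nhds.1 hz)).1
    ((ev_G_iff h h0 (p := fun y => c y ∈ T)).1 ((h1.and t2).mono fun y e1 e2 => e1.2 (e1.1 e2)))
  have h3 := (tendsto_inc ((h.mem_iff h0).self_of_nhds.1 hz)).eventually h.crd.right
  refine P277.H762.not_cv_nhds (k := 2) (S := tl 3 '' T) (x := tl 3 (c z)) (by simp) ?_
    (t1.image isOpen_univ (subset_univ _) fun z _ => (tl 3).analyticAt z)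
  filter_upwards [h2, h3] with u e1 e2
  rw [e2] at e1
  exact ⟨_, e1, tl_inc u⟩

/-- connectedness outside a thin set -/
theorem conn_thin {l : Fin V.r} {A B : Set V.W} (hB : ThinM 4 2 B) (hA : IsClosed A)
    (h : ∀ z ∈ V.G l, z ∈ A → z ∉ B → ∀ᶠ z' in 𝓝 z, z' ∈ V.G l → z' ∈ A) {z₀ : V.W}
    (h0 : z₀ ∈ V.G l) (h0' : ∀ᶠ z' in 𝓝 z₀, z' ∈ V.G l → z' ∈ A) : V.G l ⊆ A := by
  have h1 := conn_prop (V.conn l).2 (p := fun y => ∀ᶠ y' in 𝓝 y, y' ∈ V.G l → y' ∈ A)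
    (fun x _ hp => hp.eventually_nhds.mono fun _ h _ => h) (fun x hx hp => ?_) h0 h0'
  · exact fun y hy => (h1 y hy).self_of_nhds hy
  obtain ⟨c, ξ, lab, hc, hl⟩ := exists_ch1 hx 0
  obtain ⟨T, t1, t2⟩ := cv_of_thinM hB hc.crd
  have hx0 := (hc.mem_iff hl).self_of_nhds.1 hx
  rw [ev_G_iff hc hl, ev_hyp_iff hx0]
  have h2 : ∀ᶠ u in 𝓝 (tl 3 (c x)), ContinuousAt (fun u => ξ (inc 3 u)) u ∧ ξ (inc 3 u) ∈ V.G l ∧
      (ξ (inc 3 u) ∈ B → inc 3 u ∈ T) := by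
    filter_upwards [(tendsto_inc hx0).eventually (hc.crd.an.eventually.and (hc.mem_par.and
      (hc.crd.right.and (hc.crd.tend.eventually t2))))] with u ⟨e1, e2, e3, e4⟩
    exact ⟨e1.1.comp (inc 3).continuous.continuousAt, (e2 l).2 ⟨0, hl, rfl⟩,
      fun e5 => e3 ▸ e4 e5⟩
  obtain ⟨r, hr, hb⟩ := Metric.eventually_nhds_iff_ball.1 h2
  obtain ⟨k1, k2⟩ := conn_cv (m := 2) (isOpen_ball (x := tl 3 (c x)) (ε := r)) (convex_ball _ _)
    (t1.image isOpen_univ (subset_univ _) fun z _ => (tl 3).analyticAt z)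
  have hcl : ∀ u ∈ ball (tl 3 (c x)) r, (∃ᶠ u' in 𝓝 u, ξ (inc 3 u') ∈ A) → ξ (inc 3 u) ∈ A :=
    fun u hu h' => hA.mem_of_frequently_of_tendsto h' (hb u hu).1
  obtain ⟨y, ⟨e1, e2⟩, e3, e4⟩ := (hp.and_eventually (hc.eventually.and
    ((((tl 3).continuous.tendsto _).comp hc.crd.cont).eventually (ball_mem_nhds _ hr)))).exists
  rw [ev_G_iff e3 hl, ev_hyp_iff ((e3.mem_iff hl).self_of_nhds.1 e1)] at e2
  obtain ⟨u₀, f1, f2⟩ := mem_closure_iff_nhds.1 (k2 e4) _ e2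
  have h3 := conn_prop k1 (p := fun u => ξ (inc 3 u) ∈ A) (fun u hu hp => ?_)
    (fun u hu hp => hcl u hu.1 (hp.mono fun _ h => h.2)) f2 f1
  · filter_upwards [ball_mem_nhds _ hr] with u hu
    exact hcl u hu ((mem_closure_iff_frequently.1 (k2 hu)).mono h3)
  · have g1 := h _ (hb u hu.1).2.1 hp fun e => hu.2 ⟨_, (hb u hu.1).2.2 e, tl_inc u⟩
    filter_upwards [(hb u hu.1).1.eventually g1] with u' g2 g3
    exact g2 (hb u' g3.1).2.1

end Vale.Agent.P277Z.Val.U
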