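import Vale.Agent.P277Z.Val.USk
import Vale.Agent.P277Z.Val.Mon
import Vale.Agent.P277Z.Val.Jz0
import Vale.Agent.P277.A.Emb
import Vale.Agent.P277.H615.Step

/-!
# P277, block VAL: a common model is a log resolution of the flip
-/

open scoped Manifold ContDiff Topology
open Vale.Agent.P272.K Vale.Agent.P285.H281.FD Vale.Agent.P277 Set Filter
open Vale.Agent.P277.PH (HolF)
open Vale.Agent.P277.T3 (ThinM)
open Vale.Agent.P277.HD (pull)
open Vale.Agent.P277.H615 (FlipD comb tr emb_tr dimLe_tr pre_f)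

noncomputable section

namespace Vale.Agent.P277Z.Val.RF

theorem zpow_sum' {ι : Type} [Fintype ι] {x : ℂ} (hx : x ≠ 0) (n : ι → ℤ) :
    x ^ ∑ i, n i = ∏ i, x ^ n i := by
  classical
  refine Finset.induction_on (motive := fun s => x ^ ∑ i ∈ s, n i = ∏ i ∈ s, x ^ n i) _ (by simp)
    fun i s hi ih => ?_
  rw [Finset.sum_insert hi, Finset.prod_insert hi, zpow_add₀ hx, ih]

section gen
variable {Y X Z : CSp}

theorem lbx_mul {L M : Bd Y.pt} (hL : IsLBx Y L) (hM : IsLBx Y M) : IsLBx Y (L.mul M) where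
  isOpen i := (hL.isOpen i.1).inter (hM.isOpen i.2)
  cover x := by
    obtain ⟨i, hi⟩ := hL.cover x
    obtain ⟨j, hj⟩ := hM.cover x
    exact ⟨(i, j), hi, hj⟩
  holo i j x hi hj := hol_mul (hL.holo _ _ x hi.1 hj.1) (hM.holo _ _ x hi.2 hj.2)
  ne_zero i j x hi hj := mul_ne_zero (hL.ne_zero _ _ x hi.1 hj.1) (hM.ne_zero _ _ x hi.2 hj.2)
  cocycle i j l x hi hj hl := by
    simp only [Bd.mul]
    rw [← hL.cocycle _ _ _ x hi.1 hj.1 hl.1, ← hM.cocycle _ _ _ x hi.2 hj.2 hl.2]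
    ring

theorem lbx_pull {p : Y.pt → X.pt} (hp : ∀ y, HolMap Y X p y) {M : Bd X.pt} (hM : IsLBx X M) :
    IsLBx Y (pull p M) where
  isOpen i := (hM.isOpen i).preimage (continuous_iff_continuousAt.2 fun y => (hp y).1)
  cover y := hM.cover (p y)
  holo i j y hi hj := (hp y).2 _ (hM.holo i j _ hi hj)
  ne_zero i j _ hi hj := hM.ne_zero i j _ hi hj
  cocycle i j l _ hi hj hl := hM.cocycle i j l _ hi hj hl

/-- a line bundle which is ample over `Z` is ample over `X`, also after a twist by a line bundle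
of `X` -/
theorem amp_twist {p : Y.pt → X.pt} {f : X.pt → Z.pt} (hp : ∀ y, HolMap Y X p y)
    (hf : ∀ x, HolMap X Z f x) {Q : Bd Y.pt} {M : Bd X.pt} (hM : IsLBx X M)
    (h : RelAmple Y Z (fun y => f (p y)) Q) : RelAmple Y X p (Q.mul (pull p M)) := by
  intro x
  obtain ⟨O, k, N, s, h1, h2, h3, h4, h5, h6, h7⟩ := h (f x)
  obtain ⟨j₀, hj₀⟩ := hM.cover x
  have hne : ∀ y j, p y ∈ M.U j → p y ∈ M.U j₀ → M.g j j₀ (p y) ^ k ≠ 0 := fun y j a b =>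
    pow_ne_zero _ (hM.ne_zero j j₀ _ a b)
  refine ⟨f ⁻¹' O ∩ M.U j₀, k, N, fun l i y => s l i.1 y * M.g i.2 j₀ (p y) ^ k,
    (h1.preimage (continuous_iff_continuousAt.2 fun y => (hf y).1)).inter (hM.isOpen j₀),
    ⟨h2, hj₀⟩, h3, fun l => ⟨fun i y hy hi => hol_mul ((h4 l).holo i.1 y hy.1 hi.1)
      (hol_pow ((hp y).2 _ (hM.holo i.2 j₀ _ hi.2 hy.2)) k), fun i j y hy hi hj => ?_⟩,
    fun y i hy hi => ?_, fun y y' i j hy e1 e2 hi hj => ?_, fun y i l hy hi e1 g hg => ?_⟩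
  · show s l i.1 y * M.g i.2 j₀ (p y) ^ k = (Q.g i.1 j.1 y * M.g i.2 j.2 (p y)) ^ k *
      (s l j.1 y * M.g j.2 j₀ (p y) ^ k)
    rw [(h4 l).change i.1 j.1 y hy.1 hi.1 hj.1, ← hM.cocycle i.2 j.2 j₀ _ hi.2 hj.2 hy.2]
    simp only [Bd.pow]
    ring
  · obtain ⟨l, hl⟩ := h5 y i.1 hy.1 hi.1
    exact ⟨l, mul_ne_zero hl (hne y _ hi.2 hy.2)⟩
  · obtain ⟨l, m, e3⟩ := h6 y y' i.1 j.1 hy.1 (congrArg f e1) e2 hi.1 hj.1
    refine ⟨l, m, fun e4 => e3 (mul_right_cancel₀ (mul_ne_zero (hne y _ hi.2 hy.2)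
      (hne y' _ hj.2 (e1 ▸ hy.2))) ?_)⟩
    linear_combination e4
  · obtain ⟨n, u, G, e2, e3, e4⟩ := h7 y i.1 l hy.1 hi.1 (left_ne_zero_of_mul e1) g hg
    refine ⟨n, fun a x => u a (f x), G, fun a => (hf _).2 _ (e2 a), ?_, ?_⟩
    · simpa only [mul_div_mul_right _ _ (hne y _ hi.2 hy.2)] using e3
    · filter_upwards [e4, (hp y).1.eventually (((hM.isOpen _).inter (hM.isOpen _)).mem_nhds
        ⟨hi.2, hy.2⟩)] with y' a b
      simpa only [mul_div_mul_right _ _ (hne y' _ b.1 b.2)] using a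

end gen

variable {V : Lg} {X : CSp}

theorem lb_iff {L : Bd V.W} : IsLB 4 L ↔ IsLBx V.X L :=
  ⟨fun h => ⟨h.isOpen, h.cover, fun i j x hi hj e he => (h.holo i j e x he hi hj).analyticAt,
      h.ne_zero, h.cocycle⟩,
    fun h => ⟨h.isOpen, h.cover, fun i j e x he hi hj => (h.holo i j x hi hj e he).contDiffAt,
      h.ne_zero, h.cocycle⟩⟩

theorem holMap {p : V.W → X.pt} (h : HolTo V X p) (y : V.W) : HolMap V.X X p y :=
  ⟨h.cont.continuousAt, h.hol y⟩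

theorem emb_congr {O : Set V.W} {v v' : V.W → X.pt} (h : IsOpenEmb X O v) (e : EqOn v' v O) :
    IsOpenEmb X O v' where
  isOpen := h.isOpen
  cont := h.cont.congr e
  inj := h.inj.congr e.symm
  isOpenMap W hW o := by
    rw [(e.mono hW).image_eq]
    exact h.isOpenMap W hW o
  hol y hy c hc g := by
    rw [e hy, h.hol y hy c hc g]
    refine analyticAt_congr ?_
    filter_upwards [PH.ev_symm hc.2 (h.isOpen.mem_nhds hy)] with z hz
    rw [e hz]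

theorem thin_preimage {O : Set V.W} {v : V.W → X.pt} (h : IsOpenEmb X O v) (y₀ : V.W) {d : ℕ}
    {S : Set X.pt} (hS : DimLe X d S) : ThinM 4 d (O ∩ v ⁻¹' S) := by
  refine H60.Z.thinM_iff.2 (((hS.mono (inter_subset_left (t := v '' O))).image (Z := V.X)
    (f := h.inv y₀) ?_).mono fun y hy => ⟨v y, ⟨hy.2, y, hy.1, rfl⟩, h.inv_apply y₀ hy.1⟩)
  rintro _ ⟨-, y, hy, rfl⟩
  refine ⟨h.inv_continuousAt y₀ hy, fun g hg => ?_⟩
  rw [h.inv_apply y₀ hy] at hg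
  exact h.hol_of_analyticAt y₀ hy (PH.at_chartAt y) (hg _ (PH.at_chartAt y))

/-- a section outside the components which is locally a unit times a monomial extends -/
theorem exists_isDiv {L : Bd V.W} (hL : IsLB 4 L) {g : L.ι → V.W → ℂ} {c : Fin V.r → ℕ}
    (h1 : ∀ i j y, y ∉ V.E → y ∈ L.U i → y ∈ L.U j → g i y = L.g i j y * g j y)
    (h2 : ∀ y i ζ, y ∈ L.U i → V.Eq y ζ → ∃ u : V.W → ℂ, HolF 4 u y ∧ u y ≠ 0 ∧
      ∀ᶠ x in 𝓝 y, x ∉ V.E → g i x = u x * ∏ l, ζ l x ^ c l) : ∃ τ, IsDiv V L τ c := by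
  have key : ∀ y i ζ, y ∈ L.U i → V.Eq y ζ → ∃ u : V.W → ℂ, HolF 4 u y ∧ u y ≠ 0 ∧
      ∀ᶠ x in 𝓝 y, limUnder (𝓝[V.Eᶜ] x) (g i) = u x * ∏ l, ζ l x ^ c l ∧
        (x ∉ V.E → g i x = u x * ∏ l, ζ l x ^ c l) := by
    intro y i ζ hi hζ
    obtain ⟨u, k1, k2, k3⟩ := h2 y i ζ hi hζ
    refine ⟨u, k1, k2, ?_⟩
    filter_upwards [holF_ev (k1.mul (holF_prod (s := Finset.univ) (fun l _ => hζ.hol l) c)),
      k3.eventually_nhds] with x e1 e2
    have := mem_closure_iff_nhdsWithin_neBot.1 (V.dense x)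
    refine ⟨Tendsto.limUnder_eq (((holF_cont e1).mono_left nhdsWithin_le_nhds).congr' ?_),
      e2.self_of_nhds⟩
    filter_upwards [self_mem_nhdsWithin, mem_nhdsWithin_of_mem_nhds e2] with z e3 e4
      using (e4 e3).symm
  have k2 : ∀ y i, y ∈ L.U i → HolF 4 (fun x => limUnder (𝓝[V.Eᶜ] x) (g i)) y ∧
      ∀ᶠ x in 𝓝 y, x ∉ V.E → limUnder (𝓝[V.Eᶜ] x) (g i) = g i x := by
    intro y i hi
    obtain ⟨ζ, hζ⟩ := V.exEq y
    obtain ⟨u, k1, -, k3⟩ := key y i ζ hi hζ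
    exact ⟨(k1.mul (holF_prod (fun l _ => hζ.hol l) c)).congr (k3.mono fun x e => e.1.symm),
      k3.mono fun x e e' => e.1.trans (e.2 e').symm⟩
  refine ⟨fun i x => limUnder (𝓝[V.Eᶜ] x) (g i), ⟨fun i e y he hi =>
    ((k2 y i hi).1 e he).contDiffAt, fun i j y hi hj => ?_⟩, fun y i ζ hi hζ => ?_⟩
  · have c1 := holF_cont (k2 y i hi).1
    have c2 := holF_cont (PH.HolF.mul ((lb_iff.1 hL).holo i j y hi hj) (k2 y j hj).1)
    refine tendsto_nhds_unique_of_frequently_eq c1 c2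
      (((V.freqE y).and_eventually ((k2 y i hi).2.and ((k2 y j hj).2.and
        (((hL.isOpen i).inter (hL.isOpen j)).mem_nhds ⟨hi, hj⟩)))).mono ?_)
    rintro x ⟨e1, e2, e3, e4⟩
    rw [e2 e1, e3 e1, h1 i j x e1 e4.1 e4.2]
  · obtain ⟨u, k1, k2, k3⟩ := key y i ζ hi hζ
    exact ⟨u, k1, k2, k3.mono fun x e => e.1⟩

end Vale.Agent.P277Z.Val.RF

namespace Vale.Agent.P277Z.Val

open RF

/-- (RESF) -/
theorem resF_of (h1 : StAmpC) (h2 : StAn) : StResF := by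
  classical
  intro V X Z X' f f' k L L' p₁ q₁ s a hF p p' μ exc hC hμ hR
  have H := hF.small
  have H' := hF.small'
  have k1 : ∀ l, Ov V f p l → l ∈ exc := by
    intro l hl
    by_contra hcon
    obtain ⟨y₀, hy₀⟩ := (V.conn l).nonempty
    obtain ⟨y, hy⟩ := (U.freq_gen hy₀).exists
    obtain ⟨z, ⟨e1, e2⟩, e3⟩ :=
      ((U.not_thin hy.1 (thin_preimage hR.emb y H.dim)).and_eventually hy.eventually).exists
    refine e2 ⟨fun e4 => ?_, hl z e1⟩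
    obtain ⟨j, e5, e6⟩ := mem_iUnion₂.1 e4
    exact e3 j (fun e => hcon (e ▸ e5)) e6
  have k2 : ∀ y, y ∉ ⋃ l ∈ exc, V.G l → f (p y) ∉ Amin f := fun y hy e => by
    obtain ⟨l, e1, e2⟩ := hμ.cover y e
    exact hy (mem_iUnion₂.2 ⟨l, k1 l e2, e1⟩)
  have k3 : ∀ y, f (p y) ∉ Amin f → p' y = tr f H' (p y) := fun y hy => by
    rw [tr, ← hC.comm, pre_f H' (by rwa [hC.comm])]
  obtain ⟨P, c, τ, hP, hPa, hc, hτ⟩ := hR.amp
  have hfl := hF.flip none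
  have hS := H615.IsIso.lin hF.iso a
  set Λ := Bd.lin (fun e => (L e).pow (p₁ e)) a
  set Λ' := Bd.lin (fun e => (L' e).pow (q₁ e)) a
  have hΛ : IsLBx X Λ := hfl.lb
  have hΛ' : IsLBx X' Λ' := hfl.lb'
  obtain ⟨N, hN⟩ := h1 V X Z p f P (Bd.inv Λ) hC.hol H.holMap hP (H615.IsLBx.inv hΛ) hPa hfl.ample
  have hN' : RelAmple V.X Z (fun y => f' (p' y)) (P.mul ((pull p (Bd.inv Λ)).pow N)) := by
    have e : @Eq (V.X.pt → Z.pt) (fun y => f' (p' y)) fun y => f (p y) := funext hC.comm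
    exact e ▸ hN N le_rfl
  have hA := amp_twist (Y := V.X) (holMap hC.hol') H'.holMap (H615.IsLBx.pow hΛ' N) hN'
  have hL := lbx_mul (Y := V.X) (lbx_mul (Y := V.X) (lb_iff.1 hP) (H615.IsLBx.pow (X := V.X)
    (lbx_pull (Y := V.X) (holMap hC.hol) (H615.IsLBx.inv hΛ)) N))
    (lbx_pull (Y := V.X) (holMap hC.hol') (H615.IsLBx.pow hΛ' N))
  obtain ⟨F, hF1, hF2⟩ : ∃ F : Fin V.r → ℕ, (∀ l, (F l : ℤ) = -∑ e, a e * μ e l) ∧
      ∀ l ∉ exc, F l = 0 := by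
    have e0 : ∀ l, ¬ Ov V f p l → ∑ e, a e * μ e l = 0 := fun l hl => by simp [hμ.zero l hl]
    refine ⟨fun l => (-∑ e, a e * μ e l).toNat, fun l => Int.toNat_of_nonneg ?_, fun l hl => ?_⟩
    · by_cases e : Ov V f p l
      · exact neg_nonneg.2 (hμ.neg l none e).le
      · rw [e0 l e, neg_zero]
    · simp only [e0 l (mt (k1 l) hl), neg_zero, Int.toNat_zero]
  obtain ⟨τ', hτ'⟩ := exists_isDiv (lb_iff.2 (H615.IsLBx.inv (X := V.X) hL))
    (g := fun i y => τ i.1.1 y * ((∏ e, s e (i.1.2 e) (i.2 e) (f (p y)) ^ a e)⁻¹) ^ N)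
    (c := fun l => c l + N * F l) (fun i j y hy hi hj => by
      have e1 : _ = Λ.g i.1.2 j.1.2 (p y) * _ * Λ'.g j.2 i.2 (p' y) := hS.change (p y) (p' y)
        i.1.2 j.1.2 i.2 j.2 (mt (hC.pre y) hy) (hC.comm y) hi.1.2 hj.1.2 hi.2 hj.2
      have e2 := hΛ.ne_zero _ _ _ hi.1.2 hj.1.2
      have e3 := hΛ'.ne_zero _ _ _ hi.2 hj.2
      show _ = (P.g i.1.1 j.1.1 y * (Λ.g i.1.2 j.1.2 (p y))⁻¹ ^ N *
        Λ'.g i.2 j.2 (p' y) ^ N)⁻¹ * _
      rw [hτ.sec.change i.1.1 j.1.1 y hi.1.1 hj.1.1, e1, ← H615.IsLBx.inv_eq hΛ' hi.2 hj.2]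
      simp only [Bd.inv, mul_inv, mul_pow, inv_pow, inv_inv]
      field_simp) fun y i ζ hi hζ => by
      obtain ⟨u, a1, a2, a3⟩ := hτ.div y i.1.1 ζ hi.1.1 hζ
      choose w b1 b2 b3 using fun e => hμ.mon y ζ e (i.1.2 e) (i.2 e) hζ (hi.1.2 e) (hi.2 e)
      have b4 : ∏ e, w e y ^ a e ≠ 0 := Finset.prod_ne_zero_iff.2 fun e _ => zpow_ne_zero _ (b2 e)
      refine ⟨fun x => u x * (∏ e, w e x ^ a e)⁻¹ ^ N, a1.mul (hol_pow (X := V.X) (hol_inv
        (hol_prod _ fun e _ => H615.hol_zpow (X := V.X) (b1 e) (b2 e) _) b4) N),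
        mul_ne_zero a2 (pow_ne_zero _ (inv_ne_zero b4)), ?_⟩
      filter_upwards [a3, eventually_all.2 b3, hζ.ne] with x e1 e2 e3 e4
      have e5 : ∏ e, (∏ l, ζ l x ^ μ e l) ^ a e = (∏ l, ζ l x ^ F l)⁻¹ := by
        simp only [← Finset.prod_zpow, ← zpow_mul, ← Finset.prod_inv_distrib, ← zpow_natCast,
          ← zpow_neg, hF1, neg_neg]
        rw [Finset.prod_comm]
        refine Finset.prod_congr rfl fun l _ => ?_
        rw [zpow_sum' (e3 e4 l)]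
        simp only [mul_comm]
      simp only [e1, fun e => e2 e e4, mul_zpow, Finset.prod_mul_distrib, e5, mul_inv, inv_inv,
        mul_pow, pow_add, pow_mul', Finset.prod_pow]
      ring
  refine ⟨k1, (h2 V X' p' exc _ _ τ' hF.normal' ⟨hC.hol', ?_, ?_, fun y y' hy e => ?_, ?_,
    lb_iff.2 hL, hA, fun l => ?_, hτ'⟩).1⟩
  · refine range_eq_univ.1 (((dense_compl_of_dimLe (by norm_num) hF.normal'.dense H'.dim).mono
      fun x hx => ?_).closure_eq.symm.trans (isCompact_range hC.hol'.cont).isClosed.closure_eq).symm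
    obtain ⟨x₀, e1⟩ := H.surj (f' x)
    obtain ⟨y, rfl⟩ := hR.surj x₀
    exact ⟨y, H'.inj x _ hx ((hC.comm y).trans e1)⟩
  · exact emb_congr ((emb_tr H H' hR.emb).mono hR.emb.isOpen fun y hy => ⟨hy, k2 y hy⟩)
      fun y hy => k3 y (k2 y hy)
  · exact hR.inj y y' hy (H.inj _ _ (k2 y hy) (by rw [← hC.comm, ← hC.comm, e]))
  · refine (H'.dim.union (dimLe_tr H H' hR.dim)).mono ?_
    rintro _ ⟨y, hy, rfl⟩
    by_cases e : f (p y) ∈ Amin f
    · exact Or.inl (by rwa [mem_preimage, hC.comm])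
    · exact Or.inr ⟨p y, ⟨⟨y, hy, rfl⟩, e⟩, (k3 y e).symm⟩
  · refine ⟨fun e => by_contra fun e' => ?_, fun e => Nat.add_pos_left ((hc l).2 e) _⟩
    rw [hF2 l e', mul_zero, add_zero] at e
    exact e' ((hc l).1 e)

end Vale.Agent.P277Z.Val
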