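import Vale.Agent.P277Z.Val.USk2
import Vale.Agent.P277Z.Val.ResF
import Vale.Agent.P277Z.GH.Sk

/-!
# P277, block VAL: manifolds are normal, exceptional components, Kähler modifications
-/

open scoped Manifold ContDiff Topology
open Vale.Agent.P272.K Vale.Agent.P285.H281.FD Vale.Agent.P277 Set Filter
open Vale.Agent.P277.PH (HolF at_chartAt)
open Vale.Agent.P277.T3 (ThinM)
open Vale.Agent.P277.H60.Z (thinM_iff)

noncomputable section

namespace Vale.Agent.P277Z.Val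

namespace KB

variable {V : Lg}

theorem emb_id (V : Lg) : IsOpenEmb (Y := V.W) V.X univ fun y => y where
  isOpen := isOpen_univ
  cont := continuousOn_id
  inj := injOn_id _
  isOpenMap _ _ h := (image_id' _).symm ▸ h
  hol _ _ e he _ := ⟨fun h => h e he, PH.holF_of he⟩

theorem isReg (V : Lg) (y : V.W) : IsReg 4 V.X y := (emb_id V).isReg (mem_univ y)

theorem dense_reg (V : Lg) : Dense {x | IsReg 4 V.X x} := fun y => subset_closure (isReg V y)

/-- extension across closed sets of codimension two -/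
theorem hart {O E : Set V.W} (hO : IsOpen O) (hE : IsOpen (O \ E)) (hd : ThinM 4 2 (O ∩ E))
    {f : V.W → ℂ} (hf : ∀ x ∈ O \ E, HolF 4 f x) :
    ∃ g, (∀ x ∈ O, HolF 4 g x) ∧ ∀ x ∈ O \ E, g x = f x := by
  have h1 : ∀ x ∈ O, ∃ G, HolF 4 G x ∧ ∀ᶠ y in 𝓝 x, y ∉ E → f y = G y := fun x hx => by
    have he := at_chartAt (n := 4) x
    generalize chartAt (Cm 4) x = e at he
    obtain ⟨T, a, b⟩ := U.cv_of_thinM hd (crd_chart he)
    obtain ⟨N, c, No, xN⟩ := eventually_nhds_iff.1 (b.and ((ev_at he).and (hO.mem_nhds hx)))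
    have m : ∀ y ∈ N, e y ∈ e.target ∩ e.symm ⁻¹' N := fun y hy =>
      ⟨e.map_source (c y hy).2.1.2, by rwa [mem_preimage, e.left_inv (c y hy).2.1.2]⟩
    obtain ⟨F, k1, k2⟩ := H762.hartogs_cv (n := 2) (Ω := e.target ∩ e.symm ⁻¹' N)
      (E := e.symm ⁻¹' E) (f := fun z => f (e.symm z)) (by simp)
      (e.isOpen_inter_preimage_symm No) (by
        have : (e.target ∩ e.symm ⁻¹' N) \ e.symm ⁻¹' E = e.target ∩ e.symm ⁻¹' (N ∩ (O \ E)) :=
          Set.ext fun z => ⟨fun h => ⟨h.1.1, h.1.2, (c _ h.1.2).2.2, h.2⟩,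
            fun h => ⟨⟨h.1, h.2.1⟩, h.2.2.2⟩⟩
        exact this ▸ e.isOpen_inter_preimage_symm (No.inter hE))
      (a.mono fun z h => e.right_inv h.1.1 ▸ (c _ h.1.2).1 ⟨(c _ h.1.2).2.2, h.2⟩)
      fun z h => by
        have := hf _ ⟨(c _ h.1.2).2.2, h.2⟩ e (c _ h.1.2).2.1
        rwa [e.right_inv h.1.1] at this
    refine ⟨fun y => F (e y), (crd_chart he).holF (k1 _ (m x xN)), ?_⟩
    filter_upwards [No.mem_nhds xN] with y hy h
    rw [k2 _ ⟨m y hy, by rwa [mem_preimage, e.left_inv (c y hy).2.1.2]⟩, e.left_inv (c y hy).2.1.2]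
  have h2 : ∀ x ∈ O, ∀ G, ContinuousAt G x → (∀ᶠ y in 𝓝 x, y ∉ E → f y = G y) →
      limUnder (𝓝[Eᶜ] x) f = G x := fun x hx G a b => by
    have : (𝓝[Eᶜ] x).NeBot := mem_closure_iff_nhdsWithin_neBot.1 (mem_closure_iff_frequently.2
      (((mem_closure_iff_frequently.1 (dense_compl_of_dimLe (X := V.X) (by norm_num) (dense_reg V)
        (thinM_iff.1 hd) x)).and_eventually (hO.mem_nhds hx)).mono fun y h e => h.1 ⟨h.2, e⟩))
    exact Tendsto.limUnder_eq ((a.mono_left nhdsWithin_le_nhds).congr'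
      (EventuallyEq.symm (eventually_nhdsWithin_iff.2 b)))
  refine ⟨fun x => limUnder (𝓝[Eᶜ] x) f, fun x hx => ?_, fun x hx =>
    h2 x hx.1 f (holF_cont (hf x hx)) (.of_forall fun _ _ => rfl)⟩
  obtain ⟨G, a, b⟩ := h1 x hx
  refine a.congr ?_
  filter_upwards [hO.mem_nhds hx, holF_ev a, b.eventually_nhds] with y c d e
    using (h2 y c G (holF_cont d) e).symm

theorem open_diff {X : CSp} {O E : Set X.pt} (hO : IsOpen O) (hE : IsAn X O E) :
    IsOpen (O \ E) := by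
  refine isOpen_iff_mem_nhds.2 fun x hx => ?_
  obtain ⟨k, h, a, b⟩ := hE x hx.1
  obtain ⟨i, hi⟩ := not_forall.1 (mt b.self_of_nhds.2 hx.2)
  filter_upwards [hO.mem_nhds hx.1, b, (hol_continuousAt (a i)).eventually_ne hi] with y c d e
    using ⟨c, fun h => e (d.1 h i)⟩

end KB

/-- (NX) -/
theorem nx : StNX := fun V h =>
  have : Nonempty V.X.pt := h
  ⟨KB.dense_reg V, dimLe_empty.mono fun y hy => hy (KB.isReg V y), fun _ _ hO hE hd _ hf =>
    KB.hart hO (KB.open_diff hO hE) (thinM_iff.2 hd) hf⟩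

/-- (EXC) -/
theorem exc_iff : StExc := fun V X p exc h l => by
  refine ⟨fun hl => h.dim.mono (image_mono (subset_biUnion_of_mem (u := V.G)
    (Finset.mem_coe.2 hl))), fun hl => by_contra fun hc => ?_⟩
  obtain ⟨y, hy⟩ := (V.conn l).1
  obtain ⟨x, x1, x2⟩ := (Lg.freq1 hy).exists
  have x3 : x ∈ (⋃ k ∈ exc, V.G k)ᶜ := fun e => by
    obtain ⟨k, k1, k2⟩ := mem_iUnion₂.1 e
    exact x2 k (fun e => hc (e ▸ k1)) k2
  obtain ⟨z, ⟨z1, z2⟩, z3⟩ := ((U.not_thin x1 (RF.thin_preimage h.emb x hl)).and_eventually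
    (h.emb.isOpen.mem_nhds x3)).exists
  exact z2 ⟨z3, z, z1, rfl⟩

theorem Res.not_mem {V : Lg} {X : CSp} {p : V.W → X.pt} {exc : Finset (Fin V.r)}
    (h : Res V X p exc) {y : V.W} : p y ∈ p '' ⋃ l ∈ exc, V.G l ↔ y ∈ ⋃ l ∈ exc, V.G l :=
  ⟨fun ⟨y', a, b⟩ => by_contra fun c => c (h.inj y y' c b ▸ a), fun a => ⟨y, a, rfl⟩⟩

theorem Res.isBim {V : Lg} {X : CSp} {p : V.W → X.pt} {exc : Finset (Fin V.r)}
    (h : Res V X p exc) : St.IsBim V.X X p (p '' ⋃ l ∈ exc, V.G l) where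
  cont := h.cont
  holo := h.hol
  surj := h.surj
  an := h.an
  dense := V.dense.mono fun y a b => by
    obtain ⟨l, -, c⟩ := mem_iUnion₂.1 (h.not_mem.1 b)
    exact a (mem_iUnion.2 ⟨l, c⟩)
  inj y y' a := h.inj y y' (mt h.not_mem.2 a)
  iso (y : V.W) g a b := by
    have c : y ∈ (⋃ l ∈ exc, V.G l)ᶜ := mt h.not_mem.2 a
    refine ⟨_, h.emb.hol_of_analyticAt y c (at_chartAt y) (b _ (at_chartAt y)), ?_⟩
    filter_upwards [h.emb.isOpen.mem_nhds c] with z hz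
    exact congrArg g (h.emb.inv_apply y hz).symm

/-- (KB) -/
theorem kb_of (h1 : GH.StKR) (h2 : GH.StKProj) (h3 : GH.StKMan) : StKB := by
  intro V' V π exc χ hχ h
  obtain ⟨P, -, -, a, b, -⟩ := h.amp
  exact (h3 V'.W).1 (h2 V'.X V.X π _ P (h1 _ ((h3 V.W).2 ⟨χ, hχ⟩))
    (fun y => ⟨h.cont.continuousAt, h.hol y⟩) (fun y => subset_closure (KB.isReg V (π y)))
    (RF.lb_iff.1 a) b)

end Vale.Agent.P277Z.Val
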