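import Vale.Agent.P277Z.Val.Jz0
import Vale.Agent.P277Z.Val.Sk

/-!
# P277, block VAL: strict transforms
-/

set_option linter.unusedSectionVars false

open scoped Manifold ContDiff
open Set Filter Metric Topology
open Vale.Agent.P272.K Vale.Agent.P277.PH
open Vale.Agent.P277.T2 (IsLEq)
open Vale.Agent.P277.T3 (ThinM IsAnAt thinM_of_local thinM_iUnion thinM_of_family)
open Vale.Agent.P277.H762 (Cv)

noncomputable section

namespace Vale.Agent.P277Z.Val.U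

theorem det_ne_of_inj {m : ℕ} {γ : Cm (m + 1) → Cm (m + 1)} {w : Cm (m + 1)}
    (hγ : DifferentiableAt ℂ γ w) (h0 : w 0 = 0) (hz : ∀ j, Tm γ w 0 j = 0)
    (h : Function.Injective (fderiv ℂ (fun z => γ (inc m z)) (tl m w))) :
    (Matrix.of fun i j : Fin m => Jm γ w i.succ j.succ).det ≠ 0 := by
  intro hd
  obtain ⟨v, hv, hv'⟩ := Matrix.exists_mulVec_eq_zero_iff.2 hd
  refine hv (h ?_)
  rw [map_zero]
  have h1 : (Jm (fun z => γ (inc m z)) (tl m w)).mulVec v =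
      fderiv ℂ (fun z => γ (inc m z)) (tl m w) v := by
    have h2 : Jm (fun z => γ (inc m z)) (tl m w) = LinearMap.toMatrix'
        (fderiv ℂ (fun z => γ (inc m z)) (tl m w) : Cm m →ₗ[ℂ] Cm (m + 1)) := by
      ext i j
      rw [LinearMap.toMatrix'_apply]
      rfl
    rw [h2, LinearMap.toMatrix'_mulVec]
    rfl
  rw [← h1, ← Tm_eq hγ h0]
  funext i
  refine Fin.cases ?_ (fun i => congrFun hv' i) i
  simp [Matrix.mulVec, dotProduct, hz]

variable {V V' : Lg} {π : V'.W → V.W} {y : V'.W}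
  {c' : V'.W → Cm 4} {ξ' : Cm 4 → V'.W} {c : V.W → Cm 4} {ξ : Cm 4 → V.W}
  {lab' : Fin V'.r → Option (Fin 4)} {lab : Fin V.r → Option (Fin 4)}

theorem li_of_notE (h : Hom V' V π) (hy : y ∉ V'.E) : LI π y := h.det y hy

/-- the order of the Jacobian at a generic point of a component -/
theorem exists_jac (h : Hom V' V π) {k : Fin V'.r} (hy : Gen V' k y) (h' : Ch V' y c' ξ' lab')
    (hk : lab' k = some 0) (hc : Crd c ξ (π y)) :
    ∃ J, OrdEq (fun w => (fderiv ℂ (fun w => c (π (ξ' w))) w).det) (c' y) J := by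
  refine exists_ordEq (an_jac (an_loc (holM h y) h'.crd hc)) ((h'.mem_iff hk).self_of_nhds.1 hy.1) ?_
  filter_upwards [li_par h h'.crd hc, h'.gen_par hk hy] with w e1 e2 e3
  exact e1.1 (li_of_notE h fun e4 => e3 (e2.2.1 e4))

/-- the orders of the equations at a generic point of a component -/
theorem exists_ord_eqs (h : Hom V' V π) {k : Fin V'.r} (hy : Gen V' k y) (h' : Ch V' y c' ξ' lab')
    (hk : lab' k = some 0) (hc : Ch V (π y) c ξ lab) (l : Fin V.r) :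
    ∃ g, OrdEq (fun w => eqs c lab l (π (ξ' w))) (c' y) g := by
  have h1 : AnM 4 (fun w => π (ξ' w)) (c' y) := h'.crd.an.map (holM h _)
  refine exists_ordEq (h1.hol (by rw [h'.crd.inv]; exact hc.holF l))
    ((h'.mem_iff hk).self_of_nhds.1 hy.1) ?_
  filter_upwards [(h.cont.continuousAt.tendsto.comp h'.crd.tend).eventually hc.eqs_zero,
    h'.gen_par hk hy] with w e1 e2 e3 e4
  exact e3 (e2.2.1 (h.pre _ (mem_iUnion.2 ⟨l, (e1 l).1 e4⟩)))

theorem li_gen (h : Hom V' V π) {k : Fin V'.r} {y₀ : V'.W} (h0 : y₀ ∈ V'.G k) (hl : LI π y₀)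
    (hy : Gen V' k y) : LI π y := by
  by_contra hcon
  obtain ⟨c', ξ', lab', h', hk⟩ := exists_ch1 hy.1 0
  have hc := crd_chart (at_chartAt (n := 4) (π y))
  obtain ⟨J, hJ⟩ := exists_jac h hy h' hk hc
  have hJ1 : 1 ≤ J := by
    by_contra e
    rw [show J = 0 by omega] at hJ
    exact hcon ((li_iff h h'.crd hc).2 ⟨an_loc (holM h y) h'.crd hc, hJ.ne_zero⟩)
  refine G_subset (Z := {y | ¬ LI π y}) (fun y _ => isAnAt_notLI h y) hy.1 ?_ h0 hl
  rw [ev_G_iff h' hk]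
  filter_upwards [hJ.ge.zero_on hJ1, li_par h h'.crd hc] with w e1 e2 e3 e4
  exact e2.1 e4 (e1 e3)

theorem li_of_rank (h : Hom V' V π) {k : Fin V'.r} (hy : Gen V' k y) (h' : Ch V' y c' ξ' lab')
    (hk : lab' k = some 0) {l : Fin V.r} (hc : Ch V (π y) c ξ lab) (hl : lab l = some 0)
    (hsub : π '' V'.G k ⊆ V.G l)
    (hr : Function.Injective (fderiv ℂ (fun z => c (π (ξ' (inc 3 z)))) (tl 3 (c' y)))) :
    LI π y := by
  have h0 := (h'.mem_iff hk).self_of_nhds.1 hy.1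
  have hγ := an_loc (holM h y) h'.crd hc.crd
  obtain ⟨g, hg⟩ := exists_ord_eqs h hy h' hk hc l
  simp only [eqs, hl, Option.elim_some] at hg
  have ht := h.cont.continuousAt.tendsto.comp h'.crd.tend
  have hz : ∀ᶠ w in 𝓝 (c' y), w 0 = 0 → c (π (ξ' w)) 0 = 0 := by
    filter_upwards [ht.eventually (hc.mem_iff hl), h'.gen_par hk hy] with w e1 e2 e3
    exact e1.1 (hsub ⟨_, e2.1.2 e3, rfl⟩)
  have h1 := ordGe_one (analyticAt_pi_iff.1 hγ 0) h0 hz
  refine (li_iff h h'.crd hc.crd).2 (locIso_of_injOn hγ h0 (h1.le h0 hg) hg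
    (det_ne_of_inj hγ.differentiableAt h0 ((Tm_row hγ h1).self_of_nhds h0) hr) ?_).2
  have h2 := (ht.eventually hc.crd.left).and (h'.crd.right.and (h'.gen_par hk hy))
  filter_upwards [h2.prod_inl (𝓝 (c' y)), h2.prod_inr (𝓝 (c' y))] with p e1 e2 e3 e4
  have e5 : π (ξ' p.2) = π (ξ' p.1) := e2.1.symm.trans ((congrArg ξ e4).trans e1.1)
  have e6 := h.inj _ _ (fun e => e3 (e1.2.2.2.1 e)) e5
  rw [← e2.2.1, e6, e1.2.1]

theorem image_subset_G (h : Hom V' V π) {k : Fin V'.r} (hk : π '' V'.G k ⊆ V.E) :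
    ∃ l, π '' V'.G k ⊆ V.G l := by
  obtain ⟨y, hy⟩ := (V'.conn k).1
  obtain ⟨y', e1, l, e2⟩ := (exists_ev_of_cover hy (Z := fun l => π ⁻¹' V.G l)
    (fun l => (closed_G V l).preimage h.cont)
    (Eventually.of_forall fun y' e => (mem_iUnion (s := V.G)).1 (hk ⟨y', e, rfl⟩))).exists
  exact ⟨l, image_subset_iff.2 (G_subset
    (fun y _ => isAnAt_preimage (holM h y) (isAnAt_G V l _)) e1 e2)⟩

theorem closed_image (h : Hom V' V π) {S : Set V'.W} (hS : IsClosed S) : IsClosed (π '' S) :=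
  h.cont.isClosedMap S hS

theorem exists_li (h : Hom V' V π) {k : Fin V'.r} {l : Fin V.r} (hsub : π '' V'.G k ⊆ V.G l)
    {z : V.W} (hz : z ∈ V.G l) (hO : ∀ᶠ z' in 𝓝 z, z' ∈ V.G l → z' ∈ π '' V'.G k) :
    ∃ y, Gen V' k y ∧ LI π y := by
  by_contra hcon
  push Not at hcon
  have : SecondCountableTopology V'.W := ChartedSpace.secondCountable_of_sigmaCompact (Cm 4) V'.W
  obtain ⟨c, ξ, lab, hc, hl⟩ := exists_ch1 hz 0
  obtain ⟨T, t1, t2⟩ := cv_of_thinM (thinM_image (thin_notGen V' k) (holM h)) hc.crd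
  obtain ⟨N, n1, n2, n3⟩ := _root_.eventually_nhds_iff.1 hc.eventually
  set S : Set V'.W := {y | Gen V' k y ∧ π y ∈ N} with hS
  have h1 : Nul 3 ((fun y => c (π y)) '' S) := by
    refine nul_of_local fun y hy => ?_
    obtain ⟨c', ξ', lab', h', hk⟩ := exists_ch1 hy.1.1 0
    refine ⟨_, h'.eventually, (nul_single (g := fun z => c (π (ξ' (inc 3 z))))
      (S := (fun y => tl 3 (c' y)) '' ({y | Ch V' y c' ξ' lab'} ∩ S)) ?_).mono ?_⟩
    · rintro _ ⟨y', ⟨e1, e2⟩, rfl⟩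
      have e3 := (Ch.mem_iff e1 hk).self_of_nhds.1 e2.1.1
      refine ⟨(AnalyticAt.comp (g := fun w => c (π (ξ' w))) ?_
        ((inc 3).analyticAt _)).differentiableAt, fun e4 => ?_⟩
      · rw [inc_tl e3]
        exact an_loc (holM h y') e1.crd (n1 _ e2.2).crd
      · exact hcon y' e2.1 (li_of_rank h e2.1 e1 hk (n1 _ e2.2) hl hsub e4)
    · rintro _ ⟨y', ⟨e1, e2⟩, rfl⟩
      refine ⟨_, ⟨y', ⟨e1, e2⟩, rfl⟩, ?_⟩
      show c (π (ξ' (inc 3 (tl 3 (c' y'))))) = c (π y')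
      rw [inc_tl ((Ch.mem_iff e1 hk).self_of_nhds.1 e2.1.1), (Ch.crd e1).inv]
  have h2 := ((h1.union (nul_of_cv t1)).image (F := tl 3) fun z _ => (tl 3).differentiableAt)
  have hz0 := (hc.mem_iff hl).self_of_nhds.1 hz
  refine h2.not_nhds (tl 3 (c z)) ?_
  have h3 := (ev_hyp_iff hz0).1 ((ev_G_iff hc hl
    (p := fun y => c y ∈ (fun y => c (π y)) '' S ∪ T)).1 (by
      filter_upwards [hO, t2, n2.mem_nhds n3] with z' e1 e2 e3 e4
      obtain ⟨y, e5, rfl⟩ := e1 e4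
      by_cases e6 : Gen V' k y
      · exact Or.inl ⟨y, ⟨e6, e3⟩, rfl⟩
      · exact Or.inr (e2 ⟨y, ⟨e5, e6⟩, rfl⟩)))
  filter_upwards [h3, (tendsto_inc hz0).eventually hc.crd.right] with u e1 e2
  rw [e2] at e1
  exact ⟨_, e1, tl_inc u⟩

theorem open_image (h : Hom V' V π) {k : Fin V'.r} (hy : Gen V' k y) (hl : LI π y) :
    ∀ᶠ z in 𝓝 (π y), z ∈ V.E → z ∈ π '' V'.G k := by
  obtain ⟨σ, h1, h2⟩ := hl.sec h
  filter_upwards [h2, h1.eventually hy.eventually] with z e1 e2 e3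
  obtain ⟨j, hj⟩ := mem_iUnion.1 (h.pre (σ z) (e1.symm ▸ e3))
  by_cases e4 : j = k
  · exact ⟨σ z, e4 ▸ hj, e1⟩
  · exact absurd hj (e2 j e4)

/-- the strict transform of a component -/
theorem exists_nx (h : Hom V' V π) (l : Fin V.r) : ∃ k, π '' V'.G k = V.G l ∧
    (∀ y, Gen V' k y → LI π y) ∧
    ∀ k', k' ≠ k → π '' V'.G k' ∩ V.G l ⊆ π '' {y | y ∈ V'.G k ∧ ¬ Gen V' k y} := by
  obtain ⟨z₀, hz₀⟩ := (V.conn l).1
  obtain ⟨z, hz, k, hO⟩ := (exists_ev_of_cover hz₀ (Z := fun k => π '' V'.G k)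
    (fun k => closed_image h (closed_G V' k)) (Eventually.of_forall fun z hz => by
      obtain ⟨y, rfl⟩ := h.surj z
      obtain ⟨k, hk⟩ := mem_iUnion.1 (h.pre y (mem_iUnion.2 ⟨l, hz⟩))
      exact ⟨k, y, hk, rfl⟩)).exists
  have h1 : π '' V'.G k ⊆ V.E := (h.nex k).resolve_right fun ht => by
    obtain ⟨z', e1, e2⟩ := ((not_thin hz ht).and_eventually hO).exists
    exact e1.2 (e2 e1.1)
  obtain ⟨l', h2⟩ := image_subset_G h h1
  obtain rfl : l = l' := eq_of_ev hz (hO.mono fun z' e1 e2 => h2 (e1 e2))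
  obtain ⟨y₀, h3, h4⟩ := exists_li h h2 hz hO
  have h5 : ∀ y, Gen V' k y → LI π y := fun y hy => li_gen h h3.1 h4 hy
  have h6 : V.G l ⊆ π '' V'.G k := by
    refine conn_thin (thinM_image (thin_notGen V' k) (holM h)) (closed_image h (closed_G V' k))
      ?_ hz hO
    rintro _ - ⟨y, e1, rfl⟩ e2
    have e3 : Gen V' k y := by_contra fun e => e2 ⟨y, ⟨e1, e⟩, rfl⟩
    exact (open_image h e3 (h5 y e3)).mono fun z e4 e5 => e4 (mem_iUnion.2 ⟨l, e5⟩)
  refine ⟨k, h2.antisymm h6, h5, fun k' hk' => ?_⟩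
  rintro _ ⟨⟨y', e1, rfl⟩, e2⟩
  obtain ⟨y, e3, e4⟩ := h6 e2
  refine ⟨y, ⟨e3, fun e5 => ?_⟩, e4⟩
  exact e5.2 k' hk' ((h5 y e5).inj h e4.symm ▸ e1)

theorem thin_of_ne (h : Hom V' V π) {k : Fin V'.r}
    (hk : ∀ l, k ≠ (exists_nx h l).choose) : ThinM 4 2 (π '' V'.G k) := by
  refine (h.nex k).elim (fun h1 => ?_) id
  obtain ⟨l, h2⟩ := image_subset_G h h1
  exact thinM_mono (thinM_image (thin_notGen V' _) (holM h)) fun z hz =>
    (exists_nx h l).choose_spec.2.2 k (hk l) ⟨hz, h2 hz⟩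

/-- (JZ) -/
theorem jz (h : Hom V' V π) {k : Fin V'.r} (hk : ¬ ThinM 4 2 (π '' V'.G k)) (hy : Gen V' k y) :
    LI π y := by
  by_contra hcon
  refine hk (thin_of_ne h fun l e => hcon ((exists_nx h l).choose_spec.2.1 y (e ▸ hy)))

theorem not_thin_G (V : Lg) (l : Fin V.r) : ¬ ThinM 4 2 (V.G l) := fun h => by
  obtain ⟨z, hz⟩ := (V.conn l).1
  obtain ⟨z', e1, e2⟩ := (not_thin hz h).exists
  exact e2 e1

theorem li_str (h : Hom V' V π) {s : Fin V.r → Fin V'.r} (hs : IsStr V' V π s) {l : Fin V.r}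
    (hy : Gen V' (s l) y) : LI π y :=
  jz h (by rw [hs.img l]; exact not_thin_G V l) hy

end Vale.Agent.P277Z.Val.U

open Vale.Agent.P277Z.Val.U in
/-- (STR) -/
theorem Vale.Agent.P277Z.Val.stStr : Vale.Agent.P277Z.Val.StStr := fun _ _ _ h =>
  ⟨fun l => (exists_nx h l).choose, fun l => (exists_nx h l).choose_spec.1,
    fun _ hk => thin_of_ne h fun l e => hk ⟨l, e.symm⟩⟩
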