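import Vale.Agent.P277Z.Pos.Kah
import Vale.Agent.P277Z.Pj.Imm
import Vale.Agent.P284Y.O.Pot
import Vale.Agent.P299.H956.D1.RJac

/-!
# P277, block VAL: local potentials of Kähler metrics on manifolds
-/

set_option linter.unusedSectionVars false

open scoped Manifold ContDiff ComplexOrder Topology
open Filter Set Metric
open Vale.Agent.P272.K Vale.Agent.P277 Vale.Agent.P277.PH Vale.Agent.P277Z.Pos Vale.Agent.P277Z.Pj
open Vale.Agent.P299.H956 (jmR jmR_mulVec cHess_compR)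

noncomputable section

namespace Vale.Agent.P277Z.Val.KahL

theorem two : (2 : WithTop ℕ∞) ≤ ∞ := by norm_cast

theorem hess_re {n : ℕ} {g : Cm n → ℂ} {z : Cm n} (hg : AnalyticAt ℂ g z) :
    cHess (fun w => (g w).re) z = 0 := by
  rw [← cHess_log_norm_sq (hg.div_const (c := 2)).cexp'.contDiffAt (Complex.exp_ne_zero _)]
  congr
  funext w
  rw [Complex.norm_exp, Real.log_pow, Real.log_exp, Complex.div_ofNat_re]
  push_cast
  ring

theorem ct_conj {n m : ℕ} (J : Matrix (Fin n) (Fin m) ℂ) :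
    (J.map (starRingEnd ℂ)).conjTranspose = J.transpose := by
  ext i j
  simp [Matrix.conjTranspose_apply, Matrix.map_apply]

theorem inj_conj {n m : ℕ} {J : Matrix (Fin n) (Fin m) ℂ} (h : Function.Injective J.mulVec) :
    Function.Injective (J.map (starRingEnd ℂ)).mulVec := fun a b hab => by
  have key : ∀ v, J.mulVec (star v) = star ((J.map (starRingEnd ℂ)).mulVec v) := fun v => by
    funext i
    simp [Matrix.mulVec, dotProduct]
  exact star_injective (h (by rw [key, key, hab]))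

variable {d : ℕ} {Y : Type} [TopologicalSpace Y] [ChartedSpace (Cm d) Y] {N : ℕ} {t : Y → Cm N}
  {v : Cm N → ℝ} {u u' : Y → ℝ} {x y : Y} {e : Chart d Y}

/-- the complex Hessian of the composition with a holomorphic map -/
theorem hess_vec (ht : HolV d t y) (hv : ContDiffAt ℝ ∞ v (t y)) (hu : ∀ᶠ x in 𝓝 y, u x = v (t x))
    (he : At e y) : ContDiffAt ℝ ∞ (fun z => u (e.symm z)) (e y) ∧
      cHess (fun z => u (e.symm z)) (e y) = (jmR (fun z => t (e.symm z)) (e y)).transpose *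
        cHess v (t y) * (jmR (fun z => t (e.symm z)) (e y)).map (starRingEnd ℂ) := by
  have h1 : (fun z => u (e.symm z)) =ᶠ[𝓝 (e y)] fun z => v (t (e.symm z)) := ev_symm he.2 hu
  have h2 : ContDiffAt ℝ ∞ v (t (e.symm (e y))) := by rwa [he.left_inv]
  have h3 := cHess_compR (τ := fun z => t (e.symm z)) (h2.of_le two) (ht e he).contDiffAt
  rw [he.left_inv] at h3
  exact ⟨(h2.comp (e y) ((ht e he).contDiffAt.restrict_scalars ℝ)).congr_of_eventuallyEq h1,
    (cHess_congr h1).trans h3⟩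

theorem psdAt_vec (ht : HolV d t y) (hv : ContDiffAt ℝ ∞ v (t y))
    (hp : (cHess v (t y)).PosSemidef) (hu : ∀ᶠ x in 𝓝 y, u x = v (t x)) : PsdAt d u y :=
  fun _ he => ⟨(hess_vec ht hv hu he).1, by
    rw [(hess_vec ht hv hu he).2, ← ct_conj]
    exact hp.conjTranspose_mul_mul_same _⟩

theorem flatAt_vec (ht : HolV d t y) (hv : ContDiffAt ℝ ∞ v (t y)) (hp : cHess v (t y) = 0)
    (hu : ∀ᶠ x in 𝓝 y, u x = v (t x)) : FlatAt d u y :=
  fun _ he => ⟨(hess_vec ht hv hu he).1, by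
    rw [(hess_vec ht hv hu he).2, hp, Matrix.mul_zero, Matrix.zero_mul]⟩

theorem posAt_vec (ht : HolV d t y) (hi : Imm d t y) (hv : ContDiffAt ℝ ∞ v (t y))
    (hp : (cHess v (t y)).PosDef) (hu : ∀ᶠ x in 𝓝 y, u x = v (t x)) : PosAt d u y :=
  fun e he => ⟨(hess_vec ht hv hu he).1, by
    rw [(hess_vec ht hv hu he).2, ← ct_conj]
    refine hp.conjTranspose_mul_mul_same (inj_conj fun a b hab => hi e he ?_)
    rwa [jmR_mulVec (ht e he).differentiableAt, jmR_mulVec (ht e he).differentiableAt]⟩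

theorem flatAt_re {g : Y → ℂ} (hg : HolF d g y) (hu : ∀ᶠ x in 𝓝 y, u x = (g x).re) :
    FlatAt d u y := fun e he => by
  have h1 : (fun z => u (e.symm z)) =ᶠ[𝓝 (e y)] fun z => (g (e.symm z)).re := ev_symm he.2 hu
  exact ⟨(hg.smF.re e he).congr_of_eventuallyEq h1, (cHess_congr h1).trans (hess_re (hg e he))⟩

section pull
variable {d' : ℕ} {Y' : Type} [TopologicalSpace Y'] [ChartedSpace (Cm d') Y'] {π : Y' → Y}
  {w : Y'}

theorem ev_pull (hc : ContinuousAt π w) (he : At e (π w)) (u : Y → ℝ) :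
    ∀ᶠ x in 𝓝 w, u (π x) = u (e.symm (e (π x))) :=
  (hc.eventually (e.open_source.mem_nhds he.2)).mono fun _ h => by rw [e.left_inv h]

theorem psdAt_pull (hc : ContinuousAt π w) (he : At e (π w)) (ht : HolV d' (fun x => e (π x)) w)
    (h : PsdAt d u (π w)) : PsdAt d' (fun x => u (π x)) w :=
  psdAt_vec (v := fun z => u (e.symm z)) ht (h e he).1 (h e he).2 (ev_pull hc he u)

theorem flatAt_pull (hc : ContinuousAt π w) (he : At e (π w)) (ht : HolV d' (fun x => e (π x)) w)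
    (h : FlatAt d u (π w)) : FlatAt d' (fun x => u (π x)) w :=
  flatAt_vec (v := fun z => u (e.symm z)) ht (h e he).1 (h e he).2 (ev_pull hc he u)

theorem smR_pull (hc : ContinuousAt π w) (he : At e (π w)) (ht : HolV d' (fun x => e (π x)) w)
    (h : SmR d u (π w)) : SmR d' (fun x => u (π x)) w := fun _ he' =>
  (hess_vec (v := fun z => u (e.symm z)) ht (h e he) (ev_pull hc he u) he').1

end pull

variable [IsManifold 𝓘(ℂ, Cm d) ω Y]

/-- a function which is pluriharmonic near `y` is the real part of a holomorphic function -/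
theorem re_of_flat (h : ∀ᶠ x in 𝓝 y, FlatAt d u x) :
    ∃ g, HolF d g y ∧ ∀ᶠ x in 𝓝 y, u x = (g x).re := by
  have he := at_chartAt (n := d) y
  set e := chartAt (Cm d) y
  obtain ⟨g, hg, h1⟩ := P284Y.O.plh_re (f := fun z => u (e.symm z)) (z := e y) (by
    filter_upwards [ev_symm he.2 h, he.nhds_target] with z h1 h2
    have := h1 e (At.of_target he.1 h2)
    rwa [e.right_inv h2] at this)
  refine ⟨fun x => g (e x), (holV_chart he).comp hg, ?_⟩
  filter_upwards [(e.continuousAt he.2).eventually h1, e.open_source.mem_nhds he.2] with x h2 h3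
  rw [← h2, e.left_inv h3]

/-- local models are holomorphic immersions -/
theorem imm_model {k : ℕ} {V : Set Y} {Ω : Set (Cm N)} {h : Fin k → Cm N → ℂ}
    (hM : IsModel (HolF d) V Ω h t) (hy : y ∈ V) : HolV d t y ∧ Imm d t y := by
  have h1 : HolV d t y := holV_pi.2 fun i => (hM.hol y hy _).2
    ⟨fun z => z i, analyticAt_pi_iff.1 analyticAt_id i, Eventually.of_forall fun _ => rfl⟩
  have he := at_chartAt (n := d) y
  choose G h2 h3 using fun i => (hM.hol y hy _).1 (holV_pi.1 (holV_chart he) i)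
  exact ⟨h1, imm_of_left_inv he h1 (G := fun z i => G i z) (analyticAt_pi_iff.2 h2)
    ((eventually_all.2 h3).mono fun x hx => funext hx)⟩

/-- charts are local models -/
theorem model_chart (he : e ∈ atlas (Cm d) Y) {B : Set (Cm d)} (hB : IsOpen B)
    (hs : B ⊆ e.target) : IsModel (HolF d) (e.source ∩ e ⁻¹' B) B (fun i : Fin 0 => i.elim0) e := by
  refine ⟨e.isOpen_inter_preimage hB, hB, fun i => i.elim0, ?_,
    e.isOpenEmbedding_restrict.isEmbedding.comp (Topology.IsEmbedding.inclusion inter_subset_left),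
    fun y hy f => ⟨fun h => ⟨fun z => f (e.symm z), h _ ⟨he, hy.1⟩, ?_⟩, fun ⟨g, hg, h⟩ =>
      ((holV_chart ⟨he, hy.1⟩).comp hg).congr h.symm⟩⟩
  · ext z
    exact ⟨fun ⟨y, hy, h⟩ => ⟨h ▸ hy.2, fun i => i.elim0⟩, fun h =>
      ⟨e.symm z, ⟨e.map_target (hs h.1), by
        rw [mem_preimage, e.right_inv (hs h.1)]; exact h.1⟩, e.right_inv (hs h.1)⟩⟩
  · filter_upwards [e.open_source.mem_nhds hy.1] with x hx
    exact congrArg f (e.left_inv hx).symm

/-- `ρ x` is a potential of `χ` on the neighbourhood `B x` of `x` in the chart at `x` -/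
structure Pots (χ : Chart d Y → Cm d → Matrix (Fin d) (Fin d) ℂ) (B : Y → Set (Cm d))
    (ρ : Y → Cm d → ℝ) : Prop where
  kahler : IsKahler χ
  isOpen : ∀ x, IsOpen (B x)
  mem : ∀ x, chartAt (Cm d) x x ∈ B x
  sub : ∀ x, B x ⊆ (chartAt (Cm d) x).target
  smooth : ∀ x, ContDiff ℝ ∞ (ρ x)
  hess : ∀ x, ∀ z ∈ B x, cHess (ρ x) z = χ (chartAt (Cm d) x) z

variable {χ : Chart d Y → Cm d → Matrix (Fin d) (Fin d) ℂ} {B : Y → Set (Cm d)} {ρ : Y → Cm d → ℝ}

theorem exists_pots (hχ : IsKahler χ) : ∃ B ρ, Pots χ B ρ := by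
  have key : ∀ x : Y, ∃ (r : ℝ) (ρ : Cm d → ℝ), 0 < r ∧
      ball (chartAt (Cm d) x x) r ⊆ (chartAt (Cm d) x).target ∧ ContDiff ℝ ∞ ρ ∧
      ∀ z ∈ ball (chartAt (Cm d) x x) r, cHess ρ z = χ (chartAt (Cm d) x) z := fun x => by
    have he := at_chartAt (n := d) x
    obtain ⟨R, hR, hb⟩ := Metric.mem_nhds_iff.1 he.nhds_target
    obtain ⟨ρ, h1, h2⟩ := P284Y.O.exists_pot _ (half_pos hR) (half_lt_self hR) (χ _)
      (fun z hz => hχ.toIsHermitian.smooth_target he.1 (hb hz))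
      (fun z hz => (hχ.toIsHermitian.posDef_target he.1 (hb hz)).isHermitian) fun z hz i j k => by
        have := hχ.closed _ _ (At.of_target he.1 (hb hz)) i j k
        rwa [(chartAt (Cm d) x).right_inv (hb hz)] at this
    exact ⟨R / 2, ρ, half_pos hR, (ball_subset_ball (half_lt_self hR).le).trans hb, h1, h2⟩
  choose r ρ h1 h2 h3 h4 using key
  exact ⟨_, ρ, hχ, fun _ => isOpen_ball, fun x => mem_ball_self (h1 x), h2, h3, h4⟩

/-- the open cover -/
def cov (B : Y → Set (Cm d)) (x : Y) : Set Y :=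
  (chartAt (Cm d) x).source ∩ chartAt (Cm d) x ⁻¹' B x

/-- the potentials -/
def pot (ρ : Y → Cm d → ℝ) (x y : Y) : ℝ := ρ x (chartAt (Cm d) x y)

theorem Pots.open_cov (h : Pots χ B ρ) (x : Y) : IsOpen (cov B x) :=
  (chartAt (Cm d) x).isOpen_inter_preimage (h.isOpen x)

theorem Pots.mem_cov (h : Pots χ B ρ) (x : Y) : x ∈ cov B x := ⟨mem_chart_source _ x, h.mem x⟩

theorem Pots.model (h : Pots χ B ρ) (x : Y) :
    IsModel (HolF d) (cov B x) (B x) (fun i : Fin 0 => i.elim0) (chartAt (Cm d) x) :=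
  model_chart (chart_mem_atlas _ x) (h.isOpen x) (h.sub x)

theorem Pots.posDef (h : Pots χ B ρ) {z : Cm d} (hz : z ∈ B x) : (cHess (ρ x) z).PosDef :=
  h.hess x z hz ▸ h.kahler.toIsHermitian.posDef_target (chart_mem_atlas _ x) (h.sub x hz)

theorem Pots.hess_eq (h : Pots χ B ρ) (hy : y ∈ cov B x) (he : At e y) :
    ContDiffAt ℝ ∞ (fun z => pot ρ x (e.symm z)) (e y) ∧
      cHess (fun z => pot ρ x (e.symm z)) (e y) = χ e (e y) := by
  have hc : At (chartAt (Cm d) x) y := ⟨chart_mem_atlas _ x, hy.1⟩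
  have h1 := hess_vec (u := pot ρ x) (holV_chart hc) (h.smooth x).contDiffAt
    (Eventually.of_forall fun _ => rfl) he
  exact ⟨h1.1, by rw [h1.2, h.hess x _ hy.2, h.kahler.change e _ y he hc]; rfl⟩

theorem Pots.posAt (h : Pots χ B ρ) (hy : y ∈ cov B x) : PosAt d (pot ρ x) y := fun e he =>
  ⟨(h.hess_eq hy he).1, (h.hess_eq hy he).2 ▸ h.kahler.posDef e y he⟩

theorem Pots.flatAt (h : Pots χ B ρ) {x' : Y} (hy : y ∈ cov B x) (hy' : y ∈ cov B x') :
    FlatAt d (fun w => pot ρ x w - pot ρ x' w) y := fun e he =>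
  ⟨(h.hess_eq hy he).1.sub (h.hess_eq hy' he).1, by
    rw [cHess_sub ((h.hess_eq hy he).1.of_le two) ((h.hess_eq hy' he).1.of_le two),
      (h.hess_eq hy he).2, (h.hess_eq hy' he).2, sub_self]⟩

/-- a semipositive form with local potentials is at most a multiple of a Kähler form -/
theorem exists_le [CompactSpace Y] (hχ : IsKahler χ) {ι : Type} (U : ι → Set Y) (u : ι → Y → ℝ)
    (hU : ∀ i, IsOpen (U i)) (hc : ∀ y, ∃ i, y ∈ U i) (hp : ∀ i, ∀ y ∈ U i, PsdAt d (u i) y)
    (hf : ∀ i j, ∀ y ∈ U i, y ∈ U j → FlatAt d (fun x => u i x - u j x) y) :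
    ∃ C : ℝ, 0 < C ∧ ∀ i (e : Chart d Y) y, At e y → y ∈ U i →
      ((C : ℂ) • χ e (e y) - cHess (fun z => u i (e.symm z)) (e y)).PosSemidef := by
  obtain ⟨B, ρ, h⟩ := exists_pots hχ
  have key : ∀ x i y (e : Chart d Y), At e y → y ∈ cov B x → y ∈ U i →
      cHess (fun z => pot ρ x (e.symm z) + u i (e.symm z)) (e y) =
        χ e (e y) + cHess (fun z => u i (e.symm z)) (e y) := fun x i y e he hx hi => by
    rw [cHess_add ((h.hess_eq hx he).1.of_le two) ((hp i y hi e he).1.of_le two),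
      (h.hess_eq hx he).2]
  obtain ⟨χ', h1, h2⟩ := kah d Y (Y × ι) (fun i => cov B i.1 ∩ U i.2)
    (fun i w => pot ρ i.1 w + u i.2 w) (fun i => (h.open_cov _).inter (hU _))
    (fun y => (hc y).elim fun i hi => ⟨(y, i), h.mem_cov y, hi⟩)
    (fun i y hy e he => ⟨(h.hess_eq hy.1 he).1.add (hp _ y hy.2 e he).1, by
      rw [key _ _ y e he hy.1 hy.2]
      exact (hχ.posDef e y he).add_posSemidef (hp _ y hy.2 e he).2⟩)
    fun i j y hi hj e he => by
      have a1 := h.flatAt hi.1 hj.1 e he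
      have a2 := hf _ _ y hi.2 hj.2 e he
      simp only [add_sub_add_comm]
      exact ⟨a1.1.add a2.1, by
        rw [cHess_add (a1.1.of_le two) (a2.1.of_le two), a1.2, a2.2, add_zero]⟩
  obtain ⟨C, hC, h3⟩ := exists_comparison hχ.toIsHermitian h1.toIsHermitian
  refine ⟨C, hC, fun i e y he hi => ?_⟩
  have := (h3 e y he).add (hχ.posDef e y he).posSemidef
  rwa [h2 (y, i) e y he ⟨h.mem_cov y, hi⟩, key y i y e he (h.mem_cov y) hi, ← sub_sub,
    sub_add_eq_add_sub, sub_add_cancel] at this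

end Vale.Agent.P277Z.Val.KahL
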