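import Vale.Agent.P277.A.Basic
import Vale.Agent.P277Z.Ps.Psd
import Vale.Agent.P277Z.Pos.Rb
import Vale.Agent.P277Z.Pos.Kod

/-!
# P277, block VAL: metrics on relatively ample line bundles
-/

open scoped Manifold ContDiff Topology ComplexOrder InnerProductSpace
open Vale.Agent.P272.K Vale.Agent.P285.H281.FD Vale.Agent.P277 Set Filter Real
open Vale.Agent.P284Z (levi cHess_quad cHess_psd_iff)
open Vale.Agent.P284Y.Lib Vale.Agent.P277Z.Pos Vale.Agent.P284.H213.KL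

noncomputable section

namespace Vale.Agent.P277Z.Val.AmpC

/-! ### analysis -/

theorem unif {T : Type} [TopologicalSpace T] {K : Set T} (hK : IsCompact K) {Q : ℕ → T → Prop}
    (h : ∀ x ∈ K, ∃ N₀, ∀ᶠ x' in 𝓝 x, ∀ N, N₀ ≤ N → Q N x') :
    ∃ N₀, ∀ x ∈ K, ∀ᶠ x' in 𝓝 x, ∀ N, N₀ ≤ N → Q N x' := by
  refine hK.induction_on (p := fun S => ∃ N₀, ∀ x ∈ S, ∀ᶠ x' in 𝓝 x, ∀ N, N₀ ≤ N → Q N x')
    ⟨0, fun _ h => h.elim⟩ (fun _ _ hs ⟨N₀, H⟩ => ⟨N₀, fun x hx => H x (hs hx)⟩)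
    (fun _ _ ⟨N₁, H₁⟩ ⟨N₂, H₂⟩ => ⟨max N₁ N₂, fun x hx => hx.elim
      (fun hx => (H₁ x hx).mono fun _ h N hN => h N (le_of_max_le_left hN))
      fun hx => (H₂ x hx).mono fun _ h N hN => h N (le_of_max_le_right hN)⟩) fun x hx => ?_
  obtain ⟨N₀, H⟩ := h x hx
  exact ⟨_, mem_nhdsWithin_of_mem_nhds H.eventually_nhds, N₀, fun _ h => h⟩

variable {d : ℕ} {z v : Cm d}

theorem big {a b : Cm d → ℝ} (ha : ContDiffAt ℝ 2 a z) (hb : ContDiffAt ℝ 2 b z)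
    (h0 : ∀ᶠ z' in 𝓝 z, ∀ v, 0 ≤ levi b z' v)
    (h : ∀ v, v ≠ 0 → levi b z v ≤ 0 → 0 < levi a z v) :
    ∃ N₀ : ℕ, ∀ᶠ z' in 𝓝 z, ∀ N, N₀ ≤ N → ∀ v, v ≠ 0 → 0 < levi a z' v + N * levi b z' v := by
  obtain ⟨N₀, H⟩ := unif (isCompact_singleton (x := z).prod (isCompact_sphere (0 : Cm d) 1))
    (Q := fun N q => 0 < levi a q.1 q.2 + N * levi b q.1 q.2) (by
      rintro ⟨z', v⟩ ⟨rfl, hv⟩
      obtain ⟨N₀, hN⟩ : ∃ N₀ : ℕ, 0 < levi a z' v + N₀ * levi b z' v := by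
        rcases le_or_gt (levi b z' v) 0 with h1 | h1
        · exact ⟨0, by simpa using h v (ne_zero_of_mem_unit_sphere ⟨v, hv⟩) h1⟩
        · obtain ⟨N, hN⟩ := exists_nat_gt (-levi a z' v / levi b z' v)
          rw [div_lt_iff₀ h1] at hN
          exact ⟨N, by linarith⟩
      refine ⟨N₀, ?_⟩
      filter_upwards [((levi_contAt ha).add ((levi_contAt hb).const_mul (N₀ : ℝ))).eventually
        (lt_mem_nhds hN), (continuousAt_fst (p := (z', v))).eventually h0] with q h1 h2 N hN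
      exact h1.trans_le (add_le_add le_rfl
        (mul_le_mul_of_nonneg_right (Nat.cast_le.2 hN) (h2 q.2))))
  refine ⟨N₀, ((isCompact_sphere (0 : Cm d) 1).eventually_forall_of_forall_eventually (x₀ := z)
    (P := fun z' v => ∀ N, N₀ ≤ N → 0 < levi a z' v + N * levi b z' v)
    fun v hv => H (z, v) ⟨rfl, hv⟩).mono fun z' h1 N hN v hv => ?_⟩
  have hn := norm_pos_iff.2 hv
  have h2 := h1 (‖v‖⁻¹ • v) (by simp [norm_smul, inv_mul_cancel₀ hn.ne']) N hN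
  rw [levi_smul, levi_smul, mul_left_comm, ← mul_add] at h2
  exact (mul_pos_iff_of_pos_left (pow_pos (inv_pos.2 hn) 2)).1 h2

theorem lev_eq {u : Cm d → ℝ} (hu : ContDiffAt ℝ 2 u z) (v : Cm d) :
    lev u z v = levi u z v / 4 := by
  have h := congrArg Complex.re (cHess_quad hu (star v))
  rw [star_star, Complex.ofReal_re] at h
  rw [← h, lev]
  congr 1
  simp only [dotProduct, Matrix.mulVec, Finset.mul_sum, Pi.star_apply, Complex.star_def]
  exact Finset.sum_congr rfl fun i _ => Finset.sum_congr rfl fun j _ => by ring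

theorem ker_log {ι : Type} [Fintype ι] {F : ι → Cm d → ℂ} (h : ∀ i, AnalyticAt ℂ (F i) z) {k : ι}
    (hk : F k z ≠ 0) (hl : levi (fun y => log (∑ i, ‖F i y‖ ^ 2)) z v ≤ 0) (j : ι) :
    fderiv ℂ (fun y => F j y / F k y) z v = 0 := by
  have h1 := lev_normSq (Ps.an_vec h) v
  have h2 := dd_normSq (Ps.an_vec h) v
  have hp := Ps.sq_pos (f := F) ⟨k, hk⟩
  have h3 := lev_log (Ps.two (Ps.sm_sq h)) hp v
  rw [lev_eq (Ps.two (Ps.sm_log h ⟨k, hk⟩))] at h3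
  simp only [Ps.sq_vec] at h1 h2
  rw [h1, h2, ← Ps.sq_vec] at h3
  rw [← Ps.sq_vec] at hp
  have h4 : ∀ i, fderiv ℂ (fun y => (WithLp.toLp 2 fun i => F i y : EuclideanSpace ℂ ι)) z v i =
      fderiv ℂ (F i) z v := fun i => by
    have := ((EuclideanSpace.proj (𝕜 := ℂ) i).hasFDerivAt.comp z
      (Ps.an_vec h).differentiableAt.hasFDerivAt).fderiv
    exact (congrArg (fun L : Cm d →L[ℂ] ℂ => L v) this).symm
  set x : EuclideanSpace ℂ ι := WithLp.toLp 2 fun i => F i z with hx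
  set w := fderiv ℂ (fun y => (WithLp.toLp 2 fun i => F i y : EuclideanSpace ℂ ι)) z v
  have h5 : ‖⟪x, w⟫_ℂ‖ = ‖x‖ * ‖w‖ := by
    refine le_antisymm (norm_inner_le_norm x w) ((pow_le_pow_iff_left₀ (by positivity) (norm_nonneg _) two_ne_zero).1 ?_)
    have h6 : (‖x‖ ^ 2)⁻¹ * ‖w‖ ^ 2 ≤ ((‖x‖ ^ 2) ^ 2)⁻¹ * ‖⟪x, w⟫_ℂ‖ ^ 2 := by linarith
    rw [le_inv_mul_iff₀ (by positivity), sq (‖x‖ ^ 2), mul_assoc,
      mul_inv_cancel_left₀ hp.ne'] at h6
    rwa [mul_pow]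
  obtain h6 | ⟨r, h6⟩ := ((norm_inner_eq_norm_tfae ℂ x w).out 0 2).1 h5
  · exact absurd (congrFun (congrArg WithLp.ofLp h6) k) hk
  have h7 : ∀ i, fderiv ℂ (F i) z v = r * F i z := fun i => by
    rw [← h4, h6]
    rfl
  have h8 := ((h j).differentiableAt.hasFDerivAt.fun_mul
    ((hasDerivAt_inv hk).comp_hasFDerivAt z (h k).differentiableAt.hasFDerivAt)).fderiv
  simp only [div_eq_mul_inv]
  refine (congrArg (fun L : Cm d →L[ℂ] ℂ => L v) h8).trans ?_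
  simp only [add_apply, smul_apply, h7, smul_eq_mul,
    Function.comp]
  field_simp
  ring

/-! ### vertical vectors -/

/-- `v` is killed by the differential of `g` -/
def Vt (X : CSp) (g : Cm d → X.pt) (z v : Cm d) : Prop :=
  ∀ h, X.Hol h (g z) → fderiv ℂ (fun w => h (g w)) z v = 0

variable {X Z : CSp} {g : Cm d → X.pt}

theorem fderiv_zero {E : Type} [NormedAddCommGroup E] [NormedSpace ℂ E] {G : E → ℂ}
    {F : Cm d → E} {u : Cm d → ℂ} (hF : DifferentiableAt ℂ F z) (hG : AnalyticAt ℂ G (F z))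
    (h : u =ᶠ[𝓝 z] fun w => G (F w)) (h0 : fderiv ℂ F z v = 0) : fderiv ℂ u z v = 0 := by
  rw [h.fderiv_eq, fderiv_fun_comp z hG.differentiableAt hF, ContinuousLinearMap.comp_apply, h0,
    map_zero]

theorem fderiv_pi_zero {N : ℕ} {F : Cm d → Cm N} (h : ∀ a, AnalyticAt ℂ (fun w => F w a) z) :
    fderiv ℂ F z v = 0 ↔ ∀ a, fderiv ℂ (fun w => F w a) z v = 0 := by
  rw [show fderiv ℂ F z = _ from fderiv_pi fun a => (h a).differentiableAt]
  exact funext_iff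

section model
variable {V : Set X.pt} {N k : ℕ} {Ω : Set (Cm N)} {h : Fin k → Cm N → ℂ} {φ : X.pt → Cm N}

theorem an_model (hm : IsModel X.Hol V Ω h φ) (hg : HolAt X g z) (hz : g z ∈ V) (a : Fin N) :
    AnalyticAt ℂ (fun w => φ (g w) a) z := hg.analyticAt (hm.isCoord.hol a _ hz)

theorem vt_iff (hm : IsModel X.Hol V Ω h φ) (hg : HolAt X g z) (hz : g z ∈ V) :
    Vt X g z v ↔ fderiv ℂ (fun w => φ (g w)) z v = 0 := by
  refine ⟨fun H => (fderiv_pi_zero (an_model hm hg hz)).2 fun a => H _ (hm.isCoord.hol a _ hz),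
    fun H f hf => ?_⟩
  obtain ⟨G, hG, e⟩ := (hm.hol _ hz f).1 hf
  exact fderiv_zero (AnalyticAt.pi (an_model hm hg hz)).differentiableAt hG (hg.1.eventually e) H

end model

/-- smooth functions on `X` -/
def Bas (X : CSp) (θ : X.pt → ℝ) : Prop :=
  ∀ (d : ℕ) (g : Cm d → X.pt) (z : Cm d), HolAt X g z → ContDiffAt ℝ ∞ (fun w => θ (g w)) z ∧
    ∀ v, Vt X g z v → levi (fun w => θ (g w)) z v = 0 ∧ gsq (fun w => θ (g w)) z v = 0

theorem bump {O : Set X.pt} (hO : IsOpen O) {x : X.pt} (hx : x ∈ O) : ∃ θ : X.pt → ℝ,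
    (∀ᶠ x' in 𝓝 x, θ x' ≠ 0) ∧ (∀ x' ∉ O, θ =ᶠ[𝓝 x'] 0) ∧ Bas X θ := by
  obtain ⟨N, k, V, Ω, h, φ, hV, hm⟩ := X.model x
  obtain ⟨hc, c, c0, hcl⟩ := Kod.small hm hV (hO.mem_nhds hx)
  have hOV := hO.inter hm.isOpen
  let β : Cm N → ℝ := fun u => expNegInvGlue (c - nsq (u - φ x))
  have hβ : ContDiff ℝ ∞ β := expNegInvGlue.contDiff.comp
    (contDiff_const.sub (RbAux.nsq_sm.comp (contDiff_id.sub contDiff_const)))
  have h0 : ∀ x' ∉ O ∩ V, (O ∩ V).indicator (fun x' => β (φ x')) =ᶠ[𝓝 x'] 0 := fun x' hx' => by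
    filter_upwards [(hcl c le_rfl).isOpen_compl.mem_nhds fun h => hx' h.1] with y hy
    by_cases h1 : y ∈ O ∩ V
    · rw [indicator_of_mem h1]
      exact expNegInvGlue.zero_of_nonpos (sub_nonpos.2 (le_of_not_ge fun h => hy ⟨h1, h⟩))
    · exact indicator_of_notMem h1 _
  refine ⟨(O ∩ V).indicator fun x' => β (φ x'), ?_, fun x' hx' => h0 x' fun h => hx' h.1,
    fun d g z hg => ?_⟩
  · filter_upwards [hOV.mem_nhds ⟨hx, hV⟩, (hc.continuousAt (hm.isOpen.mem_nhds hV)).eventually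
      (gt_mem_nhds (a := c) (by simpa [nsq] using c0))] with y h1 h2
    rw [indicator_of_mem h1]
    exact (expNegInvGlue.pos_of_pos (sub_pos.2 h2)).ne'
  by_cases hz : g z ∈ O ∩ V
  · have e : (fun w => (O ∩ V).indicator (fun x' => β (φ x')) (g w)) =ᶠ[𝓝 z] fun w => β (φ (g w)) :=
      (hg.1.eventually (hOV.mem_nhds hz)).mono fun w hw => indicator_of_mem hw _
    have ha := AnalyticAt.pi (an_model hm hg hz.2)
    refine ⟨(hβ.contDiffAt.comp z (ha.contDiffAt.restrict_scalars ℝ)).congr_of_eventuallyEq e,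
      fun v hv => ?_⟩
    rw [levi_congr e, gsq_congr e, levi_hol ha (hβ.contDiffAt.of_le two_le_inf),
      gsq_hol ha.differentiableAt (hβ.differentiable (by simp) _), (vt_iff hm hg hz.2).1 hv]
    simp [levi, gsq]
  · have e : (fun w => (O ∩ V).indicator (fun x' => β (φ x')) (g w)) =ᶠ[𝓝 z] fun _ => 0 :=
      hg.1.eventually (h0 _ hz)
    refine ⟨contDiffAt_const.congr_of_eventuallyEq e, fun v _ => ?_⟩
    rw [levi_congr e, gsq_congr e]
    simp [levi, gsq]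

/-! ### metrics -/

/-- `ψ` is a family of weights for `L` over `S` -/
def Chg {T : Type} (L : Bd T) (S : Set T) (ψ : L.ι → T → ℝ) : Prop :=
  ∀ i j, ∀ x ∈ S, x ∈ L.U i → x ∈ L.U j → ψ i x = ψ j x + log (‖L.g i j x‖ ^ 2)

variable {f : X.pt → Z.pt} {L : Bd X.pt}

/-- the metric of Fubini and Study -/
theorem fs (hL : IsLBx X L) (hA : RelAmple X Z f L) (z₀ : Z.pt) :
    ∃ (O : Set Z.pt) (u : L.ι → X.pt → ℝ), IsOpen O ∧ z₀ ∈ O ∧ Chg L (f ⁻¹' O) u ∧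
      ∀ i (d : ℕ) (g : Cm d → X.pt) (z : Cm d), HolAt X g z → HolAt Z (fun w => f (g w)) z →
        f (g z) ∈ O → g z ∈ L.U i → ContDiffAt ℝ ∞ (fun w => u i (g w)) z ∧
        ∀ v, 0 ≤ levi (fun w => u i (g w)) z v ∧ (levi (fun w => u i (g w)) z v ≤ 0 →
          Vt Z (fun w => f (g w)) z v → Vt X g z v) := by
  obtain ⟨O, k, N, s, hO, hz₀, hk, hs, hnz, -, hj⟩ := hA z₀
  have k0 : (0 : ℝ) < k := Nat.cast_pos.2 hk
  refine ⟨O, fun i x => (k : ℝ)⁻¹ * log (∑ l, ‖s l i x‖ ^ 2), hO, hz₀, fun i j x hx hi hj' => ?_,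
    fun i d g z hg hfg hz hi => ?_⟩
  · have h1 : ∑ l, ‖s l i x‖ ^ 2 = (‖L.g i j x‖ ^ 2) ^ k * ∑ l, ‖s l j x‖ ^ 2 := by
      rw [Finset.mul_sum]
      refine Finset.sum_congr rfl fun l _ => ?_
      rw [(hs l).change i j x hx hi hj', norm_mul, mul_pow, ← pow_mul, mul_comm 2 k, pow_mul,
        ← norm_pow (L.g i j x) k]
      rfl
    have h2 := pow_ne_zero 2 (norm_ne_zero_iff.2 (hL.ne_zero i j x hi hj'))
    have h3 := Ps.sq_pos (n := 0) (f := fun l _ => s l j x) (z := 0) (hnz x j hx hj')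
    beta_reduce
    rw [h1, log_mul (pow_ne_zero k h2) h3.ne', log_pow, mul_add, inv_mul_cancel_left₀ k0.ne',
      add_comm]
  have ha : ∀ l, AnalyticAt ℂ (fun w => s l i (g w)) z := fun l =>
    hg.analyticAt ((hs l).holo i _ hz hi)
  obtain ⟨l, hl⟩ := hnz _ i hz hi
  have h1 := Ps.sm_log ha ⟨l, hl⟩
  refine ⟨contDiffAt_const.mul h1, fun v => ?_⟩
  rw [levi_const_mul (Ps.two h1)]
  refine ⟨mul_nonneg (inv_pos.2 k0).le
    ((cHess_psd_iff (Ps.two h1)).1 (Ps.psd_log ha ⟨l, hl⟩) v), fun h2 hv h hh => ?_⟩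
  obtain ⟨M, γ, G, g1, g2, g3⟩ := hj _ i l hz hi hl h hh
  have a1 : ∀ a, AnalyticAt ℂ (fun w => γ a (f (g w))) z := fun a => hfg.analyticAt (g1 a)
  have a2 : ∀ m, AnalyticAt ℂ (fun w => s m i (g w) / s l i (g w)) z := fun m =>
    (ha m).fun_div (ha l) hl
  have b1 := (AnalyticAt.pi a1).differentiableAt
  have b2 := (AnalyticAt.pi a2).differentiableAt
  refine fderiv_zero (b1.prodMk b2) g2 (hg.1.eventually g3) ?_
  rw [b1.fderiv_prodMk b2]
  exact Prod.ext ((fderiv_pi_zero a1).2 fun a => hv _ (g1 a)) ((fderiv_pi_zero a2).2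
    (ker_log ha hl (nonpos_of_mul_nonpos_right h2 (inv_pos.2 k0))))

/-- a metric over an open set, semipositive, and positive on the vectors which are not vertical -/
theorem loc (hL : IsLBx X L) (hA : RelAmple X Z f L) (z₀ : Z.pt) :
    ∃ (O : Set Z.pt) (η : L.ι → X.pt → ℝ), IsOpen O ∧ z₀ ∈ O ∧ Chg L (f ⁻¹' O) η ∧
      ∀ i (d : ℕ) (g : Cm d → X.pt) (z : Cm d), HolAt X g z → HolAt Z (fun w => f (g w)) z →
        f (g z) ∈ O → g z ∈ L.U i → ContDiffAt ℝ ∞ (fun w => η i (g w)) z ∧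
        ∀ v, 0 ≤ levi (fun w => η i (g w)) z v ∧
          (levi (fun w => η i (g w)) z v ≤ 0 → Vt X g z v) := by
  obtain ⟨O, u, hO, hz₀, hc, H⟩ := fs hL hA z₀
  obtain ⟨N, k, V, Ω, h, φ, hV, hm⟩ := Z.model z₀
  refine ⟨O ∩ V, fun i x => u i x + nsq (φ (f x)), hO.inter hm.isOpen, ⟨hz₀, hV⟩,
    fun i j x hx hi hj => by beta_reduce; rw [hc i j x hx.1 hi hj]; ring,
    fun i d g z hg hfg hz hi => ?_⟩
  obtain ⟨h1, h2⟩ := H i d g z hg hfg hz.1 hi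
  have ha := an_model hm hfg hz.2
  have h3 := (Kod.psd_nsq ha).1
  refine ⟨h1.add h3, fun v => ?_⟩
  rw [levi_add (Ps.two h1) (Ps.two h3), levi_hol (u := nsq) (AnalyticAt.pi ha)
    (RbAux.nsq_sm.contDiffAt.of_le two_le_inf), RbAux.levi_nsq']
  by_cases h4 : fderiv ℂ (fun w => φ (f (g w))) z v = 0
  · rw [h4, show nsq (0 : Cm N) = 0 by simp [nsq], mul_zero, add_zero]
    exact ⟨(h2 v).1, fun h5 => (h2 v).2 h5 ((vt_iff hm hfg hz.2).2 h4)⟩
  · have h5 := RbAux.nsq_pos h4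
    exact ⟨by linarith [(h2 v).1], fun h6 => absurd h6 (by linarith [(h2 v).1])⟩

/-- a global metric which is positive on vertical vectors -/
theorem rel (hL : IsLBx X L) (hA : RelAmple X Z f L) : ∃ ψ : L.ι → X.pt → ℝ, Chg L univ ψ ∧
    ∀ i (d : ℕ) (g : Cm d → X.pt) (z : Cm d), HolAt X g z → HolAt Z (fun w => f (g w)) z →
      g z ∈ L.U i → ContDiffAt ℝ ∞ (fun w => ψ i (g w)) z ∧
      ∀ v, Vt Z (fun w => f (g w)) z v → ¬ Vt X g z v → 0 < levi (fun w => ψ i (g w)) z v := by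
  classical
  choose O u hO hz₀ hc H using fs hL hA
  choose θ t1 t2 t3 using fun z₀ => bump (hO z₀) (hz₀ z₀)
  obtain ⟨T, -, hT⟩ := isCompact_univ.elim_nhds_subcover (fun z₀ => {x | θ z₀ x ≠ 0})
    fun z₀ _ => t1 z₀
  have ex : ∀ x, ∃ a : T, θ a x ≠ 0 ∧ x ∈ O a := fun x => by
    obtain ⟨a, ha, h⟩ := mem_iUnion₂.1 (hT (mem_univ x))
    exact ⟨⟨a, ha⟩, h, by_contra fun h' => h (t2 a x h').self_of_nhds⟩
  refine ⟨fun i x => log (∑ a : T, θ a (f x) ^ 2 * exp (u a i x)), fun i j x _ hi hj => ?_,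
    fun i d g z hg hfg hi => ?_⟩
  · have h2 := pow_pos (norm_pos_iff.2 (hL.ne_zero i j x hi hj)) 2
    have h1 : ∑ a : T, θ a (f x) ^ 2 * exp (u a i x) =
        (∑ a : T, θ a (f x) ^ 2 * exp (u a j x)) * ‖L.g i j x‖ ^ 2 := by
      rw [Finset.sum_mul]
      refine Finset.sum_congr rfl fun a _ => ?_
      by_cases h : f x ∈ O a
      · rw [hc a i j x h hi hj, exp_add, exp_log h2, mul_assoc]
      · simp [(t2 a _ h).self_of_nhds]
    obtain ⟨a, ha, -⟩ := ex (f x)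
    beta_reduce
    rw [h1, log_mul (Finset.sum_pos' (fun _ _ => by positivity)
      ⟨a, Finset.mem_univ _, by positivity⟩).ne' h2.ne']
  set S : Finset T := Finset.univ.filter fun a : T => f (g z) ∈ O a with hS'
  have e : (fun w => log (∑ a : T, θ a (f (g w)) ^ 2 * exp (u a i (g w)))) =ᶠ[𝓝 z]
      fun w => log (∑ a ∈ S, θ a.1 (f (g w)) ^ 2 * exp (u a.1 i (g w))) :=
    (glue_ev (θ := fun (a : T) w => θ a (f (g w))) (fun a : T => f (g z) ∈ O a)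
      (fun a h => hfg.1.eventually (t2 a _ h)) fun a w => exp (u a i (g w))).mono fun w hw =>
        congrArg log hw
  have hθ := fun a : T => t3 a d _ z hfg
  have hu := fun (a : T) (h : a ∈ S) => H a i d g z hg hfg (Finset.mem_filter.1 h).2 hi
  obtain ⟨a, ha, ha'⟩ := ex (f (g z))
  have hm : a ∈ S := Finset.mem_filter.2 ⟨Finset.mem_univ _, ha'⟩
  have hS : 0 < ∑ a ∈ S, θ a.1 (f (g z)) ^ 2 * exp (u a.1 i (g z)) :=
    Finset.sum_pos' (fun _ _ => by positivity) ⟨a, hm, by positivity⟩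
  refine ⟨((ContDiffAt.sum fun a h => ((hθ a).1.pow 2).mul (hu a h).1.exp).log
    hS.ne').congr_of_eventuallyEq e, fun v hv hv' => ?_⟩
  rw [levi_congr e]
  refine lt_of_lt_of_le (div_pos ?_ hS) (levi_glue' (w := v) _ (fun a _ => Ps.two (hθ a).1)
    (fun a h => Ps.two (hu a h).1) hS)
  simp only [fun a => ((hθ a).2 v hv).1, fun a => ((hθ a).2 v hv).2, mul_zero, sub_zero, zero_add]
  exact Finset.sum_pos' (fun b h => mul_nonneg (exp_pos _).le
    (mul_nonneg (sq_nonneg _) ((hu b h).2 v).1)) ⟨a, hm, mul_pos (exp_pos _)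
      (mul_pos (by positivity) (lt_of_not_ge fun h => hv' (((hu a hm).2 v).2 h hv)))⟩

end Vale.Agent.P277Z.Val.AmpC
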