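import Vale.Agent.P277Z.Val.USk
import Vale.Agent.P277Z.Val.AmpA

/-!
# P277, block VAL: ample over ample
-/

open scoped Manifold ContDiff Topology ComplexOrder
open Vale.Agent.P272.K Vale.Agent.P285.H281.FD Vale.Agent.P277 Set Filter Real
open Vale.Agent.P301.H599 (LineBundle)
open Vale.Agent.P277.HD (pull)
open Vale.Agent.P277.H60.Z (XH)
open Vale.Agent.P284Z (levi)
open Vale.Agent.P284Y.Lib Vale.Agent.P277Z.Pos

noncomputable section

namespace Vale.Agent.P277Z.Val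

namespace AmpC

variable {n : ℕ} {W : Type} [TopologicalSpace W] [ChartedSpace (Cm n) W]
  [IsManifold 𝓘(ℂ, Cm n) ω W] {e : Chart n W} {y : W}

theorem posAt_chart {u : W → ℝ} (he : At e y) (h : ContDiffAt ℝ ∞ (fun z => u (e.symm z)) (e y))
    (h' : ∀ v, v ≠ 0 → 0 < levi (fun z => u (e.symm z)) (e y) v) : PosAt n u y := fun e' he' => by
  have h1 := (RbAux.sm_pull he' he h).congr_of_eventuallyEq (RbAux.ev_tr he' he u)
  refine ⟨h1, RbAux.posDef_of_levi (Ps.two h1) fun v hv => ?_⟩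
  rw [levi_congr (RbAux.ev_tr he' he u),
    RbAux.levi_pull he' he (v := fun z => u (e.symm z)) (Ps.two h)]
  exact h' _ (RbAux.D_ne he' he hv)

omit [IsManifold 𝓘(ℂ, Cm n) ω W] in
theorem posOn_of {ι : Type} {L : LineBundle n W ι} {Ω : Set W} (hΩ : IsOpen Ω) {ψ : ι → W → ℝ}
    (hc : ∀ i j, ∀ y ∈ Ω, y ∈ L.U i → y ∈ L.U j → ψ i y = ψ j y + log (‖L.g i j y‖ ^ 2))
    (h : ∀ y ∈ Ω, ∃ j, y ∈ L.U j ∧ PosAt n (ψ j) y) : PosOn L Ω ψ := by
  refine ⟨fun i y hy hi e he => ?_, hc⟩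
  obtain ⟨j, hj, hp⟩ := h y hy
  have h1 := Ps.flatAt_log (n := n) (fun e he => L.holo i j e y he hi hj) (L.ne_zero i j y hi hj)
    e he
  have h2 : (fun z => ψ i (e.symm z)) =ᶠ[𝓝 (e y)]
      fun z => ψ j (e.symm z) + log (‖L.g i j (e.symm z)‖ ^ 2) :=
    RbAux.ev_ch he (p := fun y => ψ i y = ψ j y + log (‖L.g i j y‖ ^ 2)) (by
      filter_upwards [hΩ.mem_nhds hy, (L.isOpen i).mem_nhds hi, (L.isOpen j).mem_nhds hj]
        with x a b c using hc i j x a b c)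
  refine ⟨((hp e he).1.add h1.1).congr_of_eventuallyEq h2, ?_⟩
  rw [C2.cHess_congr h2, C2.cHess_add (Ps.two (hp e he).1) (Ps.two h1.1), h1.2, add_zero]
  exact (hp e he).2

variable [T2Space W] [CompactSpace W]

theorem holAt_symm {z : Cm n} (he : e ∈ atlas (Cm n) W) (hz : z ∈ e.target) :
    HolAt (XH n W) e.symm z := by
  refine ⟨e.continuousAt_symm hz, fun f hf => ?_⟩
  have := hf e (At.of_target he hz)
  rwa [e.right_inv hz] at this

theorem not_vt (he : At e y) {v : Cm n} (hv : v ≠ 0) : ¬ Vt (XH n W) e.symm (e y) v := fun h => by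
  have h1 : ∀ a, (XH n W).Hol (fun y : W => e y a) (e.symm (e y)) := fun a =>
    holF_chart (At.of_target he.1 he.mem_target) a
  have h2 := (fderiv_pi_zero (F := fun w => e (e.symm w)) fun a =>
    (holAt_symm he.1 he.mem_target).analyticAt (h1 a)).2 fun a => h _ (h1 a)
  have h3 : (fun w => e (e.symm w)) =ᶠ[𝓝 (e y)] id := e.eventually_right_inverse he.mem_target
  rw [h3.fderiv_eq, fderiv_id] at h2
  exact hv h2

end AmpC

open AmpC in
theorem ampC_of (hK : KOD) : StAmpC := by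
  intro V X Z p f P Λ hp hf hP hΛ aP aΛ
  have hp' : ∀ y, HolMap V.X X p y := fun y => ⟨hp.cont.continuousAt, hp.hol y⟩
  have hq : Continuous fun y => f (p y) :=
    (continuous_iff_continuousAt.2 fun x => (hf x).1).comp hp.cont
  obtain ⟨ψ, c1, H1⟩ := rel (X := V.X) ⟨hP.isOpen, hP.cover,
    fun i j y hi hj e he => (hP.holo i j e y he hi hj).analyticAt, hP.ne_zero, hP.cocycle⟩ aP
  let L : ℕ → LineBundle 4 V.W (P.ι × Λ.ι) := fun N =>
    { U := (P.mul ((pull p Λ).pow N)).U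
      isOpen := fun i => (hP.isOpen i.1).inter ((hΛ.isOpen i.2).preimage hp.cont)
      cover := fun y =>
        let ⟨i, hi⟩ := hP.cover y
        let ⟨j, hj⟩ := hΛ.cover (p y)
        ⟨(i, j), hi, hj⟩
      g := (P.mul ((pull p Λ).pow N)).g
      holo := fun i j e y he hi hj => (hP.holo _ _ e y he hi.1 hj.1).analyticAt.mul
        ((hp.hol y _ (hΛ.holo _ _ _ hi.2 hj.2) e he).pow N)
      ne_zero := fun i j y hi hj => mul_ne_zero (hP.ne_zero _ _ y hi.1 hj.1)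
        (pow_ne_zero N (hΛ.ne_zero _ _ _ hi.2 hj.2))
      cocycle := fun i j k y hi hj hk => by
        show P.g _ _ y * Λ.g _ _ (p y) ^ N * (P.g _ _ y * Λ.g _ _ (p y) ^ N) =
          P.g _ _ y * Λ.g _ _ (p y) ^ N
        rw [← hP.cocycle i.1 j.1 k.1 y hi.1 hj.1 hk.1, ← hΛ.cocycle i.2 j.2 k.2 _ hi.2 hj.2 hk.2]
        ring }
  obtain ⟨N₀, H⟩ := unif (isCompact_univ (X := Z.pt)) (Q := fun N z => ∃ (O : Set Z.pt)
      (Ψ : P.ι × Λ.ι → V.W → ℝ), IsOpen O ∧ z ∈ O ∧ PosOn (L N) ((fun y => f (p y)) ⁻¹' O) Ψ)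
      fun z₀ _ => by
    obtain ⟨O, η, hO, hz₀, c2, H2⟩ := loc hΛ aΛ z₀
    obtain ⟨N₀, H3⟩ := unif (isClosed_singleton (x := z₀).preimage hq).isCompact
        (Q := fun N y => ∃ j : P.ι × Λ.ι, y ∈ (L N).U j ∧
          PosAt 4 (fun y : V.W => ψ j.1 y + N * η j.2 (p y)) y) fun y hy => by
      obtain ⟨i, hi⟩ := hP.cover y
      obtain ⟨j, hj⟩ := hΛ.cover (p y)
      have he := at_chartAt (n := 4) y
      set e := chartAt (Cm 4) y
      have h1 : ∀ᶠ y' in 𝓝 y, f (p y') ∈ O ∧ y' ∈ P.U i ∧ p y' ∈ Λ.U j :=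
        (hq.continuousAt.eventually (hO.mem_nhds ((show f (p y) = z₀ from hy).symm ▸ hz₀ : f (p y) ∈ O))).and
          (inter_mem ((hP.isOpen i).mem_nhds hi)
            (hp.cont.continuousAt.eventually ((hΛ.isOpen j).mem_nhds hj)))
      have h2 := (he.nhds_target.and (RbAux.ev_ch he h1)).mono fun z hz =>
        have a := holAt_symm he.1 hz.1
        have b : HolAt X (fun w => p (e.symm w)) z := a.holMap (hp' _)
        And.intro (H1 i 4 _ z a b hz.2.2.1) (H2 j 4 _ z b (b.holMap (hf _)) hz.2.1 hz.2.2.2)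
      have h3 := h2.self_of_nhds
      obtain ⟨N₀, h4⟩ := big (Ps.two h3.1.1) (Ps.two h3.2.1)
        (h2.mono fun z hz v => (hz.2.2 v).1)
        fun v hv h => h3.1.2 v ((h3.2.2 v).2 h) (not_vt he hv)
      refine ⟨N₀, ?_⟩
      filter_upwards [(e.continuousAt he.2).eventually (h2.and h4), h1,
        e.open_source.mem_nhds he.2] with y' h5 h6 h7 N hN
      refine ⟨(i, j), h6.2, posAt_chart ⟨he.1, h7⟩
        (h5.1.1.1.add (contDiffAt_const.mul h5.1.2.1)) fun v hv => ?_⟩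
      have h8 := h5.2 N hN v hv
      rwa [← levi_const_mul (Ps.two h5.1.2.1), ← levi_add (Ps.two h5.1.1.1)
        (contDiffAt_const.mul (Ps.two h5.1.2.1))] at h8
    obtain ⟨O', o1, o2, o3⟩ := eventually_nhds_iff.1
      ((hq.isClosedMap.eventually_nhds_fiber z₀ H3).and (hO.mem_nhds hz₀))
    refine ⟨N₀, mem_of_superset (o2.mem_nhds o3) fun z hz N hN =>
      ⟨O', fun j y => ψ j.1 y + N * η j.2 (p y), o2, hz, posOn_of (o2.preimage hq)
        (fun i j y hy hi hj => ?_) fun y hy => (o1 _ hy).1 y rfl N hN⟩⟩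
    show _ = _ + log (‖P.g i.1 j.1 y * Λ.g i.2 j.2 (p y) ^ N‖ ^ 2)
    have h1 := pow_ne_zero 2 (norm_ne_zero_iff.2 (hP.ne_zero _ _ y hi.1 hj.1))
    have h2 := pow_ne_zero 2 (norm_ne_zero_iff.2 (hΛ.ne_zero _ _ _ hi.2 hj.2))
    rw [c1 i.1 j.1 y trivial hi.1 hj.1, c2 i.2 j.2 (p y) (o1 _ hy).2 hi.2 hj.2, norm_mul, mul_pow,
      norm_pow, ← pow_mul, mul_comm N 2, pow_mul, log_mul h1 (pow_ne_zero N h2), log_pow _ N]
    ring
  exact ⟨N₀, fun N hN => hK 4 V.W V.X Z id _ (P.mul ((pull p Λ).pow N)) (L N)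
    ⟨continuous_id, Function.bijective_id, IsOpenMap.id, fun _ _ => Iff.rfl⟩ hq
    (fun y g hg => hp.hol y _ ((hf _).2 g hg)) (fun _ => rfl) (fun _ _ _ => rfl)
    fun z => (H z trivial).self_of_nhds N hN⟩

end Vale.Agent.P277Z.Val
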