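import Vale.Agent.P277Z.Val.USk2
import Vale.Agent.P277Z.Glc.Sing
import Vale.Agent.P277.H762.CL1

/-!
# P277, block VAL: extension theorem, descent of functions, connected fibres
-/

open scoped Manifold ContDiff Topology
open Vale.Agent.P272.K Vale.Agent.P285.H281.FD Vale.Agent.P277 Set Filter
open Vale.Agent.P277.PH (HolF at_chartAt)

noncomputable section

namespace Vale.Agent.P277Z.Val

namespace An

variable {X : CSp} {n : ℕ} {V : Set X.pt} {Ω : Set (Cm n)} {h : Fin 0 → Cm n → ℂ} {φ : X.pt → Cm n}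

theorem ev_img (M : IsModel X.Hol V Ω h φ) {y : X.pt} (hy : y ∈ V) {P : X.pt → Prop}
    (hP : ∀ᶠ x in 𝓝 y, P x) : ∀ᶠ z in 𝓝 (φ y), ∃ x ∈ V, φ x = z ∧ P x := by
  have hΩ : φ y ∈ Ω := (M.image ▸ mem_image_of_mem φ hy : φ y ∈ {z ∈ Ω | ∀ i, h i z = 0}).1
  filter_upwards [Oka.Csp.push M hy hP, M.isOpen'.mem_nhds hΩ] with w a b
  obtain ⟨x, hx, rfl⟩ : w ∈ φ '' V := M.image ▸ ⟨b, fun i => i.elim0⟩
  exact ⟨x, hx, rfl, a x hx rfl⟩

theorem open_img (M : IsModel X.Hol V Ω h φ) {N : Set X.pt} (hN : IsOpen N) (hV : N ⊆ V) :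
    IsOpen (φ '' N) := by
  refine isOpen_iff_mem_nhds.2 ?_
  rintro _ ⟨y, hy, rfl⟩
  exact (ev_img M (hV hy) (hN.mem_nhds hy)).mono fun z ⟨x, _, a, b⟩ => ⟨x, b, a⟩

theorem cv_img (M : IsModel X.Hol V Ω h φ) {d : ℕ} {S : Set X.pt} (hS : DimLe X d S) :
    H762.Cv d (φ '' (V ∩ S)) := by
  obtain ⟨O, G, h1, h2, h3⟩ := hS
  refine ⟨fun l => {p | p ∈ O l ∧ G l p ∈ V}, fun l p => φ (G l p), fun l =>
    isOpen_iff_eventually.2 fun p hp => ((h1 l).eventually_mem hp.1).and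
      ((h2 l p hp.1).1.eventually (M.isOpen.mem_nhds hp.2)), fun l p hp =>
    AnalyticAt.pi fun b => (h2 l p hp.1).analyticAt (M.isCoord.hol b _ hp.2), ?_⟩
  rintro _ ⟨y, ⟨a, b⟩, rfl⟩
  obtain ⟨l, p, hp, rfl⟩ := mem_iUnion.1 (h3 b)
  exact mem_iUnion.2 ⟨l, p, ⟨hp, a⟩, rfl⟩

/-- extension near a regular point -/
theorem ext_reg {O T : Set X.pt} (hO : IsOpen O) (hT : IsClosed T) (hd : DimLe X 2 (O ∩ T))
    {g : X.pt → ℂ} (hg : ∀ x ∈ O \ T, X.Hol g x) {x : X.pt} (hx : x ∈ O) (hr : IsReg 4 X x) :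
    ∃ G, X.Hol G x ∧ ∀ᶠ y in 𝓝 x, y ∉ T → g y = G y := by
  obtain ⟨V, Ω, h, φ, hV, M⟩ := hr
  have : Nonempty X.pt := ⟨x⟩
  have hN := M.isOpen.inter hO
  have h0 : ∀ y ∈ V, Function.invFunOn φ V (φ y) = y := M.injOn.leftInvOn_invFunOn
  have h1 : φ '' (V ∩ O) \ φ '' (V ∩ (O ∩ T)) = φ '' ((V ∩ O) \ T) := by
    ext z
    constructor
    · rintro ⟨⟨y, a, rfl⟩, b⟩
      exact ⟨y, ⟨a, fun c => b ⟨y, ⟨a.1, a.2, c⟩, rfl⟩⟩, rfl⟩
    · rintro ⟨y, a, rfl⟩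
      exact ⟨⟨y, a.1, rfl⟩, fun ⟨y', b, c⟩ => a.2 (M.injOn b.1 a.1.1 c ▸ b.2.2)⟩
  obtain ⟨F, k1, k2⟩ := H762.hartogs_cv (n := 2) (f := fun z => g (Function.invFunOn φ V z))
    (by simp) (open_img M hN inter_subset_left)
    (h1 ▸ open_img M (hN.sdiff hT) fun _ a => a.1.1) ((cv_img M hd).mono inter_subset_right) (by
      rw [h1]
      rintro _ ⟨y, a, rfl⟩
      obtain ⟨G, b, c⟩ := (M.hol y a.1.1 g).1 (hg y ⟨a.1.2, a.2⟩)
      refine b.congr ((ev_img M a.1.1 c).mono ?_)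
      rintro _ ⟨y', d, rfl, e⟩
      exact e.symm.trans (congrArg g (h0 y' d).symm))
  refine ⟨F ∘ φ, (M.hol x hV _).2 ⟨F, k1 _ ⟨x, ⟨hV, hx⟩, rfl⟩, .rfl⟩, ?_⟩
  filter_upwards [hN.mem_nhds ⟨hV, hx⟩] with y a b
  exact ((k2 _ (h1 ▸ ⟨y, ⟨a, b⟩, rfl⟩)).trans (congrArg g (h0 y a.1))).symm

end An

/-- (EXTC) -/
theorem extC : StExtC := by
  intro X hX O T hO hT hd g hg
  have h2 : ∀ x ∈ O, ∀ G, X.Hol G x → (∀ᶠ y in 𝓝 x, y ∉ T → g y = G y) →
      limUnder (𝓝[Tᶜ] x) g = G x := fun x hx G a b => by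
    have : (𝓝[Tᶜ] x).NeBot := mem_closure_iff_nhdsWithin_neBot.1 (mem_closure_iff_frequently.2
      (((mem_closure_iff_frequently.1 (dense_compl_of_dimLe (by norm_num) hX.dense hd x)
        ).and_eventually (hO.mem_nhds hx)).mono fun y h e => h.1 ⟨h.2, e⟩))
    exact Tendsto.limUnder_eq (((hol_continuousAt a).mono_left nhdsWithin_le_nhds).congr'
      (EventuallyEq.symm (eventually_nhdsWithin_iff.2 b)))
  obtain ⟨H, k1, k2⟩ := hX.ext O _ hO (fun x _ => Glc.sing_an hX.dense x (mem_univ x))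
    (hX.sing.mono inter_subset_right) (fun x => limUnder (𝓝[Tᶜ] x) g) fun x hx => by
      obtain ⟨G, a, b⟩ := An.ext_reg hO hT hd hg hx.1 (not_not.1 hx.2)
      refine hol_congr a ?_
      filter_upwards [hO.mem_nhds hx.1, hol_eventually a, b.eventually_nhds] with y c d e
        using h2 y c G d e
  refine ⟨H, k1, fun x hx => (eventuallyEq_of_dense hX.dense (k1 x hx.1) (hg x hx) ?_).eq_of_nhds⟩
  filter_upwards [(hO.sdiff hT).mem_nhds hx] with y a b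
  exact (k2 y ⟨a.1, not_not.2 b⟩).trans (h2 y a.1 g (hg y a) (.of_forall fun _ _ => rfl))

namespace An

variable {V : Lg} {X : CSp} {p : V.W → X.pt} {exc : Finset (Fin V.r)} {P : Bd V.W}
  {c : Fin V.r → ℕ} {τ : (Bd.inv P).ι → V.W → ℂ}

theorem mem_iff (h : Res₀ V X p exc P c τ) {y : V.W} :
    p y ∈ p '' ⋃ l ∈ exc, V.G l ↔ y ∈ ⋃ l ∈ exc, V.G l :=
  ⟨fun ⟨y', a, b⟩ => by_contra fun c => c (h.inj y y' c b ▸ a), fun a => ⟨y, a, rfl⟩⟩

/-- holomorphic functions descend -/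
theorem desc (hX : IsNormal 4 X) (h : Res₀ V X p exc P c τ) {O : Set X.pt} {f : V.W → ℂ}
    (hO : IsOpen O) (hf : ∀ y, p y ∈ O → HolF 4 f y) :
    ∃ H : X.pt → ℂ, (∀ x ∈ O, X.Hol H x) ∧ ∀ y, p y ∈ O → f y = H (p y) := by
  obtain ⟨x₀⟩ := h.dim.nonempty
  obtain ⟨y₀, -⟩ := h.surj x₀
  obtain ⟨H, k1, k2⟩ := extC X hX O _ hO (h.hol.cont.isClosedMap _
    (isOpen_compl_iff.1 h.emb.isOpen)) (h.dim.mono inter_subset_right)
    (fun x => f (h.emb.inv y₀ x)) fun x hx => by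
      obtain ⟨y, rfl⟩ := h.surj x
      exact h.emb.hol_of_analyticAt y₀ (mt (mem_iff h).2 hx.2) (at_chartAt y)
        (hf y hx.1 _ (at_chartAt y))
  refine ⟨H, k1, fun y hy => (eventuallyEq_of_dense (X := V.X) (g := fun y => H (p y)) V.dense
    (hf y hy) (h.hol.hol y H (k1 _ hy)) ?_).eq_of_nhds⟩
  filter_upwards [h.hol.cont.continuousAt.eventually (hO.mem_nhds hy)] with z a b
  have d : z ∈ (⋃ l ∈ exc, V.G l)ᶜ := fun e =>
    b (iUnion₂_subset (fun l _ => subset_iUnion V.G l) e)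
  exact ((k2 _ ⟨a, mt (mem_iff h).1 d⟩).trans (congrArg f (h.emb.inv_apply y₀ d))).symm

theorem conn (hX : IsNormal 4 X) (h : Res₀ V X p exc P c τ) (x : X.pt) :
    IsPreconnected (p ⁻¹' {x}) := by
  classical
  refine (isPreconnected_iff_subset_of_fully_disjoint_closed
    (isClosed_singleton.preimage h.hol.cont)).2 fun u v hu hv hs hd => by_contra fun e => ?_
  obtain ⟨⟨y, a, a'⟩, y', b, b'⟩ := (not_or.1 e).imp not_subset.1 not_subset.1
  obtain ⟨U, U', o1, o2, s1, s2, hD⟩ := normal_separation hu hv hd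
  obtain ⟨O, c1, c2, c3⟩ := exists_nhds_preimage_subset (X := V.X) h.hol.cont (o1.union o2)
    (hs.trans (union_subset_union s1 s2))
  obtain ⟨H, -, k⟩ := desc hX h (f := fun y => if y ∈ U then 1 else 0) c1 fun z hz =>
    (c3 hz).elim (fun d => (HolF.const 1).congr ((o1.eventually_mem d).mono fun w e =>
      (if_pos e).symm)) fun d => (HolF.const 0).congr ((o2.eventually_mem d).mono fun w e =>
        (if_neg (disjoint_right.1 hD e)).symm)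
  have k1 := k y (mem_singleton_iff.1 a ▸ c2)
  have k2 := k y' (mem_singleton_iff.1 b ▸ c2)
  rw [if_neg (disjoint_right.1 hD (s2 ((hs a).resolve_left a'))), mem_singleton_iff.1 a] at k1
  rw [if_pos (s1 ((hs b).resolve_right b')), mem_singleton_iff.1 b] at k2
  exact one_ne_zero (k2.trans k1.symm)

theorem tau_zero (h : Res₀ V X p exc P c τ) {y : V.W} {i : P.ι} (hi : y ∈ P.U i) :
    τ i y = 0 ↔ y ∈ ⋃ l ∈ exc, V.G l := by
  obtain ⟨ζ, hζ⟩ := V.exEq y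
  obtain ⟨u, -, a, b⟩ := h.div.div y i ζ hi hζ
  rw [b.self_of_nhds, mul_eq_zero_iff_left a, Finset.prod_eq_zero_iff, mem_iUnion₂]
  refine exists_congr fun l => ?_
  rw [pow_eq_zero_iff', hζ.iff.self_of_nhds l, ← Nat.pos_iff_ne_zero, h.pos l]
  exact ⟨fun d => ⟨d.2.2, d.2.1⟩, fun ⟨d, e⟩ => ⟨Finset.mem_univ _, e, d⟩⟩

theorem isAn (hX : IsNormal 4 X) (h : Res₀ V X p exc P c τ) :
    IsAn X univ (p '' ⋃ l ∈ exc, V.G l) := by
  intro x _
  obtain ⟨O, k, N, s, hO, hx, hk, hs, hnz, -⟩ := h.amp x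
  choose i hi using h.lb.cover
  choose H k1 k2 using fun l => desc hX h (f := fun y => s l (i y) y * τ (i y) y ^ k) hO
    fun y hy => by
      refine HolF.congr (H := V.W) (g := fun z => s l (i y) z * τ (i y) z ^ k) (HolF.mul (H := V.W)
        ((hs l).holo _ y hy (hi y)) fun e he => (h.div.sec.holo _ e y he (hi y)).analyticAt.pow k) ?_
      filter_upwards [h.hol.cont.continuousAt.eventually (hO.mem_nhds hy),
        (h.lb.isOpen _).mem_nhds (hi y)] with z a b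
      have e1 : s l (i y) z = P.g (i y) (i z) z ^ k * s l (i z) z := (hs l).change _ _ z a b (hi z)
      have e2 : τ (i y) z = (P.g (i y) (i z) z)⁻¹ * τ (i z) z := h.div.sec.change _ _ z b (hi z)
      rw [e1, e2, mul_pow, mul_mul_mul_comm, ← mul_pow,
        mul_inv_cancel₀ (h.lb.ne_zero _ _ z b (hi z)), one_pow, one_mul]
  refine ⟨_, H, fun l => k1 l x hx, (hO.eventually_mem hx).mono fun x' a => ?_⟩
  obtain ⟨y, rfl⟩ := h.surj x'
  obtain ⟨l, hl⟩ := hnz y _ a (hi y)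
  rw [mem_iff h, ← tau_zero h (hi y)]
  exact ⟨fun e m => by rw [← k2 m y a, e, zero_pow (by omega), mul_zero], fun e =>
    pow_eq_zero_iff (by omega) |>.1 ((mul_eq_zero_iff_left hl).1 ((k2 l y a).trans (e l)))⟩

end An

/-- (AN) -/
theorem an : StAn := fun _ _ _ _ P c τ hX h =>
  ⟨⟨h.hol.cont, h.hol.hol, h.surj, h.emb, h.inj, An.isAn hX h, h.dim, P, c, τ, h.lb, h.amp, h.pos,
    h.div⟩, An.conn hX h, fun _ _ => An.desc hX h⟩

theorem An.res₀ {V : Lg} {X : CSp} {p : V.W → X.pt} {exc : Finset (Fin V.r)}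
    (h : Res V X p exc) : ∃ P c τ, Res₀ V X p exc P c τ :=
  h.amp.imp fun _ h' => h'.imp fun _ h' => h'.imp fun _ ⟨a, b, c, d⟩ =>
    ⟨⟨h.cont, h.hol⟩, h.surj, h.emb, h.inj, h.dim, a, b, c, d⟩

/-- (CF) -/
theorem cf : StCF := fun _ _ _ _ hX h x =>
  (An.res₀ h).elim fun _ ⟨_, _, h⟩ => An.conn hX h x

end Vale.Agent.P277Z.Val
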