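import Vale.Agent.P277Z.Val.USk
import Vale.Agent.P277Z.Val.Mon
import Vale.Agent.P277Z.Val.Jz
import Vale.Agent.P277.A.Dim
import Vale.Agent.P277.A.Emb

/-!
# P277, block VAL: composition of log resolutions
-/

set_option linter.unusedSectionVars false

open scoped Manifold ContDiff Topology
open Vale.Agent.P272.K Vale.Agent.P285.H281.FD Vale.Agent.P277 Set Filter
open Vale.Agent.P277.PH (HolF at_chartAt)
open Vale.Agent.P277.T3 (ThinM)
open Vale.Agent.P277.HD (pull)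
open Vale.Agent.P277.H60.Z (thinM_iff)

noncomputable section

namespace Vale.Agent.P277Z.Val

namespace CompH

variable {V' V : Lg} {π : V'.W → V.W} {X : CSp} {p : V.W → X.pt}

theorem lb_hol {P : Bd V.W} (h : IsLB 4 P) {i j : P.ι} {x : V.W} (hi : x ∈ P.U i)
    (hj : x ∈ P.U j) : HolF 4 (P.g i j) x := fun e he => (h.holo i j e x he hi hj).analyticAt

theorem lbx {P : Bd V.W} (h : IsLB 4 P) : IsLBx V.X P :=
  ⟨h.isOpen, h.cover, fun _ _ _ => lb_hol h, h.ne_zero, h.cocycle⟩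

theorem lb_comb (hπ : HolTo V' V.X π) {P' : Bd V'.W} {P : Bd V.W} (h' : IsLB 4 P') (h : IsLB 4 P)
    (N : ℕ) : IsLB 4 (P'.mul ((pull π P).pow N)) where
  isOpen i := (h'.isOpen i.1).inter ((h.isOpen i.2).preimage hπ.cont)
  cover x := by
    obtain ⟨i, hi⟩ := h'.cover x
    obtain ⟨j, hj⟩ := h.cover (π x)
    exact ⟨(i, j), hi, hj⟩
  holo i j e x he hi hj := (h'.holo _ _ e x he hi.1 hj.1).mul
    ((hπ.hol x _ (lb_hol h hi.2 hj.2) e he).contDiffAt.pow N)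
  ne_zero i j x hi hj := mul_ne_zero (h'.ne_zero _ _ x hi.1 hj.1)
    (pow_ne_zero N (h.ne_zero _ _ _ hi.2 hj.2))
  cocycle i j l x hi hj hl := by
    have h1 := h'.cocycle i.1 j.1 l.1 x hi.1 hj.1 hl.1
    have h2 := h.cocycle i.2 j.2 l.2 (π x) hi.2 hj.2 hl.2
    show P'.g i.1 j.1 x * P.g i.2 j.2 (π x) ^ N * (P'.g j.1 l.1 x * P.g j.2 l.2 (π x) ^ N) =
      P'.g i.1 l.1 x * P.g i.2 l.2 (π x) ^ N
    rw [← h1, ← h2]
    ring

theorem mon_zero {y : V.W} {f : V.W → ℂ} {n : Fin V.r → ℕ} (h : Mon V y f n) :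
    f y = 0 ↔ ∃ l, 0 < n l ∧ y ∈ V.G l := by
  obtain ⟨ζ, hζ⟩ := V.exEq y
  obtain ⟨u, -, h2, h3⟩ := h ζ hζ
  simp [h3.self_of_nhds, h2, Finset.prod_eq_zero_iff, hζ.iff.self_of_nhds, Nat.pos_iff_ne_zero,
    and_comm]

/-- the divisor of the pull back of a section -/
theorem pull_div (hπ : HolTo V' V.X π) (pre : ∀ y, π y ∈ V.E → y ∈ V'.E) {P : Bd V.W}
    (h : IsLB 4 P) {τ : (Bd.inv P).ι → V.W → ℂ} {c : Fin V.r → ℕ} (d : IsDiv V (Bd.inv P) τ c) :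
    ∃ n, ∀ y i, π y ∈ P.U i → Mon V' y (fun x => τ i (π x)) n := by
  choose i hi using h.cover
  have hol : ∀ j x, x ∈ P.U j → HolF 4 (τ j) x := fun j x hx e he =>
    (d.sec.holo j e x he hx).analyticAt
  have chg : ∀ y j k, π y ∈ P.U j → π y ∈ P.U k → ∃ u, HolF 4 u y ∧ u y ≠ 0 ∧
      ∀ᶠ x in 𝓝 y, τ j (π x) = u x * τ k (π x) := fun y j k hj hk =>
    ⟨fun x => (P.g j k (π x))⁻¹, fun e he => (hπ.hol y _ (lb_hol h hj hk) e he).inv
      (by rw [e.left_inv he.2]; exact h.ne_zero _ _ _ hj hk), inv_ne_zero (h.ne_zero _ _ _ hj hk),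
      (hπ.cont.continuousAt.eventually (((h.isOpen j).inter (h.isOpen k)).mem_nhds ⟨hj, hk⟩)).mono
        fun x hx => d.sec.change j k _ hx.1 hx.2⟩
  refine (exists_mon_glob (V := V') (fun y x => τ (i (π y)) (π x))
    (fun y => hπ.hol y _ (hol _ _ (hi _))) (fun y => ?_) fun y => ?_).imp fun n hn y j hj => ?_
  · filter_upwards [hπ.cont.continuousAt.eventually ((h.isOpen _).mem_nhds (hi (π y)))]
      with x hx hE h0
    obtain ⟨l, -, hl⟩ := (mon_zero (f := τ (i (π y))) fun ζ hζ => d.div _ _ ζ hx hζ).1 h0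
    exact hE (pre x (mem_iUnion.2 ⟨l, hl⟩))
  · filter_upwards [hπ.cont.continuousAt.eventually ((h.isOpen _).mem_nhds (hi (π y)))] with z hz
    exact chg z _ _ (hi _) hz
  · obtain ⟨u, h1, h2, h3⟩ := chg y j _ hj (hi _)
    exact (hn y).unit h1 h2 h3

theorem sub_G (hπ : HolTo V' V.X π) {exc : Finset (Fin V.r)} {k : Fin V'.r}
    (hk : ∀ y ∈ V'.G k, π y ∈ ⋃ l ∈ exc, V.G l) : ∃ l ∈ exc, π '' V'.G k ⊆ V.G l := by
  obtain ⟨y, hy⟩ := (V'.conn k).1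
  obtain ⟨y', e1, l, e2⟩ := (U.exists_ev_of_cover hy (Z := fun l : exc => π ⁻¹' V.G l)
    (fun l => (V.closed l).preimage hπ.cont) (Eventually.of_forall fun y' e => by
      obtain ⟨l, hl, h⟩ := mem_iUnion₂.1 (hk y' e)
      exact ⟨⟨l, hl⟩, h⟩)).exists
  exact ⟨l, l.2, image_subset_iff.2 (U.G_subset (fun y _ => U.isAnAt_preimage
    (π := π) (show HolM 4 4 π y from ⟨hπ.cont.continuousAt, hπ.hol y⟩) (U.isAnAt_G V l _)) e1 e2)⟩

theorem emb_comp {O' : Set V'.W} {O : Set V.W} (h' : IsOpenEmb V.X O' π)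
    (h : IsOpenEmb (Y := V.W) X O p)
    (hc : Continuous π) : IsOpenEmb X (O' ∩ π ⁻¹' O) fun y => p (π y) where
  isOpen := h'.isOpen.inter (h.isOpen.preimage hc)
  cont := h.cont.comp hc.continuousOn fun _ hy => hy.2
  inj := fun _ hy _ hy' e => h'.inj hy.1 hy'.1 (h.inj hy.2 hy'.2 e)
  isOpenMap := fun W hW hWo => by
    rw [← image_image p π]
    exact h.isOpenMap _ (image_subset_iff.2 fun y hy => (hW hy).2)
      (h'.isOpenMap W (fun y hy => (hW hy).1) hWo)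
  hol := fun y hy e he g => by
    rw [← h'.hol y hy.1 e he fun z => g (p z)]
    exact ⟨fun H e' he' => (h.hol _ hy.2 e' he' g).1 H,
      fun H => (h.hol _ hy.2 _ (at_chartAt _) g).2 (H _ (at_chartAt _))⟩

end CompH

open CompH

/-- composition of log resolutions -/
theorem comp0 (h1 : StAmpC) (h2 : StAn) {V' V : Lg} {X : CSp} {π : V'.W → V.W} {p : V.W → X.pt}
    {exc' : Finset (Fin V'.r)} {exc : Finset (Fin V.r)} (hX : IsNormal 4 X)
    (r' : Res V' V.X π exc') (r : Res V X p exc) (pre : ∀ y, π y ∈ V.E → y ∈ V'.E) :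
    ∃ exc'', Res V' X (fun y => p (π y)) exc'' ∧
      ∀ l, l ∈ exc'' ↔ l ∈ exc' ∨ ∃ k ∈ exc, π '' V'.G l ⊆ V.G k := by
  classical
  have hπ : HolTo V' V.X π := ⟨r'.cont, r'.hol⟩
  have hp : ∀ x, HolMap V.X X p x := fun x => ⟨r.cont.continuousAt, r.hol x⟩
  obtain ⟨P', c', τ', a1, a2, a3, a4⟩ := r'.amp
  obtain ⟨P, c, τ, b1, b2, b3, b4⟩ := r.amp
  obtain ⟨n, hn⟩ := pull_div hπ pre b1 b4
  obtain ⟨N₀, hN⟩ := h1 V' V.X X π p P' P hπ hp a1 (lbx b1) a2 b2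
  have z1 : ∀ y, π y ∈ ⋃ l ∈ exc, V.G l ↔ ∃ l, 0 < n l ∧ y ∈ V'.G l := fun y => by
    obtain ⟨i, hi⟩ := b1.cover (π y)
    rw [← mon_zero (hn y i hi), mon_zero (f := τ i) fun ζ hζ => b4.div _ _ ζ hi hζ]
    simp [b3]
  have z2 : ∀ l, 0 < n l ↔ ∃ k ∈ exc, π '' V'.G l ⊆ V.G k := fun l => by
    refine ⟨fun h => sub_G hπ fun y hy => (z1 y).2 ⟨l, h, hy⟩, fun ⟨k, hk, h⟩ => ?_⟩
    obtain ⟨y, hy⟩ := (V'.conn l).1
    obtain ⟨x, x1, x2⟩ := (Lg.freq1 hy).exists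
    obtain ⟨l', l1, l2⟩ := (z1 x).1 (mem_iUnion₂.2 ⟨k, hk, h ⟨x, x1, rfl⟩⟩)
    by_cases e : l' = l
    · exact e ▸ l1
    · exact absurd l2 (x2 l' e)
  set exc'' : Finset (Fin V'.r) := Finset.univ.filter fun l => l ∈ exc' ∨ 0 < n l with he
  have z3 : ⋃ l ∈ exc'', V'.G l = (⋃ l ∈ exc', V'.G l) ∪ π ⁻¹' ⋃ l ∈ exc, V.G l := by
    ext y
    rw [mem_union, mem_preimage, z1]
    simp only [he, mem_iUnion, Finset.mem_filter, Finset.mem_univ, true_and, exists_prop,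
      or_and_right, exists_or]
  refine ⟨exc'', (h2 V' X _ exc'' (P'.mul ((pull π P).pow (N₀ + 1)))
    (fun l => c' l + (N₀ + 1) * n l) (fun i y => τ' i.1 y * τ i.2 (π y) ^ (N₀ + 1)) hX
    ⟨⟨r.cont.comp r'.cont, fun y g hg => r'.hol y (fun z => g (p z)) (r.hol _ g hg)⟩, r.surj.comp r'.surj, ?_, ?_, ?_,
      lb_comb hπ a1 b1 _, hN _ (Nat.le_succ _), fun l => ?_, ⟨fun i e x hx hi => ?_,
      fun i j x hi hj => ?_⟩, fun y i ζ hi hζ => ?_⟩).1, fun l => ?_⟩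
  · rw [z3, compl_union]
    exact emb_comp r'.emb r.emb r'.cont
  · intro y y' hy e
    rw [z3, mem_union, not_or] at hy
    exact r'.inj y y' hy.1 (r.inj _ _ hy.2 e)
  · rw [z3, image_union, image_comp p π, image_comp p π]
    exact (r'.dim.image fun x _ => hp x).union
      (r.dim.mono (image_mono (image_preimage_subset _ _)))
  · simp only [he, Finset.mem_filter, Finset.mem_univ, true_and, ← a3]
    rw [Nat.add_pos_iff_pos_or_pos, Nat.mul_pos_iff_of_pos_left (Nat.succ_pos _)]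
  · exact (a4.sec.holo i.1 e x hx hi.1).mul ((hπ.hol x (τ i.2)
      (fun e' he' => (b4.sec.holo i.2 e' _ he' hi.2).analyticAt) e hx).contDiffAt.pow _)
  · have e1 : τ' i.1 x = (P'.g i.1 j.1 x)⁻¹ * τ' j.1 x := a4.sec.change i.1 j.1 x hi.1 hj.1
    have e2 : τ i.2 (π x) = (P.g i.2 j.2 (π x))⁻¹ * τ j.2 (π x) :=
      b4.sec.change i.2 j.2 _ hi.2 hj.2
    show τ' i.1 x * τ i.2 (π x) ^ (N₀ + 1) = (P'.g i.1 j.1 x * P.g i.2 j.2 (π x) ^ (N₀ + 1))⁻¹ *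
      (τ' j.1 x * τ j.2 (π x) ^ (N₀ + 1))
    rw [e1, e2, mul_inv, mul_pow, inv_pow]
    ring
  · obtain ⟨u, u1, u2, u3⟩ := a4.div y i.1 ζ hi.1 hζ
    obtain ⟨v, v1, v2, v3⟩ := hn y i.2 hi.2 ζ hζ
    refine ⟨fun x => u x * v x ^ (N₀ + 1), fun e he => (u1 e he).mul ((v1 e he).pow _),
      mul_ne_zero u2 (pow_ne_zero _ v2), ?_⟩
    filter_upwards [u3, v3] with x e1 e2
    simp only [e1, e2, mul_pow, pow_add _ (c' _), Finset.prod_mul_distrib, ← Finset.prod_pow,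
      ← pow_mul, mul_comm (n _)]
    ring
  · simp only [he, Finset.mem_filter, Finset.mem_univ, true_and, z2]

theorem comp_of (h1 : StAmpC) (h2 : StAn) : StComp := by
  intro V' V X p π exc exc₁ s hX h hs r' r
  have k1 : ∀ k, k ∈ exc₁ ↔ k ∉ range s := fun k => by
    constructor
    · rintro hk ⟨l, rfl⟩
      refine U.not_thin_G V l (thinM_iff.2 (r'.dim.mono ?_))
      rw [← hs.img l]
      exact image_mono (subset_biUnion_of_mem (u := V'.G) (Finset.mem_coe.2 hk))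
    · intro hk
      by_contra hc
      obtain ⟨y, hy⟩ := (V'.conn k).1
      obtain ⟨x, x1, x2⟩ := (Lg.freq1 hy).exists
      have x3 : x ∈ (⋃ l ∈ exc₁, V'.G l)ᶜ := fun e => by
        obtain ⟨l, l1, l2⟩ := mem_iUnion₂.1 e
        exact x2 l (fun e => hc (e ▸ l1)) l2
      have t : DimLe V'.X 2 (r'.emb.inv x '' (π '' (V'.G k ∩ (⋃ l ∈ exc₁, V'.G l)ᶜ))) := by
        refine ((thinM_iff.1 (hs.exc k hk)).mono (image_mono inter_subset_left)).image ?_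
        rintro _ ⟨z, hz, rfl⟩
        refine ⟨r'.emb.inv_continuousAt x hz.2, fun g hg => ?_⟩
        rw [r'.emb.inv_apply x hz.2] at hg
        exact r'.emb.hol_of_analyticAt x hz.2 (at_chartAt z) (hg _ (at_chartAt z))
      obtain ⟨z, ⟨z1, z2⟩, z3⟩ := ((U.not_thin x1 (thinM_iff.2 t)).and_eventually
        (r'.emb.isOpen.mem_nhds x3)).exists
      exact z2 ⟨_, ⟨z, ⟨z1, z3⟩, rfl⟩, r'.emb.inv_apply x z3⟩
  obtain ⟨exc'', r'', he⟩ := comp0 h1 h2 hX r' r h.pre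
  refine ⟨k1, ?_⟩
  have : exc₁ ∪ exc.image s = exc'' := by
    ext l
    rw [he, Finset.mem_union, Finset.mem_image]
    refine or_congr_right' fun hl => ⟨fun ⟨k, hk, e⟩ => ⟨k, hk, e ▸ (hs.img k).subset⟩, ?_⟩
    rintro ⟨k, hk, e⟩
    obtain ⟨j, rfl⟩ := not_not.1 (mt (k1 l).2 hl)
    rw [hs.img j] at e
    exact ⟨k, hk, by rw [Lg.not_sub e]⟩
  exact this ▸ r''

end Vale.Agent.P277Z.Val
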