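import Vale.Agent.P277Z.Val.Jz

/-!
# P277, block VAL: discrepancies of wedges
-/

set_option linter.unusedSectionVars false

open scoped Manifold ContDiff
open Set Filter Metric Topology
open Vale.Agent.P272.K Vale.Agent.P277.PH
open Vale.Agent.P277.T2 (IsLEq)
open Vale.Agent.P277.T3 (ThinM IsAnAt)
open Vale.Agent.P277.H762 (Cv)

noncomputable section

namespace Vale.Agent.P277Z.Val.U

/-- the Jacobian determinant -/
abbrev jd {n : ℕ} (γ : Cm n → Cm n) (w : Cm n) : ℂ := (fderiv ℂ γ w).det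

variable {V V' : Lg} {π : V'.W → V.W} {y : V'.W}
  {c' : V'.W → Cm 4} {ξ' : Cm 4 → V'.W} {c : V.W → Cm 4} {ξ : Cm 4 → V.W}
  {lab' : Fin V'.r → Option (Fin 4)} {lab : Fin V.r → Option (Fin 4)}
  {a' : Fin V'.r → ℝ} {a : Fin V.r → ℝ} {γ : Cm 4 → V'.W} {w₁ : Cm 4}

theorem jac_eq (h : Hom V' V π) (h' : Crd c' ξ' y) (hc : Crd c ξ (π y)) {e' : Chart 4 V'.W}
    {e : Chart 4 V.W} (he' : At e' y) (he : At e (π y)) : ∀ᶠ y' in 𝓝 y, jac π e' e y' =
      jd (fun w => e (ξ w)) (c (π y')) * jd (fun w => c (π (ξ' w))) (c' y') *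
        jd (fun w => c' (e'.symm w)) (e' y') := by
  filter_upwards [h'.eventually, h.cont.continuousAt.eventually hc.eventually,
    (crd_chart he').eventually, h.cont.continuousAt.eventually (crd_chart he).eventually] with
    y' e1 e2 e3 e4
  have f1 := (e3.chg e1).1
  have f2 := an_loc (holM h y') e1 e2
  have f3 := (e2.chg e4).1
  have f4 : (fun z => e (π (e'.symm z))) =ᶠ[𝓝 (e' y')]
      fun z => e (ξ (c (π (ξ' (c' (e'.symm z)))))) := by
    filter_upwards [e3.tend.eventually e1.left,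
      (h.cont.continuousAt.tendsto.comp e3.tend).eventually e2.left] with z g1 g2
    rw [g1]
    exact (congrArg e g2).symm
  have f5 : AnalyticAt ℂ (fun z => c (π (ξ' (c' (e'.symm z))))) (e' y') :=
    AnalyticAt.comp (g := fun w => c (π (ξ' w))) (by rwa [e3.inv]) f1
  rw [jac, f4.fderiv_eq, det_comp (φ := fun w => e (ξ w))
    (by rw [e3.inv, e1.inv]; exact f3.differentiableAt) f5.differentiableAt,
    det_comp (φ := fun w => c (π (ξ' w))) (by rw [e3.inv]; exact f2.differentiableAt)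
      f1.differentiableAt, e3.inv, e1.inv, mul_assoc]

/-- (DISC) the discrepancy of a wedge, computed on both models -/
theorem disc_eq (h : Hom V' V π) (hC : Crep V' V π a' a) (hγ : AnM 4 γ w₁) (h0 : w₁ 0 = 0)
    (hE : ∀ᶠ w in 𝓝 w₁, w 0 ≠ 0 → γ w ∉ V'.E) (h' : Ch V' (γ w₁) c' ξ' lab')
    (hc : Ch V (π (γ w₁)) c ξ lab) {g' : Fin V'.r → ℕ}
    (hg' : ∀ k, OrdEq (fun w => eqs c' lab' k (γ w)) w₁ (g' k)) {J' : ℕ}
    (hJ' : OrdEq (jd fun w => c' (γ w)) w₁ J') :
    ∃ (g : Fin V.r → ℕ) (J : ℕ), (∀ l, OrdEq (fun w => eqs c lab l (π (γ w))) w₁ (g l)) ∧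
      OrdEq (jd fun w => c (π (γ w))) w₁ J ∧ J + ∑ l, a l * g l = J' + ∑ k, a' k * g' k := by
  have hπγ : AnM 4 (fun w => π (γ w)) w₁ := hγ.map (holM h _)
  have hg : ∀ l, ∃ g, OrdEq (fun w => eqs c lab l (π (γ w))) w₁ g := by
    intro l
    refine exists_ordEq (hπγ.hol (hc.holF l)) h0 ?_
    filter_upwards [hπγ.1.eventually hc.eqs_zero, hE] with w e1 e2 e3 e4
    exact e2 e3 (h.pre _ (mem_iUnion.2 ⟨l, (e1 l).1 e4⟩))
  choose g hg using hg
  have hc'γ := h'.crd.an_comp hγ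
  have hloc := an_loc (holM h _) h'.crd hc.crd
  obtain ⟨J₀, hJ₀⟩ : ∃ J₀, OrdEq (fun w => jd (fun w => c (π (ξ' w))) (c' (γ w))) w₁ J₀ := by
    refine exists_ordEq (AnalyticAt.comp (g := jd fun w => c (π (ξ' w))) (an_jac hloc) hc'γ) h0 ?_
    filter_upwards [hγ.1.eventually (li_ev h h'.crd hc.crd), hE] with w e1 e2 e3
    exact e1.1 (li_of_notE h (e2 e3))
  refine ⟨g, J₀ + J', hg, (hJ₀.mul hJ').congr ?_, ?_⟩
  · filter_upwards [hc'γ.eventually_analyticAt,
      hc'γ.continuousAt.eventually hloc.eventually_analyticAt,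
      (hγ.1.eventually h'.crd.left).eventually_nhds] with w e1 e2 e3
    have e4 : (fun w => c (π (γ w))) =ᶠ[𝓝 w] fun w => c (π (ξ' (c' (γ w)))) :=
      e3.mono fun w hw => (congrArg (fun y => c (π y)) hw).symm
    rw [jd, jd, jd, e4.fderiv_eq, det_comp (φ := fun w => c (π (ξ' w))) e2.differentiableAt
      e1.differentiableAt]
  · have he' := at_chartAt (n := 4) (γ w₁)
    have he := at_chartAt (n := 4) (π (γ w₁))
    obtain ⟨C, hC⟩ := hC _ _ _ _ _ he' he h'.eq hc.eq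
    have f1 := hc.crd.chg (crd_chart he)
    have f2 := (crd_chart he').chg h'.crd
    have f3 : OrdEq (fun w => jac π (chartAt (Cm 4) (γ w₁)) (chartAt (Cm 4) (π (γ w₁))) (γ w)) w₁
        (0 + J₀ + 0) := by
      refine (((ordEq_zero (AnalyticAt.comp (g := jd fun w => chartAt (Cm 4) (π (γ w₁)) (ξ w))
        (an_jac f1.1) (hc.crd.an_comp hπγ)) f1.2).mul hJ₀).mul
        (ordEq_zero (AnalyticAt.comp (g := jd fun w => c' ((chartAt (Cm 4) (γ w₁)).symm w))
          (an_jac f2.1) (hγ.2 _ he')) f2.2)).congr ?_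
      filter_upwards [hγ.1.eventually (jac_eq h h'.crd hc.crd he' he)] with w e1
      exact e1.symm
    have f4 := ((f3.logE.add (logE_sum Finset.univ fun l _ => (hg l).logE.mul (a l))).add
      ((logE_sum Finset.univ fun k _ => (hg' k).logE.mul (a' k)).mul (-1))).eq_zero (C := C) h0 (by
        filter_upwards [hγ.1.eventually hC, hE] with w e1 e2 e3
        rw [neg_one_mul, ← sub_eq_add_neg]
        exact e1 (e2 e3))
    push_cast at f4 ⊢
    linarith

theorem ord_none {n : ℕ} {F : Cm (n + 1) → V.W} {w : Cm (n + 1)} (h0 : w 0 = 0) {l : Fin V.r}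
    {g : ℕ} (hg : OrdEq (fun w => eqs c lab l (F w)) w g) (hl : lab l = none) : g = 0 := by
  simp only [eqs, hl, Option.elim_none] at hg
  exact hg.unique h0 (ordEq_zero analyticAt_const one_ne_zero)

/-- orders and coefficients indexed by the coordinates -/
theorem coords {F : Cm 4 → V.W} (hF : AnM 4 F w₁) (h0 : w₁ 0 = 0) (hc : Ch V (F w₁) c ξ lab)
    {g : Fin V.r → ℕ} (hg : ∀ l, OrdEq (fun w => eqs c lab l (F w)) w₁ (g l)) (a : Fin V.r → ℝ) :
    ∃ (γ : Fin 4 → ℕ) (b : Fin 4 → ℝ), (∀ i, OrdGe (fun w => c (F w) i) w₁ (γ i)) ∧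
      ∑ l, a l * g l = -∑ i, b i * γ i ∧ (∀ l i, lab l = some i → γ i = g l) ∧
      ∀ i, (b i = 0 ∧ γ i = 0) ∨ ∃ l, lab l = some i ∧ 1 ≤ g l ∧ b i = -a l ∧ F w₁ ∈ V.G l := by
  classical
  set γ : Fin 4 → ℕ := fun i => if h : ∃ l, lab l = some i then g h.choose else 0 with hγ
  set b : Fin 4 → ℝ := fun i => if h : ∃ l, lab l = some i ∧ 1 ≤ g l then -a h.choose else 0 with hb
  have h1 : ∀ l i, lab l = some i → γ i = g l := fun l i hl => by
    have e : ∃ l, lab l = some i := ⟨l, hl⟩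
    simp only [hγ, dif_pos e]
    rw [hc.inj _ _ i e.choose_spec hl]
  have h2 : ∀ l i, lab l = some i → 1 ≤ g l → b i = -a l := fun l i hl hl' => by
    have e : ∃ l, lab l = some i ∧ 1 ≤ g l := ⟨l, hl, hl'⟩
    simp only [hb, dif_pos e]
    rw [hc.inj _ _ i e.choose_spec.1 hl]
  refine ⟨γ, b, fun i => ?_, ?_, h1, fun i => ?_⟩
  · by_cases e : ∃ l, lab l = some i
    · obtain ⟨l, hl⟩ := e
      have e1 := (hg l).ge
      simp only [eqs, hl, Option.elim_some] at e1
      rwa [h1 l i hl]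
    · simp only [hγ, dif_neg e]
      exact ordGe_zero (hF.hol (hc.crd.hol i))
  · have e1 : ∀ l, a l * g l = ∑ i, if lab l = some i then a l * g l else 0 := by
      intro l
      cases hl : lab l with
      | none => simp [ord_none h0 (hg l) hl]
      | some j => simp
    rw [Finset.sum_congr rfl fun l _ => e1 l, Finset.sum_comm, ← Finset.sum_neg_distrib]
    refine Finset.sum_congr rfl fun i _ => ?_
    by_cases e : ∃ l, lab l = some i
    · obtain ⟨l, hl⟩ := e
      rw [Finset.sum_eq_single l (fun l' _ hl' => if_neg fun e2 => hl' (hc.inj _ _ i e2 hl))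
        (by simp), if_pos hl, h1 l i hl]
      by_cases e3 : 1 ≤ g l
      · rw [h2 l i hl e3]
        ring
      · simp [show g l = 0 by omega]
    · rw [Finset.sum_eq_zero fun l _ => if_neg fun e2 => e ⟨l, e2⟩]
      simp [hγ, dif_neg e]
  · by_cases e : ∃ l, lab l = some i ∧ 1 ≤ g l
    · obtain ⟨l, hl, hl'⟩ := e
      exact Or.inr ⟨l, hl, hl', h2 l i hl hl', (hc.eqs_zero.self_of_nhds l).1
        (((hg l).ge.zero_on hl').self_of_nhds h0)⟩
    · refine Or.inl ⟨by simp only [hb, dif_neg e], ?_⟩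
      by_cases e' : ∃ l, lab l = some i
      · obtain ⟨l, hl⟩ := e'
        rw [h1 l i hl]
        by_contra e2
        exact e ⟨l, hl, by omega⟩
      · simp only [hγ, dif_neg e']

/-- the discrepancy of a component -/
theorem disc_gen (h : Hom V' V π) (hC : Crep V' V π a' a) {k : Fin V'.r} (hy : Gen V' k y)
    (h' : Ch V' y c' ξ' lab') (hk : lab' k = some 0) (hc : Ch V (π y) c ξ lab) :
    ∃ (g : Fin V.r → ℕ) (J : ℕ), (∀ l, OrdEq (fun w => eqs c lab l (π (ξ' w))) (c' y) (g l)) ∧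
      OrdEq (jd fun w => c (π (ξ' w))) (c' y) J ∧ J + ∑ l, a l * g l = a' k := by
  classical
  have h0 := (h'.mem_iff hk).self_of_nhds.1 hy.1
  obtain ⟨g, J, h1, h2, h3⟩ := disc_eq (γ := ξ') (g' := fun j => if j = k then 1 else 0) (J' := 0)
    h hC h'.crd.an h0 ((h'.gen_par hk hy).mono fun w e1 e2 e3 => e2 (e1.2.1 e3))
    (by rw [h'.crd.inv]; exact h') (by rw [h'.crd.inv]; exact hc) (fun j => by
      by_cases hj : j = k
      · simp only [hj, if_true, eqs, hk, Option.elim_some]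
        exact (ordEq_coord _).congr (h'.crd.right.mono fun w hw => (congrFun hw 0).symm)
      · simp only [if_neg hj]
        refine ordEq_zero (h'.crd.an.hol (by rw [h'.crd.inv]; exact h'.holF j)) ?_
        rw [h'.crd.inv]
        exact fun e => hy.2 j hj ((h'.eqs_zero.self_of_nhds j).1 e))
    (ordEq_zero (an_jac (h'.crd.chg h'.crd).1) (h'.crd.chg h'.crd).2)
  refine ⟨g, J, h1, h2, ?_⟩
  simpa using h3

theorem rank_exc {k : Fin V'.r} (h : Hom V' V π) {d : ℕ} (ht : ThinM 4 d (π '' V'.G k))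
    (h' : Ch V' y c' ξ' lab') (hk : lab' k = some 0) (hc : Crd c ξ (π y)) :
    ∀ᶠ w in 𝓝 (c' y), w 0 = 0 → (Tm (fun w => c (π (ξ' w))) w).rank ≤ d := by
  obtain ⟨T, t1, t2⟩ := cv_of_thinM ht hc
  refine rank_Tm_of_cv (an_loc (holM h y) h'.crd hc) t1 ?_
  exact (ev_G_iff h' hk (p := fun y => c (π y) ∈ T)).1
    ((h.cont.continuousAt.eventually t2).mono fun y' e1 e2 => e1 ⟨y', e2, rfl⟩)

theorem cast_jac {γ : Fin 4 → ℕ} {r J : ℕ} (h : ∑ i, (γ i - 1) + (3 - r) ≤ J) :
    ∑ i, (γ i : ℝ) - (Finset.univ.filter fun i => 1 ≤ γ i).card + 3 - r ≤ J := by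
  have h1 : ∑ i, γ i = ∑ i, (γ i - 1) + (Finset.univ.filter fun i => 1 ≤ γ i).card := by
    rw [Finset.card_filter, ← Finset.sum_add_distrib]
    refine Finset.sum_congr rfl fun i _ => ?_
    split_ifs <;> omega
  have h2 : ∑ i, γ i + 3 ≤ J + r + (Finset.univ.filter fun i => 1 ≤ γ i).card := by omega
  have h3 : ((∑ i, γ i + 3 : ℕ) : ℝ) ≤
    ((J + r + (Finset.univ.filter fun i => 1 ≤ γ i).card : ℕ) : ℝ) := by exact_mod_cast h2
  push_cast at h3
  linarith

end Vale.Agent.P277Z.Val.U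

namespace Vale.Agent.P277Z.Val

open U

/-- (STRA) -/
theorem stStrA : StStrA := by
  intro V' V π s a' a h hs hC
  refine ⟨fun l l' e => ?_, fun l => ?_⟩
  · obtain ⟨z, hz⟩ := (V.conn l).1
    refine eq_of_ev hz (Eventually.of_forall fun z' hz' => ?_)
    rwa [← hs.img l', ← e, hs.img l]
  · obtain ⟨y₀, hy₀⟩ := (V'.conn (s l)).1
    obtain ⟨y, hy⟩ := (freq_gen hy₀).exists
    have hz : π y ∈ V.G l := hs.img l ▸ mem_image_of_mem π hy.1
    obtain ⟨c', ξ', lab', h', hk⟩ := exists_ch1 hy.1 0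
    obtain ⟨c, ξ, lab, hc, hl⟩ := exists_ch1 hz 0
    have h0 := (h'.mem_iff hk).self_of_nhds.1 hy.1
    obtain ⟨g, J, h1, h2, h3⟩ := disc_gen h hC hy h' hk hc
    have hli := (li_iff h h'.crd hc.crd).1 (li_str h hs hy)
    obtain rfl : J = 0 := h2.unique h0 (ordEq_zero (an_jac hli.1) hli.2)
    have hF : AnM 4 (fun w => π (ξ' w)) (c' y) := h'.crd.an.map (holM h _)
    obtain ⟨γ, b, k1, -, k3, -⟩ := coords hF h0 (by rw [h'.crd.inv]; exact hc) h1 a
    have h4 : 1 ≤ g l := by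
      refine (ordGe_one (h1 l).ge.an h0 ?_).le h0 (h1 l)
      filter_upwards [(h.cont.continuousAt.tendsto.comp h'.crd.tend).eventually hc.eqs_zero,
        h'.gen_par hk hy] with w e1 e2 e3
      exact (e1 l).2 (hs.img l ▸ mem_image_of_mem π (e2.1.2 e3))
    have h5 : ∑ i, (γ i - 1) + (3 - 3) ≤ 0 := jac_le h0 k1 (r := 3)
      (Eventually.of_forall fun w _ => (Matrix.rank_le_width _)) h2
    have h6 : γ 0 - 1 ≤ ∑ i, (γ i - 1) :=
      Finset.single_le_sum (f := fun i => γ i - 1) (fun _ _ => Nat.zero_le _) (Finset.mem_univ 0)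
    have h7 : g l = 1 := by rw [k3 l 0 hl] at h6; omega
    have h8 : ∀ l', l' ≠ l → g l' = 0 := by
      intro l' hl'
      cases e : lab l' with
      | none => exact ord_none h0 (h1 l') e
      | some i =>
        by_contra e1
        have hi : (0 : Fin 4) ≠ i := fun e2 => hl' (hc.inj _ _ i e (e2 ▸ hl))
        have e3 := rank_Tm_le hli.1 {0, i} fun j hj => (k1 j).mono (by
          simp only [Finset.mem_insert, Finset.mem_singleton] at hj
          rcases hj with rfl | rfl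
          · rw [k3 l 0 hl]; omega
          · rw [k3 l' j e]; omega)
        rw [Finset.card_pair hi] at e3
        have e4 : ∑ i, (γ i - 1) + (3 - (4 - 2)) ≤ 0 := jac_le h0 k1 e3 h2
        omega
    rw [← h3, Finset.sum_eq_single l (fun l' _ hl' => by simp [h8 l' hl']) (by simp), h7]
    simp

/-- (GD) -/
theorem stGd : StGd := by
  intro V' V π s a' a h hs hC ha k hk
  obtain ⟨y₀, hy₀⟩ := (V'.conn k).1
  obtain ⟨y, hy⟩ := (freq_gen hy₀).exists
  obtain ⟨c', ξ', lab', h', hk0⟩ := exists_ch1 hy.1 0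
  obtain ⟨c, ξ, lab, hc⟩ := exists_ch V (π y)
  have h0 := (h'.mem_iff hk0).self_of_nhds.1 hy.1
  obtain ⟨g, J, h1, h2, h3⟩ := disc_gen h hC hy h' hk0 hc
  have hF : AnM 4 (fun w => π (ξ' w)) (c' y) := h'.crd.an.map (holM h _)
  obtain ⟨γ, b, k1, k2, k3, k4⟩ := coords hF h0 (by rw [h'.crd.inv]; exact hc) h1 a
  rw [h'.crd.inv] at k4
  set I := Finset.univ.filter fun i => 1 ≤ γ i with hI
  have hI4 : I.card ≤ 4 := by simpa using Finset.card_le_univ I
  have j1 := cast_jac (jac_le h0 k1 (rank_exc h (hs.exc k hk) h' hk0 hc.crd) h2)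
  have j2 := cast_jac (jac_le h0 k1 (rank_Tm_le (an_loc (holM h y) h'.crd hc.crd) I
    fun i hi => (k1 i).mono (Finset.mem_filter.1 hi).2) h2)
  rw [← hI] at j1 j2
  rw [Nat.cast_sub hI4] at j2
  have hb : ∀ i, b i < 1 := fun i => by
    rcases k4 i with e | ⟨l, -, -, e, -⟩
    · linarith [e.1]
    · linarith [ha l]
  have e1 : a' k = J - ∑ i, (γ i : ℝ) + ∑ i, γ i * (1 - b i) := by
    rw [← h3, k2]
    simp only [mul_sub, Finset.sum_sub_distrib, mul_one, mul_comm]
    ring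
  have hnn : ∀ i, 0 ≤ (γ i : ℝ) * (1 - b i) := fun i =>
    mul_nonneg (Nat.cast_nonneg _) (by linarith [hb i])
  have hge : ∀ i ∈ I, 1 - b i ≤ (γ i : ℝ) * (1 - b i) := fun i hi => by
    have e : (1 : ℝ) ≤ γ i := by exact_mod_cast (Finset.mem_filter.1 hi).2
    nlinarith [hb i]
  have hpair : ∀ i ∈ I, ∀ j ∈ I, i ≠ j → (1 - b i) + (1 - b j) ≤ 1 + a' k := by
    intro i hi j hj hij
    have e2 : ∑ x ∈ {i, j}, (γ x : ℝ) * (1 - b x) ≤ ∑ x, (γ x : ℝ) * (1 - b x) :=
      Finset.sum_le_sum_of_subset_of_nonneg (Finset.subset_univ _) fun x _ _ => hnn x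
    rw [Finset.sum_pair hij] at e2
    push_cast at j2
    linarith [hge i hi, hge j hj]
  by_cases hc2 : 2 ≤ I.card
  · obtain ⟨i, hi, j, hj, hij⟩ := Finset.one_lt_card.1 hc2
    have e2 := hpair i hi j hj hij
    by_cases e3 : 0 < b i ∧ 0 < b j
    · right
      rcases k4 i with e | ⟨l, f1, -, f3, f4⟩
      · linarith [e.1, e3.1]
      rcases k4 j with e | ⟨l', f1', -, f3', f4'⟩
      · linarith [e.1, e3.2]
      refine ⟨l, l', fun e => hij (Option.some_injective _ (f1.symm.trans (e ▸ f1'))),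
        by linarith [e3.1], by linarith [e3.2], Set.not_disjoint_iff.2 ⟨_, f4, f4'⟩, by linarith⟩
    · left
      rcases not_and_or.1 e3 with e | e
      · linarith [hb j, not_lt.1 e]
      · linarith [hb i, not_lt.1 e]
  · left
    have e2 : 0 ≤ ∑ x, (γ x : ℝ) * (1 - b x) := Finset.sum_nonneg fun x _ => hnn x
    by_cases hc1 : I.card = 0
    · rw [hc1] at j1
      push_cast at j1
      linarith
    · obtain ⟨i, hi⟩ := Finset.card_pos.1 (Nat.pos_of_ne_zero hc1)
      have e3 : (γ i : ℝ) * (1 - b i) ≤ ∑ x, (γ x : ℝ) * (1 - b x) :=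
        Finset.single_le_sum (fun x _ => hnn x) (Finset.mem_univ i)
      rw [show I.card = 1 by omega] at j1
      push_cast at j1
      linarith [hge i hi, hb i]

end Vale.Agent.P277Z.Val
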