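import Vale.Agent.P277Z.Val.USk
import Vale.Agent.P277Z.Val.Mon
import Vale.Agent.P277Z.Val.Disc
import Vale.Agent.P272.K.Inv.Chart

/-!
# P277, block VAL: the pull back of the pair data to a higher model
-/

open scoped Manifold ContDiff Topology
open Vale.Agent.P272.K Vale.Agent.P285.H281.FD Vale.Agent.P277 Set Filter
open Vale.Agent.P277.T2 (IsLEq IsCmpV)
open Vale.Agent.P277.PH (HolF at_chartAt)
open Vale.Agent.P277.HD (pull)

noncomputable section

namespace Vale.Agent.P277Z.Val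

namespace Pull

theorem det_jacM {W : Type} [TopologicalSpace W] [ChartedSpace (Cm 4) W]
    [IsManifold 𝓘(ℂ, Cm 4) ω W] {e e' : Chart 4 W} {x : W} (he : At e x) (he' : At e' x) :
    (jacM e e' x).det = jac (fun y => y) e e' x := by
  unfold jac
  rw [det_eq_Jm]
  congr 1
  ext p q
  rw [jacM_eq, jmat_apply (transition_differentiableAt he he')]
  rfl

theorem holF_zpow {W : Type} [TopologicalSpace W] [ChartedSpace (Cm 4) W] {f : W → ℂ} {x : W}
    (h : HolF 4 f x) (h0 : f x ≠ 0) (n : ℤ) : HolF 4 (fun y => f y ^ n) x :=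
  fun e he => (h e he).fun_zpow (by rwa [e.left_inv he.2])

theorem prod_mon {ι κ : Type} [Fintype ι] [Fintype κ] {z : κ → ℂ} (hz : ∀ k, z k ≠ 0) (a : ℕ)
    (J : κ → ℕ) (g : ι → κ → ℕ) (n : ι → ℤ) :
    (∏ l, (∏ k, z k ^ g l k) ^ n l) * (∏ k, z k ^ J k) ^ a =
      ∏ k, z k ^ ((a * J k : ℕ) + ∑ l, n l * g l k : ℤ) := by
  have h1 : ∀ k, ∀ s : Finset ι, z k ^ (∑ l ∈ s, n l * g l k) = ∏ l ∈ s, (z k ^ g l k) ^ n l := by
    intro k s
    classical
    induction s using Finset.induction_on with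
    | empty => simp
    | insert l s hl ih =>
      rw [Finset.sum_insert hl, Finset.prod_insert hl, zpow_add₀ (hz k), ih, mul_comm (n l),
        zpow_mul, zpow_natCast]
  simp only [zpow_add₀ (hz _), h1, Finset.prod_mul_distrib, ← Finset.prod_zpow, zpow_natCast,
    ← Finset.prod_pow, ← pow_mul, mul_comm a]
  rw [mul_comm, Finset.prod_comm]

end Pull

open Pull in
/-- (CMPP) -/
theorem cmpP : StCmpP := by
  intro V' V π s h hs X p k m c M L n hp hL hM hc ⟨t, ht⟩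
  obtain ⟨J, hJ⟩ := h.hom0.exists_jac
  obtain ⟨g, hg⟩ := h.hom0.exists_tot
  have hE : ∀ y, y ∉ ⋃ l, V'.G l → π y ∉ ⋃ l, V.G l := fun y hy hy' => hy (h.pre y hy')
  refine ⟨fun e k => (m e * c e * J k : ℕ) + ∑ l, n e l * g l k, ⟨fun e i j y =>
    t e i (chartAt (Cm 4) (π y), j.2) (π y) * jac π j.1 (chartAt (Cm 4) (π y)) y ^ (m e * c e),
    fun y => ?_, fun y e i i₁ j j₁ hy hi hi₁ hj hj₁ => ?_⟩, fun e l => ?_, fun ρ hρ => ?_⟩
  · obtain ⟨ζ', hζ'⟩ := V'.exEq y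
    obtain ⟨ζ, hζ, h1⟩ := ht.div (π y)
    refine ⟨ζ', hζ', fun e i j hi hj => ?_⟩
    have h0 := at_chartAt (n := 4) (π y)
    obtain ⟨u, hu, hu', h2⟩ := h1 e i (chartAt (Cm 4) (π y), j.2) hi ⟨h0, hj.2⟩
    obtain ⟨w, hw, hw', h3⟩ := hJ y j.1 _ hj.1 h0 ζ' hζ'
    choose v hv hv' h4 using fun l => hg y ζ hζ l ζ' hζ'
    have h5 : HolF 4 (fun x => ∏ l, v l x ^ n e l) y := fun ch hch =>
      Finset.analyticAt_fun_prod _ fun l _ => holF_zpow (hv l) (hv' l) _ ch hch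
    have h6 : HolF 4 (fun x => w x ^ (m e * c e)) y := fun ch hch => (hw ch hch).fun_pow _
    have h7 : HolF 4 (fun x => u (π x) * (∏ l, v l x ^ n e l) * w x ^ (m e * c e)) y :=
      ((h.hom0.holF (f := u) hu').mul h5).mul h6
    refine ⟨fun x => u (π x) * (∏ l, v l x ^ n e l) * w x ^ (m e * c e), mul_ne_zero (mul_ne_zero hu
      (Finset.prod_ne_zero_iff.2 fun l _ => zpow_ne_zero _ (hv' l))) (pow_ne_zero _ hw'), h7, ?_⟩
    have hπ := h.cont.continuousAt (x := y)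
    filter_upwards [hπ.eventually h2, h3, eventually_all.2 h4, hζ'.ne, ev_at hj.1,
      hπ.eventually (ev_at h0), hπ.eventually (((hM e).isOpen j.2).mem_nhds hj.2),
      (hp.comp h.cont).continuousAt.eventually (((hL e).isOpen i).mem_nhds hi)]
      with x k2 k3 k4 k5 k6 k7 k8 k9 hx
    have k0 := at_chartAt (n := 4) (π x)
    have k10 := ht.change (π x) e i i (chartAt (Cm 4) (π y), j.2) (chartAt (Cm 4) (π x), j.2)
      (hE x hx) k9 k9 ⟨k7, k8⟩ ⟨k0, k8⟩
    have k11 : (L e).g i i (p (π x)) = 1 :=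
      mul_left_cancel₀ ((hL e).ne_zero i i _ k9 k9)
        (((hL e).cocycle i i i _ k9 k9 k9).trans (mul_one _).symm)
    have k12 : (M e).g j.2 j.2 (π x) = 1 :=
      mul_left_cancel₀ ((hM e).ne_zero _ _ _ k8 k8)
        (((hM e).cocycle _ _ _ _ k8 k8 k8).trans (mul_one _).symm)
    have k13 := jac_comp (π := fun y => y) (σ := π) (e := chartAt (Cm 4) (π y)) h.cont.continuousAt
      k6.2 k0.2 (PH.chg_analyticAt k7 k0) (h.hol x _ _ k6 k0)
    have k14 : t e i (chartAt (Cm 4) (π x), j.2) (π x) = t e i (chartAt (Cm 4) (π y), j.2) (π x) *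
        jac (fun y => y) (chartAt (Cm 4) (π x)) (chartAt (Cm 4) (π y)) (π x) ^ (m e * c e) := by
      rw [k10, k11, one_mul, ← det_jacM k0 k7, pow_mul, ← mul_one (_ ^ m e), ← k12]
      rfl
    show t e i (chartAt (Cm 4) (π x), j.2) (π x) * _ = _
    rw [k14, mul_assoc, ← mul_pow, ← k13, k2 (hE x hx), k3, ← prod_mon (k5 hx)]
    simp only [k4, mul_zpow, Finset.prod_mul_distrib, mul_pow]
    ring
  · have h0 := at_chartAt (n := 4) (π y)
    have h1 := ht.change (π y) e i i₁ (chartAt (Cm 4) (π y), j.2) (chartAt (Cm 4) (π y), j₁.2)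
      (hE y hy) hi hi₁ ⟨h0, hj.2⟩ ⟨h0, hj₁.2⟩
    have h2 := jac_comp (π := π) (σ := fun y => y) (e := chartAt (Cm 4) (π y)) continuousAt_id
      hj₁.1.2 hj.1.2 (h.hol y _ _ hj.1 h0) (PH.chg_analyticAt hj.1 hj₁.1)
    show t e i₁ (chartAt (Cm 4) (π y), j₁.2) (π y) * jac π j₁.1 _ y ^ _ = (L e).g i i₁ (p (π y)) *
      (t e i (chartAt (Cm 4) (π y), j.2) (π y) * jac π j.1 _ y ^ _) *
        ((jacM j₁.1 j.1 y).det ^ m e * (M e).g j₁.2 j.2 (π y)) ^ c e
    rw [h1, h2, det_jacM hj₁.1 hj.1]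
    show _ * ((jacM _ _ (π y)).det ^ m e * (M e).g j₁.2 j.2 (π y)) ^ c e * _ = _
    rw [jacM_self h0, Matrix.det_one]
    ring
  · have h1 := (stStrA V' V π s _ _ h hs (crep_of_mon hJ hg 0)).2 l
    have h2 := (stStrA V' V π s _ _ h hs (crep_of_mon hJ hg fun l => n e l)).2 l
    simp only [Pi.zero_apply, zero_mul, Finset.sum_const_zero, add_zero, Nat.cast_eq_zero] at h1
    simp only [h1, Nat.cast_zero, zero_add] at h2
    simp only [h1, mul_zero, Nat.cast_zero, zero_add]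
    exact_mod_cast h2
  · have h1 : disc ρ c (fun e k => ((m e * c e * J k : ℕ) + ∑ l, n e l * g l k : ℤ)) =
        fun k => J k + ∑ l, disc ρ c n l * g l k := by
      funext k
      have h2 : ∀ e, (c e : ℝ) ≠ 0 := fun e => Nat.cast_ne_zero.2 (Nat.one_le_iff_ne_zero.1 (hc e))
      simp only [disc, Finset.sum_mul]
      rw [Finset.sum_comm, ← one_mul (J k : ℝ), ← hρ, Finset.sum_mul, ← Finset.sum_add_distrib]
      refine Finset.sum_congr rfl fun e _ => ?_
      push_cast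
      rw [mul_add, add_div, Finset.mul_sum, Finset.sum_div]
      congr 1
      · field_simp [h2 e]
      · exact Finset.sum_congr rfl fun l _ => by ring
    rw [h1]
    exact crep_of_mon hJ hg _

/-- (PULL) -/
theorem pull_of (h1 : StComp) (h2 : StNefP) : StPull := by
  intro k m V χ M X L c p exc n hX hL hc hP V' π χ' exc₁ Z₀ s hB hs
  obtain ⟨n', h3, h4, h5⟩ := cmpP V' V π s hB.hom hs X p k m c M L n hP.res.cont hL hP.lb hc hP.cmp
  obtain ⟨h6, h7⟩ := h1 V' V X p π exc exc₁ s hX hB.hom hs hB.res hP.res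
  have h8 := fun e => h2 V' V π χ' χ (M e) hB.kahler hP.kahler
    ⟨hB.hom.cont, fun y g hg => hB.hom.hom0.holF hg⟩ (hP.lb e)
  exact ⟨n', ⟨hB.kahler, fun e => (h8 e).1, fun e => (h8 e).2 (hP.nef e), h7, h3⟩, h6, h4, h5⟩

end Vale.Agent.P277Z.Val
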