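import Vale.Agent.P277Z.Val.USk
import Vale.Agent.P277Z.Val.KahL

/-!
# P277, block VAL: the pull back of nef line bundles, Kähler manifolds
-/

open scoped Manifold ContDiff ComplexOrder Topology
open Filter Set
open Vale.Agent.P272.K Vale.Agent.P277.PH Vale.Agent.P277Z.Pos Vale.Agent.P277Z.Pj

noncomputable section

namespace Vale.Agent.P277Z.Val

open KahL

theorem kahM : StKahM := by
  intro V
  constructor
  · rintro ⟨ι, U, u, hU, hc, hp, hf⟩
    have hU' : ∀ i, IsOpen (X := V.W) (U i) := hU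
    refine (kah 4 V.W ι U u hU' hc (fun i y hy => ?_) fun i j y hi hj => ?_).imp fun χ h => h.1
    · obtain ⟨N, k, O, Ω, h, φ, v, hO, hM, h1, h2, h3⟩ := hp i y hy
      obtain ⟨h4, h5⟩ := imm_model (show P277.IsModel (X := V.W) (HolF 4) O Ω h φ from hM) hO
      exact posAt_vec h4 h5 h1.self_of_nhds h2 h3
    · obtain ⟨g, h1, h2⟩ := hf i j y hi hj
      exact flatAt_re h1 h2
  · rintro ⟨χ, hχ⟩
    obtain ⟨B, ρ, h⟩ := exists_pots hχ
    refine ⟨V.W, cov B, pot ρ, h.open_cov, fun x => ⟨x, h.mem_cov x⟩, fun x y hy =>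
      ⟨4, 0, _, _, _, _, ρ x, hy, h.model x,
        Eventually.of_forall fun _ => (h.smooth x).contDiffAt, h.posDef hy.2,
        Eventually.of_forall fun _ => rfl⟩, fun i j y hi hj => ?_⟩
    exact re_of_flat (Y := V.W) (eventually_of_mem
      (((h.open_cov i).inter (h.open_cov j)).mem_nhds ⟨hi, hj⟩)
      fun w hw => h.flatAt hw.1 hw.2)

theorem nefP : StNefP := by
  intro V' V π χ' χ M hχ' hχ hπ hM
  have hc : Continuous π := hπ.cont
  have hv : ∀ y, HolV 4 (fun x => chartAt (Cm 4) (π y) (π x)) y := fun y => holV_pi.2 fun i =>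
    hπ.hol y (fun x => chartAt (Cm 4) (π y) x i) (holV_pi.1 (holV_chart (at_chartAt _)) i)
  refine ⟨⟨fun i => (hM.isOpen i).preimage hc, fun y => hM.cover (π y),
    fun i j e y he hi hj => (hπ.hol y (M.g i j)
      (fun e' he' => (hM.holo i j e' _ he' hi hj).analyticAt) e he).contDiffAt,
    fun i j y => hM.ne_zero i j (π y), fun i j k y => hM.cocycle i j k (π y)⟩, fun hN δ hδ => ?_⟩
  obtain ⟨B, ρ, h⟩ := exists_pots hχ
  obtain ⟨C, hC, h3⟩ := exists_le hχ' (fun x => π ⁻¹' cov B x) (fun x w => pot ρ x (π w))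
    (fun x => (h.open_cov x).preimage hc) (fun y => ⟨π y, h.mem_cov _⟩)
    (fun x y hy => psdAt_pull hc.continuousAt (at_chartAt _) (hv y) fun e he =>
      ⟨(h.posAt hy e he).1, (h.posAt hy e he).2.posSemidef⟩)
    fun x x' y hy hy' => flatAt_pull (u := fun w => pot ρ x w - pot ρ x' w) hc.continuousAt
      (at_chartAt _) (hv y) (h.flatAt hy hy')
  obtain ⟨ψ, hψ, h4⟩ := hN (δ / C) (div_pos hδ hC)
  have h5 : ∀ i y, π y ∈ M.U i → SmR 4 (fun w => ψ i (π w)) y := fun i y hi =>
    smR_pull hc.continuousAt (at_chartAt _) (hv y) fun e he => hψ.smooth i e _ he hi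
  refine ⟨fun i w => ψ i (π w), ⟨fun i e y he hi => h5 i y hi e he,
    fun i j y => hψ.change i j (π y)⟩, fun i e y he hi => ?_⟩
  have hy := h.mem_cov (π y)
  have h6 := (psdAt_pull (u := fun w => ψ i w + δ / C * pot ρ (π y) w) hc.continuousAt
    (at_chartAt _) (hv y) (fun e he => ⟨(hψ.smooth i e _ he hi).add
      (contDiffAt_const.mul (h.hess_eq hy he).1), by
    rw [cHess_add ((hψ.smooth i e _ he hi).of_le two)
      ((contDiffAt_const.mul (h.hess_eq hy he).1).of_le two),
      cHess_const_mul _ ((h.hess_eq hy he).1.of_le two), (h.hess_eq hy he).2]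
    exact h4 i e _ he hi⟩) e he).2
  have h7 := (smR_pull hc.continuousAt (at_chartAt _) (hv y)
    (fun e he => (h.hess_eq hy he).1) e he).of_le two
  rw [cHess_add ((h5 i y hi e he).of_le two) (contDiffAt_const.mul h7),
    cHess_const_mul _ h7] at h6
  have h8 := h6.add ((h3 (π y) e y he hy).smul (a := ((δ / C : ℝ) : ℂ))
    (Complex.zero_le_real.2 (div_pos hδ hC).le))
  rwa [smul_sub, smul_smul, ← Complex.ofReal_mul, div_mul_cancel₀ _ hC.ne', add_add_sub_cancel]
    at h8

end Vale.Agent.P277Z.Val
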