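import Vale.Agent.P277Z.Val.Unit
import Vale.Agent.P277Z.Val.Mod

/-!
# P277, block VAL: adapted coordinates of a model
-/

set_option linter.unusedSectionVars false

open scoped Manifold ContDiff
open Set Filter Metric Topology
open Vale.Agent.P272.K Vale.Agent.P277.PH
open Vale.Agent.P277.T2 (IsLEq)
open Vale.Agent.P277.T3 (ThinM IsAnAt)
open Vale.Agent.P277.H762 (Cv)

noncomputable section

namespace Vale.Agent.P277Z.Val.U

section man
variable {M : Type} [TopologicalSpace M] {n : ℕ} [ChartedSpace (Cm n) M]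
  [IsManifold 𝓘(ℂ, Cm n) ω M]

theorem crd_of_isCo {t : M → Cm n} {y : M} (h : IsCo n t y) : ∃ ξ, Crd t ξ y := by
  have he := at_chartAt (n := n) y
  set e := chartAt (Cm n) y
  obtain ⟨θ, h1, -, h3, h4⟩ := LocIso.exists_inv (φ := fun z => t (e.symm z)) (h e he)
  have h5 := (crd_chart he).comp (h e he).1 h1.1 h3 h4
  have h6 : (fun y => t (e.symm (e y))) =ᶠ[𝓝 y] t :=
    (e.eventually_left_inverse he.2).mono fun y' hy' => by
      show t (e.symm (e y')) = t y'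
      rw [hy']
  have h7 : t (e.symm (e y)) = t y := h6.eq_of_nhds
  refine ⟨fun w => e.symm (θ w), fun i => (h5.hol i).congr (h6.mono fun y' hy' => congrFun hy' i),
    h7 ▸ h5.an, ?_, ?_⟩
  · filter_upwards [h5.left, h6] with y' e1 e2
    rwa [e2] at e1
  · have h8 := h5.right
    have h9 := h5.tend.eventually h6
    rw [h7] at h8 h9
    filter_upwards [h8, h9] with w e1 e2
    rw [← e2, e1]

theorem anAt_comp {Z : Set M} {k : ℕ} {γ : Cm k → M} {w : Cm k} (hγ : AnM n γ w)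
    (h : IsAnAt n Z (γ w)) : AnAt (γ ⁻¹' Z) w := by
  obtain ⟨l, f, h1, h2⟩ := h
  exact ⟨l, fun i z => f i (γ z), fun i => hγ.hol (h1 i), hγ.1.eventually h2⟩

theorem isAnAt_preimage {M' : Type} [TopologicalSpace M'] {n' : ℕ} [ChartedSpace (Cm n') M']
    {π : M' → M} {y : M'} (hπ : HolM n' n π y) {Z : Set M} (h : IsAnAt n Z (π y)) :
    IsAnAt n' (π ⁻¹' Z) y := by
  obtain ⟨l, f, h1, h2⟩ := h
  exact ⟨l, fun i z => f i (π z), fun i => hπ.2 _ (h1 i), hπ.1.eventually h2⟩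

/-- thin sets in coordinates -/
theorem cv_of_thinM {d : ℕ} {S : Set M} (h : ThinM n d S) {c : M → Cm n} {ξ : Cm n → M} {z : M}
    (hc : Crd c ξ z) : ∃ T : Set (Cm n), Cv d T ∧ ∀ᶠ y in 𝓝 z, y ∈ S → c y ∈ T := by
  obtain ⟨Ω, g, h1, h2, h3⟩ := h
  obtain ⟨N, hN, hNo, hzN⟩ := _root_.eventually_nhds_iff.1 hc.eventually
  refine ⟨⋃ l, (fun p => c (g l p)) '' {p | p ∈ Ω l ∧ g l p ∈ N},
    ⟨fun l => {p | p ∈ Ω l ∧ g l p ∈ N}, fun l p => c (g l p), fun l => ?_, fun l p hp => ?_,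
      Subset.rfl⟩, ?_⟩
  · rw [isOpen_iff_mem_nhds]
    intro p hp
    filter_upwards [(h1 l).mem_nhds hp.1, (h2 l p hp.1).1.eventually (hNo.mem_nhds hp.2)] with
      q hq hq' using ⟨hq, hq'⟩
  · exact (hN _ hp.2).an_comp (h2 l p hp.1)
  · filter_upwards [hNo.mem_nhds hzN] with y e1 e2
    obtain ⟨l, p, hp, rfl⟩ := mem_iUnion.1 (h3 e2)
    exact mem_iUnion.2 ⟨l, p, ⟨hp, e1⟩, rfl⟩

end man

/-- the permutation of the coordinates -/
def prm {n : ℕ} (σ : Equiv.Perm (Fin n)) (w : Cm n) : Cm n := fun i => w (σ i)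

theorem an_prm {n : ℕ} (σ : Equiv.Perm (Fin n)) (w : Cm n) : AnalyticAt ℂ (prm σ) w :=
  analyticAt_pi_iff.2 fun i => an_coord (σ i) w

/-- Coordinates in which the components are coordinate hyperplanes. -/
structure Ch (V : Lg) (y : V.W) (c : V.W → Cm 4) (ξ : Cm 4 → V.W)
    (lab : Fin V.r → Option (Fin 4)) : Prop where
  crd : Crd c ξ y
  inj : ∀ l l' i, lab l = some i → lab l' = some i → l = l'
  mem : ∀ᶠ y' in 𝓝 y, ∀ l, y' ∈ V.G l ↔ ∃ i, lab l = some i ∧ c y' i = 0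

variable {V : Lg} {y : V.W} {c : V.W → Cm 4} {ξ : Cm 4 → V.W} {lab : Fin V.r → Option (Fin 4)}

theorem exists_ch (V : Lg) (y : V.W) : ∃ c ξ lab, Ch V y c ξ lab := by
  obtain ⟨t, lab, h1, h2, h3⟩ := V.snc y
  obtain ⟨ξ, h4⟩ := crd_of_isCo h1
  exact ⟨t, ξ, lab, h4, h2, h3⟩

theorem Ch.eventually (h : Ch V y c ξ lab) : ∀ᶠ y' in 𝓝 y, Ch V y' c ξ lab := by
  filter_upwards [h.crd.eventually, h.mem.eventually_nhds] with y' e1 e2 using ⟨e1, h.inj, e2⟩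

theorem Ch.perm (h : Ch V y c ξ lab) (σ : Equiv.Perm (Fin 4)) :
    Ch V y (fun y => prm σ (c y)) (fun w => ξ (prm σ.symm w)) fun l => (lab l).map σ.symm where
  crd := h.crd.comp (an_prm _ _) (an_prm _ _)
    (Eventually.of_forall fun w => funext fun i => by simp [prm])
    (Eventually.of_forall fun w => funext fun i => by simp [prm])
  inj l l' i h1 h2 := by
    obtain ⟨j, e1, e2⟩ := Option.map_eq_some_iff.1 h1
    obtain ⟨j', e1', e2'⟩ := Option.map_eq_some_iff.1 h2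
    exact h.inj l l' j e1 (by rw [e1', σ.symm.injective (e2'.trans e2.symm)])
  mem := by
    filter_upwards [h.mem] with y' e1 l
    rw [e1 l]
    constructor
    · rintro ⟨i, e2, e3⟩
      exact ⟨σ.symm i, by simp [e2], by simpa [prm] using e3⟩
    · rintro ⟨i, e2, e3⟩
      obtain ⟨j, e4, rfl⟩ := Option.map_eq_some_iff.1 e2
      exact ⟨j, e4, by simpa [prm] using e3⟩

theorem Ch.mem_iff (h : Ch V y c ξ lab) {l : Fin V.r} {i : Fin 4} (hl : lab l = some i) :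
    ∀ᶠ y' in 𝓝 y, y' ∈ V.G l ↔ c y' i = 0 := by
  filter_upwards [h.mem] with y' e1
  rw [e1 l, hl]
  simp

theorem Ch.mem_par (h : Ch V y c ξ lab) :
    ∀ᶠ w in 𝓝 (c y), ∀ l, ξ w ∈ V.G l ↔ ∃ i, lab l = some i ∧ w i = 0 := by
  filter_upwards [h.crd.tend.eventually h.mem, h.crd.right] with w e1 e2
  rwa [e2] at e1

theorem exists_ch1 {l : Fin V.r} (hy : y ∈ V.G l) (i : Fin 4) :
    ∃ c ξ lab, Ch V y c ξ lab ∧ lab l = some i := by
  obtain ⟨c, ξ, lab, h⟩ := exists_ch V y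
  obtain ⟨j, h1, -⟩ := (h.mem.self_of_nhds l).1 hy
  exact ⟨_, _, _, h.perm (Equiv.swap i j), by simp [h1]⟩

theorem exists_ch2 {k l : Fin V.r} (hkl : k ≠ l) (hk : y ∈ V.G k) (hl : y ∈ V.G l) :
    ∃ c ξ lab, Ch V y c ξ lab ∧ lab k = some 0 ∧ lab l = some 1 := by
  obtain ⟨c, ξ, lab, h, h0⟩ := exists_ch1 hk 0
  obtain ⟨j, h1, -⟩ := (h.mem.self_of_nhds l).1 hl
  have hj : j ≠ 0 := fun e => hkl (h.inj k l 0 h0 (e ▸ h1))
  refine ⟨_, _, _, h.perm (Equiv.swap 1 j), ?_, by simp [h1]⟩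
  simp [h0, Equiv.swap_apply_of_ne_of_ne (zero_ne_one : (0 : Fin 4) ≠ 1) hj.symm]

/-- the local equations -/
def eqs (c : V.W → Cm 4) (lab : Fin V.r → Option (Fin 4)) (l : Fin V.r) (y : V.W) : ℂ :=
  (lab l).elim 1 fun i => c y i

theorem Ch.holF (h : Ch V y c ξ lab) (l : Fin V.r) : HolF 4 (eqs c lab l) y := by
  unfold eqs
  cases lab l with
  | none => exact HolF.const 1
  | some i => exact h.crd.hol i

theorem Ch.eqs_zero (h : Ch V y c ξ lab) : ∀ᶠ y' in 𝓝 y, ∀ l, eqs c lab l y' = 0 ↔ y' ∈ V.G l := by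
  filter_upwards [h.mem] with y' e1 l
  rw [e1 l]
  unfold eqs
  cases lab l <;> simp

theorem Ch.eq (h : Ch V y c ξ lab) : V.Eq y (eqs c lab) := by
  intro l
  refine ⟨h.eqs_zero.mono fun y' e => e l, fun e he => ⟨h.holF l e he, fun h0 hd => ?_⟩⟩
  cases hl : lab l with
  | none => simp [eqs, hl] at h0
  | some i =>
    have h1 := (crd_chart he).chg h.crd
    have h2 : (fun z => eqs c lab l (e.symm z)) = fun z => c (e.symm z) i := by
      funext z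
      simp [eqs, hl]
    rw [h2] at hd
    refine h1.2 ?_
    rw [det_eq_Jm]
    refine Matrix.det_eq_zero_of_row_eq_zero i fun j => ?_
    rw [Jm_apply h1.1.differentiableAt, pd, hd]
    rfl

theorem isAnAt_G (V : Lg) (l : Fin V.r) (y : V.W) : IsAnAt 4 (V.G l) y := by
  obtain ⟨c, ξ, lab, h⟩ := exists_ch V y
  exact ⟨1, fun _ => eqs c lab l, fun _ => h.holF l, h.eqs_zero.mono fun y' e => by simp [e l]⟩

theorem closed_G (V : Lg) (l : Fin V.r) : IsClosed (V.G l) := by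
  rw [← isOpen_compl_iff, isOpen_iff_mem_nhds]
  intro y hy
  obtain ⟨c, ξ, lab, h⟩ := exists_ch V y
  have h1 : eqs c lab l y ≠ 0 := fun e => hy ((h.eqs_zero.self_of_nhds l).1 e)
  filter_upwards [h.eqs_zero, (holF_cont (h.holF l)).eventually_ne h1] with y' e1 e2 e3
  exact e2 ((e1 l).2 e3)

theorem closed_E (V : Lg) : IsClosed V.E := isClosed_iUnion_of_finite (closed_G V)

/-- points with non zero coordinates -/
theorem freq_coord {n : ℕ} (I : Finset (Fin n)) {w : Cm n} (hw : ∀ i ∈ I, w i = 0) :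
    ∃ᶠ z in 𝓝 w, (∀ i ∈ I, z i = 0) ∧ ∀ i ∉ I, z i ≠ 0 := by
  classical
  set v : Cm n := fun i => if i ∈ I then 0 else 1 with hv
  have ht : Tendsto (fun t : ℂ => w + t • v) (𝓝[≠] 0) (𝓝 w) := by
    have : Continuous fun t : ℂ => w + t • v := by fun_prop
    have h1 := this.tendsto 0
    rw [zero_smul, add_zero] at h1
    exact h1.mono_left nhdsWithin_le_nhds
  refine ht.frequently (Eventually.frequently ?_)
  have h1 : ∀ i, ∀ᶠ t in 𝓝[≠] (0 : ℂ), w i + t ≠ 0 := by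
    intro i
    by_cases h : w i = 0
    · filter_upwards [self_mem_nhdsWithin] with t ht
      rw [h, zero_add]
      exact ht
    · have : ∀ᶠ t in 𝓝 (0 : ℂ), w i + t ≠ 0 :=
        (continuous_const.add continuous_id).continuousAt.eventually_ne (by simpa using h)
      exact this.filter_mono nhdsWithin_le_nhds
  filter_upwards [eventually_all.2 h1] with t ht
  exact ⟨fun i hi => by simp [hv, hi, hw i hi], fun i hi => by simpa [hv, hi] using ht i⟩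

theorem freq_notE (V : Lg) (y : V.W) : ∃ᶠ y' in 𝓝 y, y' ∉ V.E := by
  obtain ⟨c, ξ, lab, h⟩ := exists_ch V y
  refine h.crd.tend.frequently (((freq_coord ∅ (by simp)).and_eventually h.mem_par).mono ?_)
  rintro w ⟨⟨-, e1⟩, e2⟩ e3
  obtain ⟨l, hl⟩ := mem_iUnion.1 e3
  obtain ⟨i, -, e4⟩ := (e2 l).1 hl
  exact e1 i (by simp) e4

/-- `y` is on `G k` only -/
def Gen (V : Lg) (k : Fin V.r) (y : V.W) : Prop := y ∈ V.G k ∧ ∀ j, j ≠ k → y ∉ V.G j

theorem freq_gen {k : Fin V.r} (hy : y ∈ V.G k) : ∃ᶠ y' in 𝓝 y, Gen V k y' := by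
  obtain ⟨c, ξ, lab, h, hk⟩ := exists_ch1 hy 0
  have h0 : c y 0 = 0 := (h.mem_iff hk).self_of_nhds.1 hy
  refine h.crd.tend.frequently
    (((freq_coord {0} (by simpa using h0)).and_eventually h.mem_par).mono ?_)
  rintro w ⟨⟨e0, e1⟩, e2⟩
  refine ⟨(e2 k).2 ⟨0, hk, e0 0 (by simp)⟩, fun j hj e3 => ?_⟩
  obtain ⟨i, e4, e5⟩ := (e2 j).1 e3
  refine e1 i (fun e6 => hj (h.inj j k i e4 ?_)) e5
  rw [Finset.mem_singleton.1 e6, hk]

theorem Gen.eventually {k : Fin V.r} (h : Gen V k y) : ∀ᶠ y' in 𝓝 y, ∀ j, j ≠ k → y' ∉ V.G j :=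
  eventually_all.2 fun j => by
    by_cases hj : j = k
    · exact Eventually.of_forall fun _ h => absurd hj h
    · exact Filter.mem_of_superset ((closed_G V j).isOpen_compl.mem_nhds (h.2 j hj)) fun _ h _ => h

/-- near a generic point of `G k` the union of the components is `{w 0 = 0}` -/
theorem Ch.gen_par (h : Ch V y c ξ lab) {k : Fin V.r} (hk : lab k = some 0) (hy : Gen V k y) :
    ∀ᶠ w in 𝓝 (c y), (ξ w ∈ V.G k ↔ w 0 = 0) ∧ (ξ w ∈ V.E ↔ w 0 = 0) := by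
  filter_upwards [h.mem_par, h.crd.tend.eventually hy.eventually] with w e1 e2
  have e3 : ξ w ∈ V.G k ↔ w 0 = 0 := by
    rw [e1 k, hk]
    simp
  refine ⟨e3, fun e4 => ?_, fun e4 => mem_iUnion.2 ⟨k, e3.2 e4⟩⟩
  obtain ⟨l, hl⟩ := mem_iUnion.1 e4
  by_cases e5 : l = k
  · exact e3.1 (e5 ▸ hl)
  · exact absurd hl (e2 l e5)

theorem ev_G_iff (h : Ch V y c ξ lab) {k : Fin V.r} (hk : lab k = some 0) {p : V.W → Prop} :
    (∀ᶠ y' in 𝓝 y, y' ∈ V.G k → p y') ↔ ∀ᶠ w in 𝓝 (c y), w 0 = 0 → p (ξ w) := by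
  constructor
  · intro h1
    filter_upwards [h.crd.tend.eventually h1, h.mem_par] with w e1 e2 e3
    exact e1 ((e2 k).2 ⟨0, hk, e3⟩)
  · intro h1
    filter_upwards [h.crd.cont.eventually h1, h.mem_iff hk, h.crd.left] with y' e1 e2 e3 e4
    have := e1 (e2.1 e4)
    rwa [e3] at this

/-- identity theorem along `{w 0 = 0}`, local form -/
theorem anAt_hyp {m : ℕ} {Z : Set (Cm (m + 1))} {w : Cm (m + 1)} (h0 : w 0 = 0) (h : AnAt Z w)
    (h' : ∃ᶠ z in 𝓝 w, z 0 = 0 ∧ ∀ᶠ x in 𝓝 z, x 0 = 0 → x ∈ Z) :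
    ∀ᶠ z in 𝓝 w, z 0 = 0 → z ∈ Z := by
  rw [ev_hyp_iff h0]
  refine AnAt.mem_nhds (Z := inc m ⁻¹' Z) (AnAt.comp (by rwa [inc_tl h0]) ((inc m).analyticAt _)) ?_
  exact ((tl m).continuous.tendsto w).frequently (h'.mono fun z hz => (ev_hyp_iff hz.1).1 hz.2)

theorem conn_prop {X : Type*} [TopologicalSpace X] {s : Set X} (hs : IsPreconnected s)
    {p : X → Prop} (h1 : ∀ x ∈ s, p x → ∀ᶠ y in 𝓝 x, y ∈ s → p y)
    (h2 : ∀ x ∈ s, (∃ᶠ y in 𝓝 x, y ∈ s ∧ p y) → p x) {x₀ : X} (h0 : x₀ ∈ s) (hp : p x₀) :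
    ∀ x ∈ s, p x := by
  intro x hx
  by_contra hcon
  have h3 : ∀ x ∈ s, ¬ p x → ∀ᶠ y in 𝓝 x, y ∈ s → ¬ p y := fun x hx h =>
    (not_frequently.1 fun h' => h (h2 x hx h')).mono fun y hy e1 e2 => hy ⟨e1, e2⟩
  obtain ⟨z, e1, e2, e3⟩ := hs {y | ∀ᶠ y' in 𝓝 y, y' ∈ s → p y'}
    {y | ∀ᶠ y' in 𝓝 y, y' ∈ s → ¬ p y'} isOpen_setOfPred_eventually_nhds
    isOpen_setOfPred_eventually_nhds
    (fun y hy => (em (p y)).imp (h1 y hy) (h3 y hy)) ⟨x₀, h0, h1 x₀ h0 hp⟩ ⟨x, hx, h3 x hx hcon⟩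
  exact (Filter.Eventually.self_of_nhds e3) e1 ((Filter.Eventually.self_of_nhds e2) e1)

/-- identity theorem on a component -/
theorem G_subset {k : Fin V.r} {Z : Set V.W} (hZ : ∀ y ∈ V.G k, IsAnAt 4 Z y) {y₀ : V.W}
    (h0 : y₀ ∈ V.G k) (h : ∀ᶠ y' in 𝓝 y₀, y' ∈ V.G k → y' ∈ Z) : V.G k ⊆ Z := by
  have h1 := conn_prop (V.conn k).2 (p := fun y => ∀ᶠ y' in 𝓝 y, y' ∈ V.G k → y' ∈ Z)
    (fun x _ hp => hp.eventually_nhds.mono fun _ h _ => h) (fun x hx hp => ?_) h0 h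
  · exact fun y hy => (h1 y hy).self_of_nhds hy
  obtain ⟨c, ξ, lab, hc, hk⟩ := exists_ch1 hx 0
  rw [ev_G_iff hc hk]
  refine anAt_hyp (Z := ξ ⁻¹' Z) ((hc.mem_iff hk).self_of_nhds.1 hx)
    (anAt_comp hc.crd.an (by rw [hc.crd.inv]; exact hZ x hx)) ?_
  refine hc.crd.cont.tendsto.frequently ((hp.and_eventually hc.eventually).mono ?_)
  rintro y ⟨⟨e1, e2⟩, e3⟩
  exact ⟨(e3.mem_iff hk).self_of_nhds.1 e1, (ev_G_iff e3 hk).1 e2⟩

/-- distinct components have no common open part -/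
theorem eq_of_ev {k l : Fin V.r} (hy : y ∈ V.G k) (h : ∀ᶠ y' in 𝓝 y, y' ∈ V.G k → y' ∈ V.G l) :
    k = l := by
  obtain ⟨y', e1, e2⟩ := ((freq_gen hy).and_eventually h).exists
  by_contra hne
  exact e1.2 l (Ne.symm hne) (e2 e1.1)

/-- a finite closed cover of an open part of a set -/
theorem exists_ev_of_cover {X ι : Type*} [TopologicalSpace X] [Finite ι] {s : Set X} {x : X}
    (hx : x ∈ s) {Z : ι → Set X} (hZ : ∀ i, IsClosed (Z i))
    (h : ∀ᶠ y in 𝓝 x, y ∈ s → ∃ i, y ∈ Z i) :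
    ∃ᶠ y in 𝓝 x, y ∈ s ∧ ∃ i, ∀ᶠ y' in 𝓝 y, y' ∈ s → y' ∈ Z i := by
  classical
  have key : ∀ (I : Finset ι) (x : X), x ∈ s → (∀ᶠ y in 𝓝 x, y ∈ s → ∃ i ∈ I, y ∈ Z i) →
      ∃ᶠ y in 𝓝 x, y ∈ s ∧ ∃ i, ∀ᶠ y' in 𝓝 y, y' ∈ s → y' ∈ Z i := by
    intro I
    induction I using Finset.induction_on with
    | empty =>
      intro x hx h
      obtain ⟨i, hi, -⟩ := h.self_of_nhds hx
      simp at hi
    | insert a I ha ih =>
      intro x hx h
      by_cases h1 : ∀ᶠ y in 𝓝 x, y ∈ s → y ∈ Z a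
      · exact (frequently_pure.2 ⟨hx, a, h1⟩).filter_mono (pure_le_nhds x)
      · refine frequently_frequently_nhds.1 (((not_eventually.1 h1).and_eventually
          h.eventually_nhds).mono ?_)
        rintro y ⟨e1, e2⟩
        push Not at e1
        refine ih y e1.1 ?_
        filter_upwards [e2, (hZ a).isOpen_compl.mem_nhds e1.2] with z e3 e4 e5
        obtain ⟨i, e6, e7⟩ := e3 e5
        rcases Finset.mem_insert.1 e6 with rfl | e8
        · exact absurd e7 e4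
        · exact ⟨i, e8, e7⟩
  have := Fintype.ofFinite ι
  exact key Finset.univ x hx (h.mono fun y hy e => by simpa using hy e)

end Vale.Agent.P277Z.Val.U
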