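import Vale.Agent.P277Z.Val.USk

/-!
# P277, block VAL: the construction of the models (more statements)
-/

open scoped Manifold ContDiff Topology ComplexOrder
open Vale.Agent.P272.K Vale.Agent.P285.H281.FD Vale.Agent.P277 Set Filter

noncomputable section

namespace Vale.Agent.P277Z.Val

/-- (NX) manifolds are normal -/
def StNX : Prop := ∀ V : Lg, Nonempty V.W → IsNormal 4 V.X

/-- (EXC) the exceptional components are determined by the map -/
def StExc : Prop :=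
  ∀ (V : Lg) (X : CSp) (p : V.W → X.pt) exc, Res V X p exc → ∀ l, l ∈ exc ↔ DimLe X 2 (p '' V.G l)

/-- (KB) a projective modification of a Kähler model is Kähler -/
def StKB : Prop :=
  ∀ (V' V : Lg) (π : V'.W → V.W) exc (χ : V.Fm), IsKahler χ → Res V' V.X π exc →
    ∃ χ' : V'.Fm, IsKahler χ'

/-- (CF) the fibres of a resolution of a normal space are connected -/
def StCF : Prop :=
  ∀ (V : Lg) (X : CSp) (p : V.W → X.pt) exc, IsNormal 4 X → Res V X p exc →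
    ∀ x, IsPreconnected (p ⁻¹' {x})

/-- (NEGV) the negativity lemma -/
def StNegV : Prop :=
  ∀ (k : ℕ) (ρ : Fin k → ℝ) (m : Fin k → ℕ) (V : Lg) (χ : V.Fm) (M : Fin k → Bd V.W) (X : CSp)
    (L : Fin k → Bd X.pt) (c : Fin k → ℕ) (p : V.W → X.pt) exc n, IsNormal 4 X →
    (∀ e, IsLBx X (L e)) → (∀ e, 1 ≤ c e) → IsPM m V χ M X L c p exc n →
    (∀ e, ρ e < 0 → M e = triv V.W) → ∑ e, ρ e * m e = 0 → (∀ l ∉ exc, disc ρ c n l ≤ 0) →
    ∀ l, disc ρ c n l ≤ 0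

/-- (CAR) a `ℚ`-Cartier divisor is locally the zero set of one function -/
def StCar : Prop :=
  ∀ (V : Lg) (Y : CSp) (ψ : V.W → Y.pt) exc l, IsNormal 4 Y → Res V Y ψ exc → l ∉ exc →
    QCar V Y ψ exc 0 (Pi.single l 1) →
    ∀ y, ∃ f, Y.Hol f y ∧ ∀ᶠ y' in 𝓝 y, f y' = 0 ↔ y' ∈ ψ '' V.G l

/-- (VOL) the terminal model has canonical singularities; the conclusion is `Top.Vol U Y p` -/
def StVol : Prop :=
  ∀ (k : ℕ) (ρ : Fin k → ℝ) (m : Fin k → ℕ) (V : Lg) χ M Y L c ψ n (U : Lg) (p : U.W → Y.pt)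
    (μ : V.W → U.W), Trm ρ m V χ M Y L c ψ n → QCar V Y ψ (pos (disc ρ c n)) 1 0 →
    Res U Y p Finset.univ → HolTo V U.X μ → (∀ y, p (μ y) = ψ y) →
    ∀ y, ∃ (O : Set Y.pt) (m : ℕ) (η : Chart 4 U.W → U.W → ℂ), IsOpen O ∧ y ∈ O ∧ 1 ≤ m ∧
      ∀ x, p x ∈ O → (∀ e, At e x → PH.HolF 4 (η e) x ∧ (x ∉ U.E → η e x ≠ 0)) ∧
        ∀ e e', At e x → At e' x → η e x = (Bd.can 4 U.W).g e e' x ^ m * η e' x

end Vale.Agent.P277Z.Val
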