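import Vale.Agent.P277Z.Val.LiftsA
import Vale.Agent.P277.H60.Z.Chain
import Vale.Agent.P277.H619.T3.ThinM

/-!
# P277, block VAL: maps of log resolutions are modifications of models
-/

open scoped Manifold ContDiff Topology
open Vale.Agent.P272.K Vale.Agent.P285.H281.FD Vale.Agent.P277 Set Filter Metric
open Vale.Agent.P277.T2 (IsLEq IsHyp IsPar)
open Vale.Agent.P277.PH (HolF)
open Vale.Agent.P277.T3 (ThinM Lifts LiftAt)

noncomputable section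

namespace Vale.Agent.P277Z.Val.Lf

section
variable {Y : Type} [TopologicalSpace Y] [ChartedSpace (Cm 4) Y]

/-- `Z` is locally the zero set of a holomorphic function. -/
def Pr (Z : Set Y) : Prop := ∀ y, ∃ F : Y → ℂ, HolF 4 F y ∧ ∀ᶠ y' in 𝓝 y, y' ∈ Z ↔ F y' = 0

theorem Pr.eqn {E Z : Set Y} (hZ : Pr Z) {ξ : Cm 4 → Y} {w₀ : Cm 4} {r : ℝ}
    (h : IsPar E ξ w₀ r) : ∃ r₁ > 0, ball w₀ r₁ ⊆ ball w₀ r ∧ ∃ g : Cm 4 → ℂ,
      (∀ w ∈ ball w₀ r₁, AnalyticAt ℂ g w) ∧ ∀ w ∈ ball w₀ r₁, ξ w ∈ Z ↔ g w = 0 := by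
  obtain ⟨F, hF, hZF⟩ := hZ (ξ w₀)
  have h0 := mem_ball_self (x := w₀) h.pos
  have h1 : AnM 4 ξ w₀ := ⟨h.cont w₀ h0, fun e he => (h.an w₀ h0 e he).1⟩
  obtain ⟨r₁, hr₁, hb⟩ := Metric.eventually_nhds_iff_ball.1
    ((isOpen_ball.eventually_mem h0).and
      ((h1.hol hF).eventually_analyticAt.and (h1.1.eventually hZF)))
  exact ⟨r₁, hr₁, fun w hw => (hb w hw).1, fun w => F (ξ w), fun w hw => (hb w hw).2.1,
    fun w hw => (hb w hw).2.2⟩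

/-- identity theorem on a connected smooth hypersurface -/
theorem not_loc {E Z : Set Y} (hE : IsHyp E) (hEc : IsPreconnected E) (hZ : Pr Z)
    (hne : ¬ E ⊆ Z) {y : Y} (hy : y ∈ E) : ¬ ∀ᶠ y' in 𝓝 y, y' ∈ E → y' ∈ Z := by
  intro hy0
  have hconn : PreconnectedSpace E := isPreconnected_iff_preconnectedSpace.1 hEc
  set U : Set E := {y | ∀ᶠ y' in 𝓝 (y : Y), y' ∈ E → y' ∈ Z} with hU
  have hUo : IsOpen U := by
    have h1 : IsOpen {y : Y | ∀ᶠ y' in 𝓝 y, y' ∈ E → y' ∈ Z} := isOpen_setOfPred_eventually_nhds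
    exact h1.preimage continuous_subtype_val
  have hUcl : IsClosed U := by
    rw [← closure_subset_iff_isClosed]
    rintro ⟨z, hzE⟩ hz
    have key : ∀ N ∈ 𝓝 z, ∃ z' ∈ N, z' ∈ E ∧ ∀ᶠ y' in 𝓝 z', y' ∈ E → y' ∈ Z := by
      intro N hN
      obtain ⟨⟨z', hz'E⟩, h1, h2⟩ := mem_closure_iff_nhds.1 hz (Subtype.val ⁻¹' N)
        (continuous_subtype_val.continuousAt hN)
      exact ⟨z', h1, hz'E, h2⟩
    obtain ⟨ξ, w₀, r, hpar, rfl⟩ := hE z hzE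
    obtain ⟨r₁, hr₁, hs, g, hg, hgG⟩ := hZ.eqn hpar
    have hN : ξ '' ball w₀ r₁ ∈ 𝓝 (ξ w₀) :=
      (hpar.openMap _ hs isOpen_ball).mem_nhds ⟨w₀, mem_ball_self hr₁, rfl⟩
    have hz0 : ∀ w ∈ ball w₀ r₁, w 0 = 0 → g w = 0 := by
      intro w₁ hw₁ hw₁0
      by_contra hgw
      obtain ⟨_, ⟨w', hw', rfl⟩, h2, h3⟩ := key _ hN
      have hw'0 : w' 0 = 0 := (hpar.mem w' (hs hw')).1 h2
      obtain ⟨w, ⟨k1, k2⟩, k3, k4⟩ :=
        ((H615.freq_ne hpar.zero hg hw₁ hw₁0 hw' hw'0 hgw).and_eventually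
          (((hpar.cont w' (hs hw')).eventually h3).and (isOpen_ball.mem_nhds hw'))).exists
      exact k2 ((hgG w k4).1 (k3 ((hpar.mem w (hs k4)).2 k1)))
    show ∀ᶠ y' in 𝓝 (ξ w₀), y' ∈ E → y' ∈ Z
    filter_upwards [hN] with y' hy' hy'E
    obtain ⟨w, hw, rfl⟩ := hy'
    exact (hgG w hw).2 (hz0 w hw ((hpar.mem w (hs hw)).1 hy'E))
  have huniv : U = univ := IsClopen.eq_univ ⟨hUcl, hUo⟩ ⟨⟨y, hy⟩, hy0⟩
  refine hne fun z hz => ?_
  have h1 : (⟨z, hz⟩ : E) ∈ U := huniv ▸ mem_univ _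
  exact Eventually.self_of_nhds h1 hz

/-- a proper zero set in a connected smooth hypersurface is thin -/
theorem dimLe_pr [IsManifold 𝓘(ℂ, Cm 4) ω Y] {V : CSp} [Nonempty V.pt] {v : Y → V.pt}
    (hv : IsOpenEmb V univ v) {E Z : Set Y} (hE : IsHyp E) (hEc : IsPreconnected E) (hZ : Pr Z)
    (hne : ¬ E ⊆ Z) : DimLe V 2 (v '' (E ∩ Z)) := by
  apply H615.dimLe_of_local
  rintro _ ⟨y, ⟨hyE, -⟩, rfl⟩
  obtain ⟨ξ, w₀, r, hpar, rfl⟩ := hE y hyE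
  obtain ⟨r₁, hr₁, hs, g, hg, hgG⟩ := hZ.eqn hpar
  have hex : ∃ w ∈ ball w₀ r₁, w 0 = 0 ∧ g w ≠ 0 := by
    by_contra hcon
    push Not at hcon
    refine not_loc hE hEc hZ hne hyE ?_
    filter_upwards [(hpar.openMap _ hs isOpen_ball).mem_nhds ⟨w₀, mem_ball_self hr₁, rfl⟩]
      with y' hy' hy'E
    obtain ⟨w, hw, rfl⟩ := hy'
    exact (hgG w hw).2 (hcon w hw ((hpar.mem w (hs hw)).1 hy'E))
  refine ⟨v '' (ξ '' ball w₀ r₁), hv.isOpenMap _ (subset_univ _)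
      (hpar.openMap _ hs isOpen_ball), ⟨_, ⟨w₀, mem_ball_self hr₁, rfl⟩, rfl⟩, ?_⟩
  refine (H615.dimLe_zero hv hpar hs hg hex).mono ?_
  rintro _ ⟨⟨_, ⟨w, hw, rfl⟩, rfl⟩, y, ⟨hy1, hy2⟩, hyw⟩
  have hyw' : y = ξ w := hv.inj (mem_univ _) (mem_univ _) hyw
  subst hyw'
  exact ⟨w, ⟨hw, (hpar.mem w (hs hw)).1 hy1, (hgG w hw).1 hy2⟩, rfl⟩

end

variable {V' V : Lg} {π : V'.W → V.W}

/-- holomorphic functions pull back -/
theorem holF_comp (hc : Continuous π)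
    (hh : ∀ y (e' : Chart 4 V'.W) (e : Chart 4 V.W), At e' y → At e (π y) →
      AnalyticAt ℂ (fun z => e (π (e'.symm z))) (e' y))
    (y : V'.W) {f : V.W → ℂ} (hf : HolF 4 f (π y)) : HolF 4 (fun y => f (π y)) y := by
  intro e' he'
  have h0 : e'.symm (e' y) = y := e'.left_inv he'.2
  have h1 : AnM 4 (fun z => π (e'.symm z)) (e' y) :=
    ⟨hc.continuousAt.comp (e'.continuousAt_symm (e'.map_source he'.2)),
      fun e he => hh y e' e he' (h0 ▸ (he : At e (π (e'.symm (e' y)))))⟩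
  exact h1.hol (by rwa [h0])

theorem pr_pre (hc : Continuous π)
    (hh : ∀ y (e' : Chart 4 V'.W) (e : Chart 4 V.W), At e' y → At e (π y) →
      AnalyticAt ℂ (fun z => e (π (e'.symm z))) (e' y)) (exc : Finset (Fin V.r)) :
    Pr (π ⁻¹' ⋃ l ∈ exc, V.G l) := by
  intro y
  obtain ⟨ζ, hζ⟩ := exEq V (π y)
  refine ⟨fun y' => ∏ l ∈ exc, ζ l (π y'), fun e he => ?_, ?_⟩
  · exact Finset.analyticAt_fun_prod _ fun l _ => holF_comp hc hh y (leq_holF (hζ l)) e he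
  · filter_upwards [hc.continuousAt.eventually (eventually_all.2 fun l => (hζ l).1)] with y' hy'
    rw [Finset.prod_eq_zero_iff, mem_preimage, mem_iUnion₂]
    exact ⟨fun ⟨l, h1, h2⟩ => ⟨l, h1, (hy' l).2 h2⟩, fun ⟨l, h1, h2⟩ => ⟨l, h1, (hy' l).1 h2⟩⟩

end Vale.Agent.P277Z.Val.Lf

namespace Vale.Agent.P277Z.Val

/-- (HOM) -/
theorem stHom : StHom := by
  intro V' V X p π exc exc' hX h h' hc hh hpre hnex
  have hE := Lf.sub_E V exc
  have hE' := Lf.sub_E V' exc'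
  refine ⟨hc, hh, ?_, hpre, fun y y' hy e => h'.inj y y' (fun k => hy (hE' k)) (congrArg p e),
    ?_, ?_, ?_⟩
  · rw [← range_eq_univ, ← (isCompact_range hc).isClosed.closure_eq]
    refine Dense.closure_eq ((Lf.dense_compl V).mono fun y hy => ?_)
    obtain ⟨y', hy'⟩ := h'.surj (p y)
    exact ⟨y', h.inj y _ (fun k => hy (hE k)) hy'⟩
  · intro y hy e' e he' he
    have hyO : y ∈ (⋃ l ∈ exc', V'.G l)ᶜ := fun k => hy (hE' k)
    refine (locIso_of_inv (θ := fun w => e' (h'.emb.inv y (p (e.symm w)))) (hh y e' e he' he)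
      ?_ ?_).2
    · rw [e'.left_inv he'.2]
      exact analyticAt_pi_iff.2 fun i => h.hol (π y) _ (h'.emb.hol_chart y hyO he' i) e he
    · filter_upwards [PH.ev_symm he'.2 ((h'.emb.isOpen.eventually_mem hyO).and
        (hc.continuousAt.eventually (e.open_source.eventually_mem he.2))),
        e'.open_target.mem_nhds (e'.map_source he'.2)] with z e1 e2
      rw [e.left_inv e1.2, h'.emb.inv_apply y e1.1, e'.right_inv e2]
  · intro k
    by_cases hk : k ∈ exc'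
    swap
    · exact Or.inl (hnex k hk)
    by_cases hs : V'.G k ⊆ π ⁻¹' ⋃ l ∈ exc, V.G l
    · exact Or.inl ((image_subset_iff.2 hs).trans hE)
    right
    obtain ⟨y₀, -⟩ := (V'.conn k).nonempty
    have : Nonempty V'.X.pt := ⟨y₀⟩
    have : Nonempty V.W := ⟨π y₀⟩
    have h1 := H60.Z.thinM_iff.1 (H60.Z.thinM_of_emb h.emb h'.dim)
    have h2 : ThinM 4 2 (id '' (V'.G k ∩ π ⁻¹' ⋃ l ∈ exc, V.G l)) := H60.Z.thinM_iff.2
      (Lf.dimLe_pr (Lf.emb_id V') (Lf.hyp V' k) (V'.conn k).isPreconnected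
        (Lf.pr_pre hc hh exc) hs)
    have h3 := h2.dimLe_image (X := V.X) (b := π) isOpen_univ (subset_univ _)
      (fun _ _ => hc.continuousAt) fun y _ g hg => Lf.holF_comp hc hh y hg
    refine H60.Z.thinM_iff.2 ((h1.union h3).mono ?_)
    rintro _ ⟨y, hy, rfl⟩
    by_cases hy' : π y ∈ ⋃ l ∈ exc, V.G l
    · exact Or.inr ⟨y, ⟨y, ⟨hy, hy'⟩, rfl⟩, rfl⟩
    · exact Or.inl ⟨hy', y, mem_biUnion hk hy, rfl⟩
  · intro W hW γ hγ hd
    obtain ⟨Ω, g, h1, h2, h3⟩ := stResLifts V' X _ exc' hX h' W hW (fun w => p (γ w))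
      (fun w hw => T3.holAt_comp (n := 4) (M := V.W) (H60.Z.holAt_iff.1 (hγ w hw)).1
        (H60.Z.holAt_iff.1 (hγ w hw)).2 h.cont.continuousAt (h.hol _))
      (hd.trans (closure_mono (by
        rintro w ⟨hw, y, hy, e⟩
        exact ⟨hw, y, fun k => hy (hE' k), congrArg p e⟩)))
    refine ⟨Ω, g, h1, h2, Subset.trans ?_ h3⟩
    rintro w ⟨a1, a2, a3⟩
    refine ⟨a1, a2, fun ⟨τ, b1, b2, b3⟩ => a3 ⟨τ, b1, b2, ?_⟩⟩
    filter_upwards [b3] with w' b4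
    rintro ⟨y, hy, e⟩
    have hyO : y ∉ ⋃ l ∈ exc', V'.G l := fun k => hy (hE' k)
    have b5 : τ w' = y := h'.inj y _ hyO ((b4 ⟨y, hyO, congrArg p e⟩).2.trans (congrArg p e).symm)
    rw [b5]
    exact ⟨hy, e⟩

end Vale.Agent.P277Z.Val
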