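import Vale.Agent.P277Z.Val.KB
import Vale.Agent.P277Z.Val.LiftsB
import Vale.Agent.P277Z.GH.Prin

/-!
# P277, block VAL: principalization and resolution from block GH
-/

open scoped Manifold ContDiff Topology
open Vale.Agent.P272.K Vale.Agent.P285.H281.FD Vale.Agent.P277 Set Filter
open Vale.Agent.P277.PH (HolF at_chartAt)
open Vale.Agent.P277.T3 (ThinM)
open Vale.Agent.P277.H60.Z (thinM_iff)
open Vale.Agent.P277Z.Hir (Cpb)

noncomputable section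

namespace Vale.Agent.P277Z.Val

namespace GhB

variable {V' V : Lg} {π : V'.W → V.W} {new : Finset (Fin V'.r)}

theorem hol (h : Res V' V.X π new) (y : V'.W) (e' : Chart 4 V'.W) (e : Chart 4 V.W)
    (he' : At e' y) (he : At e (π y)) : AnalyticAt ℂ (fun z => e (π (e'.symm z))) (e' y) :=
  analyticAt_pi_iff.2 fun i => h.hol y (fun x : V.W => e x i) (holF_chart he i) e' he'

/-- a resolution of a model which adds the preimage of a thin set is a modification -/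
theorem hom (hX : IsNormal 4 V.X) (h : Res V' V.X π new) {Z₀ : Set V.W}
    (hZ : ThinM 4 2 (Z₀ \ V.E)) (hp : ∀ y, y ∈ V'.E ↔ π y ∈ V.E ∨ π y ∈ Z₀) : Hom V' V π := by
  have hE := Lf.sub_E V' new
  refine ⟨h.cont, hol h, h.surj, fun y a => (hp y).2 (.inl a),
    fun y y' hy => h.inj y y' fun k => hy (hE k), fun y hy e' e he' he => ?_, fun k => ?_,
    fun W hW γ hγ hd => ?_⟩
  · have hy' : y ∈ (⋃ l ∈ new, V'.G l)ᶜ := fun k => hy (hE k)
    refine (locIso_of_inv (θ := fun w => e' (h.emb.inv y (e.symm w))) (hol h y e' e he' he)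
      ?_ ?_).2
    · rw [e'.left_inv he'.2]
      exact analyticAt_pi_iff.2 fun i => h.emb.hol_chart y hy' he' i e he
    · filter_upwards [PH.ev_symm he'.2 ((h.emb.isOpen.eventually_mem hy').and
        (h.cont.continuousAt.eventually (e.open_source.eventually_mem he.2))),
        e'.open_target.mem_nhds (e'.map_source he'.2)] with z e1 e2
      rw [e.left_inv e1.2, h.emb.inv_apply y e1.1, e'.right_inv e2]
  · by_cases hs : V'.G k ⊆ π ⁻¹' ⋃ l ∈ (Finset.univ : Finset (Fin V.r)), V.G l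
    · exact Or.inl ((image_subset_iff.2 hs).trans (Lf.sub_E V _))
    obtain ⟨y₀, -⟩ := (V'.conn k).nonempty
    have : Nonempty V'.X.pt := ⟨y₀⟩
    have h2 : ThinM 4 2 (id '' (V'.G k ∩ π ⁻¹' ⋃ l ∈ (Finset.univ : Finset (Fin V.r)), V.G l)) :=
      thinM_iff.2 (Lf.dimLe_pr (Lf.emb_id V') (Lf.hyp V' k) (V'.conn k).isPreconnected
        (Lf.pr_pre h.cont (hol h) _) hs)
    have h3 := h2.dimLe_image (X := V.X) (b := π) isOpen_univ (subset_univ _)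
      (fun _ _ => h.cont.continuousAt) fun y _ g hg => h.hol y g hg
    refine Or.inr (thinM_iff.2 (((thinM_iff.1 hZ).union h3).mono ?_))
    rintro _ ⟨y, hy, rfl⟩
    by_cases hy' : π y ∈ V.E
    · obtain ⟨l, hl⟩ := mem_iUnion.1 hy'
      exact Or.inr ⟨y, ⟨y, ⟨hy, mem_biUnion (Finset.mem_univ l) hl⟩, rfl⟩, rfl⟩
    · exact Or.inl ⟨((hp y).1 (mem_iUnion.2 ⟨k, hy⟩)).resolve_left hy', hy'⟩
  · obtain ⟨Ω, g, h1, h2, h3⟩ := stResLifts V' V.X π new hX h W hW γ hγ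
      (hd.trans (closure_mono fun w ⟨hw, y, hy, e⟩ => ⟨hw, y, fun k => hy (hE k), e⟩))
    refine ⟨Ω, g, h1, h2, Subset.trans ?_ h3⟩
    rintro w ⟨a1, a2, a3⟩
    refine ⟨a1, a2, fun ⟨τ, b1, b2, b3⟩ => a3 ⟨τ, b1, b2, b3.mono ?_⟩⟩
    rintro w' b4 ⟨y, hy, e⟩
    have hyO : y ∉ ⋃ l ∈ new, V'.G l := fun k => hy (hE k)
    rw [h.inj y _ hyO ((b4 ⟨y, hyO, e⟩).2.trans e.symm)]
    exact ⟨hy, e⟩

theorem cpb {κ : Type} [Fintype κ] {y : V.W} {φ u : κ → V.W → ℂ} {M : V.W → ℂ}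
    (hu : ∀ k, HolF 4 (u k) y) (h0 : ∃ k, u k y ≠ 0) (h : ∀ᶠ x in 𝓝 y, ∀ k, φ k x = u k x * M x) :
    Cpb (𝓝 y) (fun x => ∑ k, ‖φ k x‖) fun x => ‖M x‖ := by
  have h3 : ContinuousAt (fun x => ∑ k, ‖u k x‖) y :=
    tendsto_finsetSum _ fun k _ => (holF_cont (hu k)).norm
  obtain ⟨k₀, h0⟩ := h0
  have h4 : 0 < ∑ k, ‖u k y‖ := (norm_pos_iff.2 h0).trans_le
    (Finset.single_le_sum (fun k _ => norm_nonneg (u k y)) (Finset.mem_univ k₀))
  set S := ∑ k, ‖u k y‖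
  refine ⟨S + 1 + 2 / S, by positivity, ?_⟩
  filter_upwards [h, h3.eventually_lt continuousAt_const (lt_add_one S),
    continuousAt_const.eventually_lt h3 (half_lt_self h4)] with x e1 e2 e3
  simp only [e1, norm_mul, ← Finset.sum_mul]
  have e4 : 0 < 2 / S := by positivity
  have e5 : 1 ≤ (S + 1 + 2 / S) * ∑ k, ‖u k x‖ := by
    have : 2 / S * (S / 2) = 1 := by field_simp
    nlinarith
  exact ⟨mul_le_mul_of_nonneg_right (by linarith) (norm_nonneg _),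
    by rw [← mul_assoc]; exact le_mul_of_one_le_left (norm_nonneg _) e5⟩

end GhB

open GhB GH.Pn in
/-- (GH) -/
theorem gh_of (hP : GH.StPrin) (hK : StKB) : StGH := by
  intro V χ hχ Γ U nm Z₀ hI hZ
  have hV : Nonempty V.W := let ⟨_, g, _⟩ := hZ; ⟨g 0 0⟩
  choose m f h using hI.loc
  choose O h1 h2 h3 using fun y => eventually_nhds_iff.1 (h y)
  let I : GH.Fam V.X := ⟨V.W, O, m, f, h2, fun x => ⟨x, h3 x⟩, fun y k x a => (h1 y x a).1 k,
    fun y y' x a a' => let ⟨γ, b⟩ := hI.cover x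
      trans (symm ((h1 y x a).2.2 γ b)) ((h1 y' x a').2.2 γ b)⟩
  have hZI : I.Z = Z₀ := Set.ext fun x => ⟨fun ⟨y, a, b⟩ => (h1 y x a).2.1.2 b,
    fun a => ⟨x, h3 x, (h1 x x (h3 x)).2.1.1 a⟩⟩
  obtain ⟨V', π, exc, k1, k2, k3, k4⟩ := hP V hV 1 (fun _ => I) fun _ => hZI ▸ hI.dense
  simp only [hZI, exists_const] at k2 k3
  obtain ⟨χ', hχ'⟩ := hK V' V π exc χ hχ k1
  obtain ⟨a, ha⟩ := k4 0
  refine ⟨V', π, χ', exc, a, ⟨hχ', hom (nx V hV) k1 hZ k2, k1, fun l hl _ ⟨y, b, e⟩ =>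
    e ▸ k3 l hl y b, fun y b => (k2 y).2 (.inr b)⟩, fun y γ ζ b hζ => ?_⟩
  obtain ⟨u, c1, c2, c3⟩ := ha y (π y) ζ (h3 _) hζ
  simpa only [norm_prod, norm_pow] using trans (comp (p := π)
    ((h1 _ _ (h3 (π y))).2.2 γ b) (k1.cont.tendsto y)) (cpb c1 c2 c3)

/-- (GH0) -/
theorem gh0_of (h : GH.StRes0) : StGH0 := fun Y hY =>
  let ⟨V, p, a, b⟩ := h Y hY
  ⟨V, p, a, fun k y c => (b y).1 (mem_iUnion.2 ⟨k, c⟩)⟩

end Vale.Agent.P277Z.Val
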