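import Vale.Agent.P277Z.Val.USk2
import Vale.Agent.P277Z.Val.Mon
import Vale.Agent.P277Z.Val.Disc

/-!
# P277, block VAL: composition of modifications, pull back of discrepancies
-/

open scoped Manifold ContDiff Topology
open Vale.Agent.P272.K Vale.Agent.P285.H281.FD Vale.Agent.P277 Set Filter
open Vale.Agent.P277.T3 (ThinM Lifts LiftAt)
open Vale.Agent.P277.H762 (Cv cv_of_local cv_empty)

noncomputable section

namespace Vale.Agent.P277Z.Val

variable {V V' V'' : Lg} {π : V'.W → V.W} {σ : V''.W → V'.W}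

theorem Hom.trans (h : Hom V' V π) (h' : Hom V'' V' σ) : Hom V'' V fun y => π (σ y) := by
  have h0 := h.hom0.comp h'.hom0
  refine ⟨h0.cont, h0.hol, h.surj.comp h'.surj, h0.pre, fun y y' hy e =>
    h'.inj y y' hy (h.inj _ _ (fun k => hy (h'.pre y k)) e), h0.det, fun k => ?_, ?_⟩
  · rw [← image_image π σ]
    obtain c | c := h'.nex k
    · obtain ⟨l, hl⟩ := U.image_subset_G h' c
      exact (h.nex l).imp (image_mono hl).trans fun t => U.thinM_mono t (image_mono hl)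
    · exact Or.inr (U.thinM_image c (U.holM h))
  · intro W hW γ hγ hd
    have h1 : Cv 2 {w | w ∈ W ∧ w 0 = 0 ∧ ¬ LiftAt (X := V.X) V'.Eᶜ π γ w} :=
      h.lifts W hW γ hγ (hd.trans (closure_mono (by
        rintro w ⟨a, y, hy, e⟩
        exact ⟨a, σ y, fun k => hy (h'.pre y k), e⟩)))
    have h2 : Cv 2 {w | (w ∈ W ∧ w 0 = 0 ∧ ¬ LiftAt (X := V.X) V''.Eᶜ (fun y => π (σ y)) γ w) ∧
        LiftAt (X := V.X) V'.Eᶜ π γ w} := by
      refine cv_of_local fun w ⟨⟨a, _⟩, τ, b1, b2, b3⟩ => ?_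
      obtain ⟨N, c1, c2, c3⟩ := eventually_nhds_iff.1
        ((AnM.eventually (n := 4) ⟨b1, b2⟩).and (b3.and (hW.eventually_mem a)))
      have key : ∀ z ∈ N, ∀ y ∉ V''.E, π (σ y) = γ z → σ y = τ z := fun z hz y hy e =>
        have k := (c1 z hz).2.1 ⟨σ y, fun k => hy (h'.pre y k), e⟩
        h.inj _ _ k.1 (e.trans k.2.symm)
      have h3 : Cv 2 {w | w ∈ N ∧ w 0 = 0 ∧ ¬ LiftAt (X := V'.X) V''.Eᶜ σ τ w} := by
        refine h'.lifts N c2 τ (fun z hz => H60.Z.holAt_iff.2 (c1 z hz).1) fun z hz => ?_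
        refine mem_closure_iff_frequently.2 (((mem_closure_iff_frequently.1
          (hd (c1 z hz).2.2)).and_eventually (c2.eventually_mem hz)).mono ?_)
        rintro z' ⟨⟨-, y, hy, e⟩, d⟩
        exact ⟨d, y, hy, key z' d y hy e⟩
      refine ⟨N, c2.mem_nhds c3, h3.mono ?_⟩
      rintro z ⟨d1, ⟨-, d2, d3⟩, -⟩
      refine ⟨d1, d2, fun ⟨θ, e1, e2, e3⟩ => d3 ⟨θ, e1, e2, ?_⟩⟩
      filter_upwards [e3, c2.eventually_mem d1] with z' e4 e5
      rintro ⟨y, hy, e⟩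
      have e6 := key z' e5 y hy e
      have e7 := e4 ⟨y, hy, e6⟩
      exact ⟨e7.1, by rw [e7.2, ← e6]; exact e⟩
    exact (h1.union h2).mono fun w hw => (em _).symm.imp (fun c => ⟨hw.1, hw.2.1, c⟩) fun c => ⟨hw, c⟩

theorem Hom.refl (V : Lg) : Hom V V fun y => y := by
  refine ⟨continuous_id, fun y e' e he' he => PH.chg_analyticAt he he', Function.surjective_id,
    fun _ h => h, fun _ _ _ h => h, fun y _ e' e he' he => (jac_id he' he).2,
    fun k => Or.inl (by rw [image_id']; exact subset_iUnion V.G k), fun W _ γ hγ _ => ?_⟩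
  refine (cv_empty (k := 2)).mono fun w hw => hw.2.2 ?_
  have := H60.Z.holAt_iff.1 (hγ w hw.1)
  refine ⟨γ, this.1, this.2, Eventually.of_forall ?_⟩
  rintro z ⟨y, hy, e⟩
  exact ⟨e ▸ hy, rfl⟩

theorem Crep.refl (V : Lg) (a : Fin V.r → ℝ) : Crep V V (fun y => y) a a := by
  refine Crep.of_exists (Hom.refl V).hom0 fun y => ?_
  obtain ⟨ζ, hζ⟩ := V.exEq y
  have he := PH.at_chartAt (n := 4) y
  refine ⟨_, _, ζ, ζ, he, he, hζ, hζ, ?_⟩
  simpa using bdd_log (V := V) (holF_cont (jac_id he he).1) (jac_id he he).2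

theorem Crep.mono (h : Hom V' V π) {a b a' b'} (ha : Crep V' V π a' a) (hb : Crep V' V π b' b)
    (e : a ≤ b) : a' ≤ b' := by
  obtain ⟨n, hn⟩ := h.hom0.exists_jac
  obtain ⟨m, hm⟩ := h.hom0.exists_tot
  rw [ha.unique (crep_of_mon hn hm a), hb.unique (crep_of_mon hn hm b)]
  exact fun k => add_le_add le_rfl (Finset.sum_le_sum fun l _ =>
    mul_le_mul_of_nonneg_right (e l) (Nat.cast_nonneg _))

theorem SL.pull {Λ : AddSubmonoid ℝ} (h : Hom V' V π) {a b a' b'} (ha : Crep V' V π a' a)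
    (hb : Crep V' V π b' b) (H : SL Λ a b) : SL Λ a' b' := by
  obtain ⟨s, hs⟩ := stStr _ _ _ h
  obtain ⟨J, _, _, κ, h1, h2⟩ := H
  have e1 := (stStrA _ _ _ s _ _ h hs ha).2
  have e2 := (stStrA _ _ _ s _ _ h hs hb).2
  exact ⟨J, _, ‹_›, fun c => s (κ c), by simpa only [e2] using h1, by simpa only [e1, e2] using h2⟩

theorem Good.new (h : Hom V' V π) {s a' a} (hs : IsStr V' V π s) (hc : Crep V' V π a' a)
    (hg : Good V a) (k : Fin V'.r) (hk : k ∉ range s) : 0 < a' k :=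
  (stGd _ _ _ s _ _ h hs hc hg.klt k hk).resolve_right fun ⟨l, l', c1, c2, c3, c4, _⟩ =>
    c4 (hg.disj l l' c1 c2 c3)

theorem Good.up (h : Hom V' V π) {a' a} (hc : Crep V' V π a' a) (hg : Good V a) : Good V' a' := by
  obtain ⟨s, hs⟩ := stStr _ _ _ h
  have e := (stStrA _ _ _ s _ _ h hs hc).2
  have n : ∀ k, a' k < 0 → k ∈ range s := fun k c => by_contra fun d =>
    lt_asymm c (hg.new h hs hc k d)
  refine ⟨fun k => ?_, fun k k' c1 c2 c3 => ?_⟩
  · by_cases c : k ∈ range s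
    · obtain ⟨l, rfl⟩ := c
      exact e l ▸ hg.klt l
    · linarith [hg.new h hs hc k c]
  · obtain ⟨l, rfl⟩ := n k c2
    obtain ⟨l', rfl⟩ := n k' c3
    have := hg.disj l l' (fun d => c1 (congrArg s d)) (e l ▸ c2) (e l' ▸ c3)
    rw [← hs.img, ← hs.img] at this
    exact disjoint_left.2 fun y d d' => disjoint_left.1 this ⟨y, d, rfl⟩ ⟨y, d', rfl⟩

theorem Good.le {a b : Fin V.r → ℝ} (hg : Good V a) (e : a ≤ b) : Good V b :=
  ⟨fun l => (hg.klt l).trans_le (e l), fun l l' c1 c2 c3 =>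
    hg.disj l l' c1 ((e l).trans_lt c2) ((e l').trans_lt c3)⟩

theorem Good.thin (h : Hom V' V π) {a' a} (hc : Crep V' V π a' a) (hg : Good V a) {k : Fin V'.r}
    (hk : ThinM 4 2 (π '' V'.G k)) : 0 < a' k := by
  obtain ⟨s, hs⟩ := stStr _ _ _ h
  refine hg.new h hs hc k ?_
  rintro ⟨l, rfl⟩
  exact U.not_thin_G V l (hs.img l ▸ hk)

theorem pos_up (h : Hom V' V π) {s a' a} (hs : IsStr V' V π s) (hc : Crep V' V π a' a)
    (hg : Good V a) {exc : Finset (Fin V'.r)} (he : ∀ k, k ∈ exc ↔ k ∉ range s) :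
    exc ∪ (pos a).image s = pos a' := by
  obtain ⟨e0, e⟩ := stStrA _ _ _ s _ _ h hs hc
  ext k
  simp only [Finset.mem_union, he, Finset.mem_image, pos, Finset.mem_filter, Finset.mem_univ,
    true_and]
  refine ⟨?_, fun c => (em _).symm.imp_right fun ⟨l, d⟩ => ⟨l, by rw [← e, d]; exact c, d⟩⟩
  rintro (c | ⟨l, c, rfl⟩)
  · exact hg.new h hs hc k c
  · exact e l ▸ c

theorem flip_pow {k : ℕ} {X Z X' : CSp} {f : X.pt → Z.pt} {f' : X'.pt → Z.pt} {A : Set Z.pt}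
    {L : Fin k → Bd X.pt} {L' : Fin k → Bd X'.pt} {c c' : Fin k → ℕ} {ρ : Fin k → ℝ}
    (h : IsFlipR X Z X' f f' A L L' c c' ρ) {q : Fin k → ℕ} (hq : ∀ e, 1 ≤ q e) :
    IsFlipR X Z X' f f' A (fun e => (L e).pow (q e)) L' (fun e => c e * q e) c' ρ := by
  refine ⟨h.normal, h.normalZ, h.normal', h.small, h.small', h.ninj, h.ninj',
    fun e => H615.IsLBx.pow (h.lb e) _, h.lb', fun e => ?_, ?_, h.ample'⟩
  · obtain ⟨p, p', h1, h2, h3, t, ht⟩ := h.iso e
    refine ⟨p, p' * q e, h1, Nat.mul_pos h2 (hq e), by rw [mul_right_comm, h3, mul_assoc],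
      fun i j z => t i j z ^ q e, fun x x' i j a b c d => ?_, fun x x' i i' j j' a b c d g u => ?_⟩
    · exact ⟨hol_pow (ht.holo x x' i j a b c d).1 _, pow_ne_zero _ (ht.holo x x' i j a b c d).2⟩
    · have h1 : t i' j' (f x) = (L e).g i i' x ^ p * t i j (f x) * (L' e).g j' j x' ^ p' :=
        ht.change x x' i i' j j' a b c d g u
      show t i' j' (f x) ^ q e = ((L e).g i i' x ^ q e) ^ p * t i j (f x) ^ q e *
        (L' e).g j' j x' ^ (p' * q e)
      rw [h1]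
      ring
  · obtain ⟨ε, hε, h1⟩ := h.ample
    refine ⟨ε, hε, fun n d hd hn => ?_⟩
    rw [H615.lin_pow]
    refine h1 _ d hd fun e => ?_
    have := hn e
    push_cast at this ⊢
    rwa [mul_assoc, mul_comm (q e : ℝ)]

end Vale.Agent.P277Z.Val
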