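import Vale.Agent.P277Z.Val.USk
import Vale.Agent.P277Z.Val.Sub
import Vale.Agent.P277Z.Val.Snc
import Vale.Agent.P277Z.Pj.Nrm
import Vale.Agent.P277Z.Pj.Rem
import Vale.Agent.P277.H73.TA

/-!
# P277, block VAL: images of surfaces
-/

set_option linter.unusedSectionVars false

open scoped Manifold ContDiff Topology
open Vale.Agent.P272.K Vale.Agent.P285.H281.FD Vale.Agent.P277 Set Filter Metric
open Vale.Agent.P277.PH (HolF at_chartAt ev_symm)
open Vale.Agent.P277.H762 (Cv not_cv_nhds)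
open Vale.Agent.P277Z.Pj (ImmTo)
open Vale.Agent.P277Z.Pj.Nrm (dimLe_of_cv cv_of_dimLe cv_crit holV_t imm_t gfin)

noncomputable section

namespace Vale.Agent.P277Z.Val

namespace Big

theorem left_inv {n N : ℕ} {D : Cm n →L[ℂ] Cm N} (h : Function.Injective D) :
    ∃ L : Cm N →L[ℂ] Cm n, ∀ v, L (D v) = v := by
  obtain ⟨L, hL⟩ := (D : Cm n →ₗ[ℂ] Cm N).exists_leftInverse_of_injective
    (LinearMap.ker_eq_bot.2 h)
  exact ⟨LinearMap.toContinuousLinearMap L, fun v => DFunLike.congr_fun hL v⟩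

/-- constant rank: the values are taken on a slice -/
theorem slice {n N : ℕ} {F : Cm (n + 1) → Cm N} {z₀ : Cm (n + 1)} (hF : AnalyticAt ℂ F z₀)
    {i : Fin (n + 1)} (h0 : z₀ i = 0)
    (hi : Function.Injective ((fderiv ℂ F z₀).comp (insL i)))
    (hr : ∀ᶠ z in 𝓝 z₀, (Jm F z).rank < n + 1) {P : Cm (n + 1) → Prop} (hP : ∀ᶠ z in 𝓝 z₀, P z) :
    ∀ᶠ z in 𝓝 z₀, ∃ z', P z' ∧ z' i = 0 ∧ F z' = F z := by
  obtain ⟨L, hL⟩ := left_inv hi
  let u : Cm (n + 1) := Pi.single i 1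
  let Q : Cm (n + 1) →L[ℂ] Cm (n + 1) := (ContinuousLinearMap.proj i).smulRight u
  have hQ : ∀ v, remL i (Q v) = 0 ∧ Q v i = v i := fun v =>
    ⟨funext fun j => by simp [Q, u, remL_apply], by simp [Q, u]⟩
  let Ψ : Cm (n + 1) → Cm (n + 1) := fun z => insL i (L (F z)) + Q z
  have hΨi : ∀ z, Ψ z i = z i := fun z => by simp [Ψ, insL_self, (hQ z).2]
  have hd : ∀ z, AnalyticAt ℂ F z →
      HasFDerivAt Ψ ((insL i).comp (L.comp (fderiv ℂ F z)) + Q) z := fun z hz =>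
    ((insL i).hasFDerivAt.comp z (L.hasFDerivAt.comp z hz.differentiableAt.hasFDerivAt)).add
      Q.hasFDerivAt
  have hΨ : LocIso Ψ z₀ := by
    refine locIso_of_inj ((((insL i).analyticAt _).comp ((L.analyticAt _).comp hF)).add
      (Q.analyticAt _)) ?_
    rw [(hd _ hF).fderiv, injective_iff_map_eq_zero]
    intro v hv
    have h1 : v i = 0 := by simpa [insL_self, (hQ v).2] using congrFun hv i
    have h2 := congrArg (remL i) hv
    rw [← ins_rem h1] at h2 ⊢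
    simp only [ContinuousLinearMap.add_apply, ContinuousLinearMap.comp_apply, map_add, rem_ins,
      (hQ _).1, add_zero, map_zero] at h2
    rw [(hL _).symm.trans h2, map_zero]
  obtain ⟨θ, t1, t2, t3, t4⟩ := hΨ.exists_inv
  have ht : Tendsto θ (𝓝 (Ψ z₀)) (𝓝 z₀) := by
    have := t1.1.continuousAt
    rwa [ContinuousAt, t2] at this
  obtain ⟨ε, hε, hb⟩ := Metric.eventually_nhds_iff_ball.1 (t1.1.eventually_analyticAt.and
    (t4.eventually_nhds.and (ht.eventually (hF.eventually_analyticAt.and (hr.and hP)))))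
  have hz : ∀ s ∈ ball (Ψ z₀) ε, fderiv ℂ F (θ s) (fderiv ℂ θ s u) = 0 := fun s hs => by
    obtain ⟨a1, a2, a3, a4, -⟩ := hb s hs
    have h1 := ((hd _ a3).comp s a1.differentiableAt.hasFDerivAt).unique
      ((hasFDerivAt_id s).congr_of_eventuallyEq a2)
    have h2 : ∀ v, L (fderiv ℂ F (θ s) (fderiv ℂ θ s v)) = remL i v := fun v => by
      have := congrArg (remL i) (DFunLike.congr_fun h1 v)
      simpa [rem_ins, (hQ _).1] using this
    let π := (L : Cm N →ₗ[ℂ] Cm n).comp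
      (LinearMap.range (fderiv ℂ F (θ s) : Cm (n + 1) →ₗ[ℂ] Cm N)).subtype
    have h3 : Function.Surjective π := fun a =>
      ⟨⟨_, ⟨_, rfl⟩⟩, (h2 (insL i a)).trans (rem_ins i a)⟩
    rw [rank_Jm] at a4
    have h4 : Function.Injective π :=
      (LinearMap.injective_iff_surjective_of_finrank_eq_finrank (le_antisymm
        (by rw [Module.finrank_fin_fun]; omega) (π.finrank_le_finrank_of_surjective h3))).2 h3
    exact congrArg Subtype.val ((injective_iff_map_eq_zero π).1 h4 ⟨_, ⟨fderiv ℂ θ s u, rfl⟩⟩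
      ((h2 u).trans (funext fun j => by simp [u, remL_apply])))
  filter_upwards [hΨ.1.continuousAt.eventually (ball_mem_nhds _ hε), t3] with z z1 z2
  have hm : ∀ τ ∈ ball (0 : ℂ) ε, Function.update (Ψ z) i τ ∈ ball (Ψ z₀) ε := fun τ hτ =>
    (dist_pi_lt_iff hε).2 fun j => by
      by_cases e : j = i
      · rwa [e, Function.update_self, hΨi, h0]
      · rw [Function.update_of_ne e]
        exact (dist_pi_lt_iff hε).1 z1 j
  have hc : ∀ τ ∈ ball (0 : ℂ) ε, HasDerivAt (fun τ => F (θ (Function.update (Ψ z) i τ))) 0 τ :=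
    fun τ hτ => by
      obtain ⟨a1, -, a3, -⟩ := hb _ (hm τ hτ)
      exact hz _ (hm τ hτ) ▸ (a3.differentiableAt.hasFDerivAt.comp _
        a1.differentiableAt.hasFDerivAt).comp_hasDerivAt τ (hasDerivAt_update (Ψ z) i τ)
  have h1 := hb _ (hm 0 (mem_ball_self hε))
  refine ⟨_, h1.2.2.2.2, ?_, ?_⟩
  · rw [← hΨi (θ _), h1.2.1.self_of_nhds, Function.update_self]
  · have h2 : Ψ z i ∈ ball (0 : ℂ) ε := by
      have := (dist_pi_lt_iff hε).1 z1 i
      rwa [hΨi z₀, h0] at this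
    rw [isOpen_ball.is_const_of_deriv_eq_zero (convex_ball _ _).isPreconnected
      (fun τ hτ => (hc τ hτ).differentiableAt.differentiableWithinAt)
      (fun τ hτ => (hc τ hτ).deriv) (mem_ball_self hε) h2, Function.update_eq_self, z2]

variable {X : CSp} {N k : ℕ} {V : Set X.pt} {Ω : Set (Cm N)} {h : Fin k → Cm N → ℂ}
  {ψ : X.pt → Cm N}

theorem bigX_of (hM : IsModel X.Hol V Ω h ψ) {g : Cm 2 → X.pt} {w : Cm 2} {C : Set X.pt}
    (hg : HolAt X g w) (hV : g w ∈ V) (hC : ∀ᶠ w' in 𝓝 w, g w' ∈ C)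
    (hi : Function.Injective (fderiv ℂ (fun w => ψ (g w)) w)) : BigX X C := by
  obtain ⟨L, hL⟩ := left_inv hi
  have h1 : AnalyticAt ℂ (fun w => ψ (g w)) w :=
    AnalyticAt.pi fun a => hg.analyticAt (hM.isCoord.hol a _ hV)
  refine ⟨g, w, fun i x => L (ψ x) i, hg, hC, fun i => (hM.hol _ hV _).2 ⟨fun z => L z i,
    analyticAt_pi_iff.1 (L.analyticAt _) i, EventuallyEq.rfl⟩,
    (locIso_of_inj ((L.analyticAt _).comp h1) ?_).2⟩
  rw [(L.hasFDerivAt.comp w h1.differentiableAt.hasFDerivAt).fderiv]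
  exact Function.LeftInverse.injective (g := id) hL

theorem dimLe_ball (hM : IsModel X.Hol V Ω h ψ) {m : ℕ} {g : Cm (m + 1) → X.pt} {c : Cm (m + 1)}
    {r : ℝ} (hr : 0 < r) (hV : ∀ w ∈ ball c r, g w ∈ V)
    (hg : ∀ w ∈ ball c r, AnalyticAt ℂ (fun w => ψ (g w)) w)
    (hi : ∀ w ∈ ball c r, ¬ Function.Injective (fderiv ℂ (fun w => ψ (g w)) w)) :
    DimLe X m (g '' ball c r) := by
  have : Nonempty X.pt := ⟨g c⟩
  refine (dimLe_of_cv hM (Pj.Bdd.cv_conn isOpen_ball (convex_ball c r).isPreconnected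
    ⟨c, mem_ball_self hr⟩ hg)).mono ?_
  rintro _ ⟨w, hw, rfl⟩
  exact ⟨hV w hw, w, ⟨hw, hi w hw⟩, rfl⟩

theorem big1 {S : Set X.pt} (hS : IsAn X univ S) (h2 : DimLe X 2 S) (h1 : ¬ DimLe X 1 S) :
    BigX X S := by
  have := h2.nonempty
  choose N k V Ω h ψ hV hM using X.model
  choose m f f1 f2 using fun x => hS x trivial
  choose U U1 U2 U3 using fun x => eventually_nhds_iff.1 (((hM x).isOpen.eventually_mem (hV x)).and
    ((eventually_all.2 fun a => hol_eventually (f1 x a)).and (f2 x)))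
  obtain ⟨κ, _, c, r, g, x, a1, a2, a3, a4⟩ := h2.refine U2 fun y _ => mem_iUnion.2 ⟨y, U3 y⟩
  by_contra hB
  refine h1 ((dimLe_iUnion (T := fun j => S ∩ g j '' ball (c j) (r j)) fun j => ?_).mono
    fun y hy => (mem_iUnion.1 (a4 hy)).elim fun j e => mem_iUnion.2 ⟨j, hy, e⟩)
  have b2 := fun p (hp : p ∈ ball (c j) (r j)) => a2 j p (ball_subset_closedBall hp)
  have b3 := fun p (hp : p ∈ ball (c j) (r j)) => U1 _ _ (a3 j p (ball_subset_closedBall hp))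
  by_cases e : ∀ p ∈ ball (c j) (r j), ∀ a, f (x j) a (g j p) = 0
  · refine (dimLe_ball (hM (x j)) (a1 j) (fun p hp => (b3 p hp).1) (fun p hp => AnalyticAt.pi
      fun a => (b2 p hp).analyticAt ((hM _).isCoord.hol a _ (b3 p hp).1)) fun p hp hi =>
        hB (bigX_of (hM _) (b2 p hp) (b3 p hp).1 ?_ hi)).mono inter_subset_right
    filter_upwards [isOpen_ball.mem_nhds hp] with q hq using (b3 q hq).2.2.2 (e q hq)
  · push Not at e
    obtain ⟨p, hp, a, ha⟩ := e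
    refine (H73.dimLe_image_zeros H622.stB1 b2
      (fun q hq => (b2 q hq).analyticAt ((b3 q hq).2.1 a)) ⟨p, hp, ha⟩).mono ?_
    rintro _ ⟨hy, q, hq, rfl⟩
    exact ⟨q, ⟨hq, (b3 q hq).2.2.1 hy a⟩, rfl⟩

section man

variable {m : ℕ} {W : Type} [TopologicalSpace W] [ChartedSpace (Cm (m + 1)) W]
  [IsManifold 𝓘(ℂ, Cm (m + 1)) ω W] {φ : W → X.pt}

theorem loc (hφ : Pj.HolTo (m + 1) X φ) (hM : IsModel X.Hol V Ω h ψ) {w : W} (hw : φ w ∈ V)
    {e : Chart (m + 1) W} (he : At e w) : ∃ r > 0, ∀ z ∈ ball (e w) r, z ∈ e.target ∧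
      φ (e.symm z) ∈ V ∧ AnalyticAt ℂ (fun z => ψ (φ (e.symm z))) z ∧
      (ImmTo (m + 1) X φ (e.symm z) ↔
        Function.Injective (fderiv ℂ (fun z => ψ (φ (e.symm z))) z)) := by
  obtain ⟨r, hr, hb⟩ := Metric.eventually_nhds_iff_ball.1
    ((e.open_target.eventually_mem (e.map_source he.2)).and
      (ev_symm he.2 (hφ.cont.continuousAt.eventually_mem (hM.isOpen.mem_nhds hw))))
  refine ⟨r, hr, fun z hz => ?_⟩
  obtain ⟨h1, h2⟩ := hb z hz
  have h3 : At e (e.symm z) := ⟨he.1, e.map_target h1⟩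
  have h4 := holV_t hφ hM h2 e h3
  refine ⟨h1, h2, e.right_inv h1 ▸ h4, fun h5 => e.right_inv h1 ▸ imm_t hφ hM h2 h5 e h3,
    fun h5 => ⟨N, ψ, fun a => hM.isCoord.hol a _ h2, Pj.imm_of_chart h3 h4 ?_⟩⟩
  rwa [e.right_inv h1]

theorem exists_imm [CompactSpace W] [Nonempty X.pt] (hφ : Pj.HolTo (m + 1) X φ)
    (hd : ¬ DimLe X m (range φ)) : ∃ w, ImmTo (m + 1) X φ w := by
  by_contra hn
  have key : ∀ w, ∃ U ∈ 𝓝 w, DimLe X m (φ '' U) := fun w => by
    obtain ⟨N, k, V, Ω, h, ψ, hw, hM⟩ := X.model (φ w)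
    have he := at_chartAt (n := m + 1) w
    obtain ⟨r, hr, hb⟩ := loc hφ hM hw he
    refine ⟨_, inter_mem (chart_source_mem_nhds (Cm (m + 1)) w)
      (((chartAt _ w).continuousAt he.2).preimage_mem_nhds (ball_mem_nhds _ hr)), (dimLe_ball hM hr (fun z hz => (hb z hz).2.1)
        (fun z hz => (hb z hz).2.2.1) fun z hz hi => hn ⟨_, (hb z hz).2.2.2.2 hi⟩).mono ?_⟩
    rintro _ ⟨v, hv, rfl⟩
    exact ⟨_, hv.2, congrArg φ ((chartAt (Cm (m + 1)) w).left_inv hv.1)⟩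
  choose U hU hd' using key
  obtain ⟨t, ht⟩ := CompactSpace.elim_nhds_subcover U hU
  refine hd ((dimLe_biUnion t.countable_toSet fun w _ => hd' w).mono ?_)
  rintro _ ⟨v, rfl⟩
  obtain ⟨w, hw, h3⟩ := mem_iUnion₂.1 (ht.symm ▸ mem_univ v : v ∈ ⋃ w ∈ t, U w)
  exact mem_iUnion₂.2 ⟨w, hw, v, h3, rfl⟩

theorem dense_imm [PreconnectedSpace W] (hφ : Pj.HolTo (m + 1) X φ) {w₀ : W}
    (h0 : ImmTo (m + 1) X φ w₀) : Dense {w | ImmTo (m + 1) X φ w} := fun w₁ => by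
  by_contra h1
  refine (U.conn_prop isPreconnected_univ (p := fun w => ∀ᶠ v in 𝓝 w, ¬ ImmTo (m + 1) X φ v)
    (fun w _ hp => hp.eventually_nhds.mono fun _ a _ => a) (fun w _ hp => ?_) (mem_univ w₁)
    (not_frequently.1 (mt mem_closure_iff_frequently.2 h1)) w₀ trivial).self_of_nhds h0
  obtain ⟨N, k, V, Ω, h, ψ, hw, hM⟩ := X.model (φ w)
  have he := at_chartAt (n := m + 1) w
  set e := chartAt (Cm (m + 1)) w
  obtain ⟨r, hr, hb⟩ := loc hφ hM hw he
  have h2 : ∀ᶠ v in 𝓝 w, v ∈ e.source ∧ e v ∈ ball (e w) r :=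
    (e.open_source.eventually_mem he.2).and ((e.continuousAt he.2).eventually (ball_mem_nhds _ hr))
  obtain ⟨v, ⟨-, v1⟩, v2, v3⟩ := (hp.and_eventually h2).exists
  filter_upwards [h2] with u hu hi
  obtain ⟨D, γ, a1, a2, a3⟩ := cv_crit isOpen_ball (convex_ball _ r).isPreconnected
    (fun z hz => (hb z hz).2.2.1) hu.2 ((hb _ hu.2).2.2.2.1 (by rwa [e.left_inv hu.1]))
  refine not_cv_nhds (x := e v) (by simp) ?_ ⟨D, γ, a1, fun l q hq => (a2 l q hq).1, a3⟩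
  filter_upwards [ev_symm v2 v1, isOpen_ball.mem_nhds v3] with z z1 z2
    using ⟨z2, fun a => z1 ((hb z z2).2.2.2.2 a)⟩

theorem an_range [T2Space W] [CompactSpace W] (hφ : Pj.HolTo (m + 1) X φ)
    (hd : Dense {w | ImmTo (m + 1) X φ w}) : IsAn X univ (range φ) := fun x _ => by
  have := ChartedSpace.secondCountable_of_sigmaCompact (Cm (m + 1)) W
  obtain ⟨N, k, V, Ω, h, ψ, hx, hM⟩ := X.model x
  obtain ⟨l, f, f1, f2⟩ := Pj.rem_of Pj.br Pj.prj m W N _ _ Ω (gfin hφ hd hM) _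
    (Pj.Nrm.mem_zero hM hx).1
  refine ⟨l, fun a y => f a (ψ y), fun a => (hM.hol x hx _).2 ⟨f a, f1 a, EventuallyEq.rfl⟩, ?_⟩
  filter_upwards [(hM.continuousAt hx).eventually f2, hM.isOpen.mem_nhds hx] with y y1 y2
  refine Iff.trans ⟨?_, fun ⟨w, a, b⟩ => ⟨w, hM.injOn a y2 b⟩⟩ y1
  rintro ⟨w, rfl⟩
  exact ⟨w, y2, rfl⟩

end man

theorem holTo_sb {m n : ℕ} {W H : Type} [TopologicalSpace W] [ChartedSpace (Cm m) W]
    [IsManifold 𝓘(ℂ, Cm m) ω W] [TopologicalSpace H] [ChartedSpace (Cm n) H]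
    [IsManifold 𝓘(ℂ, Cm n) ω H] {φ : W → X.pt} {ι : H → W} (h : Sb n m ι) (hφ : Pj.HolTo m X φ) :
    Pj.HolTo n X fun y => φ (ι y) :=
  ⟨hφ.cont.comp h.cont, fun _ g hg => h.holF (hφ.hol _ g hg)⟩

theorem near {m : ℕ} {W H : Type} [TopologicalSpace W] [ChartedSpace (Cm (m + 1 + 1)) W]
    [IsManifold 𝓘(ℂ, Cm (m + 1 + 1)) ω W] [TopologicalSpace H] [ChartedSpace (Cm (m + 1)) H]
    [IsManifold 𝓘(ℂ, Cm (m + 1)) ω H] {φ : W → X.pt} {ι : H → W} (hι : Sb (m + 1) (m + 1 + 1) ι)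
    (hS : Hyp (m + 1 + 1) (range ι)) (hφ : Pj.HolTo (m + 1 + 1) X φ)
    (hd : DimLe X (m + 1) (range φ)) {w : H} (hw : ImmTo (m + 1) X (fun y => φ (ι y)) w) :
    ∀ᶠ y in 𝓝 (ι w), φ y ∈ range fun y => φ (ι y) := by
  obtain ⟨N, k, V, Ω, h, ψ, hV, hM⟩ := X.model (φ (ι w))
  obtain ⟨t, i, t1, t2⟩ := hS _ (mem_range_self w)
  obtain ⟨ξ, c⟩ := t1.crd
  have h0 : ∀ᶠ y in 𝓝 w, t (ι y) i = 0 :=
    (hι.cont.continuousAt.eventually t2).mono fun y hy => hy.1 (mem_range_self y)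
  have h1 : ∀ᶠ z in 𝓝 (t (ι w)), φ (ξ z) ∈ V :=
    c.tend.eventually (hφ.cont.continuousAt.eventually_mem (hM.isOpen.mem_nhds hV))
  have hF : AnalyticAt ℂ (fun z => ψ (φ (ξ z))) (t (ι w)) := AnalyticAt.pi fun a =>
    c.an.hol (f := fun y => ψ (φ y) a) (c.inv.symm ▸ hφ.hol _ _ (hM.isCoord.hol a _ hV))
  have he := at_chartAt (n := m + 1) w
  set e := chartAt (Cm (m + 1)) w
  have h2 : LocIso (fun z => remL i (t (ι (e.symm z)))) (e w) := hι.isCo t1 h0 e he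
  have h3 := imm_t (holTo_sb hι hφ) hM hV hw e he
  have h4 : (fun z => ψ (φ (ι (e.symm z)))) =ᶠ[𝓝 (e w)]
      (fun z => ψ (φ (ξ z))) ∘ insL i ∘ fun z => remL i (t (ι (e.symm z))) := by
    filter_upwards [ev_symm he.2 h0, ev_symm he.2 (hι.cont.continuousAt.eventually c.left)]
      with z z1 z2
    simp only [Function.comp, ins_rem z1, z2]
  have h5 : insL i (remL i (t (ι (e.symm (e w))))) = t (ι w) := by
    rw [e.left_inv he.2, ins_rem h0.self_of_nhds]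
  rw [h4.fderiv_eq, (HasFDerivAt.comp (e w) (h5 ▸ hF.differentiableAt.hasFDerivAt)
    ((insL i).hasFDerivAt.comp (e w) h2.1.differentiableAt.hasFDerivAt)).fderiv, h5] at h3
  have h6 := slice hF h0.self_of_nhds (Function.Injective.of_comp_right h3
    (LinearMap.injective_iff_surjective.1 (show Function.Injective
      (fderiv ℂ (fun z => remL i (t (ι (e.symm z)))) (e w) : Cm (m + 1) →ₗ[ℂ] Cm (m + 1)) from
        h2.inj))) (by
      filter_upwards [hF.eventually_analyticAt, h1.eventually_nhds] with z z1 z2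
      exact rank_lt_of_nul z1 (nul_of_cv (cv_of_dimLe hM hd))
        (z2.mono fun y hy => ⟨_, ⟨hy, mem_range_self _⟩, rfl⟩))
    (h1.and (c.right.and (c.tend.eventually t2)))
  filter_upwards [c.cont.eventually h6, c.left,
    hφ.cont.continuousAt.eventually_mem (hM.isOpen.mem_nhds hV)] with y ⟨z, ⟨a1, a2, a3⟩, a4, a5⟩ y2 y3
  obtain ⟨v, hv⟩ := a3.2 (a2.symm ▸ a4)
  exact ⟨v, (congrArg φ hv).trans (hM.injOn a1 y3 (a5.trans (by rw [y2])))⟩

theorem tower {V : Lg} {l k : Fin V.r} {S : Set V.W} (h : IsCC V l k S) :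
    ∃ (_ : ChartedSpace (Cm 3) (V.G k)) (_ : IsManifold 𝓘(ℂ, Cm 3) ω (V.G k)) (H : Type)
      (_ : TopologicalSpace H) (_ : T2Space H) (_ : CompactSpace H) (_ : PreconnectedSpace H)
      (_ : ChartedSpace (Cm 2) H) (_ : IsManifold 𝓘(ℂ, Cm 2) ω H) (ι : H → V.G k),
      Sb 3 4 (Subtype.val : V.G k → V.W) ∧ Sb 2 3 ι ∧ Hyp 3 (range ι) ∧
        range (fun y => (ι y : V.W)) = S := by
  obtain ⟨c, m, h1, -⟩ := @Hyp.exists_sb 3 V.W _ V.ch V.mf _ (V.snc.hyp k)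
  have h2 : Hyp 3 (Subtype.val ⁻¹' S : Set (V.G k)) := fun y hy => by
    obtain ⟨c, ξ, lab, a, a1, a2⟩ := U.exists_ch2 h.ne y.2 (h.sub hy).1
    have ht := (continuous_subtype_val (p := (· ∈ V.G k))).tendsto y
    refine ⟨_, 0, @Sb.isCo 3 _ _ _ _ _ V.ch _ V.mf _ h1 y _ 0 a.crd.isCo
      ((ht.eventually (a.mem_iff a1)).mono fun v hv => hv.1 v.2), ?_⟩
    filter_upwards [ht.eventually (a.mem_iff a2), ht.eventually (h.loc _ hy)] with v v1 v2
    exact v2.trans ((and_iff_left v.2).trans v1)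
  obtain ⟨c', m', h3, -⟩ := @Hyp.exists_sb 2 _ _ c m _ h2
  have h4 : Subtype.val '' (Subtype.val ⁻¹' S : Set (V.G k)) = S :=
    image_preimage_eq_of_subset fun y hy => ⟨⟨y, (h.sub hy).2⟩, rfl⟩
  refine ⟨c, m, _, _, inferInstance, isCompact_iff_compactSpace.1
    (Subtype.isCompact_iff.2 (h4.symm ▸ h.closed.isCompact)), Subtype.preconnectedSpace
      (Topology.IsInducing.subtypeVal.isPreconnected_image.1 (h4.symm ▸ h.conn.2)), c', m',
    Subtype.val, h1, h3, Subtype.range_coe.symm ▸ h2, ?_⟩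
  exact (range_comp _ _).trans ((congrArg _ Subtype.range_coe).trans h4)

end Big

open Big

theorem big : StBig := by
  refine ⟨fun X S => big1, fun V X p l k S hp h hd => ?_⟩
  obtain ⟨_, _, H, _, _, _, _, _, _, ι, h1, h2, -, rfl⟩ := tower h
  have : Nonempty X.pt := h.conn.1.to_type.map p
  have hφ := holTo_sb h2 (holTo_sb h1 ⟨hp.cont, hp.hol⟩)
  rw [← range_comp] at hd ⊢
  obtain ⟨w, hw⟩ := exists_imm hφ hd
  obtain ⟨N, k, U, Ω, h, ψ, hU, hM⟩ := X.model (p (ι w))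
  have he := at_chartAt (n := 2) w
  obtain ⟨r, hr, hb⟩ := loc hφ hM hU he
  obtain ⟨a1, a2, -, a4⟩ := hb _ (mem_ball_self hr)
  exact bigX_of hM ⟨hφ.cont.continuousAt.comp ((chartAt _ w).continuousAt_symm a1), fun f hf =>
    hφ.hol w f (by simpa only [Function.comp, he.left_inv] using hf) _ he⟩ a2 (.of_forall fun _ => mem_range_self _)
    (a4.1 (by rwa [he.left_inv]))

theorem img : StImg := by
  intro V X p l k S hp h hd hd'
  refine Subset.antisymm ?_ (image_mono fun _ hy => (h.sub hy).2)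
  obtain ⟨_, _, H, _, _, _, _, _, _, ι, h1, h2, h3, rfl⟩ := tower h
  have : Nonempty X.pt := h.conn.1.to_type.map p
  have hφ' := holTo_sb h1 (⟨hp.cont, hp.hol⟩ : Pj.HolTo 4 X p)
  have hφ := holTo_sb h2 hφ'
  rw [← range_comp] at hd' ⊢
  obtain ⟨w, hw⟩ := exists_imm hφ hd'
  have h4 := an_range hφ (dense_imm hφ hw)
  have h5 := near h2 h3 hφ' (hd.mono (range_subset_iff.2 fun y => ⟨y, y.2, rfl⟩)) hw
  refine image_subset_iff.2 (U.G_subset (fun y _ => ?_) (ι w).2 ?_)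
  · obtain ⟨m, f, f1, f2⟩ := h4 (p y) trivial
    exact ⟨m, fun a y => f a (p y), fun a => hp.hol y _ (f1 a), hp.cont.continuousAt.eventually f2⟩
  · rw [nhds_subtype, eventually_comap] at h5
    exact h5.mono fun y hy e => hy ⟨y, e⟩ rfl

end Vale.Agent.P277Z.Val
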