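import Vale.Agent.P277Z.Val.USk
import Vale.Agent.P277Z.Slc.DegC
import Vale.Agent.P277Z.Slc.Bridge
import Vale.Agent.P277Z.Slc.Sard
import Vale.Agent.P277Z.Slc.Main

/-!
# P277, block VAL: the curves in a general slice
-/

open scoped Manifold ContDiff Topology
open Vale.Agent.P272.K Vale.Agent.P285.H281.FD Vale.Agent.P277 Set Filter MeasureTheory
open Vale.Agent.P277.H762 (Cv not_cv_nhds)
open Vale.Agent.P277.HD (pull)
open Vale.Agent.P277.T2 (IsCmpV)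
open Vale.Agent.P277Z.Slc (Big Reg Sl Crv dg dZ isDeg stSl stCmp dg_nef dg_const dg_mul dg_pow
  dg_inv dg_relAmple dg_of_isDiv)
open Vale.Agent.P285Z.Br (Same toLB same_toLB)

noncomputable section

namespace Vale.Agent.P277Z.Val

namespace L44

theorem cv_img {X : CSp} {k N : ℕ} {O Z : Set X.pt} {F : X.pt → Cm N}
    (hF : ∀ y ∈ O, ∀ i, X.Hol (fun y => F y i) y) (hZ : DimLe X k Z) : Cv k (F '' (Z ∩ O)) := by
  obtain ⟨Ω, G, h1, h2, h3⟩ := hZ
  refine ⟨fun l => {p | p ∈ Ω l ∧ ∀ i, X.Hol (fun y => F y i) (G l p)}, fun l p => F (G l p),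
    fun l => isOpen_iff_eventually.2 fun p hp => ((h1 l).eventually_mem hp.1).and
      ((h2 l p hp.1).1.eventually (eventually_all.2 fun i => hol_eventually (hp.2 i))),
    fun l p hp => AnalyticAt.pi fun i => (h2 l p hp.1).analyticAt (hp.2 i), ?_⟩
  rintro _ ⟨y, hy, rfl⟩
  obtain ⟨l, q, hq, rfl⟩ := mem_iUnion.1 (h3 hy.1)
  exact mem_iUnion.2 ⟨l, q, ⟨hq, hF _ hy.2⟩, rfl⟩

theorem ae_cv {k n : ℕ} (hk : k < n) {S : Set (Cm n)} (h : Cv k S) : ∀ᵐ s : Cm n, s ∉ S := by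
  obtain ⟨Ω, g, h1, h2, h3⟩ := h
  filter_upwards [P284.H451.D.sard_ae_iUnion h1 h2] with s hs h4
  obtain ⟨l, z, hz, h5⟩ := mem_iUnion.1 (h3 h4)
  have := LinearMap.finrank_le_finrank_of_surjective
    (f := (fderiv ℂ (g l) z : Cm k →ₗ[ℂ] Cm n)) (hs l z hz h5)
  simp only [Module.finrank_fin_fun] at this
  omega

theorem nhds_img {d : ℕ} {u : Cm d → Cm d} {w : Cm d} (hu : AnalyticAt ℂ u w)
    (h : Function.Surjective (fderiv ℂ u w)) {S : Set (Cm d)} (hS : S ∈ 𝓝 w) :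
    u '' S ∈ 𝓝 (u w) := by
  rw [← hu.hasStrictFDerivAt.map_nhds_eq_of_surj (LinearMap.range_eq_top.2 h)]
  exact image_mem_map hS

theorem not_big {k d N : ℕ} (hk : k < d) {T : Set (Cm N)} (h : Cv k T) : ¬ Big d T := by
  rintro ⟨g, w, h1, h2, h3⟩
  obtain ⟨π, hπ⟩ := (fderiv ℂ g w : Cm d →ₗ[ℂ] Cm N).exists_leftInverse_of_injective
    (LinearMap.ker_eq_bot.2 h3)
  let P : Cm N →L[ℂ] Cm d := LinearMap.toContinuousLinearMap π
  have h4 : fderiv ℂ (P ∘ g) w = P.comp (fderiv ℂ g w) :=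
    (P.hasFDerivAt.comp w h2.differentiableAt.hasFDerivAt).fderiv
  refine not_cv_nhds (by simpa using hk) (nhds_img ((P.analyticAt _).comp h2)
    (fun v => ⟨v, by rw [h4]; exact LinearMap.congr_fun hπ v⟩) h1)
    ((h.image isOpen_univ (subset_univ _) fun z _ => P.analyticAt z).mono ?_)
  rintro _ ⟨z, hz, rfl⟩
  exact ⟨g z, hz, rfl⟩

theorem crv_inf {n : ℕ} {W : Type} [TopologicalSpace W] [ChartedSpace (Cm n) W] (c : Crv n W) :
    (range c.ι).Infinite := by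
  obtain ⟨p⟩ : Nonempty c.C := inferInstance
  obtain ⟨q, hq⟩ := Slc.ex_ne p
  rw [← image_univ]
  exact (isPreconnected_univ.infinite_of_nontrivial ⟨q, trivial, p, trivial, hq⟩).image
    c.inj.injOn

/-- the choice of the point -/
theorem pick {V : Lg} {X : CSp} {p : V.W → X.pt} (hp : HolTo V X p) {C D : Set X.pt}
    (hC : BigX X C) (hD : DimLe X 1 D) : ∃ x ∈ C, x ∉ D ∧ ∃ (N : ℕ) (O : Set X.pt)
      (φ : X.pt → Cm N) (H : Cm N → Cm 2), x ∈ O ∧ IsOpen O ∧ InjOn φ O ∧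
      (∀ y ∈ O, ∀ i, X.Hol (fun y => φ y i) y) ∧ (∀ y ∈ O, AnalyticAt ℂ H (φ y)) ∧
      Reg 4 V.G (p ⁻¹' O) (fun y => H (φ (p y))) (H (φ x)) := by
  have := ChartedSpace.secondCountable_of_sigmaCompact (Cm 4) V.W
  obtain ⟨g, w, h, h1, h2, h3, h4⟩ := hC
  obtain ⟨N, k, O, Ω, h0, φ, hw, hM⟩ := X.model (g w)
  choose H h5 h6 using fun i => (hM.hol _ hw (h i)).1 (h3 i)
  obtain ⟨O', k1, k2, k3⟩ := eventually_nhds_iff.1 ((hM.isOpen.eventually_mem hw).and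
    ((hM.continuousAt hw).eventually (AnalyticAt.pi h5).eventually_analyticAt))
  have k4 : ∀ y ∈ O', ∀ i, X.Hol (fun y => H i (φ y)) y := fun y hy i =>
    (hM.hol y (k1 y hy).1 _).2 ⟨H i, analyticAt_pi_iff.1 (k1 y hy).2 i, EventuallyEq.rfl⟩
  have k5 : (fun w' i => H i (φ (g w'))) =ᶠ[𝓝 w] fun w' i => h i (g w') := by
    filter_upwards [h1.1.eventually (eventually_all.2 h6)] with w' hw'
      using funext fun i => (hw' i).symm
  have k6 := nhds_img (AnalyticAt.pi fun i => h1.analyticAt (k4 _ k3 i))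
    (by rw [k5.fderiv_eq]; exact (LinearMap.equivOfDetNeZero _ h4).surjective)
    (h2.and (h1.1.eventually (k2.eventually_mem k3)))
  have k7 := (Slc.stSard_of Slc.stUnit 4 V.W (Fin V.r) V.G (p ⁻¹' O') 2
    (fun y i => H i (φ (p y))) (Slc.snc_lg V) (k2.preimage hp.cont)
    fun y hy i => hp.hol y _ (k4 _ hy i)).and
    (ae_cv one_lt_two (cv_img (F := fun y i => H i (φ y)) k4 hD))
  obtain ⟨_, ⟨w', k8, rfl⟩, k9⟩ := Measure.exists_mem_of_measure_ne_zero_of_ae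
    (Measure.measure_pos_of_mem_nhds volume k6).ne' (ae_restrict_of_ae k7)
  exact ⟨g w', k8.1, fun hx => k9.2 ⟨g w', ⟨hx, k8.2⟩, rfl⟩, N, O', φ, fun z i => H i z, k8.2, k2,
    hM.injOn.mono fun y hy => (k1 y hy).1, fun y hy i => hM.isCoord.hol i y (k1 y hy).1,
    fun y hy => (k1 y hy).2, k9.1⟩

theorem lb_mul {V : Lg} {L M : Bd V.W} (hL : IsLB 4 L) (hM : IsLB 4 M) : IsLB 4 (L.mul M) :=
  ((same_toLB L hL).mul (same_toLB M hM)).isLB

theorem lb_pow {V : Lg} {L : Bd V.W} (hL : IsLB 4 L) (k : ℕ) : IsLB 4 (L.pow k) :=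
  ((same_toLB L hL).pow k).isLB

theorem lb_inv {V : Lg} {L : Bd V.W} (hL : IsLB 4 L) : IsLB 4 (Bd.inv L) :=
  Same.isLB (L := Bd.inv L) (B := P285Z.invB (toLB L hL)) ⟨rfl, rfl⟩

theorem lb_pull {V : Lg} {X : CSp} {p : V.W → X.pt} (hp : HolTo V X p) {L : Bd X.pt}
    (hL : IsLBx X L) : IsLB 4 (pull p L) where
  isOpen i := (hL.isOpen i).preimage hp.cont
  cover y := hL.cover (p y)
  holo i j e y he hi hj := (hp.hol y _ (hL.holo i j _ hi hj) e he).contDiffAt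
  ne_zero i j y := hL.ne_zero i j (p y)
  cocycle i j k y := hL.cocycle i j k (p y)

/-- the comparison on a contracted curve -/
theorem cmp_dg {k : ℕ} {m : Fin k → ℕ} {V : Lg} {M : Fin k → Bd V.W} {X : CSp}
    {L : Fin k → Bd X.pt} {c : Fin k → ℕ} {p : V.W → X.pt} {n : Fin k → Fin V.r → ℤ} {t}
    (hp : HolTo V X p) (hL : ∀ e, IsLBx X (L e)) (hM : ∀ e, IsLB 4 (M e))
    (ht : IsCmpV p L (fun e => (((Bd.can 4 V.W).pow (m e)).mul (M e)).pow (c e)) V.G n t)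
    {O : Fin V.r → Bd V.W} {σ : ∀ l, (O l).ι → V.W → ℂ}
    (hO : ∀ l, Slc.IsDiv 4 (V.G l) (O l) (σ l)) (C : Crv 4 V.W)
    (hC : ∀ a b, p (C.ι a) = p (C.ι b)) (e : Fin k) :
    c e * (m e * dg dZ C (Bd.can 4 V.W) + dg dZ C (M e)) = ∑ l, n e l * dg dZ C (O l) := by
  have := ChartedSpace.secondCountable_of_sigmaCompact (Cm 4) V.W
  have h1 := lb_pow (V := V) Slc.isLB_can (m e)
  have h2 := lb_mul h1 (hM e)
  have h := stCmp dZ isDeg 4 V.W (Fin V.r) V.G O σ univ (pull p (L e)) _ (n e) (t e) hO isOpen_univ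
    (lb_pull hp (hL e)) (lb_pow h2 (c e)) (fun y _ => (ht.div y).imp fun _ h => ⟨h.1, h.2 e⟩)
    (fun y _ i i₁ j j₁ => ht.change y e i i₁ j j₁) C (subset_univ _)
  rwa [(dg_const C (hL e) hC).2, zero_add, dg_pow C (Slc.isLB_pull C h2),
    dg_mul C (Slc.isLB_pull C h1) (Slc.isLB_pull C (hM e)),
    dg_pow C (Slc.isLB_pull C Slc.isLB_can)] at h

theorem sum_fib {J : Type} [Fintype J] {r : ℕ} (o : J → Fin r) (a : Fin r → ℝ) (q : J → ℤ)
    (d : Fin r → ℤ) (nn : Fin r → ℕ) (h : ∀ l, d l = ∑ b with o b = l, q b + nn l) :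
    ∑ l, a l * d l = ∑ b, a (o b) * q b + ∑ l, a l * nn l := by
  rw [← Finset.sum_fiberwise Finset.univ o, ← Finset.sum_add_distrib]
  refine Finset.sum_congr rfl fun l _ => ?_
  rw [h l]
  push_cast
  rw [mul_add, Finset.mul_sum]
  exact congrArg (· + _) (Finset.sum_congr rfl fun b hb => by rw [(Finset.mem_filter.1 hb).2])

end L44

open L44 in
/-- (SLC) -/
theorem slc : StSlc := by
  classical
  intro k ρ m V χ M X L c p exc n hρ hL hc hP C D hC hD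
  have := ChartedSpace.secondCountable_of_sigmaCompact (Cm 4) V.W
  have hp : HolTo V X p := ⟨hP.res.cont, hP.res.hol⟩
  obtain ⟨x, hxC, hxD, N, U, φ, H, hxU, hU, hφ, h1, h2, h3⟩ := pick hp hC hD
  obtain ⟨O, σ, hO⟩ := Slc.exists_div V
  have h4 : p ⁻¹' U ∩ (fun y => φ (p y)) ⁻¹' {φ x} = p ⁻¹' {x} := by
    ext y
    exact ⟨fun h => hφ h.1 hxU h.2, fun h => by
      rw [mem_inter_iff, mem_preimage, mem_preimage, show p y = x from h]
      exact ⟨hxU, rfl⟩⟩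
  obtain ⟨J, _, cv, o, q, nn, hS⟩ := stSl dZ isDeg 4 V.W (Fin V.r) V.G O σ ∅ 2 N (p ⁻¹' U)
    (fun y => φ (p y)) H (φ x) hO rfl (hU.preimage hp.cont) (fun y hy i => hp.hol y _ (h1 _ hy i))
    (fun y hy => h2 _ hy) (h4 ▸ (isClosed_singleton.preimage hp.cont).isCompact) h3
  have h0 : ∀ l, l ∉ (∅ : Finset (Fin V.r)) := fun l => Finset.notMem_empty l
  have hx : ∀ b a, p ((cv b).ι a) = x := fun b a =>
    h4.subset ⟨(hS.sub b a).1, (hS.sub b a).2.1⟩
  have hx' : ∀ b a a', p ((cv b).ι a) = p ((cv b).ι a') := fun b a a' =>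
    (hx b a).trans (hx b a').symm
  have own : ∀ b, o b ∈ exc := fun b => by
    by_contra hb
    refine crv_inf (cv b) ((exc.finite_toSet.biUnion fun l hl =>
      (hS.fin b l (h0 l) fun h => hb (h ▸ hl)).1).subset ?_)
    rintro _ ⟨a, rfl⟩
    by_contra h
    obtain ⟨a', ha⟩ := Slc.ex_ne a
    refine ha ((cv b).inj (hP.res.inj _ _ (fun h' => h ?_) (hx' b a' a)))
    obtain ⟨l, hl, h5⟩ := mem_iUnion₂.1 h'
    exact mem_iUnion₂.2 ⟨l, hl, mem_range_self a, h5⟩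
  have cov : ∀ y, p y = x → ∀ l ∈ exc, y ∈ V.G l → ∃ b, o b = l ∧ y ∈ range (cv b).ι := by
    intro y hy l hl h5
    have h6 : y ∈ p ⁻¹' U := (h4.superset hy).1
    refine (hS.cover l (h0 l) y h6 (congrArg φ hy) (fun l hl => absurd hl (h0 l)) h5).resolve_right
      fun h => not_big (k := 2) (by norm_num) ((cv_img h1 hP.res.dim).mono ?_)
        (h.1 _ ((hU.preimage hp.cont).mem_nhds h6))
    rintro _ ⟨y', h7, rfl⟩
    exact ⟨p y', ⟨⟨y', mem_iUnion₂.2 ⟨l, hl, h7.2⟩, rfl⟩, h7.1.1⟩, rfl⟩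
  have nn0 : ∀ b, ∀ l ∈ exc, nn l b = 0 := fun b l hl => by
    rw [hS.nn_eq b l (h0 l)]
    refine (congrArg ncard (eq_empty_of_forall_notMem ?_)).trans (ncard_empty _)
    rintro _ ⟨⟨⟨a, rfl⟩, h5⟩, h6⟩
    obtain ⟨b', h7, h8⟩ := cov _ (hx b a) l hl h5
    exact h6 b' h7 h8
  have key := fun a b => sum_fib o a (fun b' => q b' b) _ (fun l => nn l b)
    fun l => hS.sum b l (h0 l)
  refine ⟨x, hxC, hxD, J, inferInstance, fun b => range (cv b).ι, o, q,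
    fun b => dg dZ (cv b) (Bd.can 4 V.W), fun e b => (dg dZ (cv b) (M e)).toNat, nn, own,
    fun b => range_subset_iff.2 fun a => ⟨(hS.sub b a).2.2.2, hx b a⟩,
    fun b => (isCompact_range (cv b).cont).isClosed, fun b => crv_inf _,
    fun b l hl => (hS.fin b l (h0 l) hl).1, cov, hS.disj, hS.symm, hS.off, ?_,
    fun b => by simpa using hS.adj b, fun b l hl => ?_, fun b => ?_⟩
  · obtain ⟨P, cc, τ, k1, k2, k3, k4⟩ := hP.res.amp
    refine ⟨fun b => cc (o b), fun b => Nat.cast_pos.2 ((k3 _).2 (own b)), fun b => ?_⟩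
    have k5 := dg_of_isDiv isDeg hO (lb_inv k1) k4 (cv b)
    rw [dg_inv _ (Slc.isLB_pull _ k1)] at k5
    have k6 := key (fun l => cc l) b
    rw [Finset.sum_eq_zero (s := Finset.univ) (f := fun l => (cc l : ℝ) * (nn l b : ℝ)) fun l _ => by
      by_cases hl : l ∈ exc
      · simp [nn0 b l hl]
      · simp [Nat.eq_zero_of_not_pos (mt (k3 l).1 hl)], add_zero] at k6
    rw [← k6]
    exact_mod_cast k5 ▸ neg_neg_of_pos (dg_relAmple (cv b) k1 k2 (hx' b))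
  · rw [hS.nn_eq b l (h0 l)]
    exact congrArg ncard
      (sep_eq_self_iff_mem_true.2 fun _ _ b' (hb : o b' = l) => absurd (hb ▸ own b') hl)
  · obtain ⟨t, ht⟩ := hP.cmp
    have k1 : ∀ e, ((m e : ℝ) * dg dZ (cv b) (Bd.can 4 V.W) + (dg dZ (cv b) (M e)).toNat) =
        ∑ l, (n e l : ℝ) / c e * dg dZ (cv b) (O l) := fun e => by
      have k2 : (c e : ℝ) ≠ 0 := by exact_mod_cast Nat.one_le_iff_ne_zero.1 (hc e)
      have k3 := congrArg (Int.cast (R := ℝ)) (cmp_dg hp hL hP.lb ht hO (cv b) (hx' b) e)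
      rw [← Int.cast_natCast (dg dZ (cv b) (M e)).toNat,
        Int.toNat_of_nonneg (dg_nef _ hP.kahler.toIsHermitian (hP.lb e) (hP.nef e))]
      push_cast at k3
      simp only [div_mul_eq_mul_div, ← Finset.sum_div, ← k3]
      field_simp
    have k4 : ∑ l, disc ρ c n l * dg dZ (cv b) (O l) = dg dZ (cv b) (Bd.can 4 V.W) +
        ∑ e, ρ e * (dg dZ (cv b) (M e)).toNat := by
      simp only [disc, Finset.sum_mul, mul_div_assoc, mul_assoc]
      rw [Finset.sum_comm]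
      simp only [← Finset.mul_sum, ← k1]
      simp only [mul_add, Finset.sum_add_distrib, ← mul_assoc, ← Finset.sum_mul, hρ, one_mul]
    have k5 : ∑ l with l ∉ exc, -disc ρ c n l * nn l b = -∑ l, disc ρ c n l * nn l b := by
      rw [← Finset.sum_neg_distrib, Finset.sum_filter]
      refine Finset.sum_congr rfl fun l _ => ?_
      by_cases hl : l ∈ exc
      · simp [hl, nn0 b l hl]
      · simp [hl]
    rw [k5, ← k4, key]
    ring

end Vale.Agent.P277Z.Val
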