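import Vale.Agent.P277Z.Val.Uniq

/-!
# P277, block VAL: the upper bound for the difficulty
-/

set_option linter.unusedSectionVars false

open scoped Manifold ContDiff
open Set Filter Metric Topology Function
open Vale.Agent.P272.K Vale.Agent.P277.PH
open Vale.Agent.P277.T3 (ThinM IsAnAt)
open Vale.Agent.P277.H762 (Cv)
open P277Z.Num (wt le_wt_iff)

noncomputable section

namespace Vale.Agent.P277Z.Val.U

variable {V V' : Lg} {π : V'.W → V.W} {a' : Fin V'.r → ℝ} {a : Fin V.r → ℝ}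
  {s : Fin V.r → Fin V'.r}

theorem exists_ch_good (ha : Good V a) (z : V.W) : ∃ c ξ lab, Ch V z c ξ lab ∧
    ∀ l, a l < 0 → z ∈ V.G l → lab l = some 1 := by
  by_cases h : ∃ l, a l < 0 ∧ z ∈ V.G l
  · obtain ⟨l, h1, h2⟩ := h
    obtain ⟨c, ξ, lab, h3, h4⟩ := exists_ch1 h2 1
    refine ⟨c, ξ, lab, h3, fun l' e1 e2 => ?_⟩
    rwa [show l' = l from by_contra fun e => Set.disjoint_left.1 (ha.disj l' l e e1 h1) e2 h2]
  · obtain ⟨c, ξ, lab, h3⟩ := exists_ch V z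
    exact ⟨c, ξ, lab, h3, fun l e1 e2 => absurd ⟨l, e1, e2⟩ h⟩

/-- (ECHO) -/
theorem echo_wedge (ha : Good V a) {F : Cm 4 → V.W} {w₁ : Cm 4} (hF : AnM 4 F w₁) (h0 : w₁ 0 = 0)
    {c : V.W → Cm 4} {ξ : Cm 4 → V.W} {lab : Fin V.r → Option (Fin 4)}
    (hc : Ch V (F w₁) c ξ lab) (hl : ∀ l, a l < 0 → F w₁ ∈ V.G l → lab l = some 1)
    {g : Fin V.r → ℕ} (hg : ∀ l, OrdEq (fun w => eqs c lab l (F w)) w₁ (g l)) {J : ℕ}
    (hJ : OrdEq (jd fun w => c (F w)) w₁ J)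
    (hr : ∀ᶠ w in 𝓝 w₁, w 0 = 0 → (Tm (fun w => c (F w)) w).rank ≤ 2)
    (hd : J + ∑ l, a l * g l < 1) :
    ∃ l, a l < 0 ∧ F w₁ ∈ V.G l ∧ 1 ≤ J ∧ g l = J ∧ J * (1 + a l) ≤ J + ∑ l, a l * g l ∧
      ∀ᶠ w₂ in 𝓝 w₁, w₂ 0 = 0 → ¬ ∀ᶠ w in 𝓝 w₂, w 0 = 0 → (Tm (fun w => c (F w)) w).rank ≤ 1 := by
  obtain ⟨γ, b, k1, k2, k3, k4⟩ := coords hF h0 hc hg a
  have hb1 : b 1 < 1 := by
    rcases k4 1 with e | ⟨l, -, -, e, -⟩
    · linarith [e.1]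
    · linarith [ha.klt l]
  have hb : ∀ i, i ≠ 1 → b i ≤ 0 := fun i hi => by
    rcases k4 i with e | ⟨l, e1, -, e2, e3⟩
    · exact e.1.le
    · exact not_lt.1 fun e => hi (Option.some_injective _ (e1.symm.trans (hl l (by linarith) e3)))
  have h1 : (J : ℝ) - ∑ i, b i * γ i < 1 := by linarith
  obtain ⟨e1, e2, e3, -⟩ := echo_num h0 k1 le_rfl hr hJ hb1 hb h1
  rcases k4 1 with e | ⟨l, f1, -, f2, f3⟩
  · linarith [e.1]
  refine ⟨l, by linarith, f3, e3 ▸ e2, (k3 l 1 f1).symm.trans e3.symm, ?_, ?_⟩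
  · have e4 : ∑ i ∈ Finset.univ.erase 1, b i * γ i ≤ 0 := Finset.sum_nonpos fun i hi =>
      mul_nonpos_of_nonpos_of_nonneg (hb i (Finset.ne_of_mem_erase hi)) (Nat.cast_nonneg _)
    rw [k2, ← Finset.add_sum_erase _ _ (Finset.mem_univ 1), f2, ← e3]
    linarith
  · filter_upwards [eventually_all.2 fun i => (k1 i).eventually, hJ.eventually] with w e4 e5 e6 e7
    exact absurd (echo_num e6 e4 one_le_two e7 e5 hb1 hb h1).2.2.2.1 (by decide)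

theorem sc_of_cc {l k : Fin V'.r} {S : Set V'.W} (hS : IsCC V' l k S) {y : V'.W} (hy : y ∈ S) :
    ∃ c' ξ' lab', Ch V' y c' ξ' lab' ∧ lab' k = some 0 ∧ lab' l = some 1 ∧ Sc S y c' ξ' := by
  obtain ⟨c', ξ', lab', h1, h2, h3⟩ := exists_ch2 hS.ne (hS.sub hy).2 (hS.sub hy).1
  refine ⟨c', ξ', lab', h1, h2, h3, h1.crd, ?_⟩
  filter_upwards [hS.loc y hy, h1.mem_iff h2, h1.mem_iff h3] with x e1 e2 e3
  rw [e1, mem_inter_iff, e2, e3, and_comm]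

theorem sf_of_cc {l k : Fin V'.r} {S : Set V'.W} (hS : IsCC V' l k S) : IsSf S := fun _ hy =>
  (sc_of_cc hS hy).imp fun _ e => e.imp fun _ e => e.elim fun _ e => e.2.2.2

theorem rank_notImm (h : Hom V' V π) {S : Set V'.W} (hS : IsSf S) {F : Cm 4 → V.W} {w₁ : Cm 4}
    (hF : AnM 4 F w₁) {c : V.W → Cm 4} {ξ : Cm 4 → V.W} (hc : Crd c ξ (F w₁))
    (h1 : ∀ᶠ w in 𝓝 w₁, w 0 = 0 → F w ∈ π '' {y | y ∈ S ∧ ¬ Imm π S y}) :
    ∀ᶠ w in 𝓝 w₁, w 0 = 0 → (Tm (fun w => c (F w)) w).rank ≤ 1 := by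
  have : SecondCountableTopology V'.W := ChartedSpace.secondCountable_of_sigmaCompact (Cm 4) V'.W
  obtain ⟨T, t1, t2⟩ := nul_notImm hS (holM h) hc
  have h2 := hc.an_comp hF
  exact rank_Tm_of_nul h2 t1 ((h1.and (hF.1.eventually t2)).mono fun _ e e' => e.2 (e.1 e'))

/-- the choice of a branch of the image of the surface -/
theorem track (h : Hom V' V π) {S D : Set V'.W} (hS : IsSf S) (hc : IsClosed S) {l : Fin V.r}
    (hl : π '' S ⊆ V.G l) {e : V'.W} (he : e ∈ D) (h1 : ∀ᶠ x in 𝓝 e, x ∈ D → π x ∈ π '' S)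
    (h2 : π e ∉ π '' {y | y ∈ S ∧ ¬ Imm π S y}) : ∃ᶠ x in 𝓝 e, x ∈ D ∧ ∃ y, Imm π S y ∧
      π y = π x ∧ ∀ N ∈ 𝓝 y, ∀ᶠ x' in 𝓝 x, x' ∈ D → π x' ∈ π '' (N ∩ S) := by
  obtain ⟨M, m1, m2, m3⟩ := exists_mem_nhds_isClosed_subset
    ((closed_image h (closed_notImm hS hc (holM h))).isOpen_compl.mem_nhds h2)
  have hK : IsClosed (S ∩ π ⁻¹' M) := hc.inter (m2.preimage h.cont)
  have hI : ∀ y ∈ S ∩ π ⁻¹' M, Imm π S y := fun y hy =>
    by_contra fun e => m3 hy.2 ⟨y, ⟨hy.1, e⟩, rfl⟩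
  have hB : ∀ y ∈ S ∩ π ⁻¹' M, ∃ B ∈ 𝓝 y, IsClosed B ∧ InjOn π (B ∩ S) := fun y hy => by
    obtain ⟨c', ξ', c, ξ, ha⟩ := exists_ad h hS hl (hI y hy)
    obtain ⟨B, b1, b2, b3⟩ := exists_mem_nhds_isClosed_subset (ha.id.and ha.sc.crd.left)
    refine ⟨B, b1, b2, fun x hx x' hx' e => ?_⟩
    rw [← (b3 hx.1).2, ← (b3 hx.1).1 hx.2, e, (b3 hx'.1).1 hx'.2, (b3 hx'.1).2]
  choose B b1 b2 b3 using hB
  obtain ⟨t, ht⟩ := hK.isCompact.elim_nhds_subcover' B b1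
  refine (exists_ev_of_cover (ι := t) he
    (Z := fun i => π ⁻¹' (π '' (B i.1.1 i.1.2 ∩ (S ∩ π ⁻¹' M))))
    (fun i => (closed_image h ((b2 _ _).inter hK)).preimage h.cont) ?_).mono ?_
  · filter_upwards [h1, h.cont.continuousAt.eventually m1] with x e1 e2 e3
    obtain ⟨y, e4, e5⟩ := e1 e3
    have e6 : y ∈ S ∩ π ⁻¹' M := ⟨e4, by rwa [mem_preimage, e5]⟩
    obtain ⟨i, e7, e8⟩ := mem_iUnion₂.1 (ht e6)
    exact ⟨⟨i, e7⟩, y, ⟨e8, e6⟩, e5⟩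
  · rintro x ⟨e1, i, e2⟩
    obtain ⟨y, e3, e4⟩ := e2.self_of_nhds e1
    refine ⟨e1, y, hI y e3.2, e4, fun N hN => ?_⟩
    have e5 : π x ∉ π '' ((B i.1.1 i.1.2 ∩ (S ∩ π ⁻¹' M)) ∩ (interior N)ᶜ) := by
      rintro ⟨y', f1, f2⟩
      exact f1.2 (b3 _ _ ⟨e3.1, e3.2.1⟩ ⟨f1.1.1, f1.1.2.1⟩ (e4.trans f2.symm) ▸
        mem_interior_iff_mem_nhds.2 hN)
    filter_upwards [e2, h.cont.continuousAt.eventually ((closed_image h (((b2 _ _).inter hK).inter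
      isOpen_interior.isClosed_compl)).isOpen_compl.mem_nhds e5)] with x' f1 f2 f3
    obtain ⟨y', f4, f5⟩ := f1 f3
    exact ⟨y', ⟨interior_subset (by_contra fun f6 => f2 ⟨y', ⟨f4, f6⟩, f5⟩), f4.2.1⟩, f5⟩

theorem img_cc (hs : IsStr V' V π s) {l : Fin V.r} {k : Fin V'.r} {S : Set V'.W}
    (hS : IsCC V' (s l) k S) : π '' S ⊆ V.G l :=
  hs.img l ▸ image_mono fun _ hx => (hS.sub hx).1

/-- the exceptional divisors with small discrepancy are echoes -/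
theorem echo_exc (h : Hom V' V π) (hs : IsStr V' V π s) (hC : Crep V' V π a' a) (ha : Good V a)
    {k : Fin V'.r} (hk : k ∉ range s) (hk' : a' k < 1) : ∃ (l : Fin V.r) (S : Set V'.W) (q : ℕ),
      (s l, S) ∈ V'.cmp ∧ 1 ≤ q ∧ q * (1 + a l) ≤ a' k ∧ ∃ y γ w, Imm π S y ∧
        Wd π l S q y γ w ∧ ∀ m, Mk γ w m ↔ k = m := by
  obtain ⟨y₀, hy₀⟩ := (V'.conn k).1
  obtain ⟨e, he⟩ := (freq_gen hy₀).exists
  obtain ⟨c', ξ', lab', h', hk0⟩ := exists_ch1 he.1 0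
  obtain ⟨c, ξ, lab, hc, hl⟩ := exists_ch_good ha (π e)
  obtain ⟨g, J, h1, h2, h3⟩ := disc_gen h hC he h' hk0 hc
  obtain ⟨l, -, -, k3, k4, k5, k6⟩ := echo_wedge ha (h'.crd.an.map (holM h _))
    ((h'.mem_iff hk0).self_of_nhds.1 he.1) (by rw [h'.crd.inv]; exact hc)
    (by rw [h'.crd.inv]; exact hl) h1 h2 (rank_exc h (hs.exc k hk) h' hk0 hc.crd) (h3 ▸ hk')
  have h4 := h1 l
  rw [k4] at h4
  have hP : ∀ᶠ x in 𝓝 e, x ∈ V'.G k → Ch V' x c' ξ' lab' ∧ Ch V (π x) c ξ lab ∧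
      OrdEq (fun w => eqs c lab l (π (ξ' w))) (c' x) J ∧
      OrdEq (jd fun w => c (π (ξ' w))) (c' x) J ∧ π x ∈ V.G l ∧
      ¬ ∀ᶠ w in 𝓝 (c' x), w 0 = 0 → (Tm (fun w => c (π (ξ' w))) w).rank ≤ 1 := by
    filter_upwards [h'.eventually, h.cont.continuousAt.eventually hc.eventually, h'.mem_iff hk0,
      h'.crd.cont.eventually (h4.eventually.and (h2.eventually.and (k6.and (h4.ge.zero_on k3))))]
      with x e1 e2 e3 ⟨e4, e5, e6, e7⟩ e8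
    refine ⟨e1, e2, e4, e5, (e2.eqs_zero.self_of_nhds l).1 ?_, e6 (e3.1 e8)⟩
    simpa only [e1.crd.inv] using e7 (e3.1 e8)
  have : Finite {c : Fin V'.r × Set V'.W // c ∈ V'.cmp ∧ c.1 = s l} :=
    (V'.cmp.finite_toSet.subset fun c (hc : _ ∧ c.1 = s l) => hc.1).to_subtype
  obtain ⟨e₂, ⟨f1, ⟨⟨j₀, S⟩, hS, hS'⟩, f2⟩, f3⟩ := ((exists_ev_of_cover
    (ι := {c : Fin V'.r × Set V'.W // c ∈ V'.cmp ∧ c.1 = s l}) he.1
    (Z := fun c => π ⁻¹' (π '' c.1.2)) (fun c => (closed_image h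
      (Lg.cmp_iff.1 c.2.1).choose_spec.closed).preimage h.cont) (hP.mono fun x e1 e2 => by
      obtain ⟨y, e3, e4⟩ := (hs.img l).ge (e1 e2).2.2.2.2.1
      by_cases e5 : Gen V' (s l) y
      · exact absurd ((li_str h hs e5).inj h e4.symm ▸ e2) (e5.2 k fun e => hk ⟨l, e.symm⟩)
      · obtain ⟨j, e6, e7⟩ : ∃ j, j ≠ s l ∧ y ∈ V'.G j :=
          by_contra fun e => e5 ⟨e3, fun j e6 e7 => e ⟨j, e6, e7⟩⟩
        exact ⟨⟨(s l, connectedComponentIn (V'.G (s l) ∩ V'.G j) y),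
          Lg.mem_cmp.2 ⟨j, e6, y, ⟨e3, e7⟩, rfl⟩, rfl⟩, y, mem_connectedComponentIn
            (mem_inter e3 e7), e4⟩)).and_eventually hP.eventually_nhds).exists
  dsimp only at f2 hS'
  subst hS'
  obtain ⟨j, hj⟩ := Lg.cmp_iff.1 hS
  obtain ⟨g1, g2, -, -, -, g3⟩ := f3.self_of_nhds f1
  have f4 : ∃ᶠ x in 𝓝 e₂, x ∈ V'.G k ∧ π x ∉ π '' {y | y ∈ S ∧ ¬ Imm π S y} := fun e =>
    g3 (rank_notImm h (sf_of_cc hj) (g1.crd.an.map (holM h _)) (by rw [g1.crd.inv]; exact g2.crd)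
      ((ev_G_iff g1 hk0 (p := fun x => π x ∈ π '' {y | y ∈ S ∧ ¬ Imm π S y})).1
        (e.mono fun x e1 e2 => by_contra fun e3 => e1 ⟨e2, e3⟩)))
  obtain ⟨e₃, ⟨f5, f6⟩, f7, f8⟩ :=
    (f4.and_eventually (f2.eventually_nhds.and f3.eventually_nhds)).exists
  obtain ⟨x, ⟨x1, y, x2, x3, x4⟩, x5⟩ :=
    ((track h (sf_of_cc hj) hj.closed (img_cc hs hj) f5 f7 f6).and_eventually f8).exists
  obtain ⟨p1, p2, p3, p4, -⟩ := x5 x1
  refine ⟨l, S, J, hS, k3, h3 ▸ k5, y, ξ', c' x, x2, ⟨p1.crd.an, (p1.mem_iff hk0).self_of_nhds.1 x1,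
    by rw [p1.crd.inv, x3], fun N hN => (ev_G_iff p1 hk0 (p := fun x => π x ∈ π '' (N ∩ S))).1
      (x4 N hN), c, ξ, _, x3 ▸ p2.crd, x3 ▸ p2.eq, p3.ge, p4⟩, fun m => ⟨fun e => eq_of_ev x1
        ((ev_G_iff p1 hk0 (p := fun x => x ∈ V'.G m)).2 e), fun e => ?_⟩⟩
  exact (ev_G_iff p1 hk0 (p := fun x => x ∈ V'.G m)).1 (Eventually.of_forall fun _ h => e ▸ h)

/-- the echoes of the upper model, at a point -/
theorem echo_up0 (h : Hom V' V π) (hs : IsStr V' V π s) (hC : Crep V' V π a' a) (ha : Good V a)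
    {l : Fin V.r} {k : Fin V'.r} {S : Set V'.W} (hS : IsCC V' (s l) k S) (hl : a l < 0)
    {y : V'.W} (hy : y ∈ S) (hy' : ∀ m, m ≠ s l → m ≠ k → y ∉ V'.G m) :
    ∃ J₀ : ℕ, ∀ q : ℕ, 1 ≤ q → a' k + q * (1 + a l) < 1 →
      (((q + J₀ : ℕ) : ℝ) * (1 + a l) ≤ a' k + q * (1 + a l) ∧
        ∃ γ w, Wd π l S (q + J₀) y γ w ∧ Mk γ w (s l)) ∧ ∃ᶠ x in 𝓝 y, Imm π S x := by
  classical
  obtain ⟨c', ξ', lab', h', hk0, hl1, hsc⟩ := sc_of_cc hS hy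
  obtain ⟨c, ξ, lab, hc, hgood⟩ := exists_ch_good ha (π y)
  obtain ⟨h0, h1⟩ := hsc.mem.self_of_nhds.1 hy
  have hloc := an_loc (holM h y) h'.crd hc.crd
  have hm : ∀ᶠ w in 𝓝 (c' y), (ξ' w ∈ V'.G k → w 0 = 0) ∧ (ξ' w ∈ V'.G (s l) → w 1 = 0) ∧
      ∀ m, m ≠ s l → m ≠ k → ξ' w ∉ V'.G m := by
    refine (h'.mem_par.and (h'.crd.tend.eventually (eventually_all.2 fun m => (?_ :
      ∀ᶠ x in 𝓝 y, m ≠ s l → m ≠ k → x ∉ V'.G m)))).mono
      fun w e => ⟨fun f => by simpa [hk0] using (e.1 k).1 f,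
        fun f => by simpa [hl1] using (e.1 (s l)).1 f, e.2⟩
    by_cases e1 : m = s l
    · simp [e1]
    by_cases e2 : m = k
    · simp [e2]
    · exact eventually_of_mem ((closed_G V' m).isOpen_compl.mem_nhds (hy' m e1 e2))
        fun _ e _ _ => e
  obtain ⟨J₀, u, u1, u2, u3⟩ := exists_ordEq (an_jac hloc) h0 (by
    filter_upwards [hm, li_par h h'.crd hc.crd] with w e1 e2 e3
    have e4 : ∀ j, j ≠ s l → ξ' w ∉ V'.G j := fun j hj e => by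
      by_cases e5 : j = k
      · exact e3 (e1.1 (e5 ▸ e))
      · exact e1.2.2 j hj e5 e
    by_cases e5 : ξ' w ∈ V'.G (s l)
    · exact e2.1 (li_str h hs ⟨e5, e4⟩)
    · refine e2.1 (li_of_notE h fun e => ?_)
      obtain ⟨j, hj⟩ := mem_iUnion.1 e
      exact e4 j (fun e => e5 (e ▸ hj)) hj)
  refine ⟨J₀, fun q hq hlt => ?_⟩
  set w₁ : Cm 4 := update (c' y) 1 1 with hw₁
  have w0 : w₁ 0 = 0 := h0
  have w1 : w₁ 1 = 1 := rfl
  have wp : pr w₁ = pr (c' y) := funext fun i => by fin_cases i <;> rfl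
  have wb : blw q w₁ = c' y := by rw [blw_D hq w0, wp, hsc.pl hy]
  have hb : Tendsto (blw q) (𝓝 w₁) (𝓝 (c' y)) := wb ▸ (an_blw q w₁).continuousAt
  have hγ : AnM 4 (fun w => ξ' (blw q w)) w₁ :=
    AnM.comp (γ := ξ') (by rw [wb]; exact h'.crd.an) (an_blw q w₁)
  have hγ0 : ξ' (blw q w₁) = y := by rw [wb, h'.crd.inv]
  have hr := hb.eventually h'.crd.right
  have hJ' : OrdEq (jd fun w => c' (ξ' (blw q w))) w₁ q :=
    ⟨fun _ => 1, analyticAt_const, one_ne_zero, hr.eventually_nhds.mono fun w e => by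
      rw [mul_one, ← jd_blw]
      exact congrArg ContinuousLinearMap.det (EventuallyEq.fderiv_eq e)⟩
  obtain ⟨g, J, k1, k2, k3⟩ := disc_eq (γ := fun w => ξ' (blw q w))
    (g' := fun j => if j = k then 1 else if j = s l then q else 0) h hC hγ w0 (by
      filter_upwards [hb.eventually hm, (an_coord 1 w₁).continuousAt.eventually_ne
        (show w₁ 1 ≠ 0 from w1 ▸ one_ne_zero)] with w e1 e2 e3 e4
      obtain ⟨j, hj⟩ := mem_iUnion.1 e4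
      by_cases e5 : j = k
      · exact e3 ((blw_zero q w).symm.trans (e1.1 (e5 ▸ hj)))
      by_cases e6 : j = s l
      · exact mul_ne_zero (pow_ne_zero _ e3) e2 ((blw_one q w).symm.trans (e1.2.1 (e6 ▸ hj)))
      · exact e1.2.2 j e6 e5 hj)
    (by rw [hγ0]; exact h') (by rw [hγ0]; exact hc) (fun j => by
      by_cases e5 : j = k
      · simp only [e5, if_true, eqs, hk0, Option.elim_some]
        exact (ordEq_coord _).congr (hr.mono fun w e => ((congrFun e 0).trans (blw_zero q w)).symm)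
      by_cases e6 : j = s l
      · simp only [e6, if_true, if_neg hS.ne.symm, eqs, hl1, Option.elim_some]
        exact ⟨fun w => w 1, an_coord _ _, one_ne_zero,
          hr.mono fun w e => (congrFun e 1).trans (blw_one q w)⟩
      · simp only [if_neg e5, if_neg e6]
        refine ordEq_zero (hγ.hol (by rw [hγ0]; exact h'.holF j)) ?_
        rw [hγ0]
        exact fun e => hy' j e6 e5 ((h'.eqs_zero.self_of_nhds j).1 e)) hJ'
  have k4 : (J : ℝ) + ∑ l, a l * g l = a' k + q * (1 + a l) := by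
    rw [k3, ← Finset.sum_subset (Finset.subset_univ {k, s l}) fun j _ hj => by
      simp only [Finset.mem_insert, Finset.mem_singleton, not_or] at hj
      simp [hj.1, hj.2], Finset.sum_pair hS.ne, ← (stStrA V' V π s a' a h hs hC).2 l]
    simp only [if_true, if_neg hS.ne.symm]
    push_cast
    ring
  have k5 : J = q + J₀ := k2.unique w0 ⟨fun w => u (blw q w),
    AnalyticAt.comp (g := u) (by rwa [wb]) (an_blw q w₁), by simpa only [wb] using u2, by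
      filter_upwards [hb.eventually (u3.and hloc.eventually_analyticAt)] with w e
      rw [jd, det_comp (φ := fun w => c (π (ξ' w))) e.2.differentiableAt
        (an_blw q w).differentiableAt, e.1, blw_zero, show (fderiv ℂ (blw q) w).det = _ from
          jd_blw q w]
      ring⟩
  have hD : ∀ᶠ w in 𝓝 w₁, w 0 = 0 → ξ' (blw q w) ∈ S := by
    filter_upwards [(pr.continuous.tendsto' _ _ wp).eventually (hsc.par hy)] with w e1 e2
    rw [blw_D hq e2]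
    exact e1.1
  have hF := hγ.map (holM h _)
  have hc' : Ch V (π (ξ' (blw q w₁))) c ξ lab := by rw [hγ0]; exact hc
  obtain ⟨T, t1, t2⟩ := cv_of_thinM (thinM_image (thin_inter hS.ne.symm) (holM h)) hc'.crd
  have hF' := hc'.crd.an_comp hF
  obtain ⟨l', m1, m2, -, m4, m5, m6⟩ := echo_wedge ha hF w0 hc' (by rw [hγ0]; exact hgood) k1 k2
    (rank_Tm_of_cv hF' t1 ((hD.and (hF.1.eventually t2)).mono fun w e e' =>
      e.2 ⟨_, hS.sub (e.1 e'), rfl⟩)) (k4 ▸ hlt)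
  rw [hγ0] at m2
  obtain rfl : l' = l := by_contra fun e =>
    Set.disjoint_left.1 (ha.disj _ _ e m1 hl) m2 (img_cc hs hS ⟨y, hy, rfl⟩)
  have hγt : Tendsto (fun w => ξ' (blw q w)) (𝓝 w₁) (𝓝 y) := hγ0 ▸ hγ.1
  refine ⟨⟨by rwa [k4, k5] at m5, _, w₁, ⟨hγ, w0, congrArg π hγ0, fun N hN => ?_, c, ξ, _, hc.crd,
    hc.eq, k5 ▸ m4 ▸ (k1 l').ge, k5 ▸ k2⟩, hD.mono fun w e e' => (hS.sub (e e')).1⟩, fun e => ?_⟩
  · filter_upwards [hD, hγt.eventually hN] with w e1 e2 e3 using ⟨_, ⟨e2, e1 e3⟩, rfl⟩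
  · refine m6.self_of_nhds w0 (rank_notImm h (sf_of_cc hS) hF hc'.crd ?_)
    filter_upwards [hD, hγt.eventually e] with w e1 e2 e3 using ⟨_, ⟨e1 e3, e2⟩, rfl⟩

/-- the echoes of the upper model -/
theorem echo_up (h : Hom V' V π) (hs : IsStr V' V π s) (hC : Crep V' V π a' a) (ha : Good V a)
    {l : Fin V.r} {k : Fin V'.r} {S : Set V'.W} (hS : IsCC V' (s l) k S) (hl : a l < 0) :
    ∃ J₀ : ℕ, ∀ q : ℕ, 1 ≤ q → a' k + q * (1 + a l) < 1 →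
      ((q + J₀ : ℕ) : ℝ) * (1 + a l) ≤ a' k + q * (1 + a l) ∧
        ∃ y γ w, Imm π S y ∧ Wd π l S (q + J₀) y γ w ∧ Mk γ w (s l) := by
  by_cases hq : ∃ q : ℕ, 1 ≤ q ∧ a' k + q * (1 + a l) < 1
  swap
  · exact ⟨0, fun q e1 e2 => absurd ⟨q, e1, e2⟩ hq⟩
  obtain ⟨q₀, q1, q2⟩ := hq
  obtain ⟨y₀, hy₀⟩ := hS.conn.nonempty
  obtain ⟨y₁, ⟨e1, e2⟩, e3⟩ := ((Lg.freq2 (hS.sub hy₀)).and_eventually (hS.loc y₀ hy₀)).exists
  obtain ⟨J₁, h1⟩ := echo_up0 h hs hC ha hS hl (e3.2 e1) e2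
  have h2 : ∀ᶠ x in 𝓝 y₁, ∀ m, m ≠ s l → m ≠ k → x ∉ V'.G m := eventually_all.2 fun m => by
    by_cases e4 : y₁ ∈ V'.G m
    · exact Eventually.of_forall fun _ e5 e6 => absurd e4 (e2 m e5 e6)
    · exact eventually_of_mem ((closed_G V' m).isOpen_compl.mem_nhds e4) fun _ e _ _ => e
  obtain ⟨y, e4, e5⟩ := ((h1 q₀ q1 q2).2.and_eventually h2).exists
  obtain ⟨J₀, h3⟩ := echo_up0 h hs hC ha hS hl e4.mem e5
  exact ⟨J₀, fun q f1 f2 => ⟨(h3 q f1 f2).1.1, y, (h3 q f1 f2).1.2.imp fun _ e =>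
    e.imp fun _ e => ⟨e4, e⟩⟩⟩

theorem neg_str (h : Hom V' V π) (hs : IsStr V' V π s) (hC : Crep V' V π a' a) (ha : Good V a)
    {k : Fin V'.r} (hk : a' k < 0) : ∃ l, s l = k := by
  by_contra e
  rcases stGd V' V π s a' a h hs hC ha.klt k e with e1 | ⟨l, l', e1, e2, e3, e4, -⟩
  · linarith
  · exact e4 (ha.disj l l' e1 e2 e3)

end Vale.Agent.P277Z.Val.U

namespace Vale.Agent.P277Z.Val

open U

/-- (UPPER) -/
theorem stUp : StUp := by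
  classical
  intro V' V π s a' a α h hs hC ha hα
  have hA := (stStrA V' V π s a' a h hs hC).2
  have hJ : ∀ c : Fin V'.r × Set V'.W, ∃ J₀ : ℕ, c ∈ V'.cmp → ∀ l, s l = c.1 → a l < 0 →
      ∀ q : ℕ, 1 ≤ q → V'.eC a' c + q * (1 + a l) < 1 →
        ((q + J₀ : ℕ) : ℝ) * (1 + a l) ≤ V'.eC a' c + q * (1 + a l) ∧
        ∃ y γ w, Imm π c.2 y ∧ Wd π l c.2 (q + J₀) y γ w ∧ Mk γ w (s l) := by
    rintro ⟨j, S⟩
    by_cases e : (j, S) ∈ V'.cmp ∧ ∃ l, s l = j ∧ a l < 0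
    · obtain ⟨e1, l, rfl, e2⟩ := e
      obtain ⟨k, hk⟩ := Lg.cmp_iff.1 e1
      obtain ⟨J₀, e3⟩ := echo_up h hs hC ha hk e2
      refine ⟨J₀, fun _ l' e4 _ => ?_⟩
      rw [(stStrA V' V π s a' a h hs hC).1 e4, IsCC.eC hk]
      exact e3
    · exact ⟨0, fun e1 l e2 e3 => absurd ⟨e1, l, e2, e3⟩ e⟩
  choose J₀ hJ using hJ
  have key := Finset.card_le_card_of_forall_subsingleton
    (s := (Finset.univ.filter fun k => k ∉ range s ∧ a' k < α).disjSum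
      ((V'.cmp.filter fun c => a' c.1 < 0).sigma fun c => Finset.Icc 1
        (wt α (-a' c.1) (V'.eC a' c))))
    (t := Finset.univ.sigma fun l => Finset.Icc 1 (wt α (-a l) 0) ×ˢ
      V'.cmp.filter fun c => c.1 = s l ∧ ¬ ThinM 4 1 (π '' c.2))
    (fun x t => ∃ y γ w, Imm π t.2.2.2 y ∧ Wd π t.1 t.2.2.2 t.2.1 y γ w ∧ x.elim
      (fun k => ∀ m, Mk γ w m ↔ k = m) fun c => c.1 = t.2.2 ∧ t.2.1 = c.2 + J₀ c.1 ∧
        Mk γ w (s t.1)) ?_ ?_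
  · rw [Finset.card_disjSum, Finset.card_sigma, Finset.card_sigma] at key
    simp only [Finset.card_product, Nat.card_Icc, Nat.add_sub_cancel] at key
    have e1 : (Finset.univ.filter fun k => a' k < α) ⊆ Finset.univ.image s ∪
        Finset.univ.filter fun k => k ∉ range s ∧ a' k < α := fun k hk => by
      by_cases e : k ∈ range s
      · exact Finset.mem_union_left _ (by simpa using e)
      · exact Finset.mem_union_right _
          (Finset.mem_filter.2 ⟨Finset.mem_univ _, e, (Finset.mem_filter.1 hk).2⟩)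
    have e2 := (Finset.card_le_card e1).trans (Finset.card_union_le _ _)
    have e3 := Finset.card_image_le (s := Finset.univ) (f := s)
    rw [Finset.card_univ, Fintype.card_fin] at e3
    rw [Lg.nA]
    omega
  · have mem : ∀ l S (q : ℕ) y, (s l, S) ∈ V'.cmp → 1 ≤ q → q * (1 + a l) < α → Imm π S y →
        (⟨l, q, s l, S⟩ : Σ _ : Fin V.r, ℕ × Fin V'.r × Set V'.W) ∈ Finset.univ.sigma fun l =>
          Finset.Icc 1 (wt α (-a l) 0) ×ˢ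
            V'.cmp.filter fun c => c.1 = s l ∧ ¬ ThinM 4 1 (π '' c.2) :=
      fun l S q y e1 e2 e3 e4 => Finset.mem_sigma.2 ⟨Finset.mem_univ _, Finset.mem_product.2
        ⟨Finset.mem_Icc.2 ⟨e2, (le_wt_iff (by linarith [ha.klt l]) e2).2 (by linarith)⟩,
          Finset.mem_filter.2 ⟨e1, rfl, e4.not_thin (holM h y)⟩⟩⟩
    rintro (k | ⟨⟨j, S⟩, q⟩) hx
    · obtain ⟨-, e1, e2⟩ := Finset.mem_filter.1 (Finset.inl_mem_disjSum.1 hx)
      obtain ⟨l, S, q, e3, e4, e5, y, γ, w, e6, e7⟩ := echo_exc h hs hC ha e1 (e2.trans_le hα)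
      exact ⟨_, mem l S q y e3 e4 (e5.trans_lt e2) e6, y, γ, w, e6, e7⟩
    · obtain ⟨e1, e2⟩ := Finset.mem_sigma.1 (Finset.inr_mem_disjSum.1 hx)
      obtain ⟨e3, e4⟩ := Finset.mem_filter.1 e1
      obtain ⟨e5, e6⟩ := Finset.mem_Icc.1 e2
      obtain ⟨l, rfl⟩ := neg_str h hs hC ha e4
      dsimp only at e3 e4 e5 e6
      rw [hA] at e4 e6
      have e7 := (le_wt_iff (by linarith [ha.klt l]) e5).1 e6
      obtain ⟨e8, y, γ, w, e9, e10, e11⟩ := hJ _ e3 l rfl e4 q e5 (by linarith)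
      exact ⟨_, mem l S (q + J₀ (s l, S)) y e3 (by omega) (by linarith) e9, y, γ, w, e9, e10,
        rfl, rfl, e11⟩
  · rintro ⟨l, q, j, S⟩ ht x ⟨hx, y, γ, w, e1, e2, e3⟩ x' ⟨hx', y', γ', w', f1, f2, f3⟩
    obtain ⟨g1, g2⟩ := Finset.mem_product.1 (Finset.mem_sigma.1 ht).2
    obtain ⟨g3, g4, -⟩ := Finset.mem_filter.1 g2
    dsimp only at e1 e2 e3 f1 f2 f3 g1 g3 g4
    subst g4
    obtain ⟨k, hk⟩ := Lg.cmp_iff.1 g3
    have u := fun {y₁ y₂ γ₁ γ₂ w₁ w₂ m} h1 h2 k1 k2 => uniq_wd (y₁ := y₁) (y₂ := y₂) (γ₁ := γ₁)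
      (γ₂ := γ₂) (w₁ := w₁) (w₂ := w₂) (m := m) h (sf_of_cc hk) hk.conn.2 (img_cc hs hk)
      (Finset.mem_Icc.1 g1).1 h1 h2 k1 k2
    rcases x with m | ⟨c, p⟩ <;> rcases x' with m' | ⟨c', p'⟩
    · rw [(f3 m).1 (u e1 f1 e2 f2 ((e3 m).2 rfl))]
    · exact absurd ⟨l, ((e3 _).1 (u f1 e1 f2 e2 f3.2.2)).symm⟩
        (Finset.mem_filter.1 (Finset.inl_mem_disjSum.1 hx)).2.1
    · exact absurd ⟨l, ((f3 _).1 (u e1 f1 e2 f2 e3.2.2)).symm⟩
        (Finset.mem_filter.1 (Finset.inl_mem_disjSum.1 hx')).2.1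
    · obtain ⟨rfl, e4, -⟩ := e3
      obtain ⟨rfl, f4, -⟩ := f3
      rw [show p = p' from Nat.add_right_cancel (e4.symm.trans f4)]

end Vale.Agent.P277Z.Val
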