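import Vale.Agent.P277Z.Val.USk
import Vale.Agent.P277Z.Val.Mon
import Vale.Agent.P267.H338.Riem

/-!
# P277, block VAL: the orders of the isomorphisms of a flip on a common model
-/

open scoped Manifold ContDiff Topology ComplexOrder
open Vale.Agent.P272.K Vale.Agent.P285.H281.FD Vale.Agent.P277 Set Filter
open Vale.Agent.P277.PH (HolF at_chartAt)
open Vale.Agent.P277.H615

noncomputable section

namespace Vale.Agent.P277Z.Val

namespace CmpS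

variable {V : Lg} {y : V.W}

/-- the extension theorem of Riemann across the components -/
theorem riem {g : V.W → ℂ} {C : ℝ} (h : ∀ᶠ x in 𝓝 y, x ∉ V.E → HolF 4 g x ∧ ‖g x‖ ≤ C) :
    ∃ b, HolF 4 b y ∧ ∀ᶠ x in 𝓝 y, x ∉ V.E → b x = g x := by
  obtain ⟨ζ, hζ⟩ := V.exEq y
  have he := at_chartAt (n := 4) y
  set e := chartAt (Cm 4) y
  have hc := crd_chart he
  have hτ : HolF 4 (fun x => ∏ l, ζ l x ^ 1) y := holF_prod (fun l _ => hζ.hol l) fun _ => 1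
  have h0 : ∀ᶠ x in 𝓝 y, (∏ l, ζ l x ^ 1 ≠ 0 ↔ x ∉ V.E) := by
    filter_upwards [hζ.iff] with x a
    simp [Finset.prod_ne_zero_iff, Lg.E, a]
  have h1 : ∀ᶠ z in 𝓝 (e y), z ∈ e.target := e.open_target.mem_nhds (e.map_source he.2)
  obtain ⟨O, hB, hO, hy⟩ := eventually_nhds_iff.1 ((hτ e he).eventually_analyticAt.and
    (h1.and (hc.tend.eventually (h.and h0))))
  obtain ⟨O', hO', hy', -, U, hU, e'⟩ := P267.H338.riemann_extension
    (g := fun z => ∏ l, ζ l (e.symm z) ^ 1) (u := fun z => g (e.symm z)) (C := C) hO hy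
    (fun z hz => (hB z hz).1.differentiableAt.differentiableWithinAt)
    (hc.cont.frequently (((V.freqE y).and_eventually (h0.and hc.left)).mono fun x a => by
      rw [a.2.2]
      exact a.2.1.2 a.1))
    (fun z hz => by
      obtain ⟨-, a, b, c⟩ := hB z hz.1
      have := (b (c.1 hz.2)).1 e ⟨he.1, e.map_target a⟩
      rw [e.right_inv a] at this
      exact this.differentiableAt.differentiableWithinAt)
    fun z hz a => ((hB z hz).2.2.1 ((hB z hz).2.2.2.1 a)).2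
  refine ⟨fun x => U (e x), hc.holF (P268.analyticAt_of_differentiableOn hO' hU hy'), ?_⟩
  filter_upwards [hc.cont.eventually (hO'.mem_nhds hy'), hc.left, h0] with x a b c d
  have := e' _ a (by rw [b]; exact c.2 d)
  rwa [b] at this

theorem log_mon {ζ : Fin V.r → V.W → ℂ} {x : V.W} {c : ℂ} (hc : c ≠ 0) (h : ∀ l, ζ l x ≠ 0)
    (μ : Fin V.r → ℤ) :
    Real.log ‖c * ∏ l, ζ l x ^ μ l‖ = Real.log ‖c‖ + ∑ l, (μ l : ℝ) * Real.log ‖ζ l x‖ := by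
  have e : ∀ l ∈ Finset.univ, ‖ζ l x ^ μ l‖ ≠ 0 := fun l _ =>
    norm_ne_zero_iff.2 (zpow_ne_zero _ (h l))
  rw [norm_mul, norm_prod, Real.log_mul (norm_ne_zero_iff.2 hc) (Finset.prod_ne_zero_iff.2 e),
    Real.log_prod e]
  simp only [norm_zpow, Real.log_zpow]

theorem holF_mon {ζ : Fin V.r → V.W → ℂ} {x : V.W} (hζ : V.Eq x ζ) (h : ∀ l, ζ l x ≠ 0)
    (μ : Fin V.r → ℤ) : HolF 4 (fun x => ∏ l, ζ l x ^ μ l) x :=
  fun e he => Finset.analyticAt_fun_prod _ fun l _ =>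
    (hζ.hol l e he).fun_zpow (by rw [e.left_inv he.2]; exact h l)

/-- the extension of `g * ∏ ζ l ^ μ l` -/
theorem ext {g : V.W → ℂ} (hg : ∀ᶠ x in 𝓝 y, x ∉ V.E → HolF 4 g x ∧ g x ≠ 0) {ζ} (hζ : V.Eq y ζ)
    (μ : Fin V.r → ℤ) {C : ℝ} (h : ∀ᶠ x in 𝓝 y, x ∉ V.E →
      Real.log ‖g x‖ + ∑ l, (μ l : ℝ) * Real.log ‖ζ l x‖ ≤ C) :
    ∃ b, HolF 4 b y ∧ ∀ᶠ x in 𝓝 y, x ∉ V.E → b x = g x * ∏ l, ζ l x ^ μ l ∧ b x ≠ 0 ∧
      Real.log ‖b x‖ = Real.log ‖g x‖ + ∑ l, (μ l : ℝ) * Real.log ‖ζ l x‖ := by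
  obtain ⟨b, h1, h2⟩ := riem (y := y) (g := fun x => g x * ∏ l, ζ l x ^ μ l) (C := Real.exp C) (by
    filter_upwards [hg, h, hζ.eventually, hζ.ne] with x a b c d e
    refine ⟨(a e).1.mul (holF_mon c (d e) μ), ?_⟩
    rw [← Real.log_le_iff_le_exp (norm_pos_iff.2 (mul_ne_zero (a e).2
      (Finset.prod_ne_zero_iff.2 fun l _ => zpow_ne_zero _ (d e l)))), log_mon (a e).2 (d e)]
    exact b e)
  refine ⟨b, h1, ?_⟩
  filter_upwards [hg, h2, hζ.ne] with x a c d e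
  rw [c e]
  exact ⟨rfl, mul_ne_zero (a e).2 (Finset.prod_ne_zero_iff.2 fun l _ => zpow_ne_zero _ (d e l)),
    log_mon (a e).2 (d e) μ⟩

/-- integral logarithmic orders give a unit times a monomial -/
theorem mon_of_lb {g : V.W → ℂ} (hg : ∀ᶠ x in 𝓝 y, x ∉ V.E → HolF 4 g x ∧ g x ≠ 0)
    {μ : Fin V.r → ℤ} (h : LB V y (fun x => Real.log ‖g x‖) fun l => μ l) {ζ} (hζ : V.Eq y ζ) :
    ∃ u : V.W → ℂ, HolF 4 u y ∧ u y ≠ 0 ∧
      ∀ᶠ x in 𝓝 y, x ∉ V.E → g x = u x * ∏ l, ζ l x ^ μ l := by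
  obtain ⟨C, hC⟩ := h ζ hζ
  have e0 : ∀ x, ∑ l, ((-μ l : ℤ) : ℝ) * Real.log ‖ζ l x‖ =
      -∑ l, (μ l : ℝ) * Real.log ‖ζ l x‖ := fun x => by simp
  obtain ⟨b, h1, h2⟩ := ext hg hζ (fun l => -μ l) (C := C) (hC.mono fun x a e => by
    rw [e0]
    exact (le_abs_self _).trans (a e))
  refine ⟨b, h1, fun h0 => ?_, ?_⟩
  · have h3 : ∀ᶠ x in 𝓝 y, ‖b x‖ < Real.exp (-C) :=
      (holF_cont h1).norm.eventually_lt continuousAt_const (by simpa [h0] using Real.exp_pos _)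
    obtain ⟨x, a, c, d, e⟩ := ((V.freqE y).and_eventually (h3.and (h2.and hC))).exists
    have h4 := (Real.log_lt_iff_lt_exp (norm_pos_iff.2 (d a).2.1)).2 c
    rw [(d a).2.2, e0] at h4
    have h5 := (abs_le.1 (e a)).1
    linarith
  · filter_upwards [h2, hζ.ne] with x a c e
    rw [(a e).1, mul_assoc, ← Finset.prod_mul_distrib, Finset.prod_eq_one, mul_one]
    intro l _
    rw [← zpow_add₀ (c e l), neg_add_cancel, zpow_zero]

/-- the logarithmic orders of a holomorphic function are integral -/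
theorem int_of_lb {g : V.W → ℂ} (hg : ∀ᶠ x in 𝓝 y, x ∉ V.E → HolF 4 g x ∧ g x ≠ 0)
    {θ : Fin V.r → ℝ} (h : LB V y (fun x => Real.log ‖g x‖) θ) :
    ∃ μ : Fin V.r → ℤ, LB V y (fun x => Real.log ‖g x‖) fun l => μ l := by
  obtain ⟨ζ, hζ⟩ := V.exEq y
  obtain ⟨C, hC⟩ := h ζ hζ
  have h0 : ∀ᶠ x in 𝓝 y, ∀ l, ‖ζ l x‖ < ‖ζ l y‖ + 1 := eventually_all.2 fun l =>
    (holF_cont (hζ.hol l)).norm.eventually_lt continuousAt_const (lt_add_one _)
  obtain ⟨b, h1, h2⟩ := ext hg hζ (fun l => -⌊θ l⌋)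
    (C := C + ∑ l, (θ l - ⌊θ l⌋) * (‖ζ l y‖ + 1)) (by
      filter_upwards [hC, h0] with x a c e
      have e1 := (abs_le.1 (a e)).2
      have e2 : ∑ l, (θ l - ⌊θ l⌋) * Real.log ‖ζ l x‖ ≤ ∑ l, (θ l - ⌊θ l⌋) * (‖ζ l y‖ + 1) :=
        Finset.sum_le_sum fun l _ => mul_le_mul_of_nonneg_left
          ((Real.log_le_self (norm_nonneg _)).trans (c l).le) (sub_nonneg.2 (Int.floor_le _))
      simp only [sub_mul, Finset.sum_sub_distrib, Int.cast_neg, neg_mul,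
        Finset.sum_neg_distrib] at e2 ⊢
      linarith)
  obtain ⟨n, hn⟩ := exists_mon h1 (h2.mono fun x a e => (a e).2.1)
  refine ⟨fun l => n l + ⌊θ l⌋, .of_exists hζ ((hn.lb ζ hζ).congr (h2.mono fun x a e => ?_))⟩
  simp only [(a e).2.2, Int.cast_neg, neg_mul, Finset.sum_neg_distrib, Int.cast_add,
    Int.cast_natCast, add_mul, Finset.sum_add_distrib]
  ring

theorem lb_congr {F F' : V.W → ℝ} {a : Fin V.r → ℝ} (h : LB V y F a)
    (e : ∀ᶠ x in 𝓝 y, x ∉ V.E → F x = F' x) : LB V y F' a :=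
  fun ζ hζ => (h ζ hζ).congr (e.mono fun x a b => by rw [a b])

theorem lb_mul {F : V.W → ℝ} {a : Fin V.r → ℝ} (h : LB V y F a) (t : ℝ) :
    LB V y (fun x => t * F x) fun l => t * a l :=
  fun ζ hζ => ((h ζ hζ).mul t).congr (.of_forall fun x _ => by
    simp only [mul_sub, Finset.mul_sum, mul_assoc])

variable {X Z X' : CSp} {f : X.pt → Z.pt} {f' : X'.pt → Z.pt} {p : V.W → X.pt} {p' : V.W → X'.pt}

section one
variable {L : Bd X.pt} {L' : Bd X'.pt} {t : L.ι → L'.ι → Z.pt → ℂ}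

theorem adm (hc : Cmn V f f' p p') (hL : IsLBx X L) (hL' : IsLBx X' L') {i j} (hi : p y ∈ L.U i)
    (hj : p' y ∈ L'.U j) : ∀ᶠ x in 𝓝 y, p x ∈ L.U i ∧ p' x ∈ L'.U j :=
  (hc.hol.cont.continuousAt.eventually ((hL.isOpen i).mem_nhds hi)).and
    (hc.hol'.cont.continuousAt.eventually ((hL'.isOpen j).mem_nhds hj))

theorem hol_t (hc : Cmn V f f' p p') (hL : IsLBx X L) (hL' : IsLBx X' L')
    (hs : IsSmall X Z f (Amin f)) (ht : IsIso f f' (Amin f) L L' t) {i j} (hi : p y ∈ L.U i)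
    (hj : p' y ∈ L'.U j) :
    ∀ᶠ x in 𝓝 y, x ∉ V.E → HolF 4 (fun x => t i j (f (p x))) x ∧ t i j (f (p x)) ≠ 0 := by
  filter_upwards [adm hc hL hL' hi hj] with x a e
  have h1 := ht.holo (p x) (p' x) i j (fun b => e (hc.pre x b)) (hc.comm x) a.1 a.2
  exact ⟨hc.hol.hol x _ (hs.holo _ _ h1.1), h1.2⟩

/-- change of the frames -/
theorem chg (hc : Cmn V f f' p p') (hL : IsLBx X L) (hL' : IsLBx X' L')
    (ht : IsIso f f' (Amin f) L L' t) {i j i₁ j₁} (hi : p y ∈ L.U i) (hj : p' y ∈ L'.U j)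
    (hi₁ : p y ∈ L.U i₁) (hj₁ : p' y ∈ L'.U j₁) {θ : Fin V.r → ℝ}
    (h : LB V y (fun x => Real.log ‖t i j (f (p x))‖) θ) :
    LB V y (fun x => Real.log ‖t i₁ j₁ (f (p x))‖) θ := by
  refine h.bdd (((bdd_log (holF_cont (hc.hol.hol y _ (hL.holo i i₁ _ hi hi₁)))
    (hL.ne_zero i i₁ _ hi hi₁)).add (bdd_log (holF_cont (hc.hol'.hol y _
    (hL'.holo j₁ j _ hj₁ hj))) (hL'.ne_zero j₁ j _ hj₁ hj))).congr ?_)
  filter_upwards [adm hc hL hL' hi hj, adm hc hL hL' hi₁ hj₁] with x a b e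
  have hA : f (p x) ∉ Amin f := fun b => e (hc.pre x b)
  have h1 := norm_ne_zero_iff.2 (hL.ne_zero i i₁ _ a.1 b.1)
  have h2 := norm_ne_zero_iff.2 (ht.holo (p x) (p' x) i j hA (hc.comm x) a.1 a.2).2
  rw [ht.change (p x) (p' x) i i₁ j j₁ hA (hc.comm x) a.1 b.1 a.2 b.2, norm_mul, norm_mul,
    Real.log_mul (mul_ne_zero h1 h2) (norm_ne_zero_iff.2 (hL'.ne_zero j₁ j _ b.2 a.2)),
    Real.log_mul h1 h2]
  ring

/-- the isomorphism of a flip has poles exactly along the components over the flipped set -/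
theorem key (hc : Cmn V f f' p p') (h : IsFlip X Z X' f f' (Amin f) L L')
    (ht : IsIso f f' (Amin f) L L' t) {i j} (hi : p y ∈ L.U i) (hj : p' y ∈ L'.U j) :
    ∃ θ : Fin V.r → ℝ, LB V y (fun x => Real.log ‖t i j (f (p x))‖) θ ∧ (∀ l, θ l ≤ 0) ∧
      (f (p y) ∈ Amin f ↔ ∃ l, y ∈ V.G l ∧ θ l < 0) := by
  obtain ⟨O, K, κ, κ', _, _, s, σ', hO, hz, hK, hs, hσ'⟩ := exists_common h (f (p y))
  have hz' : f' (p' y) ∈ O := by rwa [hc.comm]
  obtain ⟨m, hm⟩ := hσ'.bpf (p' y) j hz' hj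
  obtain ⟨σ, hσ, htr⟩ := transport h.normal h.small h.small' (IsLBx.pow h.lb K)
    (IsLBx.pow h.lb' K) (IsIso.pow ht K) hO (hσ'.sec m)
  have h1 := hc.hol'.hol y _ ((hσ'.sec m).holo j _ hz' hj)
  have h2 : HolF 4 (fun x => σ i (p x) * (σ' m j (p' x))⁻¹) y :=
    (hc.hol.hol y _ (hσ.holo i _ hz hi)).mul fun e he =>
      (h1 e he).inv (by rw [e.left_inv he.2]; exact hm)
  have h3 : ∀ᶠ x in 𝓝 y, f (p x) ∉ Amin f →
      σ i (p x) * (σ' m j (p' x))⁻¹ * t i j (f (p x)) ^ K = 1 := by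
    filter_upwards [adm hc h.lb h.lb' hi hj, (holF_cont h1).eventually_ne hm,
      (h.small.cont.comp hc.hol.cont).continuousAt.eventually (hO.mem_nhds hz)] with x a b c e
    have e1 : σ' m j (p' x) = t i j (f (p x)) ^ K * σ i (p x) :=
      htr (p x) (p' x) i j c e (hc.comm x) a.1 a.2
    field_simp
    rw [e1, mul_comm]
  obtain ⟨n, hn⟩ := exists_mon h2 (h3.mono fun x a e =>
    left_ne_zero_of_mul_eq_one (a fun b => e (hc.pre x b)))
  have hK0 : (0 : ℝ) < K := by exact_mod_cast hK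
  refine ⟨fun l => -(K : ℝ)⁻¹ * n l, lb_congr (lb_mul hn.lb _) (h3.mono fun x a e => ?_),
    fun l => mul_nonpos_of_nonpos_of_nonneg (by simp) (by positivity), ?_⟩
  · have e1 := a fun b => e (hc.pre x b)
    rw [eq_inv_of_mul_eq_one_left e1, norm_inv, norm_pow, Real.log_inv, Real.log_pow]
    field_simp
  · obtain ⟨ζ, hζ⟩ := V.exEq y
    obtain ⟨u, -, k2, k3⟩ := hn ζ hζ
    have k4 : σ i (p y) * (σ' m j (p' y))⁻¹ = _ := k3.self_of_nhds
    have k5 : σ i (p y) * (σ' m j (p' y))⁻¹ = 0 ↔ ∃ l, y ∈ V.G l ∧ -(K : ℝ)⁻¹ * n l < 0 := by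
      rw [k4, mul_eq_zero, or_iff_right k2, Finset.prod_eq_zero_iff]
      refine exists_congr fun l => ?_
      rw [pow_eq_zero_iff', hζ.iff.self_of_nhds l, neg_mul, neg_lt_zero,
        mul_pos_iff_of_pos_left (inv_pos.2 hK0), Nat.cast_pos, Nat.pos_iff_ne_zero]
      simp
    rw [← k5]
    refine ⟨fun a => ?_, fun a => by_contra fun b => ?_⟩
    · rw [vanish h.normalZ h.normal h.small (IsLBx.pow h.lb K) hO hs hσ hz a _ i rfl hi, zero_mul]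
    · exact left_ne_zero_of_mul_eq_one (h3.self_of_nhds b) a

end one

theorem sum_comb {k : ℕ} (a : Fin k → ℤ) (e : Fin k) (x : Fin k → ℝ) :
    ∑ e', (comb a (some e) e' : ℝ) * x e' = ∑ e', (comb a none e' : ℝ) * x e' + k * x e := by
  simp [comb, add_mul, Finset.sum_add_distrib]

variable {k : ℕ} {L : Fin k → Bd X.pt} {L' : Fin k → Bd X'.pt} {p₁ q₁ : Fin k → ℕ}
  {s : ∀ e, (L e).ι → (L' e).ι → Z.pt → ℂ} {a : Fin k → ℤ}

theorem keyD (hc : Cmn V f f' p p') (h : FlipD f f' L L' p₁ q₁ s a) {i : ∀ e, (L e).ι}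
    {j : ∀ e, (L' e).ι} (hi : ∀ e, p y ∈ (L e).U (i e)) (hj : ∀ e, p' y ∈ (L' e).U (j e))
    (o : Option (Fin k)) : ∃ θ : Fin V.r → ℝ,
      LB V y (fun x => ∑ e, (comb a o e : ℝ) * Real.log ‖s e (i e) (j e) (f (p x))‖) θ ∧
      (∀ l, θ l ≤ 0) ∧ (f (p y) ∈ Amin f ↔ ∃ l, y ∈ V.G l ∧ θ l < 0) := by
  obtain ⟨θ, h1, h2⟩ := key hc (h.flip o) (IsIso.lin h.iso (comb a o)) (i := i) (j := j) hi hj
  refine ⟨θ, lb_congr h1 ?_, h2⟩
  filter_upwards [eventually_all.2 fun e => hol_t hc (IsLBx.pow (h.lb e) _) (IsLBx.pow (h.lb' e) _)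
    h.small (h.iso e) (hi e) (hj e)] with x b c
  rw [norm_prod, Real.log_prod fun e _ => norm_ne_zero_iff.2 (zpow_ne_zero _ (b e c).2)]
  simp only [norm_zpow, Real.log_zpow]

theorem exists_mu (hc : Cmn V f f' p p') (h : FlipD f f' L L' p₁ q₁ s a) (hk : 1 ≤ k) (e : Fin k) :
    ∃ μ : Fin V.r → ℤ, ∀ y i j, p y ∈ (L e).U i → p' y ∈ (L' e).U j →
      LB V y (fun x => Real.log ‖s e i j (f (p x))‖) fun l => μ l := by
  have hL := IsLBx.pow (h.lb e) (p₁ e)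
  have hL' := IsLBx.pow (h.lb' e) (q₁ e)
  have hk0 : (k : ℝ) ≠ 0 := by positivity
  obtain ⟨μ, hμ⟩ := exists_glob (V := V) (fun y (μ : Fin V.r → ℤ) => ∃ i j, p y ∈ (L e).U i ∧
    p' y ∈ (L' e).U j ∧ LB V y (fun x => Real.log ‖s e i j (f (p x))‖) fun l => μ l)
    (fun y => by
      choose i hi using fun e => (h.lb e).cover (p y)
      choose j hj using fun e => (h.lb' e).cover (p' y)
      obtain ⟨θ, h1, -⟩ := keyD hc h hi hj (some e)
      obtain ⟨θ', h2, -⟩ := keyD hc h hi hj none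
      obtain ⟨μ, h3⟩ := int_of_lb (hol_t hc hL hL' h.small (h.iso e) (hi e) (hj e))
        (lb_congr (lb_mul (h1.add (lb_mul h2 (-1))) (k : ℝ)⁻¹) (.of_forall fun x _ => by
          rw [sum_comb]
          field_simp
          ring))
      exact ⟨μ, _, _, hi e, hj e, h3⟩)
    (fun y μ ⟨i, j, h1, h2, h3⟩ => by
      filter_upwards [adm hc hL hL' h1 h2, h3.eventually] with x b c using ⟨i, j, b.1, b.2, c⟩)
    (fun y μ μ' l hl ⟨i, j, h1, h2, h3⟩ ⟨i', j', h1', h2', h3'⟩ =>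
      Int.cast_injective ((chg hc hL hL' (h.iso e) h1 h2 h1' h2' h3).unique h3' hl))
    fun y μ μ' ⟨i, j, h1, h2, h3⟩ b => ⟨i, j, h1, h2, h3.change fun l hl => by rw [b l hl]⟩
  refine ⟨μ, fun y i j h1 h2 => ?_⟩
  obtain ⟨i', j', h1', h2', h3⟩ := hμ y
  exact chg hc hL hL' (h.iso e) h1' h2' h1 h2 h3

end CmpS

open CmpS in
/-- (CMPS) -/
theorem cmpS : StCmpS := by
  intro V X Z X' f f' k L L' p₁ q₁ s a h hk p p' hc
  choose μ hμ using exists_mu hc h hk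
  have H : ∀ o y, (∀ l, y ∈ V.G l → ∑ e, comb a o e * μ e l ≤ 0) ∧
      (f (p y) ∈ Amin f ↔ ∃ l, y ∈ V.G l ∧ ∑ e, comb a o e * μ e l < 0) := by
    intro o y
    choose i hi using fun e => (h.lb e).cover (p y)
    choose j hj using fun e => (h.lb' e).cover (p' y)
    obtain ⟨θ, h1, h2, h3⟩ := keyD hc h hi hj o
    have h4 : ∀ l, y ∈ V.G l → θ l = (∑ e, comb a o e * μ e l : ℤ) := fun l hl => by
      rw [h1.unique (lb_sum Finset.univ _ fun e _ => hμ e y _ _ (hi e) (hj e)) hl]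
      push_cast
      rfl
    refine ⟨fun l hl => ?_, h3.trans (exists_congr fun l => and_congr_right fun hl => ?_)⟩
    · exact_mod_cast h4 l hl ▸ h2 l
    · rw [h4 l hl, Int.cast_lt_zero]
  have H1 : ∀ o l, ∑ e, comb a o e * μ e l < 0 → Ov V f p l := fun o l b y hy =>
    (H o y).2.2 ⟨l, hy, b⟩
  refine ⟨μ, fun y ζ e i j hζ hi hj => mon_of_lb (hol_t hc (IsLBx.pow (h.lb e) _)
    (IsLBx.pow (h.lb' e) _) h.small (h.iso e) hi hj) (hμ e y i j hi hj) hζ, fun l o b => ?_,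
    fun l b e => ?_, fun y b => ?_⟩
  · obtain ⟨y, hy⟩ := (V.conn l).nonempty
    obtain ⟨x, c, d⟩ := (Lg.freq1 hy).exists
    obtain ⟨l', e1, e2⟩ := (H o x).2.1 (b x c)
    rwa [show l' = l from by_contra fun e => d l' e e1] at e2
  · obtain ⟨y, hy⟩ := (V.conn l).nonempty
    have h0 : ∀ o, ∑ e, (comb a o e : ℝ) * μ e l = 0 := fun o => by
      exact_mod_cast le_antisymm ((H o y).1 l hy) (not_lt.1 fun c => b (H1 o l c))
    have h1 := sum_comb a e fun e => (μ e l : ℝ)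
    rw [h0, h0, zero_add] at h1
    exact_mod_cast (mul_eq_zero.1 h1.symm).resolve_left (by positivity)
  · obtain ⟨l, c, d⟩ := (H none y).2.1 b
    exact ⟨l, c, H1 none l d⟩

end Vale.Agent.P277Z.Val
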