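import Vale.Agent.P277Z.Val.RkA
import Vale.Agent.P277Z.Val.Jz
import Vale.Agent.P277Z.Val.Sub
import Vale.Agent.P277.H619.T3.Sub
import Vale.Agent.P277.H762.CL5

/-!
# P277, block VAL, row RK: the birational map of threefolds, the line bundles of the surfaces
-/

set_option linter.unusedSectionVars false

open scoped Manifold ContDiff
open Set Filter Metric Topology
open Vale.Agent.P272.K Vale.Agent.P285.H281.FD Vale.Agent.P277 Vale.Agent.P277.PH Vale.Agent.P277Z.Val.U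
open Vale.Agent.P277.T3 (ThinM IsHypAt IsSub thinM_biUnion)

noncomputable section

namespace Vale.Agent.P277Z.Val.Rk

theorem fderiv_ne {n : ℕ} {φ : Cm n → Cm n} {w : Cm n} (h : LocIso φ w) (i : Fin n) :
    fderiv ℂ (fun w => φ w i) w ≠ 0 := by
  intro h0
  obtain ⟨v, hv⟩ := (LinearMap.injective_iff_surjective
    (f := (fderiv ℂ φ w : Cm n →ₗ[ℂ] Cm n))).1 h.inj (Pi.single i 1)
  have h2 := congrArg (fun L : Cm n →L[ℂ] ℂ => L v)
    (hasFDerivAt_pi'.1 h.1.differentiableAt.hasFDerivAt i).fderiv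
  have h3 : fderiv ℂ φ w v = Pi.single i 1 := hv
  simp [h0, h3] at h2

theorem thinM_image_local {X M : Type} [TopologicalSpace X] [SecondCountableTopology X]
    [TopologicalSpace M] {n d : ℕ} [ChartedSpace (Cm n) M] [Nonempty M] {S : Set X} {f : X → M}
    (h : ∀ x ∈ S, ∃ N ∈ 𝓝 x, ThinM n d (f '' (N ∩ S))) : ThinM n d (f '' S) := by
  choose! N hN hd using h
  obtain ⟨t, htT, htc, ht⟩ := TopologicalSpace.countable_cover_nhdsWithin
    (f := N) (s := S) fun p hp => mem_nhdsWithin_of_mem_nhds (hN p hp)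
  refine (thinM_biUnion htc fun p hp => hd p (htT hp)).mono ?_
  rintro _ ⟨x, hx, rfl⟩
  obtain ⟨p, hp, hxp⟩ := mem_iUnion₂.1 (ht hx)
  exact mem_iUnion₂.2 ⟨p, hp, x, ⟨hxp, hx⟩, rfl⟩

variable {V V' : Lg} {π : V'.W → V.W} {k : Fin V'.r} {H : Type} [TopologicalSpace H] [T2Space H]
  [CompactSpace H] [ChartedSpace (Cm 3) H] [IsManifold 𝓘(ℂ, Cm 3) ω H] {ι : H → V.W}
  {σ : V'.W → H} {y : V'.W} {x : H}

/-- `σ` is the restriction of `π` to `G k`, with values in the threefold `H` -/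
structure St (π : V'.W → V.W) (k : Fin V'.r) (ι : H → V.W) (σ : V'.W → H) : Prop where
  hom : Hom V' V π
  sub : IsSub ι
  eq : ∀ y ∈ V'.G k, ι (σ y) = π y
  li : ∀ y, Gen V' k y → LI π y
  surj : ∀ x, ∃ y ∈ V'.G k, σ y = x

theorem St.tend (h : St π k ι σ) (hy : y ∈ V'.G k) {P : H → Prop} (hP : ∀ᶠ x in 𝓝 (σ y), P x) :
    ∀ᶠ y' in 𝓝 y, y' ∈ V'.G k → P (σ y') := by
  have h1 := h.sub.eventually hP
  rw [h.eq y hy] at h1
  filter_upwards [h.hom.cont.continuousAt.eventually h1] with y' e1 e2 using e1 _ (h.eq y' e2)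

theorem St.ext (h : St π k ι σ) (hy : y ∈ V'.G k) {f : H → ℂ} (hf : HolF 3 f (σ y)) :
    ∃ F : V'.W → ℂ, HolF 4 F y ∧ ∀ᶠ y' in 𝓝 y, y' ∈ V'.G k → f (σ y') = F y' := by
  obtain ⟨F, h1, h2⟩ := (sb_iff.2 h.sub).ext hf
  rw [h.eq y hy] at h1
  refine ⟨fun y => F (π y), (holM h.hom y).2 F h1, ?_⟩
  filter_upwards [h.tend hy h2] with y' e1 e2
  rw [e1 e2, h.eq y' e2]

theorem St.anM (h : St π k ι σ) {m : ℕ} {γ : Cm m → V'.W} {w : Cm m} (hγ : AnM 4 γ w)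
    (hG : ∀ᶠ w' in 𝓝 w, γ w' ∈ V'.G k) : AnM 3 (fun w => σ (γ w)) w := by
  refine ⟨tendsto_def.2 fun N hN => ?_, fun e he => analyticAt_pi_iff.2 fun i => ?_⟩
  · filter_upwards [hγ.1.eventually (h.tend hG.self_of_nhds (P := fun x => x ∈ N) hN), hG]
      with w' e1 e2 using e1 e2
  · obtain ⟨F, h1, h2⟩ := h.ext hG.self_of_nhds (holF_chart he i)
    refine (hγ.hol h1).congr ?_
    filter_upwards [hγ.1.eventually h2, hG] with w' e1 e2 using (e1 e2).symm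

theorem St.inj (h : St π k ι σ) (hy : Gen V' k y) {y' : V'.W} (hy' : y' ∈ V'.G k)
    (e : σ y' = σ y) : y' = y :=
  (h.li y hy).inj h.hom (by rw [← h.eq y hy.1, ← h.eq y' hy', e])

theorem St.closed (h : St π k ι σ) {S : Set V'.W} (hS : IsClosed S) (hs : S ⊆ V'.G k) :
    IsClosed (σ '' S) := by
  convert (closed_image h.hom hS).preimage h.sub.cont using 1
  ext x
  constructor
  · rintro ⟨y, e1, rfl⟩
    exact ⟨y, e1, (h.eq y (hs e1)).symm⟩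
  · rintro ⟨y, e1, e2⟩
    exact ⟨y, e1, h.sub.inj ((h.eq y (hs e1)).trans e2)⟩

/-- a local section of `σ` -/
structure Sc (k : Fin V'.r) (σ : V'.W → H) (e : Chart 3 H) (δ : Cm 3 → V'.W) (x : H) : Prop where
  at_ : At e x
  an : AnM 4 δ (e x)
  ev : ∀ᶠ w in 𝓝 (e x), δ w ∈ V'.G k ∧ σ (δ w) = e.symm w

variable {e : Chart 3 H} {δ : Cm 3 → V'.W}

theorem Sc.eventually (h : Sc k σ e δ x) : ∀ᶠ x' in 𝓝 x, Sc k σ e δ x' := by
  filter_upwards [e.open_source.mem_nhds h.at_.2, (e.continuousAt h.at_.2).eventually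
    (h.an.eventually.and h.ev.eventually_nhds)] with x' e1 e2 using ⟨⟨h.at_.1, e1⟩, e2.1, e2.2⟩

theorem Sc.mem (h : Sc k σ e δ x) : δ (e x) ∈ V'.G k := h.ev.self_of_nhds.1

theorem Sc.eq (h : Sc k σ e δ x) : σ (δ (e x)) = x :=
  h.ev.self_of_nhds.2.trans (e.left_inv h.at_.2)

theorem Sc.cont (h : Sc k σ e δ x) : ContinuousAt (fun x => δ (e x)) x :=
  h.an.1.comp (e.continuousAt h.at_.2)

theorem St.uniq (h : St π k ι σ) (hs : Sc k σ e δ (σ y)) (hy : y ∈ V'.G k) : δ (e (σ y)) = y := by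
  by_contra hne
  obtain ⟨N₁, N, o1, o2, m1, m2, hd⟩ := t2_separation hne
  obtain ⟨y', e1, e2, e3⟩ := ((freq_gen hy).and_eventually ((h.tend hy (hs.eventually.and
    (hs.cont.eventually (o1.mem_nhds m1)))).and (o2.mem_nhds m2))).exists
  have e4 := h.inj e1 (e2 e1.1).1.mem (e2 e1.1).1.eq
  exact Set.disjoint_left.1 hd (e2 e1.1).2 (e4.symm ▸ e3)

/-- the points over which `σ` has no local section -/
def Th (k : Fin V'.r) (σ : V'.W → H) : Set H := {x | ¬ ∃ e δ, Sc k σ e δ x}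

theorem closed_th : IsClosed (Th k σ) := by
  refine isOpen_compl_iff.1 (isOpen_iff_mem_nhds.2 fun x hx => ?_)
  obtain ⟨e, δ, h⟩ := not_not.1 hx
  filter_upwards [h.eventually] with x' e1 using not_not.2 ⟨e, δ, e1⟩

theorem St.sec (h : St π k ι σ) {γ : Cm 3 → V'.W} {p : Cm 3} (hγ : AnM 4 γ p)
    (hG : ∀ᶠ w in 𝓝 p, γ w ∈ V'.G k) (he : At e (σ (γ p)))
    (hl : LocIso (fun w => e (σ (γ w))) p) : σ (γ p) ∉ Th k σ := by
  obtain ⟨θ, t1, t2, -, t4⟩ := hl.exists_inv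
  have ht : Tendsto θ (𝓝 (e (σ (γ p)))) (𝓝 p) := by
    have := t1.1.continuousAt
    rwa [ContinuousAt, t2] at this
  refine not_not.2 ⟨e, fun w => γ (θ w), he, AnM.comp (by rwa [t2]) t1.1, ?_⟩
  filter_upwards [t4, ht.eventually hG, ht.eventually ((h.anM hγ hG).1.eventually
    (e.open_source.mem_nhds he.2))] with w e1 e2 e3
  exact ⟨e2, (e.left_inv e3).symm.trans (congrArg e.symm e1)⟩

theorem St.locIso (h : St π k ι σ) {c : V'.W → Cm 4} {ξ : Cm 4 → V'.W} {p : Cm 3}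
    (hc : Crd c ξ y) (hp : inc 3 p = c y) (hG : ∀ᶠ w in 𝓝 p, ξ (inc 3 w) ∈ V'.G k)
    (he : At e (σ y)) (hl : LI π y) : LocIso (fun w => e (σ (ξ (inc 3 w)))) p := by
  have h0 : ξ (inc 3 p) = y := by rw [hp, hc.inv]
  have hy : y ∈ V'.G k := h0 ▸ hG.self_of_nhds
  have h1 := h.anM (AnM.comp (F := inc 3) (by rw [hp]; exact hc.an) ((inc 3).analyticAt p)) hG
  have h2 := h1.2 e (by simpa only [h0] using he)
  have he' := at_chartAt (n := 4) (π y)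
  set e' := chartAt (Cm 4) (π y)
  have h3 := (li_iff h.hom hc (crd_chart he')).1 hl
  rw [← hp] at h3
  have h4 := h3.1.differentiableAt.hasFDerivAt.comp p (inc 3).hasFDerivAt
  have h5 := (h.sub.holo (σ y) e e' he (by rwa [h.eq y hy])).1
  rw [← h0] at h5
  have h6 := (HasFDerivAt.comp (f := fun w => e (σ (ξ (inc 3 w)))) p
    h5.differentiableAt.hasFDerivAt h2.differentiableAt.hasFDerivAt).unique
    (h4.congr_of_eventuallyEq (by
      filter_upwards [hG, h1.1.eventually (e.open_source.mem_nhds (by simpa only [h0] using he.2))]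
        with w e1 e2
      simp only [Function.comp_apply, e.left_inv e2, h.eq _ e1]))
  refine locIso_of_inj h2 (Function.Injective.of_comp (f := fderiv ℂ
    (fun z => e' (ι (e.symm z))) (e (σ (ξ (inc 3 p))))) ?_)
  have h7 := h3.inj.comp (Function.LeftInverse.injective (g := tl 3) (f := inc 3) tl_inc)
  rwa [← ContinuousLinearMap.coe_comp, ← h6] at h7

theorem St.gen (h : St π k ι σ) (hy : Gen V' k y) : σ y ∉ Th k σ := by
  obtain ⟨c, ξ, lab, hc, hk⟩ := exists_ch1 hy.1 0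
  have h0 := (hc.mem_iff hk).self_of_nhds.1 hy.1
  have h1 : ξ (inc 3 (tl 3 (c y))) = y := by rw [inc_tl h0, hc.crd.inv]
  have hG : ∀ᶠ w in 𝓝 (tl 3 (c y)), ξ (inc 3 w) ∈ V'.G k :=
    ((tendsto_inc h0).eventually hc.mem_par).mono fun w e => (e k).2 ⟨0, hk, rfl⟩
  have := h.sec (γ := fun w => ξ (inc 3 w)) (AnM.comp (F := inc 3)
    (by rw [inc_tl h0]; exact hc.crd.an) ((inc 3).analyticAt _)) hG (e := chartAt (Cm 3) (σ y))
    (by rw [h1]; exact at_chartAt _)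
    (h.locIso hc.crd (inc_tl h0) hG (at_chartAt _) (h.li y hy))
  rwa [h1] at this

theorem St.thin (h : St π k ι σ) : ThinM 3 1 (Th k σ) := by
  have : SecondCountableTopology V'.W := ChartedSpace.secondCountable_of_sigmaCompact (Cm 4) V'.W
  have : Nonempty H := ⟨σ (V'.conn k).1.some⟩
  refine (thinM_image_local (f := σ) (S := {y | y ∈ V'.G k ∧ σ y ∈ Th k σ}) fun y hy => ?_).mono
    fun x hx => ?_
  swap
  · obtain ⟨y, e1, rfl⟩ := h.surj x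
    exact ⟨y, ⟨e1, hx⟩, rfl⟩
  have he := at_chartAt (n := 3) (σ y)
  set e := chartAt (Cm 3) (σ y)
  obtain ⟨Φ, ρ, lab, hΦ, hk, hs⟩ := V'.snc.nch1 hy.1 0
    (h.tend hy.1 (P := fun x => x ∈ e.source) (e.open_source.mem_nhds he.2))
  set U : Set (Cm 3) := inc 3 ⁻¹' ball 0 ρ
  have hU : IsOpen U := isOpen_ball.preimage (inc 3).continuous
  have k1 : ∀ p ∈ U, Φ.symm (inc 3 p) ∈ V'.G k := fun p hp => by
    rw [hΦ.iff1 hk (hΦ.symm_mem hp).1, (hΦ.symm_mem hp).2]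
    rfl
  have k2 : ∀ p ∈ U, ∀ᶠ w in 𝓝 p, Φ.symm (inc 3 w) ∈ V'.G k := fun p hp =>
    (hU.eventually_mem hp).mono k1
  have k3 : ∀ p ∈ U, At e (σ (Φ.symm (inc 3 p))) := fun p hp =>
    ⟨he.1, hs _ (hΦ.symm_mem hp).1 (k1 p hp)⟩
  have k4 : ∀ p ∈ U, AnM 4 (fun w => Φ.symm (inc 3 w)) p := fun p hp =>
    AnM.comp (F := inc 3) (by
      have := (hΦ.crd _ (hΦ.symm_mem hp).1).an
      rwa [(hΦ.symm_mem hp).2] at this) ((inc 3).analyticAt p)
  have k5 : ∀ p ∈ U, (∀ j ∈ {j : Fin 3 | ∃ l, lab l = some j.succ}, p j ≠ 0) →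
      Gen V' k (Φ.symm (inc 3 p)) := fun p hp e1 => ⟨k1 p hp, fun j hj e2 => by
    obtain ⟨i, e3, e4⟩ := (hΦ.iff _ (hΦ.symm_mem hp).1 j).1 e2
    rw [(hΦ.symm_mem hp).2] at e4
    revert e3 e4
    refine Fin.cases (fun e3 _ => hj (hΦ.inj j k 0 e3 hk)) (fun i e3 e4 => e1 i ⟨j, e3⟩ e4) i⟩
  have k6 := cv_crit3 (F := fun w => e (σ (Φ.symm (inc 3 w)))) hU
    (fun p hp => (h.anM (k4 p hp) (k2 p hp)).2 e (k3 p hp)) _
    (fun p hp e1 => h.locIso (hΦ.crd _ (hΦ.symm_mem hp).1) (hΦ.symm_mem hp).2.symm (k2 p hp)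
      (k3 p hp) (h.li _ (k5 p hp e1))) fun p hp p' hp' e1 e2 => by
      have e3 := congrArg Φ (h.inj (k5 p hp e1) (k1 p' hp')
        (e.injOn (k3 p' hp').2 (k3 p hp).2 e2.symm))
      rw [(hΦ.symm_mem hp).2, (hΦ.symm_mem hp').2] at e3
      exact (congrArg (tl 3) e3).symm
  refine ⟨_, hΦ.nhds, (H335.HY.thinM_of_cv he.1 k6 ?_).mono ?_⟩
  · rintro _ ⟨p, hp, rfl⟩
    exact e.map_source (k3 p hp.1).2
  · rintro _ ⟨y', ⟨e1, e2, e3⟩, rfl⟩
    have e4 := inc_tl ((hΦ.iff1 hk e1).1 e2)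
    have e5 : tl 3 (Φ y') ∈ U := by
      show inc 3 _ ∈ ball 0 ρ
      rw [e4, ← hΦ.tgt]
      exact Φ.map_source e1
    have e6 : Φ.symm (inc 3 (tl 3 (Φ y'))) = y' := by rw [e4, Φ.left_inv e1]
    refine ⟨_, ⟨tl 3 (Φ y'), ⟨e5, fun e7 => ?_⟩, rfl⟩, ?_⟩
    · exact h.sec (k4 _ e5) (k2 _ e5) (k3 _ e5) e7 (by rwa [e6])
    · rw [e.left_inv (k3 _ e5).2, e6]

theorem St.hyp (h : St π k ι σ) {j : Fin V'.r} {S : Set V'.W} (hS : IsCC V' k j S)
    (hx : x ∈ σ '' S \ Th k σ) : IsHypAt 3 (σ '' S \ Th k σ) x := by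
  obtain ⟨⟨y, hy, rfl⟩, hx⟩ := hx
  obtain ⟨e, δ, hs⟩ := not_not.1 hx
  have h0 := h.uniq hs (hS.sub hy).1
  obtain ⟨c, ξ, lab, hc, hk, hj⟩ := exists_ch2 hS.ne.symm (hS.sub hy).1 (hS.sub hy).2
  have c0 := (hc.mem_iff hk).self_of_nhds.1 (hS.sub hy).1
  have ht : Tendsto δ (𝓝 (e (σ y))) (𝓝 y) := by
    have := hs.an.1
    rwa [ContinuousAt, h0] at this
  have h1 : LocIso (fun w => tl 3 (c (δ w))) (e (σ y)) := by
    refine locIso_of_inv (θ := fun w => e (σ (ξ (inc 3 w)))) (((tl 3).analyticAt _).comp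
      (Crd.an_comp (ξ := ξ) (by rw [h0]; exact hc.crd) hs.an)) ?_ ?_
    · show AnalyticAt ℂ _ (tl 3 (c (δ (e (σ y)))))
      rw [h0]
      refine (h.anM (AnM.comp (F := inc 3) (by rw [inc_tl c0]; exact hc.crd.an)
        ((inc 3).analyticAt _)) (((tendsto_inc c0).eventually hc.mem_par).mono
          fun w e => (e k).2 ⟨0, hk, rfl⟩)).2 e ?_
      simpa only [inc_tl c0, hc.crd.inv] using hs.at_
    · filter_upwards [hs.ev, ht.eventually ((hc.mem_iff hk).and hc.crd.left),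
        e.eventually_right_inverse' hs.at_.2] with w e1 e2 e3
      rw [inc_tl (e2.1.1 e1.1), e2.2, e1.2, e3]
  refine ⟨e, hs.at_, fun w => tl 3 (c (δ w)) 0, analyticAt_pi_iff.1 h1.1 0, ?_, fderiv_ne h1 0, ?_⟩
  · show c (δ (e (σ y))) 1 = 0
    rw [h0]
    exact (hc.mem_iff hj).self_of_nhds.1 (hS.sub hy).2
  · filter_upwards [hs.eventually, (ht.comp (e.continuousAt hs.at_.2)).eventually
      ((hc.mem_iff hj).and (hS.loc y hy))] with x e1 e2
    constructor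
    · rintro ⟨⟨y', e3, rfl⟩, -⟩
      refine e2.1.1 ?_
      show δ (e (σ y')) ∈ _
      rw [h.uniq e1 (hS.sub e3).1]
      exact (hS.sub e3).2
    · exact fun e3 => ⟨⟨_, e2.2.2 ⟨e1.mem, e2.1.2 e3⟩, e1.eq⟩, not_not.2 ⟨e, δ, e1⟩⟩

/-- the line bundle of the image of `S` -/
theorem St.lb (h : St π k ι σ) {j : Fin V'.r} {S : Set V'.W} (hS : IsCC V' k j S) :
    ∃ (L : Bd H) (s : L.ι → H → ℂ), IsLB 3 L ∧ IsSec 3 L s ∧ ∀ y ∈ V'.G k, σ y ∉ Th k σ →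
      ∀ i, σ y ∈ L.U i → (s i (σ y) = 0 ↔ y ∈ S) := by
  have h1 : IsClosed (σ '' S \ Th k σ ∪ Th k σ) := by
    rw [sdiff_union_self]
    exact (h.closed hS.closed fun _ e => (hS.sub e).1).union closed_th
  obtain ⟨L, s, h2, h3, h4⟩ := H762.stCl H (Th k σ) (σ '' S \ Th k σ) closed_th h.thin
    disjoint_sdiff_left h1 fun _ => h.hyp hS
  refine ⟨L, s, h2, h3, fun y hy e1 i hi => (h4 i _ hi).1.trans ⟨fun e2 => ?_,
    fun e2 => subset_closure ⟨⟨y, e2, rfl⟩, e1⟩⟩⟩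
  obtain ⟨⟨y', e3, e4⟩, -⟩ := (closure_minimal subset_union_left h1 e2).resolve_right e1
  obtain ⟨e, δ, hs⟩ := not_not.1 e1
  have e5 := h.uniq hs hy
  rw [← e4] at hs e5
  rwa [← e5, h.uniq hs (hS.sub e3).1]

end Vale.Agent.P277Z.Val.Rk
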