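import Vale.Agent.P277Z.Val.Jac
import Vale.Agent.P277.H762.L1a
import Mathlib.MeasureTheory.Function.Jacobian
import Mathlib.Analysis.Calculus.InverseFunctionTheorem.FDeriv

/-!
# P277, block VAL: small images force small rank
-/

open Set Filter Metric Topology MeasureTheory
open Vale.Agent.P272.K
open Vale.Agent.P277.H762 (Cv)

noncomputable section

namespace Vale.Agent.P277Z.Val

/-- `T` is covered by countably many images of sets of critical points of maps from `ℂ^s`. -/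
def Nul (s : ℕ) {n : ℕ} (T : Set (Cm n)) : Prop :=
  ∃ (S : ℕ → Set (Cm s)) (g : ℕ → Cm s → Cm n), (∀ l, ∀ p ∈ S l, DifferentiableAt ℂ (g l) p ∧
    ¬ Function.Injective (fderiv ℂ (g l) p)) ∧ T ⊆ ⋃ l, g l '' S l

variable {s n k : ℕ} {T T' : Set (Cm n)}

theorem Nul.mono (h : Nul s T) (h' : T' ⊆ T) : Nul s T' :=
  let ⟨S, g, h1, h2⟩ := h
  ⟨S, g, h1, h'.trans h2⟩

theorem nul_of_family {κ : Type*} [Countable κ] (S : κ → Set (Cm s)) (g : κ → Cm s → Cm n)
    (h1 : ∀ l, ∀ p ∈ S l, DifferentiableAt ℂ (g l) p ∧ ¬ Function.Injective (fderiv ℂ (g l) p))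
    (h2 : T ⊆ ⋃ l, g l '' S l) : Nul s T := by
  rcases isEmpty_or_nonempty κ with hκ | hκ
  · refine ⟨fun _ => ∅, fun _ _ => 0, fun _ _ h => h.elim, fun x hx => ?_⟩
    obtain ⟨k, -⟩ := mem_iUnion.1 (h2 hx)
    exact (hκ.false k).elim
  · obtain ⟨e, he⟩ := exists_surjective_nat κ
    refine ⟨fun n => S (e n), fun n => g (e n), fun n => h1 _, fun x hx => ?_⟩
    obtain ⟨k, hk⟩ := mem_iUnion.1 (h2 hx)
    obtain ⟨n, rfl⟩ := he k
    exact mem_iUnion.2 ⟨n, hk⟩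

theorem nul_iUnion {κ : Type*} [Countable κ] {T : κ → Set (Cm n)} (h : ∀ i, Nul s (T i)) :
    Nul s (⋃ i, T i) := by
  choose S g h1 h2 using h
  refine nul_of_family (κ := κ × ℕ) (fun i => S i.1 i.2) (fun i => g i.1 i.2) (fun i => h1 _ _) ?_
  refine iUnion_subset fun i x hx => ?_
  obtain ⟨m, hm⟩ := mem_iUnion.1 (h2 i hx)
  exact mem_iUnion.2 ⟨(i, m), hm⟩

theorem nul_empty : Nul s (∅ : Set (Cm n)) :=
  ⟨fun _ => ∅, fun _ _ => 0, fun _ _ h => h.elim, empty_subset _⟩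

theorem Nul.union (h : Nul s T) (h' : Nul s T') : Nul s (T ∪ T') := by
  rw [union_eq_iUnion]
  exact nul_iUnion fun b => by cases b <;> assumption

theorem nul_single {S : Set (Cm s)} {g : Cm s → Cm n}
    (h : ∀ p ∈ S, DifferentiableAt ℂ g p ∧ ¬ Function.Injective (fderiv ℂ g p)) :
    Nul s (g '' S) :=
  ⟨fun _ => S, fun _ => g, fun _ => h, subset_iUnion (fun _ : ℕ => g '' S) 0⟩

theorem Nul.image (h : Nul s T) {F : Cm n → Cm k} (hF : ∀ z ∈ T, DifferentiableAt ℂ F z) :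
    Nul s (F '' T) := by
  obtain ⟨S, g, h1, h2⟩ := h
  refine ⟨fun l => {p | p ∈ S l ∧ g l p ∈ T}, fun l p => F (g l p), fun l p hp => ?_, ?_⟩
  · have h3 := (hF _ hp.2).hasFDerivAt.comp p (h1 l p hp.1).1.hasFDerivAt
    refine ⟨h3.differentiableAt, fun h4 => (h1 l p hp.1).2 ?_⟩
    change Function.Injective (fderiv ℂ (F ∘ g l) p) at h4
    rw [h3.fderiv] at h4
    exact Function.Injective.of_comp (f := fderiv ℂ F (g l p)) h4
  · rintro _ ⟨x, hx, rfl⟩
    obtain ⟨l, p, hp, hpx⟩ := mem_iUnion.1 (h2 hx)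
    exact mem_iUnion.2 ⟨l, p, ⟨hp, by rw [hpx]; exact hx⟩, by simp only [hpx]⟩

theorem nul_of_cv (h : Cv s T) : Nul (s + 1) T := by
  obtain ⟨Ω, g, -, h2, h3⟩ := h
  let P : Cm (s + 1) →L[ℂ] Cm s :=
    ContinuousLinearMap.pi fun i => ContinuousLinearMap.proj i.succ
  refine ⟨fun l => P ⁻¹' Ω l, fun l p => g l (P p), fun l p hp => ?_, fun x hx => ?_⟩
  · have h4 := (h2 l _ hp).differentiableAt.hasFDerivAt.comp p P.hasFDerivAt
    refine ⟨h4.differentiableAt, fun h5 => ?_⟩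
    change Function.Injective (fderiv ℂ (g l ∘ P) p) at h5
    rw [h4.fderiv] at h5
    have h6 : Function.Injective P := Function.Injective.of_comp (f := fderiv ℂ (g l) (P p)) h5
    have h7 : (Pi.single 0 1 : Cm (s + 1)) = 0 := h6 (by
      ext i
      simp [P])
    simpa using congrFun h7 0
  · obtain ⟨l, p, hp, hpx⟩ := mem_iUnion.1 (h3 hx)
    have e : P (Fin.cons 0 p) = p := by
      ext i
      simp [P]
    exact mem_iUnion.2 ⟨l, Fin.cons 0 p, by show P _ ∈ Ω l; rwa [e], by simp only [e, hpx]⟩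

theorem Nul.volume_eq_zero {T : Set (Cm s)} (h : Nul s T) : volume T = 0 := by
  obtain ⟨S, g, h1, h2⟩ := h
  refine measure_mono_null h2 (measure_iUnion_null fun l => ?_)
  refine addHaar_image_eq_zero_of_det_fderivWithin_eq_zero volume
    (f' := fun p => (fderiv ℂ (g l) p).restrictScalars ℝ)
    (fun p hp => ((h1 l p hp).1.hasFDerivAt.restrictScalars ℝ).hasFDerivWithinAt) fun p hp => ?_
  by_contra hne
  refine (h1 l p hp).2 ?_
  exact (LinearMap.equivOfDetNeZero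
    (((fderiv ℂ (g l) p).restrictScalars ℝ : Cm s →L[ℝ] Cm s) : Cm s →ₗ[ℝ] Cm s) hne).injective

theorem Nul.not_nhds {T : Set (Cm s)} (h : Nul s T) (x : Cm s) : T ∉ 𝓝 x := fun hx =>
  (Measure.measure_pos_of_mem_nhds volume hx).ne' h.volume_eq_zero

theorem rank_Jm (F : Cm k → Cm n) (p : Cm k) : (Jm F p).rank =
    Module.finrank ℂ (LinearMap.range (fderiv ℂ F p : Cm k →ₗ[ℂ] Cm n)) := by
  have h : Jm F p = LinearMap.toMatrix' (fderiv ℂ F p : Cm k →ₗ[ℂ] Cm n) := by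
    ext i j
    rw [LinearMap.toMatrix'_apply]
    rfl
  have h2 : (Jm F p).mulVecLin = (fderiv ℂ F p : Cm k →ₗ[ℂ] Cm n) := by
    rw [h, ← Matrix.toLin'_apply', Matrix.toLin'_toMatrix']
  rw [Matrix.rank, h2]

theorem exists_proj {L : Cm k →ₗ[ℂ] Cm n} (h : s ≤ Module.finrank ℂ (LinearMap.range L)) :
    ∃ P : Cm n →ₗ[ℂ] Cm s, Function.Surjective (P.comp L) := by
  set R := LinearMap.range L with hR
  let b := Module.finBasis ℂ R
  let Q : R →ₗ[ℂ] Cm s := LinearMap.pi fun i => b.coord (Fin.castLE h i)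
  have hQ : Function.Surjective Q := by
    intro z
    refine ⟨b.equivFun.symm fun j => if hj : j.1 < s then z ⟨j.1, hj⟩ else 0, ?_⟩
    funext i
    show b.coord _ _ = _
    rw [Module.Basis.coord_equivFun_symm]
    simp
  obtain ⟨P, hP⟩ := LinearMap.exists_extend Q
  refine ⟨P, fun z => ?_⟩
  obtain ⟨⟨_, x, rfl⟩, hx⟩ := hQ z
  exact ⟨x, by rw [← hx, ← hP]; rfl⟩

/-- if the image is null, the rank is small -/
theorem rank_lt_of_nul {F : Cm k → Cm n} {p : Cm k} (hF : AnalyticAt ℂ F p) (hT : Nul s T)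
    (h : ∀ᶠ z in 𝓝 p, F z ∈ T) : (Jm F p).rank < s := by
  by_contra hcon
  rw [not_lt, rank_Jm] at hcon
  obtain ⟨P, hP⟩ := exists_proj hcon
  let P' : Cm n →L[ℂ] Cm s := LinearMap.toContinuousLinearMap P
  have h1 : HasStrictFDerivAt (fun z => P' (F z)) (P'.comp (fderiv ℂ F p)) p :=
    P'.hasStrictFDerivAt.comp p hF.hasStrictFDerivAt
  have h2 := h1.map_nhds_eq_of_surj (LinearMap.range_eq_top.2 hP)
  refine (hT.image (F := P') fun z _ => P'.differentiableAt).not_nhds (P' (F p)) ?_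
  rw [← h2, mem_map]
  exact h.mono fun z hz => mem_image_of_mem _ hz

section
variable {m : ℕ}

/-- the inclusion of the hyperplane `{w 0 = 0}` -/
def inc (m : ℕ) : Cm m →L[ℂ] Cm (m + 1) :=
  ContinuousLinearMap.pi fun i => Fin.cases 0 (fun j => ContinuousLinearMap.proj j) i

/-- the projection to the hyperplane `{w 0 = 0}` -/
def tl (m : ℕ) : Cm (m + 1) →L[ℂ] Cm m :=
  ContinuousLinearMap.pi fun i => ContinuousLinearMap.proj i.succ

theorem inc_zero (z : Cm m) : inc m z 0 = 0 := rfl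

theorem inc_succ (z : Cm m) (j : Fin m) : inc m z j.succ = z j := rfl

theorem tl_apply (w : Cm (m + 1)) (j : Fin m) : tl m w j = w j.succ := rfl

theorem tl_inc (z : Cm m) : tl m (inc m z) = z := rfl

theorem inc_tl {w : Cm (m + 1)} (h : w 0 = 0) : inc m (tl m w) = w := by
  funext i
  refine Fin.cases ?_ (fun j => rfl) i
  exact h.symm

theorem inc_single (j : Fin m) : inc m (Pi.single j 1) = Pi.single j.succ 1 := by
  funext i
  refine Fin.cases ?_ (fun i => ?_) i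
  · rw [inc_zero, Pi.single_eq_of_ne (Fin.succ_ne_zero j).symm]
  · rw [inc_succ]
    by_cases h : i = j
    · rw [h, Pi.single_eq_same, Pi.single_eq_same]
    · rw [Pi.single_eq_of_ne h, Pi.single_eq_of_ne fun h' => h (Fin.succ_injective _ h')]

theorem tendsto_inc {w : Cm (m + 1)} (h : w 0 = 0) : Tendsto (inc m) (𝓝 (tl m w)) (𝓝 w) := by
  have := (inc m).continuous.tendsto (tl m w)
  rwa [inc_tl h] at this

theorem Tm_eq {γ : Cm (m + 1) → Cm n} {w : Cm (m + 1)} (h : DifferentiableAt ℂ γ w)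
    (h0 : w 0 = 0) : Tm γ w = Jm (fun z => γ (inc m z)) (tl m w) := by
  have h1 : HasFDerivAt (fun z => γ (inc m z)) ((fderiv ℂ γ w).comp (inc m)) (tl m w) := by
    refine HasFDerivAt.comp (g := γ) (tl m w) ?_ (inc m).hasFDerivAt
    rw [inc_tl h0]
    exact h.hasFDerivAt
  ext i j
  show fderiv ℂ γ w _ i = fderiv ℂ (fun z => γ (inc m z)) (tl m w) _ i
  rw [h1.fderiv, ContinuousLinearMap.comp_apply, inc_single]

/-- if the centre of the wedge is null, the tangential rank is small -/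
theorem rank_Tm_of_nul {γ : Cm (m + 1) → Cm n} {w₁ : Cm (m + 1)} (hγ : AnalyticAt ℂ γ w₁)
    (hT : Nul (s + 1) T) (h : ∀ᶠ w in 𝓝 w₁, w 0 = 0 → γ w ∈ T) :
    ∀ᶠ w in 𝓝 w₁, w 0 = 0 → (Tm γ w).rank ≤ s := by
  filter_upwards [hγ.eventually_analyticAt, h.eventually_nhds] with w e1 e2 e3
  rw [Tm_eq e1.differentiableAt e3]
  refine Nat.lt_succ_iff.1 (rank_lt_of_nul ?_ hT ?_)
  · refine AnalyticAt.comp (g := γ) ?_ ((inc m).analyticAt _)
    rwa [inc_tl e3]
  · exact ((tendsto_inc e3).eventually e2).mono fun z hz => hz (inc_zero z)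

theorem rank_Tm_of_cv {γ : Cm (m + 1) → Cm n} {w₁ : Cm (m + 1)} (hγ : AnalyticAt ℂ γ w₁)
    (hT : Cv s T) (h : ∀ᶠ w in 𝓝 w₁, w 0 = 0 → γ w ∈ T) :
    ∀ᶠ w in 𝓝 w₁, w 0 = 0 → (Tm γ w).rank ≤ s :=
  rank_Tm_of_nul hγ (nul_of_cv hT) h

end

end Vale.Agent.P277Z.Val
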