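import Vale.Agent.P277Z.Val.RkB
import Vale.Agent.P277Z.Val.Mon
import Vale.Agent.P277.H619.T3.Fin2
import Vale.Agent.P277.H29.PH.Final

/-!
# P277, block VAL, row RK: the bound for the number of the surfaces which are not contracted
-/

set_option linter.unusedSectionVars false

open scoped Manifold ContDiff
open Set Filter Metric Topology
open Vale.Agent.P272.K Vale.Agent.P285.H281.FD Vale.Agent.P277 Vale.Agent.P277.PH
  Vale.Agent.P277Z.Val.U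
open Vale.Agent.P277.T3 (ThinM lw lw_eq sec_holF exists_isMet exists_comb)

noncomputable section

namespace Vale.Agent.P277Z.Val.Rk

section mg
variable {V : Lg} {k j : Fin V.r} {y : V.W} {f f' : V.W → ℂ} {n n' : Fin V.r → ℕ}

/-- on `G k` the function `f` is a unit times a monomial -/
def MG (k : Fin V.r) (y : V.W) (f : V.W → ℂ) (n : Fin V.r → ℕ) : Prop :=
  n k = 0 ∧ ∃ F, Mon V y F n ∧ ∀ᶠ x in 𝓝 y, x ∈ V.G k → f x = F x

theorem MG.eventually (h : MG k y f n) : ∀ᶠ x in 𝓝 y, MG k x f n := by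
  obtain ⟨h0, F, h1, h2⟩ := h
  filter_upwards [h1.eventually, h2.eventually_nhds] with x e1 e2 using ⟨h0, F, e1, e2⟩

theorem MG.unit (h : MG k y f n) {u : V.W → ℂ} (h1 : HolF 4 u y) (h2 : u y ≠ 0)
    (h3 : ∀ᶠ x in 𝓝 y, x ∈ V.G k → f' x = u x * f x) : MG k y f' n := by
  obtain ⟨h0, F, k1, k2⟩ := h
  refine ⟨h0, fun x => u x * F x, k1.unit h1 h2 (Eventually.of_forall fun _ => rfl), ?_⟩
  filter_upwards [h3, k2] with x e1 e2 e3
  rw [e1 e3, e2 e3]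

theorem MG.split (h : MG k y f n) (h0 : ∀ m, m ≠ k → m ≠ j → y ∉ V.G m) {ζ} (hζ : V.Eq y ζ) :
    ∃ A : V.W → ℂ, ContinuousAt A y ∧ A y ≠ 0 ∧
      ∀ᶠ x in 𝓝 y, x ∈ V.G k → f x = A x * ζ j x ^ n j := by
  obtain ⟨h1, F, h2, h3⟩ := h
  obtain ⟨u, k1, k2, k3⟩ := h2 ζ hζ
  refine ⟨fun x => u x * ∏ l ∈ Finset.univ.erase j, ζ l x ^ n l,
    holF_cont (k1.mul (holF_prod (fun l _ => hζ.hol l) n)),
    mul_ne_zero k2 (Finset.prod_ne_zero_iff.2 fun l hl => ?_), ?_⟩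
  · by_cases e : l = k
    · simp [e, h1]
    · exact pow_ne_zero _ fun e' =>
        h0 l e (Finset.mem_erase.1 hl).1 ((hζ.iff.self_of_nhds l).1 e')
  · filter_upwards [h3, k3] with x e1 e2 e3
    rw [e1 e3, e2, mul_assoc, Finset.prod_erase_mul _ _ (Finset.mem_univ j)]

theorem MG.zero_iff (h : MG k y f n) (hy : y ∈ V.G k ∩ V.G j)
    (h0 : ∀ m, m ≠ k → m ≠ j → y ∉ V.G m) : f y = 0 ↔ n j ≠ 0 := by
  obtain ⟨ζ, hζ⟩ := V.exEq y
  obtain ⟨A, -, h1, h2⟩ := h.split h0 hζ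
  rw [h2.self_of_nhds hy.1, (hζ.iff.self_of_nhds j).2 hy.2]
  simp [h1]

theorem MG.le (h : MG k y f n) (h' : MG k y f n') (hj : j ≠ k) (hy : y ∈ V.G k ∩ V.G j) :
    n' j ≤ n j := by
  obtain ⟨z, ⟨hz, h0⟩, h1, h1'⟩ :=
    ((Lg.freq2 hy).and_eventually (h.eventually.and h'.eventually)).exists
  obtain ⟨ζ, hζ⟩ := V.exEq z
  obtain ⟨A, a1, a2, a3⟩ := h1.split h0 hζ
  obtain ⟨B, b1, -, b3⟩ := h1'.split h0 hζ
  by_contra hcon
  obtain ⟨d, hd⟩ : ∃ d, n' j = d + 1 + n j := ⟨n' j - n j - 1, by omega⟩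
  have h2 : A z = B z * ζ j z ^ (d + 1) := by
    refine tendsto_nhds_unique_of_frequently_eq a1 (b1.mul ((holF_cont (hζ.hol j)).pow (d + 1)))
      (((Lg.freq1 hz.1).and_eventually (a3.and (b3.and hζ.iff))).mono ?_)
    rintro x ⟨⟨e1, e2⟩, e3, e4, e5⟩
    refine mul_right_cancel₀ (pow_ne_zero (n j) fun e => e2 j hj ((e5 j).1 e)) ?_
    rw [← e3 e1, e4 e1, hd, pow_add, ← mul_assoc]
    rfl
  rw [(hζ.iff.self_of_nhds j).2 hz.2] at h2
  exact a2 (by simpa using h2)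

theorem exists_mg (hy : y ∈ V.G k) {F : V.W → ℂ} (hF : HolF 4 F y)
    (h1 : ∀ᶠ x in 𝓝 y, x ∈ V.G k → f x = F x) (h2 : ∀ᶠ x in 𝓝 y, Gen V k x → f x ≠ 0) :
    ∃ n, MG k y f n := by
  obtain ⟨c, ξ, lab, hc, hk⟩ := exists_ch1 hy 0
  have c0 := (hc.mem_iff hk).self_of_nhds.1 hy
  have ht : Tendsto (fun x => inc 3 (tl 3 (c x))) (𝓝 y) (𝓝 (c y)) :=
    (tendsto_inc c0).comp (((tl 3).continuous.tendsto _).comp hc.crd.cont)
  have h3 : ∀ᶠ x in 𝓝 y, x ∈ V.G k → f x = F (ξ (inc 3 (tl 3 (c x)))) := by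
    filter_upwards [h1, hc.mem_iff hk, hc.crd.left] with x e1 e2 e3 e4
    rw [inc_tl (e2.1 e4), e3, e1 e4]
  obtain ⟨n, hn⟩ := exists_mon (f := fun x => F (ξ (inc 3 (tl 3 (c x))))) (y := y)
    (hc.crd.holF (g := fun w => F (ξ (inc 3 (tl 3 w)))) (AnalyticAt.fun_comp
      (g := fun w => F (ξ w)) (by
        rw [inc_tl c0]
        exact hc.crd.an.hol (by rwa [hc.crd.inv])) (((inc 3).comp (tl 3)).analyticAt _))) (by
      filter_upwards [ht.eventually (hc.mem_par.and (hc.crd.tend.eventually (h1.and h2))), hc.mem]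
        with x e1 e2 e3
      have e4 := (e1.1 k).2 ⟨0, hk, rfl⟩
      rw [← e1.2.1 e4]
      refine e1.2.2 ⟨e4, fun j hj e5 => ?_⟩
      obtain ⟨i, e6, e7⟩ := (e1.1 j).1 e5
      revert e6 e7
      exact Fin.cases (fun e6 _ => hj (hc.inj j k 0 e6 hk))
        (fun i e6 e7 => e3 (mem_iUnion.2 ⟨j, (e2 j).2 ⟨_, e6, e7⟩⟩)) i)
  refine ⟨n, ?_, _, hn, h3⟩
  obtain ⟨ζ, hζ⟩ := V.exEq y
  obtain ⟨u, -, -, k3⟩ := hn ζ hζ
  obtain ⟨x, e1, e2, e3, e4, e5⟩ :=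
    ((freq_gen hy).and_eventually (h2.and (h3.and (k3.and hζ.iff)))).exists
  by_contra e6
  refine e2 e1 ?_
  rw [(e3 e1.1).trans e4, Finset.prod_eq_zero (Finset.mem_univ k)
    (by rw [(e5 k).2 e1.1, zero_pow e6]), mul_zero]

theorem MG.log (h : MG k y f n) {ζ} (hζ : V.Eq y ζ) : ∃ l : V.W → ℂ, HolF 4 l y ∧
    ∀ᶠ x in 𝓝 y, Gen V k x → f x ≠ 0 ∧
      Real.log ‖f x‖ = (l x).re + ∑ j with j ≠ k, n j * Real.log ‖ζ j x‖ := by
  obtain ⟨h1, F, h2, h3⟩ := h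
  obtain ⟨u, k1, k2, k3⟩ := h2 ζ hζ
  refine ⟨fun x => Complex.log (u x / u y) + (Real.log ‖u y‖ : ℝ), fun e he =>
    (((k1 e he).div_const).clog ?_).add analyticAt_const, ?_⟩
  · rw [e.left_inv he.2, div_self k2]
    exact Complex.one_mem_slitPlane
  filter_upwards [h3, k3, hζ.iff, (holF_cont k1).eventually_ne k2] with x e1 e2 e3 e4 e5
  have e6 : ∀ l ∈ Finset.univ.filter (· ≠ k), ‖ζ l x ^ n l‖ ≠ 0 := fun l hl =>
    norm_ne_zero_iff.2 (pow_ne_zero _ fun e => e5.2 l (Finset.mem_filter.1 hl).2 ((e3 l).1 e))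
  have e7 : ‖f x‖ = ‖u x‖ * ∏ l with l ≠ k, ‖ζ l x ^ n l‖ := by
    rw [e1 e5.1, e2, norm_mul, norm_prod, Finset.filter_ne', ← Finset.prod_erase_mul _ _
      (Finset.mem_univ k), h1, pow_zero, norm_one, mul_one]
  have e8 := norm_ne_zero_iff.2 e4
  refine ⟨norm_ne_zero_iff.1 (e7 ▸ mul_ne_zero e8 (Finset.prod_ne_zero_iff.2 e6)), ?_⟩
  rw [e7, Real.log_mul e8 (Finset.prod_ne_zero_iff.2 e6), Real.log_prod e6, Complex.add_re,
    Complex.ofReal_re, Complex.log_re, norm_div, Real.log_div e8 (norm_ne_zero_iff.2 k2)]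
  simp

end mg

variable {V V' : Lg} {π : V'.W → V.W} {k : Fin V'.r} {H : Type} [TopologicalSpace H] [T2Space H]
  [CompactSpace H] [ChartedSpace (Cm 3) H] [IsManifold 𝓘(ℂ, Cm 3) ω H] {ι : H → V.W}
  {σ : V'.W → H}

/-- `μ` are the multiplicities of the pull back of the section `s` -/
def Mu (k : Fin V'.r) (σ : V'.W → H) (L : Bd H) (s : L.ι → H → ℂ) (μ : Set V'.W → ℕ) : Prop :=
  ∀ y ∈ V'.G k, ∃ n : Fin V'.r → ℕ, (∀ j S, IsCC V' k j S → y ∈ S → n j = μ S) ∧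
    ∀ i, σ y ∈ L.U i → MG k y (fun x => s i (σ x)) n

theorem St.exists_mu (h : St π k ι σ) {L : Bd H} {s : L.ι → H → ℂ} (hL : IsLB 3 L)
    (hs : IsSec 3 L s) (h0 : ∀ y, Gen V' k y → ∀ i, σ y ∈ L.U i → s i (σ y) ≠ 0) :
    ∃ μ, Mu k σ L s μ := by
  have ev : ∀ y ∈ V'.G k, ∀ i, σ y ∈ L.U i → ∀ᶠ x in 𝓝 y, x ∈ V'.G k → σ x ∈ L.U i :=
    fun y hy i hi => h.tend hy (P := fun x => x ∈ L.U i) ((hL.isOpen i).mem_nhds hi)
  have chg : ∀ y ∈ V'.G k, ∀ n i', σ y ∈ L.U i' → MG k y (fun x => s i' (σ x)) n →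
      ∀ i, σ y ∈ L.U i → MG k y (fun x => s i (σ x)) n := by
    intro y hy n i' hi' h1 i hi
    obtain ⟨u, k1, k2⟩ := h.ext hy (f := L.g i i') fun e he => (hL.holo i i' e _ he hi hi').analyticAt
    refine h1.unit k1 (k2.self_of_nhds hy ▸ hL.ne_zero i i' _ hi hi') ?_
    filter_upwards [k2, ev y hy i hi, ev y hy i' hi'] with x e1 e2 e3 e4
    rw [hs.change i i' _ (e2 e4) (e3 e4), e1 e4]
  choose idx hidx using hL.cover
  have ex : ∀ y ∈ V'.G k, ∃ n, MG k y (fun x => s (idx (σ y)) (σ x)) n := by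
    intro y hy
    obtain ⟨F, k1, k2⟩ := h.ext hy (sec_holF hs (hidx (σ y)))
    exact exists_mg hy k1 k2 ((ev y hy _ (hidx _)).mono fun x e1 e2 => h0 x e2 _ (e1 e2.1))
  choose! N hN using ex
  have key : ∀ S : Set V'.W, ∃ m : ℕ, ∀ j, IsCC V' k j S → ∀ y ∈ S, N y j = m := by
    intro S
    by_cases e : ∃ j, IsCC V' k j S
    swap
    · exact ⟨0, fun j hj => (e ⟨j, hj⟩).elim⟩
    obtain ⟨j, hj⟩ := e
    obtain ⟨b, hb⟩ := hj.conn.nonempty
    refine ⟨N b j, fun j' hj' y hy => ?_⟩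
    obtain rfl := hj.unique hj'
    refine hj.conn.isPreconnected.induction₂ (fun x y => N x j = N y j) (fun x hx => ?_)
      (fun _ _ _ _ _ _ => Eq.trans) (fun _ _ _ _ => Eq.symm) hy hb
    have hx' := (hj.sub hx).1
    filter_upwards [mem_nhdsWithin_of_mem_nhds ((hN x hx').eventually.and (ev x hx' _ (hidx _))),
      self_mem_nhdsWithin] with z e1 e2
    have e3 := chg z (hj.sub e2).1 _ _ (e1.2 (hj.sub e2).1) e1.1 _ (hidx _)
    have e4 := hN z (hj.sub e2).1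
    exact (e4.le e3 hj.ne (hj.sub e2)).antisymm (e3.le e4 hj.ne (hj.sub e2))
  choose μ hμ using key
  exact ⟨μ, fun y hy => ⟨N y, fun j S e1 e2 => hμ S j e1 y e2, chg y hy _ _ (hidx _) (hN y hy)⟩⟩

theorem St.green (h : St π k ι σ) {N : ℕ} {L : Fin N → Bd H} {s : ∀ a, (L a).ι → H → ℂ}
    {ψ : ∀ a, (L a).ι → H → ℝ} (hL : ∀ a, IsLB 3 (L a)) (hs : ∀ a, IsSec 3 (L a) (s a))
    (hψ : ∀ a, IsMet 3 (L a) (ψ a)) {μ : Fin N → Set V'.W → ℕ}
    (hμ : ∀ a, Mu k σ (L a) (s a) (μ a)) {t : Fin N → ℝ} {φ : H → ℝ}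
    (hP : ∀ (i : ∀ a, (L a).ι) (x : H), (∀ a, x ∈ (L a).U (i a)) →
      PHAt 3 (fun y => ∑ a, t a * ψ a (i a) y + φ y) x)
    {ρ : Set V'.W → ℝ} (hρ : ∀ j S, IsCC V' k j S → ρ S = ∑ a, t a * μ a S) : V'.Green k ρ := by
  choose idx hidx using fun a => (hL a).cover
  refine ⟨fun y => (∑ a, t a * lw (L a) (s a) (ψ a) (idx a) (σ y) - φ (σ y)) / 2,
    fun y hy ζ hζ => ?_⟩
  choose n hn hm using fun a => hμ a y hy
  choose l hl hl' using fun a => (hm a _ (hidx a (σ y))).log hζ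
  obtain ⟨P, p1, p2⟩ := hP (fun a => idx a (σ y)) (σ y) fun a => hidx a _
  obtain ⟨Q, q1, q2⟩ := h.ext hy p1
  refine ⟨fun x => ∑ a, (t a : ℂ) * l a x - ((2⁻¹ : ℝ) : ℂ) * Q x, fun j => ∑ a, t a * n a j,
    (HolF.sum fun a _ => (hl a).const_mul _).sub (q1.const_mul _), fun j hj e => ?_, ?_⟩
  · have e1 := isCC_cc hj ⟨hy, e⟩
    rw [hρ j _ e1]
    exact Finset.sum_congr rfl fun a _ => by rw [hn a j _ e1 (mem_connectedComponentIn ⟨hy, e⟩)]
  filter_upwards [eventually_all.2 hl', q2, h.tend hy p2, eventually_all.2 fun a => h.tend hy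
    (P := fun x => x ∈ (L a).U (idx a (σ y))) (((hL a).isOpen _).mem_nhds (hidx a _))]
    with x e1 e2 e3 e4 e5 e6
  have e7 : ∀ a, t a * lw (L a) (s a) (ψ a) (idx a) (σ x) = 2 * (t a * (l a x).re) +
      2 * (∑ j with j ≠ k, t a * n a j * Real.log ‖ζ j x‖) - t a * ψ a (idx a (σ y)) (σ x) := by
    intro a
    rw [lw_eq (hL a) (hs a) (hψ a) (hidx a) (e4 a e5) (e1 a ⟨e5, e6⟩).1, Real.log_pow,
      (e1 a ⟨e5, e6⟩).2]
    simp only [mul_assoc, ← Finset.mul_sum]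
    push_cast
    ring
  simp only [e7, Complex.sub_re, Complex.re_sum, Complex.re_ofReal_mul, ← e2 e5, ← e3 e5,
    Finset.sum_sub_distrib, Finset.sum_add_distrib, Finset.sum_mul, ← Finset.mul_sum]
  rw [Finset.sum_comm]
  ring

theorem St.exists_gen (h : St π k ι σ) {j : Fin V'.r} {S : Set V'.W} (hS : IsCC V' k j S)
    (hn : ¬ ThinM 4 1 (π '' S)) :
    ∃ y ∈ S, σ y ∉ Th k σ ∧ ∀ m, m ≠ k → m ≠ j → y ∉ V'.G m := by
  obtain ⟨y, hy, h1⟩ : ∃ y ∈ S, σ y ∉ Th k σ := by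
    by_contra hcon
    push Not at hcon
    refine hn (thinM_mono (thinM_image h.thin (sb_iff.2 h.sub).holM) ?_)
    rintro _ ⟨y, hy, rfl⟩
    exact ⟨σ y, hcon y hy, h.eq y (hS.sub hy).1⟩
  obtain ⟨z, ⟨e1, e2⟩, e3, e4⟩ := ((Lg.freq2 (hS.sub hy)).and_eventually ((hS.loc y hy).and
    (h.tend (hS.sub hy).1 (P := fun x => x ∉ Th k σ)
      (closed_th.isOpen_compl.mem_nhds h1)))).exists
  exact ⟨z, e3.2 e1, e4 e1.1, e2⟩

end Vale.Agent.P277Z.Val.Rk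

namespace Vale.Agent.P277Z.Val

open Rk

/-- (RK) -/
theorem stRK : StRK := by
  classical
  intro V l
  obtain ⟨H, _, _, _, _, _, _, ι, hι, hr⟩ := stSub V l
  obtain ⟨β, hβ⟩ := exists_comb stPH H
  refine ⟨β, fun V' π k hπ hk => ?_⟩
  have h : St π k ι fun y => Function.invFun ι (π y) :=
    ⟨hπ, hι, fun y hy => Function.invFun_eq (show π y ∈ range ι from
      hr ▸ hk ▸ mem_image_of_mem π hy), fun y => jz hπ (hk ▸ not_thin_G V l), fun x => by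
        obtain ⟨y, e1, e2⟩ : ι x ∈ π '' V'.G k := hk ▸ hr ▸ mem_range_self x
        exact ⟨y, e1, e2 ▸ Function.leftInverse_invFun hι.inj x⟩⟩
  generalize (fun y => Function.invFun ι (π y)) = σ at h
  generalize hA : (V'.cmp.filter fun c => c.1 = k ∧ ¬ ThinM 4 1 (π '' c.2)) = A
  generalize hT : (V'.cmp.filter fun c => c.1 = k) = T
  have hT' : ∀ c, c ∈ T ↔ c.1 = k ∧ ∃ j, IsCC V' k j c.2 := fun c => by
    rw [← hT, Finset.mem_filter, Lg.cmp_iff, and_comm]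
    exact and_congr_right fun e => by rw [e]
  let c : Fin A.card → Fin V'.r × Set V'.W := fun a => A.equivFin.symm a
  have hc : ∀ a, c a ∈ T ∧ ¬ ThinM 4 1 (π '' (c a).2) := fun a => by
    have := (A.equivFin.symm a).2
    simp only [← hA, ← hT, Finset.mem_filter] at this ⊢
    exact ⟨⟨this.1, this.2.1⟩, this.2.2⟩
  choose j hj using fun a => ((hT' _).1 (hc a).1).2
  choose L s hL hs h0 using fun a => h.lb (hj a)
  choose μ hμ using fun a => h.exists_mu (hL a) (hs a) fun y hy i hi e =>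
    hy.2 _ (hj a).ne ((hj a).sub ((h0 a y hy.1 (h.gen hy) i hi).1 e)).2
  choose ψ hψ using fun a => exists_isMet (hL a)
  have hv : ∀ a b, μ a (c b).2 ≠ 0 ↔ a = b := by
    intro a b
    obtain ⟨y, e1, e2, e3⟩ := h.exists_gen (hj b) (hc b).2
    have e4 := (hj b).sub e1
    obtain ⟨n, e5, e6⟩ := hμ a y e4.1
    obtain ⟨i, hi⟩ := (hL a).cover (σ y)
    rw [← e5 _ _ (hj b) e1, ← (e6 i hi).zero_iff e4 e3, h0 a y e4.1 e2 i hi]
    refine ⟨fun e7 => A.equivFin.symm.injective (Subtype.ext (Prod.ext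
      (((hT' _).1 (hc a).1).1.trans ((hT' _).1 (hc b).1).1.symm) ?_)), fun e7 => e7 ▸ e1⟩
    have e8 : j a = j b := by_contra fun e => e3 _ (hj a).ne e ((hj a).sub e7).2
    exact ((hj a).eq y e7).trans (e8 ▸ ((hj b).eq y e1).symm)
  have : FiniteDimensional ℝ (V'.RG T) := by
    refine FiniteDimensional.of_injective
      ((LinearMap.funLeft ℝ ℝ (Subtype.val : T → _)).comp (V'.RG T).subtype) fun x y e => ?_
    refine Subtype.ext (funext fun c => ?_)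
    by_cases e1 : c ∈ T
    · exact congrFun e ⟨c, e1⟩
    · rw [x.2.1 c e1, y.2.1 c e1]
  let Φ : (Fin A.card → ℝ) →ₗ[ℝ] (Fin V'.r × Set V'.W → ℝ) := LinearMap.pi fun c =>
    if c ∈ T then ∑ a, (μ a c.2 : ℝ) • LinearMap.proj a else 0
  have hΦ : ∀ t c, Φ t c = if c ∈ T then ∑ a, t a * μ a c.2 else 0 := fun t c => by
    simp only [Φ, LinearMap.pi_apply]
    split_ifs <;> simp [mul_comm]
  obtain ⟨P, hP⟩ := (V'.RG T).subtype.exists_leftInverse_of_injective (V'.RG T).ker_subtype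
  by_contra hcon
  obtain ⟨t, φ, ht, h1, -, h2⟩ := hβ _ (V'.RG T) (P.comp Φ) (not_le.1 hcon) L hL ψ hψ
  have h3 : Φ t ∈ V'.RG T := by
    refine ⟨fun c e => by rw [hΦ, if_neg e], fun l' => ?_⟩
    by_cases e : l' = k
    · subst e
      exact h.green hL hs hψ hμ h2 fun j S e => by rw [hΦ, if_pos ((hT' _).2 ⟨rfl, j, e⟩)]
    · convert (V'.RG T).zero_mem.2 l' using 2 with S
      rw [hΦ, if_neg fun e' => e ((hT' _).1 e').1]
      rfl
  have h4 : Φ t = 0 :=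
    congrArg Subtype.val ((LinearMap.congr_fun hP ⟨_, h3⟩).symm.trans h1)
  refine ht (funext fun b => ?_)
  have h5 := hΦ t (c b)
  rw [h4, if_pos (hc b).1, Finset.sum_eq_single b (fun a _ e => by
    rw [not_not.1 (mt (hv a b).1 e), Nat.cast_zero, mul_zero]) (by simp)] at h5
  exact (mul_eq_zero.1 h5.symm).resolve_right (Nat.cast_ne_zero.2 ((hv b b).2 rfl))

end Vale.Agent.P277Z.Val
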