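import Vale.Agent.P277Z.Val.USk
import Vale.Agent.P277Z.Val.Mon
import Vale.Agent.P277.H615.D3
import Vale.Agent.P267.H338.Riem

/-!
# P277, block VAL: resolution of a map to a relatively projective space
-/

open scoped Manifold ContDiff Topology
open Vale.Agent.P272.K Vale.Agent.P285.H281.FD Vale.Agent.P277 Set Filter Metric
open Vale.Agent.P277.PH (HolF at_chartAt)
open Vale.Agent.P277.H615 (VA powF)
open Vale.Agent.P277Z.Hir (Cpb)

noncomputable section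

namespace Vale.Agent.P277Z.Val.Dom

variable {V : Lg} {y : V.W}

/-- Riemann extension across the components -/
theorem riem {f : V.W → ℂ} {C : ℝ} (hf : ∀ᶠ x in 𝓝 y, x ∉ V.E → HolF 4 f x ∧ ‖f x‖ ≤ C) :
    ∃ g, HolF 4 g y ∧ ∀ᶠ x in 𝓝 y, x ∉ V.E → g x = f x := by
  obtain ⟨Φ, ρ, lab, h, hp⟩ := V.snc.nch y hf
  have hc := h.crd y h.src
  have an : ∀ w ∈ ball (0 : Cm 4) ρ, ∀ F, HolF 4 F (Φ.symm w) →
      DifferentiableAt ℂ (fun w => F (Φ.symm w)) w := fun w hw F hF => by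
    have := (h.crd _ (h.symm_mem hw).1).an
    rw [(h.symm_mem hw).2] at this
    exact (this.hol hF).differentiableAt
  have ne : ∀ x ∈ Φ.source, ∏ l, eqn Φ lab l x ^ 1 ≠ 0 ↔ x ∉ V.E := fun x hx => by
    simp [Finset.prod_ne_zero_iff, (h.eq hx).iff.self_of_nhds, Lg.E]
  obtain ⟨O, hO, h0, -, U, hU, e⟩ := P267.H338.riemann_extension
    (g := fun w => ∏ l, eqn Φ lab l (Φ.symm w) ^ 1) (u := fun w => f (Φ.symm w)) (C := C)
    isOpen_ball (mem_ball_self h.pos)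
    (fun w hw => (an w hw _ (holF_prod (fun l _ => (h.eq (h.symm_mem hw).1).hol l)
      fun _ => 1)).differentiableWithinAt)
    (h.zero ▸ hc.cont.tendsto.frequently (((V.freqE y).and_eventually h.nhds).mono fun x hx => by
      rw [Φ.left_inv hx.2]
      exact (ne x hx.2).2 hx.1))
    (fun w hw => (an w hw.1 _ (hp _ (h.symm_mem hw.1).1
      ((ne _ (h.symm_mem hw.1).1).1 hw.2)).1).differentiableWithinAt)
    fun w hw a => (hp _ (h.symm_mem hw).1 ((ne _ (h.symm_mem hw).1).1 a)).2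
  rw [← h.zero] at h0
  refine ⟨fun x => U (Φ x), hc.holF (P268.analyticAt_of_differentiableOn hO hU h0), ?_⟩
  filter_upwards [h.nhds, hc.cont.eventually (hO.mem_nhds h0)] with x a b c
  rw [e _ b (by rw [Φ.left_inv a]; exact (ne x a).2 c), Φ.left_inv a]

theorem div {f g : V.W → ℂ} {C : ℝ} (hf : HolF 4 f y) (hg : HolF 4 g y)
    (h : ∀ᶠ x in 𝓝 y, x ∉ V.E → g x ≠ 0 ∧ ‖f x‖ ≤ C * ‖g x‖) :
    ∃ r, HolF 4 r y ∧ ∀ᶠ x in 𝓝 y, x ∉ V.E → f x = r x * g x := by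
  obtain ⟨r, h1, h2⟩ := riem (y := y) (f := fun x => f x / g x) (C := C) (by
    filter_upwards [h, holF_ev hf, holF_ev hg] with x a b c d
    refine ⟨hol_div (X := V.X) b c (a d).1, ?_⟩
    rw [norm_div, div_le_iff₀ (norm_pos_iff.2 (a d).1)]
    exact (a d).2)
  refine ⟨r, h1, ?_⟩
  filter_upwards [h, h2] with x a b c
  rw [b c, div_mul_cancel₀ _ (a c).1]

/-- continuous functions which are holomorphic outside the components -/
theorem hol_cont {f : V.W → ℂ} (h : ∀ᶠ x in 𝓝 y, ContinuousAt f x ∧ (x ∉ V.E → HolF 4 f x)) :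
    HolF 4 f y := by
  obtain ⟨g, h1, h2⟩ := riem (y := y) (f := f) (C := ‖f y‖ + 1) (by
    filter_upwards [h, h.self_of_nhds.1.norm.eventually_lt_const (lt_add_one _)] with x a b c
      using ⟨a.2 c, b.le⟩)
  refine h1.congr ?_
  filter_upwards [h, holF_ev h1, h2.eventually_nhds] with x a b c
  exact tendsto_nhds_unique_of_frequently_eq (holF_cont b) a.1
    (((V.freqE x).and_eventually c).mono fun _ e => e.2 e.1)

/-- the point `[σ]` of the projective space has a limit -/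
theorem ratio {κ : Type} [Fintype κ] {σ : κ → V.W → ℂ} (hσ : ∀ l, HolF 4 (σ l) y) {ζ}
    (hζ : V.Eq y ζ) {ex : Fin V.r → ℕ}
    (h : Cpb (𝓝 y) (fun x => ∑ l, ‖σ l x‖) fun x => ∏ k, ‖ζ k x‖ ^ ex k) :
    ∃ (w : κ → V.W → ℂ) (l₀ : κ), (∀ l, ContinuousAt (w l) y) ∧ w l₀ y ≠ 0 ∧
      ∀ᶠ x in 𝓝 y, x ∉ V.E → ∀ l m, σ l x * w m x = σ m x * w l x := by
  obtain ⟨C, -, h⟩ := h
  have h0 : ∀ᶠ x in 𝓝 y, x ∉ V.E → ∏ k, ζ k x ^ ex k ≠ 0 := hζ.ne.mono fun x a b =>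
    Finset.prod_ne_zero_iff.2 fun k _ => pow_ne_zero _ (a b k)
  have hn : ∀ x, ‖∏ k, ζ k x ^ ex k‖ = ∏ k, ‖ζ k x‖ ^ ex k := fun x => by simp
  choose w h1 h2 using fun l => div (C := C) (hσ l) (holF_prod (fun k _ => hζ.hol k) ex) (by
    filter_upwards [h, h0] with x a b c
    exact ⟨b c, hn x ▸ (Finset.single_le_sum (f := fun l => ‖σ l x‖) (fun _ _ => norm_nonneg _)
      (Finset.mem_univ l)).trans a.1⟩)
  have h3 : 1 ≤ C * ∑ l, ‖w l y‖ := by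
    refine ge_of_tendsto_of_frequently (continuousAt_const.mul
      (tendsto_finsetSum _ fun l _ => (holF_cont (h1 l)).norm) :
        ContinuousAt (fun x => C * ∑ l, ‖w l x‖) y) (((V.freqE y).and_eventually
      (h.and (h0.and (eventually_all.2 h2)))).mono ?_)
    rintro x ⟨a, ⟨-, b⟩, c, d⟩
    simp only [fun l => d l a, norm_mul, ← Finset.sum_mul, ← hn, ← mul_assoc] at b
    exact (le_mul_iff_one_le_left (norm_pos_iff.2 (c a))).1 b
  obtain ⟨l₀, h4⟩ : ∃ l₀, w l₀ y ≠ 0 := by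
    by_contra! e
    simp [e] at h3
    linarith
  refine ⟨w, l₀, fun l => holF_cont (h1 l), h4, (eventually_all.2 h2).mono fun x a b l m => ?_⟩
  rw [a l b, a m b]
  ring

/-- a map which is holomorphic outside the components and has limits -/
theorem ext {X : CSp} {g : V.W → X.pt} (hg : ∀ y ∉ V.E, HolMap V.X X g y)
    (h : ∀ y p p', MapClusterPt p (𝓝[V.Eᶜ] y) g → MapClusterPt p' (𝓝[V.Eᶜ] y) g → p' = p) :
    ∃ G, HolTo V X G ∧ ∀ y ∉ V.E, G y = g y := by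
  have h1 : ∀ y, ∃ p, Tendsto g (𝓝[V.Eᶜ] y) (𝓝 p) := fun y => by
    have := mem_closure_iff_nhdsWithin_neBot.1 (V.dense y)
    obtain ⟨p, hp⟩ := exists_clusterPt_of_compactSpace (map g (𝓝[V.Eᶜ] y))
    exact ⟨p, tendsto_nhds_of_unique_mapClusterPt fun q hq => h y p q hp hq⟩
  have h2 := continuous_extendFrom V.dense h1
  have h3 := extendFrom_extends (A := V.Eᶜ) fun y hy => (hg y hy).1.continuousWithinAt
  refine ⟨_, ⟨h2, fun y f hf => hol_cont ?_⟩, h3⟩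
  filter_upwards [h2.continuousAt.eventually (hol_eventually hf)] with x hx
  refine ⟨(hol_continuousAt hx).comp h2.continuousAt, fun e => HolF.congr
    ((hg x e).2 f (h3 x e ▸ hx)) ?_⟩
  filter_upwards [V.closedE.isOpen_compl.mem_nhds e] with w hw
  exact (congrArg f (h3 w hw)).symm

variable {X Z : CSp} {f : X.pt → Z.pt} {L : Bd X.pt}

/-- a common power -/
theorem unif (h : RelAmple X Z f L) : ∃ K, 1 ≤ K ∧ ∀ z, ∃ (O : Set Z.pt) (κ : Type) (_ : Fintype κ)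
    (s : κ → L.ι → X.pt → ℂ), IsOpen O ∧ z ∈ O ∧ VA X Z f (L.pow K) O κ s := by
  choose O k κ _ s h1 h2 h3 h4 using VA.of_relAmple h
  obtain ⟨t, ht⟩ := isCompact_univ.elim_finite_subcover O h1 fun z _ => mem_iUnion.2 ⟨z, h2 z⟩
  have h5 : 1 ≤ ∏ z ∈ t, k z := Finset.one_le_prod' fun z _ => h3 z
  refine ⟨_, h5, fun z => ?_⟩
  obtain ⟨z', a, b⟩ := mem_iUnion₂.1 (ht (mem_univ z))
  obtain ⟨m, hm⟩ := Finset.dvd_prod_of_mem k a
  rw [hm] at h5 ⊢
  exact ⟨O z', κ z' × κ z', inferInstance, powF m (s z'), h1 z', b, VA.congr (ι := L.ι) (U := L.U)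
    (g := fun i j x => (L.g i j x ^ k z') ^ m) ((h4 z').pow (Nat.pos_of_mul_pos_left h5))
    (by funext i j x; rw [← pow_mul])⟩

/-- two base point free families are comparable -/
theorem cmp (hf : Continuous f) (hL : IsLBx X L) {O O' : Set Z.pt} (hO : IsOpen O)
    (hO' : IsOpen O') {κ κ' : Type} [Fintype κ] [Fintype κ'] {s s'} (h : VA X Z f L O κ s)
    (h' : VA X Z f L O' κ' s') {z : Z.pt} (hz : z ∈ O) (hz' : z ∈ O') : ∃ C, 0 ≤ C ∧
      ∀ᶠ z' in 𝓝 z, ∀ x j, f x = z' → x ∈ L.U j → ∑ l, ‖s' l j x‖ ≤ C * ∑ l, ‖s l j x‖ := by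
  obtain ⟨K, hK, hzK, hKO⟩ := exists_compact_subset (hO.inter hO') ⟨hz, hz'⟩
  have nn : ∀ j x, 0 ≤ ∑ l, ‖s l j x‖ := fun _ _ => Finset.sum_nonneg fun _ _ => norm_nonneg _
  obtain ⟨C, h0, hC⟩ := (hK.isClosed.preimage hf).isCompact.induction_on
    (p := fun t => ∃ C, 0 ≤ C ∧ ∀ x ∈ t, ∀ j, x ∈ L.U j → ∑ l, ‖s' l j x‖ ≤ C * ∑ l, ‖s l j x‖)
    ⟨0, le_rfl, by simp⟩ (fun _ _ e ⟨C, a, b⟩ => ⟨C, a, fun x hx => b x (e hx)⟩)
    (fun _ _ ⟨C, a, b⟩ ⟨C', a', b'⟩ => ⟨C + C', add_nonneg a a', fun x hx j hj => by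
      have := nn j x
      rcases hx with hx | hx
      · nlinarith [b x hx j hj]
      · nlinarith [b' x hx j hj]⟩) fun x hx => by
      obtain ⟨j, hj⟩ := hL.cover x
      obtain ⟨l, hl⟩ := h.bpf x j (hKO hx).1 hj
      have p : 0 < ∑ l, ‖s l j x‖ := Finset.sum_pos' (fun _ _ => norm_nonneg _)
        ⟨l, Finset.mem_univ _, norm_pos_iff.2 hl⟩
      have c : ContinuousAt (fun y => ∑ l, ‖s l j y‖) x := tendsto_finsetSum _ fun l _ =>
        (hol_continuousAt ((h.sec l).holo j x (hKO hx).1 hj)).norm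
      have c' : ContinuousAt (fun y => ∑ l, ‖s' l j y‖) x := tendsto_finsetSum _ fun l _ =>
        (hol_continuousAt ((h'.sec l).holo j x (hKO hx).2 hj)).norm
      refine ⟨_, inter_mem_nhdsWithin _ (inter_mem ((hL.isOpen j).mem_nhds hj) (c'.eventually_lt
        (continuousAt_const.mul c) (show _ < (∑ l, ‖s' l j x‖ + 1) / (∑ l, ‖s l j x‖) * _ by
          rw [div_mul_cancel₀ _ p.ne']; exact lt_add_one _))),
        (∑ l, ‖s' l j x‖ + 1) / ∑ l, ‖s l j x‖, by positivity, ?_⟩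
      rintro y ⟨a, b, d⟩ i hi
      simp only [fun l => (h.sec l).change i j y (hKO a).1 hi b,
        fun l => (h'.sec l).change i j y (hKO a).2 hi b, norm_mul, ← Finset.mul_sum]
      rw [mul_left_comm]
      exact mul_le_mul_of_nonneg_left (le_of_lt d) (norm_nonneg _)
  exact ⟨C, h0, mem_of_superset (mem_interior_iff_mem_nhds.1 hzK) fun z' a x j b =>
    hC x (show f x ∈ K from b ▸ a) j⟩

/-- the ideal whose principalization resolves the map -/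
theorem core {X' Z : CSp} {f' : X'.pt → Z.pt} {Λ' : Bd X'.pt} {q : V.W → Z.pt} {B : Set Z.pt}
    {Λ : Bd V.W} {u : V.W → X'.pt} {T : Λ.ι → Λ'.ι → V.W → ℂ} (hf' : ∀ x, HolMap X' Z f' x)
    (hΛ' : IsLBx X' Λ') (hA : RelAmple X' Z f' Λ') (hq : HolTo V Z q) (hd : Dense (q ⁻¹' B)ᶜ)
    (hΛ : IsLB 4 Λ) (hu : ∀ y, q y ∉ B → HolMap V.X X' u y ∧ f' (u y) = q y)
    (hT : IsIsoY (q ⁻¹' B)ᶜ u Λ' Λ fun j i => T i j)
    (hσ : ∀ (O : Set Z.pt) (k : ℕ) (s' : Λ'.ι → X'.pt → ℂ), IsOpen O → 1 ≤ k →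
      IsSecx X' (f' ⁻¹' O) (Λ'.pow k) s' → ∃ σ : Λ.ι → V.W → ℂ,
        (∀ i, ∀ y ∈ Λ.U i, q y ∈ O → HolF 4 (σ i) y ∧ (q y ∈ B → σ i y = 0)) ∧ ∀ i j,
          ∀ y ∈ Λ.U i, q y ∈ O → q y ∉ B → u y ∈ Λ'.U j → σ i y = T i j y ^ k * s' j (u y)) :
    ∃ (Γ : Type) (U : Γ → Set V.W) (nm : Γ → V.W → ℝ), Idl V U nm (q ⁻¹' B) ∧
      ∀ (V' : Lg) (π : V'.W → V.W) (ex : Fin V'.r → ℕ), Hom V' V π →
        (∀ y, q (π y) ∈ B → y ∈ V'.E) → (∀ y γ ζ, π y ∈ U γ → V'.Eq y ζ →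
          Cpb (𝓝 y) (fun y' => nm γ (π y')) fun y' => ∏ k, ‖ζ k y'‖ ^ ex k) →
        ∃ p' : V'.W → X'.pt, HolTo V' X' p' ∧ (∀ y, f' (p' y) = q (π y)) ∧
          ∀ y, q (π y) ∉ B → p' y = u (π y) := by
  have hc : Continuous f' := continuous_iff_continuousAt.2 fun x => (hf' x).1
  obtain ⟨K, hK, hO⟩ := unif hA
  choose O κ _ s hO hz hs using hO
  choose σ h1 h2 using fun z l => hσ (O z) K (s z l) (hO z) hK ((hs z).sec l)
  have T0 : ∀ i j y, y ∈ Λ.U i → q y ∉ B → u y ∈ Λ'.U j → T i j y ^ K ≠ 0 := fun i j y a b c =>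
    pow_ne_zero _ (hT.holo y b j i _ (at_chartAt y) c a).2
  have op : ∀ z i, IsOpen (q ⁻¹' O z ∩ Λ.U i) := fun z i =>
    ((hO z).preimage hq.cont).inter (hΛ.isOpen i)
  have key : ∀ z i z' i' x, x ∈ q ⁻¹' O z ∩ Λ.U i → x ∈ q ⁻¹' O z' ∩ Λ.U i' → ∃ C, 0 ≤ C ∧
      ∀ᶠ y in 𝓝 x, ∑ l, ‖σ z' l i' y‖ ≤ C * ∑ l, ‖σ z l i y‖ := fun z i z' i' x a a' => by
    obtain ⟨C, h0, hC⟩ := cmp hc (H615.IsLBx.pow hΛ' K) (hO z) (hO z') (hs z) (hs z') a.1 a'.1
    have c : ContinuousAt (Λ.g i' i) x :=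
      holF_cont (n := 4) fun e he => (hΛ.holo i' i e x he a'.2 a.2).analyticAt
    refine ⟨(‖Λ.g i' i x‖ + 1) ^ K * C, by positivity, ?_⟩
    filter_upwards [(op z i).mem_nhds a, (op z' i').mem_nhds a', hq.cont.continuousAt.eventually hC,
      c.norm.eventually_lt_const (lt_add_one _)] with y b b' d e
    by_cases hy : q y ∈ B
    · simp [fun l => (h1 z l i y b.2 b.1).2 hy, fun l => (h1 z' l i' y b'.2 b'.1).2 hy]
    obtain ⟨j, hj⟩ := hΛ'.cover (u y)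
    have t := hT.change y hy j j i i' hj hj b.2 b'.2
    rw [H615.IsLBx.one hΛ' hj, one_mul] at t
    simp only [fun l => h2 z l i j y b.2 b.1 hy hj, fun l => h2 z' l i' j y b'.2 b'.1 hy hj, t,
      norm_mul, norm_pow, mul_pow, ← Finset.mul_sum]
    calc _ ≤ ‖T i j y‖ ^ K * (‖Λ.g i' i x‖ + 1) ^ K * (C * ∑ l, ‖s z l j (u y)‖) := by
          gcongr
          exact d _ j (hu y hy).2 hj
      _ = _ := by ring
  refine ⟨Z.pt × Λ.ι, fun γ => q ⁻¹' O γ.1 ∩ Λ.U γ.2, fun γ y => ∑ l, ‖σ γ.1 l γ.2 y‖,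
    ⟨fun γ => op _ _, fun y => (hΛ.cover y).elim fun i hi => ⟨(q y, i), hz _, hi⟩, hd, fun y => by
      obtain ⟨i, hi⟩ := hΛ.cover y
      refine ⟨_, fun k => σ (q y) ((Fintype.equivFin (κ (q y))).symm k) i, ?_⟩
      filter_upwards [(op (q y) i).mem_nhds ⟨hz _, hi⟩] with x a
      refine ⟨fun k => (h1 _ _ i x a.2 a.1).1, ⟨fun b k => (h1 _ _ i x a.2 a.1).2 b,
        fun b => by_contra fun c => ?_⟩, fun γ b => ?_⟩
      · obtain ⟨j, hj⟩ := hΛ'.cover (u x)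
        obtain ⟨l, hl⟩ := (hs (q y)).bpf (u x) j ((hu x c).2.symm ▸ a.1) hj
        have := b (Fintype.equivFin _ l)
        rw [Equiv.symm_apply_apply, h2 _ l i j x a.2 a.1 c hj] at this
        exact mul_ne_zero (T0 i j x a.2 c hj) hl this
      · obtain ⟨C, c, d⟩ := key _ _ _ _ x a b
        obtain ⟨C', c', d'⟩ := key _ _ _ _ x b a
        refine ⟨C + C' + 1, by positivity, ?_⟩
        filter_upwards [d, d'] with w e e'
        rw [(Fintype.equivFin _).symm.sum_comp fun l => ‖σ (q y) l i w‖]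
        have n1 : 0 ≤ ∑ l, ‖σ (q y) l i w‖ := by positivity
        have n2 : 0 ≤ ∑ l, ‖σ γ.1 l γ.2 w‖ := by positivity
        constructor <;> nlinarith⟩, fun V' π ex hb hpre hcp => ?_⟩
  have hπ := hb.cont
  have nB : ∀ y ∉ V'.E, q (π y) ∉ B := fun y a b => a (hpre y b)
  obtain ⟨p', k1, k2⟩ := ext (V := V') (g := fun y => u (π y)) (fun y a =>
    ⟨(hu _ (nB y a)).1.1.comp hπ.continuousAt, fun g b =>
      hb.hom0.holF ((hu _ (nB y a)).1.2 g b)⟩) fun y p p' a a' => by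
    obtain ⟨i, hi⟩ := hΛ.cover (π y)
    obtain ⟨ζ, hζ⟩ := V'.exEq y
    obtain ⟨w, l₀, b1, b2, b3⟩ := ratio (fun l => hb.hom0.holF (h1 _ l i _ hi (hz _)).1) hζ
      (hcp y (q (π y), i) ζ ⟨hz _, hi⟩ hζ)
    have c1 : ∀ p, MapClusterPt p (𝓝[V'.Eᶜ] y) (fun y => u (π y)) → f' p = q (π y) := fun p a =>
      eq_of_nhds_neBot (ClusterPt.mono (a.continuousAt_comp hc.continuousAt)
        ((hq.cont.comp hπ).continuousWithinAt.tendsto.congr'
          (eventually_mem_nhdsWithin.mono fun x e => (hu _ (nB x e)).2.symm)))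
    have c2 : ∀ p j, MapClusterPt p (𝓝[V'.Eᶜ] y) (fun y => u (π y)) → p ∈ Λ'.U j → ∀ l,
        s (q (π y)) l j p * w l₀ y = s (q (π y)) l₀ j p * w l y := fun p j a hj l => by
      obtain ⟨F, hF, e⟩ := mapClusterPt_iff_ultrafilter.1 a
      have c : ∀ l, Tendsto (fun x => s (q (π y)) l j (u (π x))) F (𝓝 (s (q (π y)) l j p)) :=
        fun l => (hol_continuousAt (((hs _).sec l).holo j p ((c1 p a).symm ▸ hz _ :
          f' p ∈ O (q (π y))) hj)).tendsto.comp e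
      have hF' := hF.trans nhdsWithin_le_nhds
      refine tendsto_nhds_unique_of_eventuallyEq ((c l).mul ((b1 l₀).mono_left hF'))
        ((c l₀).mul ((b1 l).mono_left hF')) ?_
      filter_upwards [hF self_mem_nhdsWithin, hF' b3, e ((hΛ'.isOpen j).mem_nhds hj),
        hF' (hπ.continuousAt.eventually ((op _ i).mem_nhds ⟨hz _, hi⟩))] with x d1 d2 d3 d4
      have := d2 d1 l l₀
      rw [h2 _ l i j _ d4.2 d4.1 (nB x d1) d3, h2 _ l₀ i j _ d4.2 d4.1 (nB x d1) d3, mul_assoc,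
        mul_assoc] at this
      exact mul_left_cancel₀ (T0 i j _ d4.2 (nB x d1) d3) this
    by_contra ne
    obtain ⟨j, hj⟩ := hΛ'.cover p
    obtain ⟨j', hj'⟩ := hΛ'.cover p'
    obtain ⟨l, m, e⟩ := (hs (q (π y))).sep p p' j j' ((c1 p a).symm ▸ hz _)
      ((c1 p' a').trans (c1 p a).symm) ne hj hj'
    refine e (mul_right_cancel₀ (mul_ne_zero b2 b2) ?_)
    linear_combination (s _ m j' p' * w l₀ y) * c2 p j a hj l +
      (s _ l₀ j p * w l y) * c2 p' j' a' hj' m - (s _ l j' p' * w l₀ y) * c2 p j a hj m -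
      (s _ l₀ j p * w m y) * c2 p' j' a' hj' l
  refine ⟨p', k1, fun y => congrFun (Continuous.ext_on V'.dense
    (hc.comp k1.cont) (hq.cont.comp hπ) fun y a => ?_) y, fun y a =>
    tendsto_nhds_unique_of_frequently_eq k1.cont.continuousAt
      ((hu _ a).1.1.comp hπ.continuousAt) ((V'.freqE y).mono k2)⟩
  exact (congrArg f' (k2 y a)).trans (hu _ (nB y a)).2

end Dom

/-- (DOM) -/
theorem dom_of (h : StGH) : StDom := by
  intro V χ hχ X' Z f' Λ' q B Λ u T hf' hΛ' hA hq _ hd hth hΛ hu hT hσ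
  obtain ⟨Γ, U, nm, h1, h2⟩ := Dom.core hf' hΛ' hA hq hd hΛ hu hT hσ
  obtain ⟨V', π, χ', exc, ex, hb, hcp⟩ := h V χ hχ Γ U nm _ h1 hth
  obtain ⟨p', k⟩ := h2 V' π ex hb.hom hb.pre hcp
  exact ⟨V', π, χ', exc, p', hb, k⟩

end Vale.Agent.P277Z.Val
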