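import Vale.Agent.P277Z.Val.ResF

/-!
# P277, block VAL: a model which dominates a given resolution
-/

set_option linter.all false

open scoped Manifold ContDiff Topology
open Vale.Agent.P272.K Vale.Agent.P285.H281.FD Vale.Agent.P277 Set Filter
open Vale.Agent.P277.PH (HolF)

noncomputable section

namespace Vale.Agent.P277Z.Val

open RF

/-- (DOM1) -/
def StDom1 : Prop :=
  ∀ (V : Lg) (χ : V.Fm) (Y : CSp) (ψ : V.W → Y.pt) exc (U : Lg) (p : U.W → Y.pt), IsKahler χ →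
    IsNormal 4 Y → Res V Y ψ exc → Res U Y p Finset.univ →
    ∃ (V' : Lg) (π : V'.W → V.W) (χ' : V'.Fm) (exc₁ : Finset (Fin V'.r)) (Z₀ : Set V.W)
      (μ : V'.W → U.W), Blw V' V π χ' exc₁ Z₀ ∧ HolTo V' U.X μ ∧ ∀ y, p (μ y) = ψ (π y)

theorem dom1_of (h1 : StDom) (h2 : StAn) : StDom1 := by
  intro V χ Y ψ exc U p hχ hY hV hU
  obtain ⟨P, c, τ, hP, hPa, hc, hτ⟩ := hU.amp
  have hE : ⋃ l ∈ Finset.univ, U.G l = U.E := by simp [Lg.E]
  have hA := (h2 U Y p _ P c τ hY ⟨⟨hU.cont, hU.hol⟩, hU.surj, hU.emb, hU.inj, hU.dim, hP, hPa, hc,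
    hτ⟩).2.2
  have hemb := hU.emb
  have hinj := hU.inj
  have hdim := hU.dim
  rw [hE] at hemb hinj hdim
  have hPx : IsLBx U.X P := lb_iff.1 hP
  have hB : IsClosed (p '' U.E) := (U.closedE.isCompact.image hU.cont).isClosed
  have hO : IsOpen (ψ ⁻¹' (p '' U.E))ᶜ := (hB.preimage hV.cont).isOpen_compl
  have hsub : V.Eᶜ ⊆ (⋃ l ∈ exc, V.G l)ᶜ :=
    compl_subset_compl.2 (iUnion₂_subset fun l _ => subset_iUnion V.G l)
  obtain ⟨y₀, -⟩ := hV.surj (hdim.choose_spec.choose 0 0)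
  choose u hu using fun y => hU.surj (ψ y)
  have hu1 : ∀ y, ψ y ∉ p '' U.E → u y ∉ U.E := fun y hy e => hy ⟨u y, e, hu y⟩
  have hu2 : ∀ y, ψ y ∉ p '' U.E → HolMap V.X U.X u y := fun y hy => by
    have e : u =ᶠ[𝓝 y] fun y' => hemb.inv (u y) (ψ y') := by
      filter_upwards [hO.mem_nhds hy] with y' hy'
      rw [← hu y', hemb.inv_apply _ (hu1 y' hy')]
    refine ⟨ContinuousAt.congr ?_ e.symm, fun g hg => ?_⟩
    · exact ContinuousAt.comp (hu y ▸ hemb.inv_continuousAt (u y) (hu1 y hy)) hV.cont.continuousAt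
    · exact (hV.hol y _ (hu y ▸ hemb.hol_of_analyticAt (u y) (hu1 y hy) (PH.at_chartAt _)
        (hg _ (PH.at_chartAt _)))).congr (e.mono fun y' k => congrArg g k.symm)
  have hτ1 : ∀ j w, w ∈ P.U j → HolF 4 (τ j) w := fun j w hj e he =>
    (hτ.sec.holo j e w he hj).analyticAt
  have hτ2 : ∀ j w, w ∈ P.U j → (τ j w = 0 ↔ w ∈ U.E) := fun j w hj => by
    obtain ⟨ζ, hζ⟩ := U.exEq w
    obtain ⟨v, -, k1, k2⟩ := hτ.div w j ζ hj hζ
    simp only [k2.self_of_nhds, mul_eq_zero, k1, false_or, Finset.prod_eq_zero_iff,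
      Finset.mem_univ, true_and, Lg.E, mem_iUnion,
      fun l => pow_eq_zero_iff (M₀ := ℂ) (a := ζ l w) ((hc l).2 (Finset.mem_univ l)).ne',
      hζ.iff.self_of_nhds]
  have hτ3 : ∀ i j w, w ∈ P.U i → w ∈ P.U j → τ j w = P.g i j w * τ i w := fun i j w hi hj => by
    rw [hτ.sec.change j i w hj hi, ← H615.IsLBx.inv_eq hPx hj hi]
    rfl
  obtain ⟨V', π, χ', exc₁, μ, k1, k2, k3, -⟩ := h1 V χ hχ U.X Y p P ψ (p '' U.E) (triv V.W) u
    (fun _ j y => τ j (u y)) (holMap ⟨hU.cont, hU.hol⟩) hPx hPa ⟨hV.cont, hV.hol⟩ hB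
    (dense_closure.1 (V.dense.mono fun y hy => mem_closure_iff_frequently.2 (by
      have k := mem_closure_iff_frequently.1
        (dense_compl_of_dimLe (by norm_num) hY.dense hdim (ψ y))
      rwa [← hV.emb.map_nhds (hsub hy), frequently_map] at k)))
    (H60.Z.thinM_iff.2 ((H60.Z.thinM_iff.1 (thin_preimage hV.emb y₀ hdim)).mono
      fun y hy => ⟨hsub hy.2, hy.1⟩))
    ⟨fun _ => isOpen_univ, fun _ => ⟨(), trivial⟩, fun _ _ _ _ _ _ _ => contDiffAt_const,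
      fun _ _ _ _ _ => one_ne_zero, fun _ _ _ _ _ _ _ => mul_one _⟩
    (fun y hy => ⟨hu2 y hy, hu y⟩)
    ⟨fun y hy j _ e he hj _ => ⟨(hu2 y hy).2 _ (hτ1 j _ hj) e he, mt (hτ2 j _ hj).1 (hu1 y hy)⟩,
      fun y _ i j _ _ hi hj _ _ => (hτ3 i j _ hi hj).trans (mul_one _).symm⟩
    fun O k s hO' hk hs => by
      choose b hb using hP.cover
      have e : ∀ j w, p w ∈ O → w ∈ P.U j → τ (b w) w ^ k * s (b w) w = τ j w ^ k * s j w :=
        fun j w hw hj => by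
          rw [hτ3 (b w) j w (hb w) hj, hs.change (b w) j w hw (hb w) hj, mul_pow]
          show _ * (P.g (b w) j w ^ k * _) = _
          ring
      obtain ⟨H, l1, l2⟩ := hA O (fun w => τ (b w) w ^ k * s (b w) w) hO' fun w hw => by
        have k0 : HolF 4 (fun y => τ (b w) y ^ k * s (b w) y) w :=
          hol_mul (X := U.X) (hol_pow (X := U.X) (hτ1 _ w (hb w)) k) (hs.holo _ w hw (hb w))
        refine k0.congr ?_
        filter_upwards [(hO'.preimage hU.cont).mem_nhds hw, (hP.isOpen _).mem_nhds (hb w)]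
          with w' a a' using (e _ w' a a').symm
      refine ⟨fun _ y => H (ψ y), fun _ y _ hy => ⟨hV.hol y H (l1 _ hy), ?_⟩,
        fun _ j y _ hy _ hj => ?_⟩
      · rintro ⟨w, a, a'⟩
        show H (ψ y) = 0
        rw [← a', ← l2 w (a' ▸ hy), (hτ2 _ w (hb w)).2 a, zero_pow (by omega), zero_mul]
      · exact ((congrArg H (hu y)).symm.trans (l2 _ (hu y ▸ hy)).symm).trans
          (e j _ (hu y ▸ hy) hj)
  exact ⟨V', π, χ', exc₁, _, μ, k1, k2, k3⟩

end Vale.Agent.P277Z.Val
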