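import Vale.Agent.P277Z.Val.Vol
import Vale.Agent.P277Z.Top.Dom

/-!
# P277, block VAL: a map of resolutions is an isomorphism in codimension one of the target
-/

open scoped Manifold ContDiff Topology
open Vale.Agent.P272.K Vale.Agent.P277 Set Filter
open Vale.Agent.P277.T3 (ThinM thinM_iUnion thinM_empty)

noncomputable section

namespace Vale.Agent.P277Z.Val

theorem domV : StDomV := by
  classical
  intro V U Y ψ X μ p hY hV hU hμ hp
  have hm : ∀ y, HolM 4 4 μ y := fun y => ⟨hμ.cont.continuousAt, hμ.hol y⟩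
  obtain ⟨s, h⟩ := Top.stDom V U Y ψ X μ p hY hV hU
    ⟨hμ.cont, fun y _ _ a b => Val.U.an_loc (hm y) (crd_chart a) (crd_chart b)⟩ hp
  obtain ⟨-, g, -⟩ := hY.sing
  have : Nonempty U.W := ⟨(hU.surj (g 0 0)).choose⟩
  let S : Fin V.r → Fin V.r → Set V.W := fun k j =>
    if j = k then (if k ∈ X ∧ k ∉ range s then V.G k else ∅) else V.G k ∩ V.G j
  refine ⟨⋃ k, ⋃ j, μ '' S k j, isClosed_iUnion_of_finite fun k => isClosed_iUnion_of_finite
    fun j => hμ.cont.isClosedMap _ ?_, thinM_iUnion fun k => thinM_iUnion fun j => ?_,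
    fun x hx => ?_⟩
  · simp only [S]
    split_ifs
    exacts [V.closed k, isClosed_empty, (V.closed k).inter (V.closed j)]
  · simp only [S]
    split_ifs with a b
    · exact h.thin k b.1 b.2
    · rw [image_empty]
      exact thinM_empty
    · exact Val.U.thinM_image (Val.U.thin_inter (Ne.symm a)) hm
  · obtain ⟨y, rfl⟩ := h.surj x
    have a : ∀ k j, y ∉ S k j := fun k j b => hx (mem_iUnion₂.2 ⟨k, j, y, b, rfl⟩)
    have b : Top.Rg s X y := fun k c d => ⟨by_contra fun e => a k k (by
      simp only [S, if_pos (And.intro c e), if_true]; exact d),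
      fun j _ e => by_contra fun f => a k j (by simpa [S, f] using ⟨d, e⟩)⟩
    exact ⟨y, rfl, fun y' => h.inj y y' b, h.det y b⟩

theorem vol_of' (hN : StNegV) (hX : StNX) (hE : StExtC) : StVol := vol_of hN hX hE domV

end Vale.Agent.P277Z.Val
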