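import Vale.Agent.P277Z.Val.USk
import Vale.Agent.P277Z.Val.Mon
import Vale.Agent.P277Z.Val.Snc

/-!
# P277, block VAL: principalization of ideals with two monomial generators
-/

open scoped Manifold ContDiff Topology
open Vale.Agent.P272.K Vale.Agent.P277 Set Filter Asymptotics
open Vale.Agent.P277.PH (HolF)
open Vale.Agent.P277.T3 (ThinM)
open Vale.Agent.P277Z.Hir (Cpb)

noncomputable section

namespace Vale.Agent.P277Z.Val

namespace Ghp

variable {V : Lg} {y : V.W}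

theorem le_of_ev {F G : V.W → ℝ} (hF : ContinuousAt F y) (hG : ContinuousAt G y)
    (h : ∀ᶠ x in 𝓝 y, x ∉ V.E → F x ≤ G x) : F y ≤ G y := by
  by_contra e
  obtain ⟨x, a, b, c⟩ :=
    ((V.freqE y).and_eventually (h.and (hG.eventually_lt hF (not_le.1 e)))).exists
  exact absurd (b a) (not_le.2 c)

theorem cont_prod {ζ} (hζ : V.Eq y ζ) (s : Finset (Fin V.r)) (m : Fin V.r → ℕ) :
    ContinuousAt (fun x => ∏ k ∈ s, ‖ζ k x‖ ^ m k) y :=
  (holF_cont (holF_prod (s := s) (fun k _ => hζ.hol k) m)).norm.congr (.of_forall fun x => by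
    simp only [norm_prod, norm_pow])

/-- a monomial which is bounded by another one is divisible by it -/
theorem exp_le {f : V.W → ℂ} {n ex : Fin V.r → ℕ} {ζ} {C : ℝ} (hζ : V.Eq y ζ) (hf : Mon V y f n)
    (h : ∀ᶠ x in 𝓝 y, ‖f x‖ ≤ C * ∏ k, ‖ζ k x‖ ^ ex k) {l : Fin V.r} (hl : y ∈ V.G l) :
    ex l ≤ n l := by
  obtain ⟨z, ⟨h1, h2⟩, h3, h4, h5⟩ := ((Lg.freq1 hl).and_eventually
    (hζ.eventually.and (hf.eventually.and h.eventually_nhds))).exists
  obtain ⟨u, k1, k2, k3⟩ := h4 ζ h3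
  by_contra e
  obtain ⟨d, hd⟩ := Nat.exists_eq_add_of_lt (not_le.1 e)
  have h6 := le_of_ev (F := fun x => ‖u x‖ * ∏ k ∈ Finset.univ.erase l, ‖ζ k x‖ ^ n k)
    (G := fun x => C * (‖ζ l x‖ ^ (d + 1) * ∏ k ∈ Finset.univ.erase l, ‖ζ k x‖ ^ ex k))
    ((holF_cont k1).norm.mul (cont_prod h3 _ _))
    (continuousAt_const.mul (((holF_cont (h3.hol l)).norm.pow _).mul (cont_prod h3 _ _))) (by
      filter_upwards [h5, k3, h3.ne] with x a b c d
      simp only [b, norm_mul, norm_prod, norm_pow,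
        ← Finset.mul_prod_erase _ _ (Finset.mem_univ l)] at a
      refine le_of_mul_le_mul_left (a := ‖ζ l x‖ ^ n l) ?_ (pow_pos (norm_pos_iff.2 (c d l)) _)
      rw [hd, add_assoc, pow_add] at a
      linarith)
  rw [(h3.iff.self_of_nhds l).2 h1] at h6
  refine absurd h6 (not_le.2 ?_)
  simp only [norm_zero, ne_eq, Nat.add_eq_zero_iff, one_ne_zero, and_false, not_false_eq_true,
    zero_pow, zero_mul, mul_zero]
  exact mul_pos (norm_pos_iff.2 k2) (Finset.prod_pos fun k hk => pow_pos (norm_pos_iff.2 fun e =>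
    h2 k (Finset.mem_erase.1 hk).1 ((h3.iff.self_of_nhds k).1 e)) _)

/-- a principal monomial ideal is generated by one of its generators -/
theorem key {J : Type} [Fintype J] {f : J → V.W → ℂ} {ex : Fin V.r → ℕ} {ζ} (hζ : V.Eq y ζ)
    (hf : ∀ j, HolF 4 (f j) y) (hne : ∀ j, ∀ᶠ x in 𝓝 y, x ∉ V.E → f j x ≠ 0)
    (h : Cpb (𝓝 y) (fun x => ∑ j, ‖f j x‖) fun x => ∏ k, ‖ζ k x‖ ^ ex k) :
    ∃ (j₀ : J) (C : ℝ), 0 ≤ C ∧ ∀ᶠ x in 𝓝 y, ∑ j, ‖f j x‖ ≤ C * ‖f j₀ x‖ := by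
  obtain ⟨C, hC, h⟩ := h
  choose n hn using fun j => exists_mon (hf j) (hne j)
  choose u k1 k2 k3 using fun j => ((hn j).change (n' := fun l => ex l + (n j l - ex l))
    fun l hl => (Nat.add_sub_cancel' (exp_le hζ (hn j) (h.mono fun x a => (Finset.single_le_sum
      (fun j _ => norm_nonneg (f j x)) (Finset.mem_univ j)).trans a.1) hl)).symm) ζ hζ
  set H : J → V.W → ℝ := fun j x => ‖u j x‖ * ∏ k, ‖ζ k x‖ ^ (n j k - ex k)
  have hH : ∀ j, ContinuousAt (H j) y := fun j => (holF_cont (k1 j)).norm.mul (cont_prod hζ _ _)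
  have h1 : ∀ᶠ x in 𝓝 y, ∀ j, ‖f j x‖ = H j x * ∏ k, ‖ζ k x‖ ^ ex k :=
    eventually_all.2 fun j => (k3 j).mono fun x a => by
      simp only [a, H, norm_mul, norm_prod, norm_pow, pow_add, Finset.prod_mul_distrib]
      ring
  have h2 := le_of_ev (F := fun _ => 1) (G := fun x => C * ∑ j, H j x) continuousAt_const
    (continuousAt_const.mul (tendsto_finsetSum _ fun j _ => hH j)) (by
      filter_upwards [h, h1, hζ.ne] with x a b c d
      refine le_of_mul_le_mul_right (a := ∏ k, ‖ζ k x‖ ^ ex k) ?_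
        (Finset.prod_pos fun k _ => pow_pos (norm_pos_iff.2 (c d k)) _)
      simpa only [b, ← Finset.sum_mul, one_mul, mul_assoc] using a.2)
  obtain ⟨j, hj⟩ : ∃ j, 0 < H j y := by
    by_contra e
    push Not at e
    have := mul_nonpos_of_nonneg_of_nonpos hC.le (Finset.sum_nonpos fun j (_ : j ∈ Finset.univ) => e j)
    linarith
  refine ⟨j, C / (H j y / 2), by positivity, ?_⟩
  filter_upwards [h, h1, continuousAt_const.eventually_lt (hH j) (half_lt_self hj)] with x a b c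
  refine a.1.trans ?_
  rw [b, div_mul_eq_mul_div, le_div_iff₀ (half_pos hj), mul_assoc, mul_comm _ (H j y / 2)]
  gcongr

section
variable {ι : Type} [Fintype ι] (u v : ι → Fin V.r) (q : ι → ℕ)

/-- the generators of the factors -/
def gn (ζ : Fin V.r → V.W → ℂ) (i : ι) (b : Bool) (x : V.W) : ℂ :=
  bif b then ζ (u i) x ^ q i else ζ (v i) x

/-- the norm of the product of the ideals -/
def nm (ζ : Fin V.r → V.W → ℂ) (x : V.W) : ℝ := ∏ i, (‖ζ (u i) x‖ ^ q i + ‖ζ (v i) x‖)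

theorem sum_gn [DecidableEq ι] (ζ : Fin V.r → V.W → ℂ) (x : V.W) :
    ∑ I : ι → Bool, ‖∏ i, gn u v q ζ i (I i) x‖ = nm u v q ζ x := by
  simp only [norm_prod]
  rw [← Fintype.piFinset_univ, ← Finset.prod_univ_sum (fun _ => Finset.univ)
    fun i b => ‖gn u v q ζ i b x‖]
  simp [nm, gn]

omit [Fintype ι] in
theorem hol_gn {ζ} (hζ : V.Eq y ζ) (i : ι) (b : Bool) : HolF 4 (gn u v q ζ i b) y := by
  cases b
  · exact hζ.hol _
  · exact fun e he => (hζ.hol _ e he).pow _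

theorem nm_le {ζ ζ'} (h : V.Eq y ζ) (h' : V.Eq y ζ') :
    ∃ C, 0 < C ∧ ∀ᶠ x in 𝓝 y, nm u v q ζ' x ≤ C * nm u v q ζ x := by
  obtain ⟨t, h1, h2⟩ := h.unit h'
  have h3 : ∀ l, (fun x => ‖ζ' l x‖) =O[𝓝 y] fun x => ‖ζ l x‖ := fun l =>
    (((isBigO_refl (ζ l) _).mul ((holF_cont (h1 l).1).isBigO_one ℂ)).congr'
      (h2.mono fun x a => (a l).symm) (.of_forall fun x => mul_one _)).norm_norm
  obtain ⟨C, hC, h4⟩ := (IsBigO.finsetProd (s := Finset.univ) fun i _ =>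
    ((h3 (u i)).pow (q i)).add_add (h3 (v i))).exists_pos
  refine ⟨C, hC, h4.bound.mono fun x a => ?_⟩
  simp only [norm_pow, norm_norm] at a
  rwa [Real.norm_of_nonneg (by positivity), Real.norm_of_nonneg (by positivity)] at a

theorem nm_cpb {ζ ζ'} (h : V.Eq y ζ) (h' : V.Eq y ζ') :
    Cpb (𝓝 y) (nm u v q ζ) (nm u v q ζ') := by
  obtain ⟨C, a, b⟩ := nm_le u v q h h'
  obtain ⟨C', a', b'⟩ := nm_le u v q h' h
  refine ⟨C + C', by positivity, ?_⟩
  have h0 : ∀ ζ x, 0 ≤ nm u v q ζ x := fun ζ x => by unfold nm; positivity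
  filter_upwards [b, b'] with x c d
  constructor <;> nlinarith [h0 ζ x, h0 ζ' x]

theorem idl (hq : ∀ i, 1 ≤ q i) :
    Idl V (fun ζ => {x | V.Eq x ζ}) (nm u v q) (⋃ i, V.G (u i) ∩ V.G (v i)) where
  isOpen _ := isOpen_iff_mem_nhds.2 fun _ hx => Lg.Eq.eventually hx
  cover := V.exEq
  dense := V.dense.mono (compl_subset_compl.2 (iUnion_subset fun i =>
    inter_subset_left.trans (subset_iUnion V.G (u i))))
  loc y := by
    classical
    obtain ⟨ζ, hζ⟩ := V.exEq y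
    let e := (Fintype.equivFin (ι → Bool)).symm
    have h0 : ∀ x, ∑ k, ‖∏ i, gn u v q ζ i (e k i) x‖ = nm u v q ζ x := fun x =>
      (e.sum_comp fun I => ‖∏ i, gn u v q ζ i (I i) x‖).trans (sum_gn u v q ζ x)
    refine ⟨_, fun k x => ∏ i, gn u v q ζ i (e k i) x, ?_⟩
    filter_upwards [hζ.eventually, hζ.iff] with x a b
    refine ⟨fun k c hc => Finset.analyticAt_fun_prod _ fun i _ => hol_gn u v q a i _ c hc, ?_,
      fun ζ' c => by simpa only [h0] using nm_cpb u v q c a⟩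
    have h1 := Finset.sum_eq_zero_iff_of_nonneg (s := Finset.univ) fun k _ =>
      norm_nonneg (∏ i, gn u v q ζ i (e k i) x)
    simp only [Finset.mem_univ, norm_eq_zero, forall_true_left, h0] at h1
    rw [← h1, nm, Finset.prod_eq_zero_iff, mem_iUnion]
    refine exists_congr fun i => ?_
    rw [add_eq_zero_iff_of_nonneg (by positivity) (by positivity),
      pow_eq_zero_iff (Nat.one_le_iff_ne_zero.1 (hq i))]
    simp [b]

end

end Ghp

open Ghp

/-- (GHP) for non empty models -/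
def StGHPn : Prop :=
  ∀ (V : Lg) (χ : V.Fm), Nonempty V.W → IsKahler χ → ∀ (ι : Type) [Fintype ι]
    (u v : ι → Fin V.r) (q : ι → ℕ), (∀ i, 1 ≤ q i) →
    ∃ (V' : Lg) (π : V'.W → V.W) (χ' : V'.Fm) (exc : Finset (Fin V'.r)),
      Blw V' V π χ' exc (⋃ i, V.G (u i) ∩ V.G (v i)) ∧ ∀ y ζ i, V.Eq (π y) ζ → ∃ C : ℝ,
        (∀ᶠ y' in 𝓝 y, ‖ζ (u i) (π y')‖ ^ q i ≤ C * ‖ζ (v i) (π y')‖) ∨
        ∀ᶠ y' in 𝓝 y, ‖ζ (v i) (π y')‖ ≤ C * ‖ζ (u i) (π y')‖ ^ q i

/-- (SEPG) for non empty models -/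
def StSepGn : Prop :=
  ∀ (V : Lg) (χ : V.Fm), Nonempty V.W → IsKahler χ → ∃ (V' : Lg) (π : V'.W → V.W) (χ' : V'.Fm)
    (exc : Finset (Fin V'.r)) (Z₀ : Set V.W), Blw V' V π χ' exc Z₀ ∧
      ∀ s, IsStr V' V π s → ∀ l l', l ≠ l' → Disjoint (V'.G (s l)) (V'.G (s l'))

theorem Ghp.nonempty {V : Lg} {X : CSp} {p : V.W → X.pt} {exc} (h : Res V X p exc) :
    Nonempty V.W :=
  h.dim.elim fun _ ⟨g, _⟩ => (h.surj (g 0 0)).elim fun y _ => ⟨y⟩

theorem ghp_of (h : StGH) : StGHPn := by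
  intro V χ ⟨y₀⟩ hχ ι _ u v q hq
  classical
  obtain ⟨V', π, χ', exc, ex, hB, h1⟩ := h V χ hχ _ _ _ _ (idl u v q hq)
    ⟨fun _ => ∅, fun _ _ => y₀, fun _ => isOpen_empty, by simp, fun x ⟨a, b⟩ =>
      (mem_iUnion.1 a).elim fun i hi => absurd (mem_iUnion.2 ⟨u i, hi.1⟩) b⟩
  refine ⟨V', π, χ', exc, hB, fun y ζ i hζ => ?_⟩
  have h0 := hB.hom.hom0
  obtain ⟨ζ', hζ'⟩ := V'.exEq y
  have hg : ∀ j b, ∀ᶠ x in 𝓝 y, x ∉ V'.E → gn u v q ζ j b (π x) ≠ 0 := fun j b =>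
    (h0.eq_ne hζ).mono fun x a c => by
      cases b
      · exact a c _
      · exact pow_ne_zero _ (a c _)
  obtain ⟨I, C, hC, h2⟩ := key (f := fun (I : ι → Bool) x => ∏ j, gn u v q ζ j (I j) (π x)) hζ'
    (fun I => h0.holF (f := fun x => ∏ j, gn u v q ζ j (I j) x) fun c hc =>
      Finset.analyticAt_fun_prod _ fun j _ => hol_gn u v q hζ j _ c hc)
    (fun I => (eventually_all.2 fun j => hg j (I j)).mono fun x a b =>
      Finset.prod_ne_zero_iff.2 fun j _ => a j b)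
    (by simpa only [sum_gn] using h1 y ζ ζ' hζ hζ')
  have h3 : ∀ᶠ x in 𝓝 y, ‖ζ (u i) (π x)‖ ^ q i + ‖ζ (v i) (π x)‖ ≤
      C * ‖gn u v q ζ i (I i) (π x)‖ := by
    have h4 : ∀ᶠ x in 𝓝 y, x ∉ V'.E → ‖ζ (u i) (π x)‖ ^ q i + ‖ζ (v i) (π x)‖ ≤
        C * ‖gn u v q ζ i (I i) (π x)‖ := by
      filter_upwards [h2, h0.eq_ne hζ] with x a b c
      rw [sum_gn, nm, norm_prod, ← Finset.mul_prod_erase _ _ (Finset.mem_univ i),
        ← Finset.mul_prod_erase _ _ (Finset.mem_univ i), ← mul_assoc] at a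
      refine le_of_mul_le_mul_right (a.trans (mul_le_mul_of_nonneg_left (Finset.prod_le_prod
        (fun j _ => norm_nonneg _) fun j _ => ?_) (by positivity))) (Finset.prod_pos fun j _ =>
          add_pos_of_nonneg_of_pos (by positivity) (norm_pos_iff.2 (b c _)))
      cases I j <;> simp [gn]
    filter_upwards [h4.eventually_nhds, h0.cont.continuousAt.eventually hζ.eventually] with x a b
    exact le_of_ev (((holF_cont (h0.holF (b.hol _))).norm.pow _).add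
      (holF_cont (h0.holF (b.hol _))).norm)
      (continuousAt_const.mul (holF_cont (h0.holF (hol_gn u v q b i _))).norm) a
  refine ⟨C, ?_⟩
  cases hI : I i
  · exact .inl (h3.mono fun x a => le_trans (le_add_of_nonneg_right (norm_nonneg _))
      (by simpa [hI, gn] using a))
  · exact .inr (h3.mono fun x a => le_trans (le_add_of_nonneg_left
      (pow_nonneg (norm_nonneg _) _)) (by simpa [hI, gn] using a))

theorem sepG_of (h : StGHPn) : StSepGn := by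
  intro V χ hn hχ
  obtain ⟨V', π, χ', exc, hB, h1⟩ := h V χ hn hχ {p : Fin V.r × Fin V.r // p.1 ≠ p.2}
    (fun p => p.1.1) (fun p => p.1.2) (fun _ => 1) fun _ => le_rfl
  refine ⟨V', π, χ', exc, _, hB, fun s hs l l' hl => disjoint_left.2 fun y a b => ?_⟩
  have h0 := hB.hom.hom0
  obtain ⟨ζ, hζ⟩ := V.exEq (π y)
  have h2 : ∀ l l' (C : ℝ), y ∈ V'.G (s l') →
      (∀ᶠ x in 𝓝 y, ‖ζ l (π x)‖ ≤ C * ‖ζ l' (π x)‖) → l' = l := fun l l' C a b => by
    refine Lg.not_sub (hs.img l' ▸ image_subset_iff.2 (U.G_subset (fun x _ =>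
      U.isAnAt_preimage ⟨h0.cont.continuousAt, fun _ => h0.holF⟩ (U.isAnAt_G V l _)) a ?_))
    filter_upwards [b, h0.cont.continuousAt.eventually hζ.iff] with x c d e
    rw [(d l').2 (hs.img l' ▸ mem_image_of_mem π e), norm_zero, mul_zero] at c
    exact (d l).1 (norm_le_zero_iff.1 c)
  obtain ⟨C, c | c⟩ := h1 y ζ ⟨(l, l'), hl⟩ hζ
  · exact hl (h2 l l' C b (by simpa using c)).symm
  · exact hl (h2 l' l C a (by simpa using c))

end Vale.Agent.P277Z.Val
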