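import Vale.Agent.P277Z.Val.Low

/-!
# P277, block VAL: the counting argument
-/

open Vale.Agent.P272.K Vale.Agent.P285.H281.FD Vale.Agent.P277 Set Module
open P277Z.Num (wt thr closure_fin vals_fin)

noncomputable section

namespace Vale.Agent.P277Z.Val

/-- there is a good model -/
theorem exists_good (h2 : StStrA) (h3 : StGd) {Lv : ℕ → (V : Lg) → (Fin V.r → ℝ) → Prop}
    (hs : Sep Lv) {j V a} (h : Lv j V a) (hk : ∀ l, -1 < a l) :
    ∃ V a, Lv j V a ∧ Good V a := by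
  obtain ⟨δ, h0, h1, hδ⟩ : ∃ δ : ℝ, 0 < δ ∧ δ ≤ 1 ∧ ∀ l, δ ≤ 1 + a l := by
    obtain ⟨δ, e1, e2⟩ := (((Filter.eventually_all.2 fun l => eventually_le_nhds
      (show (0 : ℝ) < 1 + a l by linarith [hk l])).and (eventually_le_nhds one_pos)).filter_mono
      (nhdsWithin_le_nhds (s := Ioi 0))).and self_mem_nhdsWithin |>.exists
    exact ⟨δ, e2, e1.2, e1.1⟩
  have key : ∀ n : ℕ, ∃ V a, Lv j V a ∧ (∀ l, δ ≤ 1 + a l) ∧ ∀ l l', l ≠ l' → a l < 0 →
      a l' < 0 → ¬ Disjoint (V.G l) (V.G l') → n * δ ≤ (1 + a l) + (1 + a l') := by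
    intro n
    induction n with
    | zero => exact ⟨V, a, h, hδ, fun l l' _ _ _ _ => by push_cast; linarith [hδ l, hδ l']⟩
    | succ n ih =>
      obtain ⟨V, a, e1, e2, e3⟩ := ih
      obtain ⟨V', π, a', s, b1, b2, b3, b4, b5⟩ := hs j V a e1
      have c1 := h3 V' V π s a' a b2 b4 b3 fun l => by linarith [e2 l]
      have c2 : ∀ k, δ ≤ 1 + a' k := fun k => by
        by_cases hk : k ∈ range s
        · obtain ⟨l, rfl⟩ := hk
          rw [(h2 V' V π s a' a b2 b4 b3).2]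
          exact e2 l
        · obtain c | ⟨l, l', -, -, -, -, c⟩ := c1 k hk
          · linarith
          · linarith [e2 l, e2 l']
      have c3 : ∀ k, k ∉ range s → a' k < 0 → n * δ ≤ 1 + a' k := fun k hk c => by
        obtain c' | ⟨l, l', d1, d2, d3, d4, d5⟩ := c1 k hk
        · linarith
        · exact (e3 l l' d1 d2 d3 d4).trans d5
      refine ⟨V', a', b1, c2, fun k k' d1 d2 d3 d4 => ?_⟩
      push_cast
      by_cases hk : k ∈ range s
      · by_cases hk' : k' ∈ range s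
        · obtain ⟨l, rfl⟩ := hk
          obtain ⟨l', rfl⟩ := hk'
          exact absurd (b5 l l' fun e => d1 (congrArg s e)) d4
        · linarith [c3 k' hk' d3, c2 k]
      · linarith [c3 k hk d2, c2 k']
  obtain ⟨n, hn⟩ := exists_nat_ge (2 / δ)
  rw [div_le_iff₀ h0] at hn
  obtain ⟨V, a, e1, e2, e3⟩ := key n
  exact ⟨V, a, e1, fun l => by linarith [e2 l], fun l l' c1 c2 c3 => by_contra fun c4 => by
    linarith [e3 l l' c1 c2 c3 c4]⟩

theorem mono_of_succ {A : Type*} [Preorder A] {a : ℕ → A} {j₀ N : ℕ}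
    (h : ∀ j, j₀ ≤ j → j < N → a j ≤ a (j + 1)) {i j : ℕ} (h0 : j₀ ≤ i) (hij : i ≤ j)
    (hj : j ≤ N) : a i ≤ a j := by
  induction j, hij using Nat.le_induction with
  | base => exact le_rfl
  | succ j hij ih => exact (ih (by omega)).trans (h j (by omega) (by omega))

theorem count_drop {f : ℕ → ℕ} {p : ℕ → Prop} [DecidablePred p] {j₀ N : ℕ} (h0 : j₀ ≤ N)
    (h : ∀ j, j₀ ≤ j → j < N → f (j + 1) + (if p j then 1 else 0) ≤ f j) :
    f N + ((Finset.Ico j₀ N).filter p).card ≤ f j₀ := by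
  induction N, h0 using Nat.le_induction with
  | base => simp
  | succ N h0 ih =>
    have e1 := ih fun j a b => h j a (by omega)
    have e2 := h N h0 (by omega)
    rw [Finset.card_filter] at e1 ⊢
    rw [Finset.sum_Ico_succ_top h0]
    omega

/-- the alternative given by a slice -/
theorem sl_cases {Λ : AddSubmonoid ℝ} (hΛ : ∀ x ∈ Λ, 0 ≤ x) {r r₀ : ℕ} {a a' : Fin r → ℝ}
    (h : SL Λ a a') (hk : ∀ k, -1 < a' k) {s : Fin r₀ → Fin r} (hs : Function.Injective s)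
    (he : ∀ k, k ∉ range s → 0 < a k) :
    ∃ v : ℝ, (0 < v ∧ ∃ (N : ℤ) (lam : ℝ), N ≤ 2 ∧ lam ∈ Λ ∧ v = N - lam) ∧
      ((∃ k, a k < v - 1 ∧ v - 1 ≤ a' k) ∨ ∃ m : Fin r₀ → ℕ, (∃ l, m l ≠ 0) ∧
        ∑ l, m l * (1 + a' (s l)) = v ∧ ∀ l, m l ≠ 0 → a (s l) < a' (s l)) := by
  classical
  obtain ⟨J, _, _, κ, h1, h2⟩ := h
  obtain ⟨n, N, lam, ⟨c₀, e1⟩, e2, e3, e4, e5⟩ := thr Λ hΛ h1
  have hp : ∀ k, 0 < 1 + a' k := fun k => by linarith [hk k]
  refine ⟨N - lam, ⟨e4 ▸ Finset.sum_pos' (fun c _ => mul_nonneg (Nat.cast_nonneg _) (hp _).le)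
    ⟨c₀, Finset.mem_univ _, mul_pos (Nat.cast_pos.2 (Nat.pos_of_ne_zero e1)) (hp _)⟩,
    N, lam, e2, e3, rfl⟩, e5.imp (fun ⟨c, e⟩ => ⟨κ c, by linarith [h2 c], by linarith⟩) fun e => ?_⟩
  have e6 : ∀ c, n c ≠ 0 → κ c ∈ range s := fun c hc => by_contra fun b => by
    linarith [he _ b, h2 c, e c hc]
  refine ⟨fun l => ∑ c with κ c = s l, n c, ?_, ?_, fun l hl => ?_⟩
  · obtain ⟨l, hl⟩ := e6 c₀ e1
    exact ⟨l, fun b => e1 (Finset.sum_eq_zero_iff.1 b c₀ (by simp [hl]))⟩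
  · rw [← e4]
    simp only [Nat.cast_sum, Finset.sum_mul, Finset.sum_filter]
    rw [Finset.sum_comm]
    refine Finset.sum_congr rfl fun c _ => ?_
    by_cases hc : n c = 0
    · simp [hc]
    · obtain ⟨l, hl⟩ := e6 c hc
      simp [← hl, hs.eq_iff]
  · obtain ⟨c, b, -⟩ := Finset.exists_ne_zero_of_sum_ne_zero hl
    exact (Finset.mem_filter.1 b).2 ▸ h2 c

/-- (VAL) -/
theorem val_of (h1 : StStr) (h2 : StStrA) (h3 : StGd) (h4 : StUp) (h5 : StRK) (h6 : StNeg3) :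
    StVal := by
  classical
  rintro Lv P I hI hI0 ⟨j, V, a, e1, e2⟩ hsep hup
  obtain ⟨hΛ, hf⟩ := closure_fin I hI hI0
  set Vs := (vals_fin _ hΛ hf).toFinset with hVs
  have hV : ∀ v ∈ Vs, v - 1 ≤ 1 := fun v hv => by
    obtain ⟨-, N, lam, b1, b2, rfl⟩ := (Finite.mem_toFinset _).1 hv
    have : (N : ℝ) ≤ 2 := by exact_mod_cast b1
    linarith [hΛ lam b2]
  set Ω : (V : Lg) → (Fin V.r → ℝ) → ℕ := fun V a => ∑ v ∈ Vs, ∑ l, wt (v - 1) (-a l) 0 with hΩ
  have hex : ∃ n, ∃ j V a, Lv j V a ∧ Good V a ∧ Ω V a = n := by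
    obtain ⟨V, a, e⟩ := exists_good h2 h3 hsep e1 e2
    exact ⟨_, j, V, a, e.1, e.2, rfl⟩
  obtain ⟨j₀, V₀, a₀, g1, g2, g3⟩ := Nat.find_spec hex
  have g4 : ∀ j V a, Lv j V a → Good V a → Ω V₀ a₀ ≤ Ω V a := fun j V a b c =>
    g3 ▸ Nat.find_min' hex ⟨j, V, a, b, c, rfl⟩
  obtain ⟨h, hh⟩ := hup j₀ V₀ a₀ g1 g2
  choose β hβ using h5 V₀
  have hM : {m : Fin V₀.r → ℕ | ∀ l, m l * (1 + a₀ l) ≤ 2}.Finite :=
    (Finite.pi' fun l => finite_le_nat ⌊2 / (1 + a₀ l)⌋₊).subset fun m hm l =>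
      Nat.le_floor ((le_div_iff₀ (by linarith [g2.klt l])).2 (hm l))
  have bound : ∀ N, j₀ ≤ N → ((Finset.Ico j₀ N).filter P).card ≤
      ∑ v ∈ Vs, (V₀.r + ∑ l, wt (v - 1) (-a₀ l) 0 * β l + h + hM.toFinset.card) := by
    intro N hN
    obtain ⟨V, π, a, Y, ψ, u1, u2, u3, u4, u5, u6⟩ := hh N hN
    obtain ⟨s, hs⟩ := h1 V V₀ π u1
    obtain ⟨si, sa⟩ := h2 V V₀ π s _ a₀ u1 hs u2
    have se : ∀ k, k ∉ range s → 0 < a j₀ k := fun k hk =>
      (h3 V V₀ π s _ a₀ u1 hs u2 g2.klt k hk).resolve_right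
        fun ⟨l, l', b1, b2, b3, b4, _⟩ => b4 (g2.disj l l' b1 b2 b3)
    have mo : ∀ {i j}, j₀ ≤ i → i ≤ j → j ≤ N → a i ≤ a j :=
      mono_of_succ fun j b c => (u4 j b c).1
    have kl : ∀ {j}, j₀ ≤ j → j ≤ N → ∀ k, -1 < a j k := fun b c k => by
      refine lt_of_lt_of_le ?_ (mo le_rfl b c k)
      by_cases hk : k ∈ range s
      · obtain ⟨l, rfl⟩ := hk
        exact sa l ▸ g2.klt l
      · linarith [se k hk]
    have gN : Good V (a N) := ⟨kl hN le_rfl, fun k k' b1 b2 b3 => by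
      have c1 := mo le_rfl hN le_rfl k
      have c2 := mo le_rfl hN le_rfl k'
      obtain ⟨l, rfl⟩ : k ∈ range s := by_contra fun c => by linarith [se k c]
      obtain ⟨l', rfl⟩ : k' ∈ range s := by_contra fun c => by linarith [se k' c]
      have := g2.disj l l' (fun e => b1 (congrArg s e)) (by linarith [sa l]) (by linarith [sa l'])
      rw [← hs.img, ← hs.img] at this
      exact this.of_image⟩
    have w1 : ∀ v l, wt (v - 1) (-a N (s l)) 0 ≤ wt (v - 1) (-a₀ l) 0 := fun v l =>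
      wt_mono (by linarith [g2.klt l]) (by linarith [sa l, mo le_rfl hN le_rfl (s l)]) le_rfl
    have w2 : ∀ v ∈ Vs, ∀ l, wt (v - 1) (-a N (s l)) 0 = wt (v - 1) (-a₀ l) 0 := by
      have b1 := g4 N V _ u3 gN
      have b2 : Ω V (a N) = ∑ v ∈ Vs, ∑ l, wt (v - 1) (-a N (s l)) 0 :=
        Finset.sum_congr rfl fun v hv => (Fintype.sum_of_injective s si _ _ (fun k hk =>
          wt_zero (gN.klt k) (by linarith [hV v hv, se k hk, mo le_rfl hN le_rfl k]))
          fun _ => rfl).symm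
      have b3 := (Finset.sum_eq_sum_iff_of_le fun v _ => Finset.sum_le_sum
        fun l (_ : l ∈ Finset.univ) => w1 v l).1 (le_antisymm (Finset.sum_le_sum fun v _ =>
        Finset.sum_le_sum fun l _ => w1 v l) (b1.trans b2.le))
      exact fun v hv l => (Finset.sum_eq_sum_iff_of_le fun l _ => w1 v l).1 (b3 v hv) l
        (Finset.mem_univ _)
    have k1 : ∀ v ∈ Vs, ((Finset.Ico j₀ N).filter fun j => ∃ k, a j k < v - 1 ∧
        v - 1 ≤ a (j + 1) k).card ≤ V₀.r + ∑ l, wt (v - 1) (-a₀ l) 0 * β l + h := by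
      intro v hv
      have b1 := count_drop (f := fun j => V.nA (a j) (v - 1)) hN fun j b c =>
        nA_mono (kl b c.le) (u4 j b c).1 (v - 1)
      have b2 := h4 V V₀ π s _ a₀ (v - 1) u1 hs u2 g2 (hV v hv)
      by_cases hα : 0 < v - 1
      · obtain ⟨b3, b4⟩ := u6 gN _ hα (hV v hv)
        have b5 := low h6 gN (hV v hv) u5 b3 b4
        have b6 := Finset.sum_le_sum fun l (_ : l ∈ Finset.univ) => Nat.mul_le_mul_left
          (wt (v - 1) (-a₀ l) 0) (hβ l V π (s l) u1 (hs.img l))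
        have b7 : ∑ l, wt (v - 1) (-a₀ l) 0 * finrank ℝ (V.RG (V.cmp.filter fun c => c.1 = s l)) ≤
            ∑ k, wt (v - 1) (-a N k) 0 * finrank ℝ (V.RG (V.cmp.filter fun c => c.1 = k)) := by
          simp only [← w2 v hv]
          rw [← Finset.sum_image (f := fun k => wt (v - 1) (-a N k) 0 *
            finrank ℝ (V.RG (V.cmp.filter fun c => c.1 = k))) si.injOn]
          exact Finset.sum_le_sum_of_subset (Finset.subset_univ _)
        simp only [mul_add, Finset.sum_add_distrib] at b6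
        omega
      · simp only [fun l => wt_zero (α := v - 1) (g2.klt l) (by linarith [g2.klt l]), zero_mul,
          Finset.sum_const_zero] at b2 ⊢
        omega
    have k2 : ∀ v ∈ Vs, ((Finset.Ico j₀ N).filter fun j => ∃ m : Fin V₀.r → ℕ, (∃ l, m l ≠ 0) ∧
        ∑ l, m l * (1 + a (j + 1) (s l)) = v ∧
          ∀ l, m l ≠ 0 → a j (s l) < a (j + 1) (s l)).card ≤ hM.toFinset.card := by
      intro v hv
      refine Finset.card_le_card_of_forall_subsingleton (fun j m => (∃ l, m l ≠ 0) ∧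
        ∑ l, m l * (1 + a (j + 1) (s l)) = v ∧ ∀ l, m l ≠ 0 → a j (s l) < a (j + 1) (s l))
        (fun j hj => ?_) fun m _ => ?_
      · obtain ⟨b, m, hm⟩ := Finset.mem_filter.1 hj
        rw [Finset.mem_Ico] at b
        refine ⟨m, (Finite.mem_toFinset _).2 fun l => ?_, hm⟩
        have c1 := Finset.single_le_sum (f := fun l => m l * (1 + a (j + 1) (s l))) (fun l _ =>
          mul_nonneg (Nat.cast_nonneg _) (by linarith [kl (j := j + 1) (by omega) b.2 (s l)]))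
          (Finset.mem_univ l)
        have c2 := mul_le_mul_of_nonneg_left (mo le_rfl (j := j + 1) (by omega) b.2 (s l))
          (Nat.cast_nonneg (m l))
        rw [sa l] at c2
        linarith [hV v hv, hm.2.1]
      · have c : ∀ j j', j ∈ Finset.Ico j₀ N → j' ∈ Finset.Ico j₀ N → j < j' → (∃ l, m l ≠ 0) →
            (∀ l, m l ≠ 0 → a j' (s l) < a (j' + 1) (s l)) →
            ∑ l, m l * (1 + a (j + 1) (s l)) < ∑ l, m l * (1 + a (j' + 1) (s l)) := by
          rintro j j' b b' c ⟨l, hl⟩ d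
          rw [Finset.mem_Ico] at b b'
          exact Finset.sum_lt_sum (fun l _ => mul_le_mul_of_nonneg_left (by
            linarith [mo (i := j + 1) (j := j' + 1) (by omega) (by omega) b'.2 (s l)])
            (Nat.cast_nonneg _)) ⟨l, Finset.mem_univ _, mul_lt_mul_of_pos_left (by
            linarith [mo (i := j + 1) (j := j') (by omega) c b'.2.le (s l), d l hl])
            (Nat.cast_pos.2 (Nat.pos_of_ne_zero hl))⟩
        rintro j ⟨b, d⟩ j' ⟨b', d'⟩
        replace b := (Finset.mem_filter.1 b).1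
        replace b' := (Finset.mem_filter.1 b').1
        rcases lt_trichotomy j j' with e | e | e
        · exact absurd (d.2.1.trans d'.2.1.symm) (c j j' b b' e d.1 d'.2.2).ne
        · exact e
        · exact absurd (d'.2.1.trans d.2.1.symm) (c j' j b' b e d.1 d.2.2).ne
    refine le_trans (le_trans (Finset.card_le_card fun j hj => ?_) Finset.card_biUnion_le)
      (Finset.sum_le_sum fun v hv => (Finset.card_union_le _ _).trans (add_le_add (k1 v hv) (k2 v hv)))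
    obtain ⟨b, c⟩ := Finset.mem_filter.1 hj
    have b' := Finset.mem_Ico.1 b
    obtain ⟨v, hv, d⟩ := sl_cases hΛ ((u4 j b'.1 b'.2).2 c) (kl (by omega) b'.2) si
      fun k hk => (se k hk).trans_le (mo le_rfl b'.1 b'.2.le k)
    exact Finset.mem_biUnion.2 ⟨v, (Finite.mem_toFinset _).2 hv, Finset.mem_union.2
      (d.imp (fun d => Finset.mem_filter.2 ⟨b, d⟩) fun d => Finset.mem_filter.2 ⟨b, d⟩)⟩
  by_contra hc
  push Not at hc
  have hi : {j | j₀ ≤ j ∧ P j}.Infinite := infinite_of_forall_exists_gt fun n => by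
    obtain ⟨j, b, c⟩ := hc (j₀ + n + 1)
    exact ⟨j, ⟨by omega, c⟩, by omega⟩
  obtain ⟨t, b, c⟩ := hi.exists_subset_card_eq
    (∑ v ∈ Vs, (V₀.r + ∑ l, wt (v - 1) (-a₀ l) 0 * β l + h + hM.toFinset.card) + 1)
  have d := (Finset.card_le_card (s := t) fun j hj => Finset.mem_filter.2 ⟨Finset.mem_Ico.2
    ⟨(b hj).1, by have := Finset.le_sup (f := id) hj; simp only [id] at this; omega⟩,
    (b hj).2⟩).trans (bound (j₀ + t.sup id + 1) (by omega))
  omega

end Vale.Agent.P277Z.Val
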