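import Vale.Agent.P284Y.Lib.GlC
import Vale.Agent.P284Y.P.PshB
import Vale.Agent.P298.H265.FSLoc

/-!
# P277, block VAL: positivity of Levi forms
-/

open scoped ContDiff Topology ComplexOrder
open Vale.Agent.P272.K Set Filter Metric Real
open Vale.Agent.P284Z (levi cHess_quad cHess_psd_iff)
open Vale.Agent.P284Y.Lib
open Vale.Agent.P298.H265 (nv pot nv_pos nv_nonneg)

noncomputable section

namespace Vale.Agent.P277Z.Val.KP

theorem unif {T : Type} [TopologicalSpace T] {K : Set T} (hK : IsCompact K) {P : ℝ → T → Prop}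
    (h : ∀ y ∈ K, ∃ N₀, ∀ᶠ y' in 𝓝 y, ∀ N, N₀ ≤ N → P N y') :
    ∀ᶠ N in atTop, ∀ y ∈ K, P N y := by
  refine hK.induction_on (p := fun s => ∀ᶠ N in atTop, ∀ y ∈ s, P N y) (by simp)
    (fun s t hst ht => ht.mono fun N h y hy => h y (hst hy))
    (fun s t hs ht => (hs.and ht).mono fun N h y hy => hy.elim (h.1 y) (h.2 y)) fun y hy => ?_
  obtain ⟨N₀, h1⟩ := h y hy
  exact ⟨_, mem_nhdsWithin_of_mem_nhds h1,
    (eventually_ge_atTop N₀).mono fun N hN y' hy' => hy' N hN⟩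

variable {n : ℕ} {u v : Cm n → ℝ} {z w : Cm n}

/-- smooth near `z` -/
def Sw (v : Cm n → ℝ) (z : Cm n) : Prop := ∀ᶠ y in 𝓝 z, ContDiffAt ℝ ∞ v y

theorem Sw.two (h : Sw v z) : ContDiffAt ℝ 2 v z := h.self_of_nhds.of_le two_le_inf

theorem Sw.add (h : Sw u z) (h' : Sw v z) : Sw (fun y => u y + v y) z :=
  (h.and h').mono fun _ k => k.1.add k.2

theorem Sw.const_mul (h : Sw v z) (c : ℝ) : Sw (fun y => c * v y) z :=
  h.mono fun _ k => contDiffAt_const.mul k

theorem an_sm {F : Type} [NormedAddCommGroup F] [NormedSpace ℂ F] [CompleteSpace F]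
    {T : Cm n → F} (h : AnalyticAt ℂ T z) : ∀ᶠ y in 𝓝 z, ContDiffAt ℝ ∞ T y :=
  h.eventually_analyticAt.mono fun _ k => (k.contDiffAt (n := ∞)).restrict_scalars ℝ

theorem Sw.comp {m : ℕ} {T : Cm m → Cm n} {p : Cm m} (h : Sw v (T p)) (hT : AnalyticAt ℂ T p) :
    Sw (fun y => v (T y)) p :=
  ((hT.continuousAt.eventually h).and (an_sm hT)).mono fun y k => k.1.comp y k.2

/-- the Levi form is positive -/
def Pos (v : Cm n → ℝ) (z : Cm n) : Prop := ∀ w, w ≠ 0 → 0 < levi v z w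

theorem levi_zero : levi v z 0 = 0 := by simp [levi]

theorem Pos.nonneg (h : Pos v z) (w : Cm n) : 0 ≤ levi v z w := by
  by_cases hw : w = 0
  · rw [hw, levi_zero]
  · exact (h w hw).le

theorem pos_of_sphere (h : ∀ w ∈ sphere (0 : Cm n) 1, 0 < levi v z w) : Pos v z := fun w hw => by
  have hn := norm_pos_iff.2 hw
  have h1 := h (‖w‖⁻¹ • w) (by simp [norm_smul, inv_mul_cancel₀ hn.ne'])
  rw [levi_smul] at h1
  exact (mul_pos_iff_of_pos_left (pow_pos (inv_pos.2 hn) 2)).1 h1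

theorem Pos.ev (h : Pos v z) (hv : ContDiffAt ℝ 2 v z) : ∀ᶠ y in 𝓝 z, Pos v y :=
  ((isCompact_sphere (0 : Cm n) 1).eventually_forall_of_forall_eventually
    (P := fun y w => 0 < levi v y w) fun w hw => (levi_contAt hv).eventually
      (lt_mem_nhds (h w (ne_zero_of_mem_unit_sphere ⟨w, hw⟩)))).mono fun _ => pos_of_sphere

theorem pos_iff (hv : ContDiffAt ℝ 2 v z) : (cHess v z).PosDef ↔ Pos v z := by
  refine ⟨fun h w hw => ?_, fun h => Matrix.PosDef.of_dotProduct_mulVec_pos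
    ((cHess_psd_iff hv).2 h.nonneg).isHermitian fun x hx => ?_⟩
  · have := h.dotProduct_mulVec_pos (star_ne_zero.2 hw)
    rw [cHess_quad hv, star_star, Complex.zero_lt_real] at this
    linarith
  · rw [cHess_quad hv, Complex.zero_lt_real]
    linarith [h (star x) (star_ne_zero.2 hx)]

theorem exists_N (hu : ContDiffAt ℝ 2 u z) (hv : ContDiffAt ℝ 2 v z) (h0 : ∀ w, 0 ≤ levi v z w)
    (h : ∀ w, w ≠ 0 → levi v z w = 0 → 0 < levi u z w) :
    ∃ N : ℝ, Pos (fun y => u y + N * v y) z := by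
  have c : ∀ {f : Cm n → ℝ}, ContDiffAt ℝ 2 f z → ∀ w, ContinuousAt (levi f z) w := fun hf w =>
    (levi_contAt hf).comp (f := fun w => (z, w)) (by fun_prop)
  obtain ⟨N, hN⟩ := (unif (isCompact_sphere (0 : Cm n) 1)
    (P := fun N w => 0 < levi u z w + N * levi v z w) fun w hw => by
      obtain ⟨N, hN⟩ : ∃ N : ℝ, 0 < levi u z w + N * levi v z w := by
        rcases (h0 w).eq_or_lt with e | e
        · exact ⟨0, by simpa using h w (ne_zero_of_mem_unit_sphere ⟨w, hw⟩) e.symm⟩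
        · refine ⟨(1 - levi u z w) / levi v z w, ?_⟩
          rw [div_mul_cancel₀ _ e.ne']
          linarith
      refine ⟨N, (((c hu w).add ((c hv w).const_mul N)).eventually (lt_mem_nhds hN)).mono
        fun w' h1 N' h2 => h1.trans_le ?_⟩
      have := mul_le_mul_of_nonneg_right h2 (h0 w')
      show levi u z w' + N * levi v z w' ≤ _
      linarith).exists
  refine ⟨N, pos_of_sphere fun w hw => ?_⟩
  rw [levi_add hu (contDiffAt_const.mul hv), levi_const_mul hv]
  exact hN w hw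

theorem levi_nv {κ : Type} [Fintype κ] {H : Cm n → κ → ℂ} (h : AnalyticAt ℂ H z) :
    levi (fun y => nv (H y)) z w = 4 * nv (fderiv ℂ H z w) := by
  have a := analyticAt_pi_iff.1 h
  unfold nv
  rw [levi_sum (f := fun i y => ‖H y i‖ ^ 2) _ fun i _ =>
    (((a i).contDiffAt (n := 2)).restrict_scalars ℝ).norm_sq ℝ, Finset.mul_sum]
  refine Finset.sum_congr rfl fun i _ => ?_
  rw [P284Y.Ps.levi_nsq (a i), fderiv_apply h.differentiableAt i]
  rfl

theorem sw_pot {κ : Type} [Fintype κ] {S : Cm n → κ → ℂ} (h : AnalyticAt ℂ S z) (h0 : S z ≠ 0) :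
    Sw (pot S) z :=
  ((an_sm h).and (h.continuousAt.eventually_ne h0)).mono fun _ k =>
    P298.H265.contDiffAt_pot k.1 k.2

theorem an_ratio {κ : Type} [Fintype κ] {S : Cm n → κ → ℂ} (h : AnalyticAt ℂ S z) {l : κ}
    (hl : S z l ≠ 0) : AnalyticAt ℂ (fun y m => S y m / S y l) z :=
  analyticAt_pi_iff.2 fun m => (analyticAt_pi_iff.1 h m).fun_div (analyticAt_pi_iff.1 h l) hl

/-- the metric of Fubini and Study -/
theorem fs {κ : Type} [Fintype κ] {S : Cm n → κ → ℂ} (h : AnalyticAt ℂ S z) {l : κ}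
    (hl : S z l ≠ 0) : 0 ≤ levi (pot S) z w ∧
      (fderiv ℂ (fun y m => S y m / S y l) z w ≠ 0 → 0 < levi (pot S) z w) := by
  have h0 : S z ≠ 0 := fun e => hl (congrFun e l)
  have h1 := (cHess_quad (sw_pot h h0).two (star w)).symm.trans
    (P298.H265.cHess_pot_quad h.contDiffAt h0 (star w))
  rw [Complex.ofReal_inj, star_star] at h1
  set c := P298.H265.hv (fderiv ℂ S z w) (S z) / (nv (S z) : ℂ)
  have h2 := nv_pos h0
  refine ⟨by linarith [div_nonneg (nv_nonneg (fderiv ℂ S z w - c • S z)) h2.le], fun k => ?_⟩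
  suffices H : fderiv ℂ S z w - c • S z ≠ 0 by linarith [div_pos (nv_pos H) h2]
  refine fun e => k (funext fun m => ?_)
  have a := fun i => (analyticAt_pi_iff.1 h i).differentiableAt
  have b : ∀ i, fderiv ℂ (fun y => S y i) z w = c * S z i := fun i => by
    rw [fderiv_apply h.differentiableAt i]
    exact congrFun (sub_eq_zero.1 e) i
  have d := (analyticAt_pi_iff.1 (an_ratio h hl) m).differentiableAt
  have h5 : (fun y => S y m) =ᶠ[𝓝 z] fun y => (S y m / S y l) * S y l := by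
    filter_upwards [(a l).continuousAt.eventually_ne hl] with y hy
    rw [div_mul_cancel₀ _ hy]
  have h6 := b m
  rw [h5.fderiv_eq, fderiv_fun_mul d (a l)] at h6
  simp only [add_apply, smul_apply, smul_eq_mul, b l] at h6
  have h7 := congrArg (fun L => L w) (fderiv_apply (an_ratio h hl).differentiableAt m)
  refine h7.symm.trans (mul_left_cancel₀ hl ?_)
  rw [mul_comm c, ← mul_assoc, div_mul_cancel₀ _ hl] at h6
  show S z l * fderiv ℂ (fun y => S y m / S y l) z w = S z l * 0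
  linear_combination h6

/-- gluing in the directions where the weights are flat -/
theorem glue0 {ι : Type} (s : Finset ι) {θ b : ι → Cm n → ℝ}
    (hθ : ∀ i ∈ s, ContDiffAt ℝ 2 (θ i) z ∧ levi (θ i) z w = 0 ∧ gsq (θ i) z w = 0)
    (hb : ∀ i ∈ s, ContDiffAt ℝ 2 (b i) z ∧ 0 ≤ levi (b i) z w) {j : ι} (hj : j ∈ s)
    (h0 : θ j z ≠ 0) : 0 ≤ levi (fun y => log (∑ i ∈ s, θ i y ^ 2 * exp (b i y))) z w ∧
      (0 < levi (b j) z w → 0 < levi (fun y => log (∑ i ∈ s, θ i y ^ 2 * exp (b i y))) z w) := by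
  have h1 : 0 < θ j z ^ 2 := sq_pos_of_ne_zero h0
  have hS : 0 < ∑ i ∈ s, θ i z ^ 2 * exp (b i z) :=
    Finset.sum_pos' (fun _ _ => by positivity) ⟨j, hj, by positivity⟩
  have h2 := levi_glue' (w := w) s (fun i hi => (hθ i hi).1) (fun i hi => (hb i hi).1) hS
  rw [Finset.sum_congr rfl (g := fun i => exp (b i z) * (θ i z ^ 2 * levi (b i) z w))
    fun i hi => by rw [(hθ i hi).2.1, (hθ i hi).2.2]; ring] at h2
  have h3 : ∀ i ∈ s, 0 ≤ exp (b i z) * (θ i z ^ 2 * levi (b i) z w) := fun i hi =>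
    mul_nonneg (exp_pos _).le (mul_nonneg (sq_nonneg _) (hb i hi).2)
  exact ⟨(div_nonneg (Finset.sum_nonneg h3) hS.le).trans h2, fun k => (div_pos
    (Finset.sum_pos' h3 ⟨j, hj, mul_pos (exp_pos _) (mul_pos h1 k)⟩) hS).trans_le h2⟩

/-- the local computation -/
theorem core {M : ℕ} {ι : Type} (s : Finset ι) {κ : ι → Type} [∀ i, Fintype (κ i)]
    {Γ : Cm n → Cm M} {Θ : ι → Cm M → ℝ} {S : ∀ i, Cm n → κ i → ℂ} {c : ι → ℝ} {v : Cm M → ℝ}
    (hΓ : AnalyticAt ℂ Γ z) (hΘ : ∀ i ∈ s, Sw (Θ i) (Γ z))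
    (hS : ∀ i ∈ s, AnalyticAt ℂ (S i) z ∧ S i z ≠ 0) (hc : ∀ i, 0 < c i) (hv : Sw v (Γ z))
    (hv' : Pos v (Γ z)) {j : ι} (hj : j ∈ s) (h0 : Θ j (Γ z) ≠ 0) {l : κ j} (hl : S j z l ≠ 0)
    {G : Cm M × (κ j → ℂ) → Cm n} (hG : AnalyticAt ℂ G (Γ z, fun m => S j z m / S j z l)) :
    ∃ (N : ℝ) (F : Cm n → ℝ), Sw F z ∧ Pos F z ∧
      ∀ y, F y = log (∑ i ∈ s, Θ i (Γ y) ^ 2 * exp (c i * pot (S i) y)) +
        nv (y - G (Γ y, fun m => S j y m / S j y l)) + N * v (Γ y) := by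
  have a1 := an_ratio (hS j hj).1 hl
  have a2 := hΓ.prod a1
  have a3 : AnalyticAt ℂ (fun y => G (Γ y, fun m => S j y m / S j y l)) z :=
    AnalyticAt.fun_comp (g := G) hG a2
  have a4 : AnalyticAt ℂ (fun y => y - G (Γ y, fun m => S j y m / S j y l)) z :=
    analyticAt_id.sub a3
  have b1 : ∀ i ∈ s, Sw (fun y => Θ i (Γ y)) z := fun i hi => (hΘ i hi).comp hΓ
  have b2 : ∀ i ∈ s, Sw (fun y => c i * pot (S i) y) z := fun i hi =>
    (sw_pot (hS i hi).1 (hS i hi).2).const_mul _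
  have b3 : Sw (fun y => log (∑ i ∈ s, Θ i (Γ y) ^ 2 * exp (c i * pot (S i) y))) z := by
    filter_upwards [(eventually_all_finset s).2 b1, (eventually_all_finset s).2 b2,
      (b1 j hj).two.continuousAt.eventually_ne h0] with y e1 e2 e3
    exact (ContDiffAt.sum fun i hi => ((e1 i hi).pow 2).mul (e2 i hi).exp).log
      (Finset.sum_pos' (fun _ _ => by positivity) ⟨j, hj, by positivity⟩).ne'
  have b4 : Sw (fun y => nv (y - G (Γ y, fun m => S j y m / S j y l))) z :=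
    (an_sm a4).mono fun _ k => P298.H265.contDiffAt_nv k
  have b5 := hv.comp hΓ
  obtain ⟨N, hN⟩ := exists_N (b3.add b4).two b5.two
    (fun w => by rw [levi_hol hΓ hv.two]; exact hv'.nonneg _) fun w hw e => by
      rw [levi_hol hΓ hv.two] at e
      have e1 : fderiv ℂ Γ z w = 0 := by_contra fun k => (hv' _ k).ne' e
      have e2 : ∀ i ∈ s, levi (fun y => c i * pot (S i) y) z w = c i * levi (pot (S i)) z w :=
        fun i hi => levi_const_mul (sw_pot (hS i hi).1 (hS i hi).2).two _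
      obtain ⟨e3, e4⟩ := glue0 (w := w) s (θ := fun i y => Θ i (Γ y))
        (b := fun i y => c i * pot (S i) y) (fun i hi => ⟨(b1 i hi).two, by
          rw [levi_hol hΓ (hΘ i hi).two, e1, levi_zero], by
          rw [gsq_hol hΓ.differentiableAt ((hΘ i hi).two.differentiableAt two_ne_zero), e1]
          simp [gsq]⟩) (fun i hi => ⟨(b2 i hi).two, by
          obtain ⟨m, hm⟩ := Function.ne_iff.1 (hS i hi).2
          rw [e2 i hi]
          exact mul_nonneg (hc i).le (fs (hS i hi).1 hm).1⟩) hj h0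
      rw [levi_add b3.two b4.two, levi_nv a4]
      by_cases k : fderiv ℂ (fun y m => S j y m / S j y l) z w = 0
      · have e5 : fderiv ℂ (fun y => y - G (Γ y, fun m => S j y m / S j y l)) z w = w := by
          rw [fderiv_fun_sub differentiableAt_fun_id a3.differentiableAt, fderiv_fun_id,
            fderiv_fun_comp (g := G) z hG.differentiableAt a2.differentiableAt,
            hΓ.differentiableAt.fderiv_prodMk a1.differentiableAt]
          simp [e1, k, Prod.mk_zero_zero]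
        rw [e5]
        linarith [nv_pos hw]
      · have := e4 (by rw [e2 j hj]; exact mul_pos (hc j) ((fs (hS j hj).1 hl).2 k))
        linarith [nv_nonneg (fderiv ℂ (fun y => y - G (Γ y, fun m => S j y m / S j y l)) z w)]
  exact ⟨N, _, (b3.add b4).add (b5.const_mul N), hN, fun _ => rfl⟩

end Vale.Agent.P277Z.Val.KP
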