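import Vale.Agent.P277Z.Val.USk2
import Vale.Agent.P277Z.Val.Slc
import Vale.Agent.P277Z.Val.KahPA
import Vale.Agent.P277Z.Glc.Api
import Vale.Agent.P277Z.Glc.BIso
import Vale.Agent.P277Z.Brg.Ramp
import Vale.Agent.P277Z.Brg.Opn
import Vale.Agent.P277Z.Neg.Max

/-!
# P277, block VAL: the negativity lemma
-/

set_option linter.unusedSectionVars false

open scoped Manifold ContDiff Topology
open Vale.Agent.P272.K Vale.Agent.P285.H281.FD Vale.Agent.P277 Set Filter Real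
open Vale.Agent.P277.PH (HolF at_chartAt)
open Vale.Agent.P277Z.Slc (LEq)
open Vale.Agent.P277Z.Brg (PosR PosX lbn_of_isLB)
open Vale.Agent.P277Z.Neg

noncomputable section

namespace Vale.Agent.P277Z.Val

namespace NG

section lm

variable {W : Type} [TopologicalSpace W] {d : ℕ} [ChartedSpace (Cm d) W] {r : ℕ}
  {G : Fin r → Set W} {y : W}

variable (d G) in
/-- `F` is `∑ b l * log ‖ζ l‖` up to a pluriharmonic function -/
def LM (b : Fin r → ℝ) (F : W → ℝ) (y : W) : Prop :=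
  ∀ ζ : Fin r → W → ℂ, (∀ l, LEq d (G l) y (ζ l)) → ∃ h, HolF d h y ∧
    ∀ᶠ x in 𝓝 y, x ∉ ⋃ l, G l → F x = (h x).re + ∑ l, b l * log ‖ζ l x‖

theorem lm_sum {ι : Type} (s : Finset ι) (t : ι → ℝ) {b : ι → Fin r → ℝ} {F : ι → W → ℝ}
    (h : ∀ i, LM d G (b i) (F i) y) :
    LM d G (fun l => ∑ i ∈ s, t i * b i l) (fun x => ∑ i ∈ s, t i * F i x) y := by
  intro ζ hζ
  choose h h1 h2 using fun i => h i ζ hζ
  refine ⟨fun x => ∑ i ∈ s, t i * h i x, fun e he => Finset.analyticAt_fun_sum s fun i _ =>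
    analyticAt_const.mul (h1 i e he), ?_⟩
  filter_upwards [(eventually_all_finset s).2 fun i _ => h2 i] with x a b
  rw [Finset.sum_congr rfl fun i hi => by rw [a i hi b]]
  simp only [mul_add, Finset.sum_add_distrib, Complex.re_sum, Complex.re_ofReal_mul,
    Finset.mul_sum, Finset.sum_mul, mul_assoc]
  rw [Finset.sum_comm]

theorem lm_log [IsManifold 𝓘(ℂ, Cm d) ω W] [T2Space W] [CompactSpace W] {n : Fin r → ℤ}
    {f : W → ℂ} (h : Glc.Mon d G n f y) : LM d G (fun l => n l) (fun x => log ‖f x‖) y := by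
  intro ζ hζ
  obtain ⟨u, h1, h2, h3⟩ := h.any hζ
  refine ⟨fun x => Complex.log (u x / u y) + (log ‖u y‖ : ℝ), fun e he =>
    (((h1 e he).div analyticAt_const h2).clog (by simp [e.left_inv he.2, h2])).add
      analyticAt_const, ?_⟩
  filter_upwards [h3, Glc.leq_ne hζ, Glc.holF_ne h1 h2] with x a b c e
  have k : ∀ l ∈ Finset.univ, ‖ζ l x ^ n l‖ ≠ 0 := fun l _ =>
    norm_ne_zero_iff.2 (zpow_ne_zero _ (b e l))
  rw [a e, norm_mul, norm_prod, log_mul (norm_ne_zero_iff.2 c) (Finset.prod_ne_zero_iff.2 k),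
    log_prod k]
  simp only [Complex.add_re, Complex.log_re, Complex.ofReal_re, norm_div, norm_zpow, log_zpow]
  rw [log_div (norm_ne_zero_iff.2 c) (norm_ne_zero_iff.2 h2), sub_add_cancel]

theorem spsh_cont {φ : W → ℝ} (h : Spsh d φ y) : ContinuousAt φ y := by
  have he := at_chartAt (n := d) y
  refine ((h _ he).1.continuousAt.comp ((chartAt (Cm d) y).continuousAt he.2)).congr ?_
  filter_upwards [(chartAt (Cm d) y).open_source.mem_nhds he.2] with x hx
  show φ _ = φ x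
  rw [(chartAt (Cm d) y).left_inv hx]

theorem up_spsh {φ : W → ℝ} {γ : ℂ → W} (h : Spsh d φ (γ 0)) (hc : ContinuousAt γ 0)
    {e : Chart d W} (he : At e (γ 0)) (ha : AnalyticAt ℂ (fun ζ => e (γ ζ)) 0)
    (h0 : deriv (fun ζ => e (γ ζ)) 0 ≠ 0) : ∃ c > (0 : ℝ), Neg.Up (fun ζ => φ (γ ζ)) c := by
  have h2 : ContDiffAt ℝ 2 (fun z => φ (e.symm z)) (e (γ 0)) := (h e he).1.of_le (by norm_cast)
  refine ⟨_, div_pos ((KP.pos_iff h2).1 (h e he).2 _ h0) four_pos, (up_comp ha h2).congr ?_⟩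
  filter_upwards [hc.eventually (e.open_source.mem_nhds he.2)] with ζ a
  rw [e.left_inv a]

end lm

variable {W : Type} [TopologicalSpace W] [T2Space W] [CompactSpace W] {d : ℕ}
  [ChartedSpace (Cm (d + 1)) W] [IsManifold 𝓘(ℂ, Cm (d + 1)) ω W] {r : ℕ} {G : Fin r → Set W}
  {X : CSp} {p : W → X.pt}

/-- a disc in a contracted component which is tangent to the fibre -/
theorem exists_disc (hG : IsSnc (d + 1) G) (hp : Pj.HolTo (d + 1) X p) {l : Fin r} {k : ℕ} (hk : k < d)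
    (hd : DimLe X k (p '' G l)) {N m : ℕ} {V : Set X.pt} {Ω : Set (Cm N)} {h : Fin m → Cm N → ℂ}
    {φ : X.pt → Cm N} (hm : IsModel X.Hol V Ω h φ) {z : W} (hz : z ∈ G l) (hV : p z ∈ V) :
    ∃ γ : ℂ → W, γ 0 = z ∧ ContinuousAt γ 0 ∧ (∀ᶠ ζ in 𝓝 0, γ ζ ∈ G l) ∧
      (∀ f, HolF (d + 1) f z → AnalyticAt ℂ (fun ζ => f (γ ζ)) 0) ∧
      deriv (fun ζ => φ (p (γ ζ))) 0 = 0 ∧
      deriv (fun ζ => chartAt (Cm (d + 1)) z (γ ζ)) 0 ≠ 0 := by
  obtain ⟨Φ, ρ, lab, H, hl, hs⟩ := hG.nch1 hz 0 (hp.cont.continuousAt.eventually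
    (hm.isOpen.mem_nhds hV))
  have hc := H.crd z H.src
  have e0 : insL (0 : Fin (d + 1)) 0 = Φ z := by rw [map_zero, H.zero]
  have e1 : Φ.symm (insL 0 0) = z := by rw [e0, hc.inv]
  have ha : AnM (d + 1) (fun w => Φ.symm (insL 0 w)) 0 :=
    AnM.comp (e0 ▸ hc.an) ((insL 0).analyticAt _)
  have hf : ∀ f, HolF (d + 1) f z → AnalyticAt ℂ (fun w => f (Φ.symm (insL 0 w))) 0 :=
    fun f k => ha.hol (by rwa [e1])
  have hg : AnalyticAt ℂ (fun w => φ (p (Φ.symm (insL 0 w)))) 0 :=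
    AnalyticAt.pi fun a => hf _ (Brg.Ramp.hol_model hp hm hV a)
  have hb : ∀ᶠ w in 𝓝 (0 : Cm d), Φ.symm (insL 0 w) ∈ G l ∧ p (Φ.symm (insL 0 w)) ∈ V := by
    filter_upwards [(insL (0 : Fin (d + 1))).continuous.continuousAt.eventually
      (show Metric.ball 0 ρ ∈ 𝓝 (insL (0 : Fin (d + 1)) (0 : Cm d)) by
        rw [map_zero]; exact Metric.ball_mem_nhds _ H.pos)] with w hw
    refine ⟨(H.iff1 hl (H.symm_mem hw).1).2 ?_, hs _ (H.symm_mem hw).1⟩
    rw [(H.symm_mem hw).2, insL_self]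
  obtain ⟨v, v1, v2⟩ : ∃ v, fderiv ℂ (fun w => φ (p (Φ.symm (insL 0 w)))) 0 v = 0 ∧ v ≠ 0 := by
    by_contra! k
    exact L44.not_big hk (L44.cv_img (O := V) (F := φ) (fun y hy a => (hm.hol _ hy _).2
      ⟨fun z => z a, (ContinuousLinearMap.proj a : Cm N →L[ℂ] ℂ).analyticAt _, .rfl⟩) hd)
      ⟨_, 0, hb.mono fun w a => ⟨_, ⟨⟨_, a.1, rfl⟩, a.2⟩, rfl⟩, hg,
        (injective_iff_map_eq_zero _).2 k⟩
  have a0 : (0 : ℂ) • v = 0 := zero_smul _ _
  have a1 : HasDerivAt (fun ζ : ℂ => ζ • v) v 0 := by simpa using (hasDerivAt_id (0 : ℂ)).smul_const v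
  have a2 : Tendsto (fun ζ : ℂ => ζ • v) (𝓝 0) (𝓝 0) := a0 ▸ a1.continuousAt
  refine ⟨fun ζ => Φ.symm (insL 0 (ζ • v)), by simp only [a0, e1], ContinuousAt.comp_of_eq
    (g := fun w => Φ.symm (insL 0 w)) (f := fun ζ : ℂ => ζ • v) ha.1 a1.continuousAt a0, (a2.eventually hb).mono fun _ a => a.1, fun f k =>
    (hf f k).comp_of_eq (f := fun ζ : ℂ => ζ • v) (by fun_prop) a0, ?_, ?_⟩
  · exact (hg.differentiableAt.hasFDerivAt.comp_hasDerivAt_of_eq 0 a1 a0.symm).deriv.trans v1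
  · have b1 := hc.chg (crd_chart (at_chartAt z))
    have b2 := (b1.1.differentiableAt.hasFDerivAt.comp_hasDerivAt_of_eq 0
      ((insL 0).hasFDerivAt.comp_hasDerivAt 0 a1) (by rw [← e0, Function.comp, a0])).deriv
    refine fun k => v2 ?_
    rw [← rem_ins 0 v, (injective_iff_map_eq_zero _).1 b1.inj _ (b2.symm.trans k), map_zero]

/-- A divisor with coefficients `≤ 0` in a relatively positive class contains all contracted
components. -/
theorem core (hG : IsSnc (d + 1) G) (hp : Pj.HolTo (d + 1) X p) {α : Type} [Fintype α]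
    {L : α → Bd W} (hL : ∀ a, IsLB (d + 1) (L a)) {c : α → ℝ} {l₀ : Fin r} {z₀ : W}
    (hz : z₀ ∈ G l₀) (hpos : PosR (d + 1) (p ⁻¹' {p z₀}) L c) {O : Set X.pt} (hO : O ∈ 𝓝 (p z₀))
    {F : (∀ a, (L a).ι) → W → ℝ} {b : Fin r → ℝ}
    (chg : ∀ y k k', p y ∈ O → y ∉ ⋃ l, G l → (∀ a, y ∈ (L a).U (k a)) → (∀ a, y ∈ (L a).U (k' a)) →
      F k y = F k' y + ∑ a, c a * log (‖(L a).g (k a) (k' a) y‖ ^ 2))
    (loc : ∀ y k, p y ∈ O → (∀ a, y ∈ (L a).U (k a)) → LM (d + 1) G b (F k) y)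
    (hb : ∀ l, b l ≤ 0) (h0 : b l₀ = 0) {k : ℕ} (hk : k < d) (hd : DimLe X k (p '' G l₀)) :
    False := by
  obtain ⟨Λ, hΛ⟩ := hpos
  obtain ⟨N, m, V₀, Ω, h, φ, hx, hm⟩ := X.model (p z₀)
  obtain ⟨V, V1, V2, V3⟩ := eventually_nhds_iff.1 ((hp.cont.isClosedMap.eventually_nhds_fiber _
    fun w hw => Brg.Ramp.posX_ev hL (hΛ w hw)).and (Eventually.and (p := fun x => x ∈ O) hO
      (hm.isOpen.mem_nhds hx)))
  have hV : ∀ y, p y ∈ V → ∀ᶠ x in 𝓝 y, p x ∈ V := fun y a =>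
    hp.cont.continuousAt.eventually (V2.mem_nhds a)
  choose κ hκ using fun y a => (hL a).cover y
  choose ζ hζ using fun y => (Slc.snc_of_isSnc hG y).imp fun _ h => h.1
  choose! H H1 H2 using fun y (a : p y ∈ V) => loc y _ (V1 _ a).2.1 (hκ y) _ (hζ y)
  set Q : W → W → ℝ := fun y x => exp (Λ (κ y) x - (H y x).re) * ∏ l, ‖ζ y l x‖ ^ (-b l) with hQ
  have hS : ∀ y, p y ∈ V → ∀ᶠ x in 𝓝 y, Spsh (d + 1) (Λ (κ y)) x := fun y a =>
    ((V1 _ a).1 y rfl).all (fun a => lbn_of_isLB (hL a) univ) (mem_univ y) (hκ y)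
  have A : ∀ y, p y ∈ V → ∀ᶠ x in 𝓝 y, x ∉ ⋃ l, G l → Q y x = exp (Λ (κ x) x - F (κ x) x) := by
    intro y a
    filter_upwards [H2 y a, hV y a, Glc.leq_ne (hζ y), ((V1 _ a).1 y rfl).chg,
      eventually_all.2 fun a => ((hL a).isOpen _).mem_nhds (hκ y a)] with x a1 a2 a3 a4 a5 a6
    rw [a4 _ _ (hκ x) a5, chg x _ _ (V1 _ a2).2.1 a6 (hκ x) a5, a1 a6, add_sub_add_right_eq_sub,
      ← sub_sub, sub_eq_add_neg (_ - _), exp_add, ← Finset.sum_neg_distrib, exp_sum]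
    refine congrArg _ (Finset.prod_congr rfl fun l _ => ?_)
    rw [rpow_def_of_pos (norm_pos_iff.2 (a3 a6 l)), mul_comm, neg_mul]
  have B : ∀ y, p y ∈ V → ∀ᶠ x in 𝓝 y, ContinuousAt (Q y) x := by
    intro y a
    filter_upwards [hS y a, holF_ev (H1 y a), Glc.leq_ev (hζ y)] with x a1 a2 a3
    exact ((spsh_cont a1).sub (Complex.continuous_re.continuousAt.comp (holF_cont a2))).rexp.mul
      (tendsto_finsetProd _ fun l _ =>
        (holF_cont (a3 l).holF).norm.rpow_const (.inr (neg_nonneg.2 (hb l))))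
  have C : ∀ y, p y ∈ V → ∀ᶠ x in 𝓝 y, Q x x = Q y x := by
    intro y a
    filter_upwards [B y a, (A y a).eventually_nhds, hV y a] with x a1 a2 a3
    refine tendsto_nhds_unique_of_frequently_eq (B x a3).self_of_nhds a1
      (((hG.freq ∅ (by simp)).and_eventually (a2.and (A x a3))).mono fun w k => ?_)
    have k1 : w ∉ ⋃ l, G l := by simpa using k.1
    exact (k.2.2 k1).trans (k.2.1 k1).symm
  obtain ⟨z₁, z1, z2⟩ := ((hG.freq {l₀} (by simpa using hz)).and_eventually (hV z₀ V3)).exists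
  refine maxp (S := G l₀) (P := fun x => Q x x) (φ := φ) (z₁ := z₁) V2 hp.cont
    (fun K _ k => ((hG.closed' l₀).inter (k.isClosed.preimage hp.cont)).isCompact)
    ((continuousOn_iff_continuous_domRestrict.2 hm.emb.continuous).mono fun x a => (V1 x a).2.2)
    (fun x a e => congrArg Subtype.val (hm.emb.injective (a₁ := ⟨x, (V1 x a).2.2⟩)
      (a₂ := ⟨_, (V1 _ z2).2.2⟩) e))
    (fun y a => ((B y a.2).self_of_nhds.congr
      (EventuallyEq.symm (C y a.2))).continuousWithinAt) ((z1 _).2 rfl) z2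
    (mul_pos (exp_pos _) (Finset.prod_pos fun l _ => ?_)) fun z a1 a2 a3 => ?_
  · by_cases e : l = l₀
    · simp [e, h0]
    · exact rpow_pos_of_pos (norm_pos_iff.2 ((hζ _ l).ne (mt (z1 l).1 e))) _
  obtain ⟨γ, rfl, g2, g3, g4, g5, g6⟩ := exists_disc hG hp hk hd hm a1 (V1 _ a2).2.2
  obtain ⟨s, s0, hs⟩ := up_spsh (hS _ a2).self_of_nhds g2 (at_chartAt _)
    (AnalyticAt.pi fun i => g4 _ (holF_chart (at_chartAt _) i)) g6
  have D : ∀ l, b l = 0 ∨ ζ (γ 0) l (γ 0) ≠ 0 := fun l => or_iff_not_imp_left.2 fun e e' =>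
    a3.ne' (mul_eq_zero_of_right _ (Finset.prod_eq_zero (Finset.mem_univ l)
      (by rw [e', norm_zero, zero_rpow (neg_ne_zero.2 e)])))
  refine ⟨γ, rfl, g2, g3, AnalyticAt.pi fun a => g4 _
    (Brg.Ramp.hol_model hp hm (V1 _ a2).2.2 a), g5, s, s0, ?_⟩
  have u := (hs.add (up_re (g4 _ (H1 _ a2)).neg)).add (up_sum Finset.univ (b := fun _ => 0)
    (f := fun l w => -b l * log ‖ζ (γ 0) l (γ w)‖) fun l _ => (D l).elim
      (fun e => by simpa [e] using up_const 0) fun e => up_log (g4 _ (hζ _ l).holF) e _)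
  rw [Finset.sum_const_zero, add_zero, add_zero] at u
  refine u.congr ?_
  filter_upwards [g2.eventually (C _ a2), g2.eventually (eventually_all.2 fun l =>
    show ∀ᶠ x in 𝓝 (γ 0), b l = 0 ∨ ζ (γ 0) l x ≠ 0 from (D l).elim
      (fun e => .of_forall fun _ => .inl e)
      fun e => (Glc.holF_ne (hζ _ l).holF e).mono fun _ => .inr)] with w e1 e2
  have e3 : ∀ l ∈ Finset.univ, ‖ζ (γ 0) l (γ w)‖ ^ (-b l) ≠ 0 := fun l _ => (e2 l).elim
    (fun e => by simp [e]) fun e => (rpow_pos_of_pos (norm_pos_iff.2 e) _).ne'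
  rw [e1, log_mul (exp_pos _).ne' (Finset.prod_ne_zero_iff.2 e3), log_exp, log_prod e3]
  refine congrArg₂ _ (by simp [sub_eq_add_neg]) (Finset.sum_congr rfl fun l _ => (e2 l).elim
    (fun e => by simp [e]) fun e => log_rpow (norm_pos_iff.2 e) _)

/-- the bundles `K`, `P`, `M e` -/
def fam {T : Type} {k : ℕ} (K P : Bd T) (M : Fin k → Bd T) : Option (Option (Fin k)) → Bd T
  | none => K
  | some none => P
  | some (some e) => M e

/-- relatively ample plus nef is relatively positive -/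
theorem pos_fam {n : ℕ} {W : Type} [TopologicalSpace W] [T2Space W] [CompactSpace W]
    [ChartedSpace (Cm n) W] [IsManifold 𝓘(ℂ, Cm n) ω W] {p : W → X.pt} (hp : Pj.HolTo n X p)
    {α : Type} [Fintype α] [DecidableEq α] {L : α → Bd W} (hL : ∀ a, IsLB n (L a)) {a₀ : α}
    (hA : RelAmple (H60.Z.XH n W) X p (L a₀)) {χ : Chart n W → Cm n → Matrix (Fin n) (Fin n) ℂ}
    (hχ : IsHermitian χ) {c : α → ℝ} (h0 : 0 < c a₀)
    (hc : ∀ a, a ≠ a₀ → c a = 0 ∨ 0 ≤ c a ∧ Nef χ (L a)) (x : X.pt) : PosR n (p ⁻¹' {x}) L c := by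
  have hF : IsCompact (p ⁻¹' {x}) := (isClosed_singleton.preimage hp.cont).isCompact
  have h1 := (PosR.push (fun a => lbn_of_isLB (hL a) _) (fun _ : Unit => a₀)
    (Brg.ramp n W X p _ hp (hL a₀) hA x)).smul h0
  have key : ∀ s : Finset α, a₀ ∉ s → PosR n (p ⁻¹' {x}) L
      (Pi.single a₀ (c a₀) + ∑ a ∈ s, Pi.single a (c a)) := fun s => by
    induction s using Finset.induction_on with
    | empty => simpa [← Pi.single_smul] using h1
    | insert a s ha ih =>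
      intro k
      rw [Finset.mem_insert, not_or] at k
      rw [Finset.sum_insert ha, add_comm (Pi.single a _), ← add_assoc]
      rcases hc a (Ne.symm k.1) with e | e
      · simpa [e] using ih k.2
      · exact (ih k.2).nef hF (fun a => lbn_of_isLB (hL a) _) hχ e.2 e.1
  have h2 := key (Finset.univ.erase a₀) (Finset.notMem_erase _ _)
  rwa [Finset.add_sum_erase _ (fun a => (Pi.single a (c a) : α → ℝ)) (Finset.mem_univ _),
    Finset.univ_sum_single] at h2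

end NG

open NG in
/-- (NEGV) -/
theorem negV : StNegV := by
  intro k ρ m V χ M X L c p exc n _ hL hc h hM hm hn
  classical
  by_contra! hl
  obtain ⟨l, hl⟩ := hl
  obtain ⟨P, q, τ, P1, P2, P3, P4⟩ := h.res.amp
  obtain ⟨t, ht⟩ := h.cmp
  have hle : l ∈ exc := by_contra fun e => absurd (hn l e) (not_le.2 hl)
  obtain ⟨l₀, l1, l2⟩ := exc.exists_max_image (fun l => disc ρ c n l / q l) ⟨l, hle⟩
  have hq : ∀ l ∈ exc, (0 : ℝ) < q l := fun l e => Nat.cast_pos.2 ((P3 l).2 e)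
  set s := disc ρ c n l₀ / q l₀ with hs
  have s0 : 0 < s := (div_pos hl (hq l hle)).trans_le (l2 l hle)
  obtain ⟨z₀, hz⟩ := (V.conn l₀).nonempty
  choose i₀ hi using fun e => (hL e).cover (p z₀)
  have hp : Pj.HolTo 4 X p := ⟨h.res.cont, h.res.hol⟩
  have hF : ∀ a, IsLB 4 (fam (Bd.can 4 V.W) P M a) := by
    rintro (_ | _ | e)
    exacts [Slc.isLB_can, P1, h.lb e]
  have hd : ∀ e y i j, p y ∈ (L e).U i → y ∈ ((((Bd.can 4 V.W).pow (m e)).mul (M e)).pow (c e)).U j →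
      Glc.Mon 4 V.G (n e) (t e i j) y := fun e y i j a b => by
    obtain ⟨ζ, h1, h2⟩ := ht.div y
    obtain ⟨u, h3, h4, h5⟩ := h2 e i j a b
    exact ⟨ζ, u, h1, h4, h3, h5⟩
  have hτ : ∀ y i, y ∈ P.U i → Glc.Mon 4 V.G (fun l => q l) (τ i) y := fun y i a => by
    obtain ⟨ζ, h1⟩ := V.exEq y
    obtain ⟨u, h3, h4, h5⟩ := P4.div y i ζ a h1
    exact ⟨ζ, u, h1, h3, h4, h5.mono fun x b _ => by simpa only [zpow_natCast] using b⟩
  let _ : ChartedSpace (Cm (3 + 1)) V.W := V.ch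
  have : IsManifold 𝓘(ℂ, Cm (3 + 1)) ω V.W := V.mf
  refine core (d := 3) V.snc hp hF (c := fun a => a.elim 0 fun a => a.elim s fun e => max (ρ e) 0)
    hz (pos_fam hp hF (a₀ := some none) P2 h.kahler.toIsHermitian s0 ?_ _)
    (O := ⋂ e, (L e).U (i₀ e)) (iInter_mem.2 fun e => ((hL e).isOpen _).mem_nhds (hi e))
    (F := fun κ y => ∑ a : Option (Fin k), a.elim (-2 * s) (fun e => 2 * (ρ e / c e)) *
      a.elim (log ‖τ (κ (some none)) y‖) fun e => log ‖t e (i₀ e) (κ none, κ (some (some e))) y‖)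
    (b := fun l => ∑ a : Option (Fin k), a.elim (-2 * s) (fun e => 2 * (ρ e / c e)) *
      a.elim (q l : ℝ) fun e => n e l) ?_ ?_ ?_ ?_ (k := 2) (by norm_num)
    (h.res.dim.mono (image_mono (subset_biUnion_of_mem (u := V.G) (Finset.mem_coe.2 l1))))
  · rintro (_ | _ | e) k
    exacts [.inl rfl, absurd rfl k, .inr ⟨le_max_right _ _, h.nef e⟩]
  · intro y κ κ' a1 a2 a3 a4
    have b1 := norm_ne_zero_iff.2 ((hF _).ne_zero _ _ y (a3 none) (a4 none))
    have b2 := fun e => norm_ne_zero_iff.2 ((hF _).ne_zero _ _ y (a3 (some e)) (a4 (some e)))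
    have b3 : log ‖τ (κ (some none)) y‖ = log ‖τ (κ' (some none)) y‖ -
        log ‖P.g (κ (some none)) (κ' (some none)) y‖ := by
      rw [P4.sec.change _ _ y (a3 (some none)) (a4 (some none)), norm_mul]
      refine (log_mul (norm_ne_zero_iff.2 (inv_ne_zero (norm_ne_zero_iff.1 (b2 none))))
        (norm_ne_zero_iff.2 ((hτ y _ (a4 (some none))).ne.self_of_nhds a2))).trans ?_
      rw [norm_inv, log_inv, neg_add_eq_sub]
      rfl
    have b4 : ∀ e, ρ e / c e * log ‖t e (i₀ e) (κ none, κ (some (some e))) y‖ =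
        ρ e / c e * log ‖t e (i₀ e) (κ' none, κ' (some (some e))) y‖ +
          ρ e * m e * log ‖(Bd.can 4 V.W).g (κ none) (κ' none) y‖ +
          max (ρ e) 0 * log ‖(M e).g (κ (some (some e))) (κ' (some (some e))) y‖ := fun e => by
      have c0 : (c e : ℝ) ≠ 0 := Nat.cast_ne_zero.2 (Nat.one_le_iff_ne_zero.1 (hc e))
      have c1 := mem_iInter.1 a1 e
      have c2 : max (ρ e) 0 * log ‖(M e).g (κ (some (some e))) (κ' (some (some e))) y‖ =
          ρ e * log ‖(M e).g (κ (some (some e))) (κ' (some (some e))) y‖ := by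
        rcases le_or_gt 0 (ρ e) with k | k
        · rw [max_eq_left k]
        · have : ∀ B : Bd V.W, B = triv V.W → ∀ i j, B.g i j y = 1 := by rintro _ rfl _ _; rfl
          rw [this _ (hM e k) (κ (some (some e))) (κ' (some (some e))), norm_one, log_one, mul_zero,
            mul_zero]
      rw [ht.change y e _ _ (κ' none, κ' (some (some e))) (κ none, κ (some (some e))) a2 c1 c1
        ⟨a4 none, a4 (some (some e))⟩ ⟨a3 none, a3 (some (some e))⟩, Glc.lb_self (hL e) c1, one_mul,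
        c2]
      have c3 := norm_ne_zero_iff.2 ((hd e y _ (κ' none, κ' (some (some e))) c1
        ⟨a4 none, a4 (some (some e))⟩).ne.self_of_nhds a2)
      have c4 : ‖(Bd.can 4 V.W).g (κ none) (κ' none) y‖ ^ m e ≠ 0 := pow_ne_zero _ b1
      have c5 : ‖(M e).g (κ (some (some e))) (κ' (some (some e))) y‖ ≠ 0 := b2 (some e)
      show _ * log ‖_ * ((Bd.can 4 V.W).g (κ none) (κ' none) y ^ m e *
        (M e).g (κ (some (some e))) (κ' (some (some e))) y) ^ c e‖ = _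
      rw [norm_mul, norm_pow, norm_mul, norm_pow, log_mul c3 (pow_ne_zero _ (mul_ne_zero c4 c5)),
        log_pow, log_mul c4 c5, log_pow]
      field_simp
      ring
    simp only [Fintype.sum_option, Option.elim, mul_assoc (2 : ℝ), b3, b4, log_pow, mul_add,
      Finset.sum_add_distrib, ← Finset.mul_sum, ← Finset.sum_mul, hm, fam, Nat.cast_ofNat,
      mul_left_comm _ (2 : ℝ)]
    ring
  · intro y κ a1 a2
    refine lm_sum _ _ ?_
    rintro (_ | e)
    · simpa using lm_log (hτ y _ (a2 (some none)))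
    · exact lm_log (hd e y _ _ (mem_iInter.1 a1 e) ⟨a2 none, a2 (some (some e))⟩)
  all_goals
    have key : ∀ l, ∑ a : Option (Fin k), a.elim (-2 * s) (fun e => 2 * (ρ e / c e)) *
        a.elim (q l : ℝ) (fun e => n e l) = 2 * (disc ρ c n l - s * q l) := fun l => by
      simp only [Fintype.sum_option, Option.elim, disc, mul_sub, Finset.mul_sum]
      rw [Finset.sum_congr rfl fun e _ => show 2 * (ρ e / c e) * n e l = 2 * (ρ e * n e l / c e) by
        ring]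
      ring
  · intro l
    rw [key]
    by_cases e : l ∈ exc
    · linarith [(div_le_iff₀ (hq l e)).1 (l2 l e)]
    · have : q l = 0 := by simpa [e] using P3 l
      simpa [this] using mul_nonpos_of_nonneg_of_nonpos zero_le_two (hn l e)
  · rw [key, hs, div_mul_cancel₀ _ (hq l₀ l1).ne', sub_self, mul_zero]

end Vale.Agent.P277Z.Val
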