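import Vale.Agent.P277.Stmts12

/-!
# P277: terminal pairs with effective boundary are smooth in codimension two (statement)
-/

open scoped Manifold ContDiff Topology
open Vale.Agent.P272.K Vale.Agent.P285.H281.FD Vale.Agent.P277 Set Filter

noncomputable section

namespace Vale.Agent.P277Z.Val

/-- `T2.StRegCore` with an effective boundary `Γ`: the comparison functions `T e` are only defined
off `Γ`, and the weighted product of their norms is bounded below near the points of `O`. -/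
def StRegY : Prop :=
  ∀ (Y : Type) [TopologicalSpace Y] [T2Space Y] [CompactSpace Y] [ChartedSpace (Cm 4) Y]
    [IsManifold 𝓘(ℂ, Cm 4) ω Y] (χ : Chart 4 Y → Cm 4 → Matrix (Fin 4) (Fin 4) ℂ)
    (_ : IsKahler χ) (k : ℕ) (M : Fin k → Bd Y) (_ : ∀ e, IsLB 4 (M e)) (_ : ∀ e, Nef χ (M e))
    (m : Fin k → ℕ) (ρ : Fin k → ℝ) (_ : ∀ e, 0 < ρ e) (_ : ∑ e, ρ e * m e = 1)
    (X : CSp) (_ : IsNormal 4 X) (O : Set Y) (v : Y → X.pt) (_ : IsOpenEmb X O v)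
    (_ : DimLe X 2 (v '' O)ᶜ) (Γ : Set Y) (_ : IsClosed Γ)
    (_ : ∀ x, ∃ h : X.pt → ℂ, X.Hol h x ∧
      ∀ᶠ x' in 𝓝 x, (¬ h =ᶠ[𝓝 x'] 0) ∧ (x' ∈ v '' (O ∩ Γ) → h x' = 0))
    (L : Fin k → Bd X.pt) (_ : ∀ e, IsLBx X (L e)) (Q : Fin k → ℕ) (_ : ∀ e, 1 ≤ Q e)
    (T : ∀ e, (L e).ι → ((((Bd.can 4 Y).pow (m e)).mul (M e)).pow (Q e)).ι → Y → ℂ)
    (_ : ∀ e, IsIsoY (O \ Γ) v (L e) ((((Bd.can 4 Y).pow (m e)).mul (M e)).pow (Q e)) (T e))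
    (_ : ∀ y ∈ O, ∀ (ch : Chart 4 Y) (i : ∀ e, (L e).ι) (μ : ∀ e, (M e).ι), At ch y →
      (∀ e, v y ∈ (L e).U (i e)) → (∀ e, y ∈ (M e).U (μ e)) → ∃ C : ℝ, ∀ᶠ y' in 𝓝 y, y' ∉ Γ →
        -C ≤ ∑ e, ρ e / Q e * Real.log ‖T e (i e) (ch, μ e) y'‖)
    (S : Set X.pt) (_ : IsAn X univ S) (_ : S ⊆ (v '' O)ᶜ)
    (_ : ∀ (W : Set (Cm 4)) (w₀ : Cm 4) (φ : Cm 4 → X.pt), IsOpen W → w₀ ∈ W → w₀ 0 = 0 →
      (∀ w ∈ W, HolAt X φ w) → (∀ w ∈ W, w 0 = 0 → φ w ∈ S) →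
      W ⊆ closure {w | w ∈ W ∧ φ w ∈ v '' (O \ Γ)} →
      ∃ w₁ ∈ W, w₁ 0 = 0 ∧ T2.LiftV (O \ Γ) v L M m Q T ρ φ w₁),
    DimLe X 1 {x | x ∈ S ∧ ¬ IsReg 4 X x}

end Vale.Agent.P277Z.Val
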