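import Vale.Agent.P277Z.Val.Reg3
import Vale.Agent.P277Z.Val.RegSk

/-!
# P277, REG with boundary: proof of `StRegY`
-/

open scoped Manifold ContDiff ComplexOrder Topology
open Vale.Agent.P272.K Vale.Agent.P285.H281.FD Vale.Agent.P267.H175 Set Metric Filter

noncomputable section

namespace Vale.Agent.P277Z.Val.Reg

open Vale.Agent.P277 Vale.Agent.P277.TX Vale.Agent.P277.H19 Vale.Agent.P277.H371
  Vale.Agent.P277.T2 Vale.Agent.P277.H335.RC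

section
variable {Y : Type} [TopologicalSpace Y] [T2Space Y] [CompactSpace Y] [ChartedSpace (Cm 4) Y]
  [IsManifold 𝓘(ℂ, Cm 4) ω Y] {X : CSp} {S V : Set X.pt} {G : X.pt → Cm 4} {c : Cm 4} {r : ℝ}
  {d : ℕ} {lam : X.pt → ℂ} {θ : Cm 4 → ℂ} {O Γ : Set Y}
  {v : Y → X.pt} {k : ℕ} {L : Fin k → Bd X.pt} {M : Fin k → Bd Y} {m Q : Fin k → ℕ}
  {T : ∀ e, (L e).ι → ((((Bd.can 4 Y).pow (m e)).mul (M e)).pow (Q e)).ι → Y → ℂ}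
  {ρ : Fin k → ℝ} {χ : Chart 4 Y → Cm 4 → Matrix (Fin 4) (Fin 4) ℂ}

theorem sharpY (hX : IsNormal 4 X)
    (hχ : IsKahler χ) (hM : ∀ e, IsLB 4 (M e)) (hNef : ∀ e, Nef χ (M e))
    (hρ : ∀ e, 0 < ρ e) (hρm : ∑ e, ρ e * m e = 1) (hv : IsOpenEmb X O v)
    (hO : DimLe X 2 (v '' O)ᶜ) (hΓ : IsClosed Γ) (hSan : IsAn X univ S) (hS2 : DimLe X 2 S)
    (hL : ∀ e, IsLBx X (L e)) (hQ : ∀ e, 1 ≤ Q e)
    (hT : ∀ e, IsIsoY (O \ Γ) v (L e) ((((Bd.can 4 Y).pow (m e)).mul (M e)).pow (Q e)) (T e))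
    (hlow : ∀ y ∈ O, ∀ (ch : Chart 4 Y) (i : ∀ e, (L e).ι) (μ : ∀ e, (M e).ι), At ch y →
      (∀ e, v y ∈ (L e).U (i e)) → (∀ e, y ∈ (M e).U (μ e)) → ∃ C : ℝ, ∀ᶠ y' in 𝓝 y, y' ∉ Γ →
        -C ≤ ∑ e, ρ e / Q e * Real.log ‖T e (i e) (ch, μ e) y'‖)
    (hg : IsGood X S V G c r d lam θ) (hΓθ : ∀ y ∈ O, v y ∈ V → θ (G (v y)) ≠ 0 → y ∉ Γ)
    {n : ℕ} {ζ : Fin n → X.pt → ℂ} (hζ : IsCoord X V ζ)
    (hlifts : ∀ (W : Set (Cm 4)) (w₀ : Cm 4) (φ : Cm 4 → X.pt), IsOpen W → w₀ ∈ W → w₀ 0 = 0 →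
      (∀ w ∈ W, HolAt X φ w) → (∀ w ∈ W, w 0 = 0 → φ w ∈ S) →
      W ⊆ closure {w | w ∈ W ∧ φ w ∈ v '' (O \ Γ)} →
      ∃ w₁ ∈ W, w₁ 0 = 0 ∧ LiftV (O \ Γ) v L M m Q T ρ φ w₁) : d = 1 := by
  obtain ⟨r₁, a, b, hr₁, hr₁r, ha, hb, hbne, hgen⟩ :=
    H29.stAlg X hX S hSan hS2 V G c r d lam θ hg n ζ hζ
  -- a common radius
  let fam : (Σ l : Fin d, (Fin (l : ℕ) → Fin n)) ⊕ Fin d → X.pt → ℂ := fun i =>
    i.elim (fun p x => ∏ t, ζ (p.2 t) x) (fun l x => lam x ^ (l : ℕ))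
  have hfam : ∀ i, ∀ x ∈ V, X.Hol (fam i) x := by
    rintro (p | l) x hx
    · exact hol_prod _ fun t _ => hζ.hol _ x hx
    · exact hol_pow (hg.lamHol x hx) _
  obtain ⟨r₂, hr₂, hr₂₁, hgen₂⟩ := exists_radius (p := fun i ρ =>
      Gen {x | x ∈ V ∧ G x ∈ ball c ρ} G c ρ a b (fam i)) (fun i => by
        obtain ⟨ρ, hρ, -, f, hf1, hf2⟩ := hgen (fam i) (hfam i)
        exact ⟨ρ, hρ, f, hf1, fun x hx => hf2 x hx.1 hx.2⟩)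
    (fun i ρ ρ' _ hρ' h => h.mono (fun x hx => ⟨hx.1, ball_subset_ball hρ' hx.2⟩)
      (ball_subset_ball hρ')) hr₁
  have hsub₂ : ball c r₂ ⊆ ball c r := ball_subset_ball (hr₂₁.trans hr₁r)
  set V₂ : Set X.pt := {x | x ∈ V ∧ G x ∈ ball c r₂} with hV₂
  have hg₂ : IsGood X S V₂ G c r₂ d lam θ := IsGood.restrict H335.stCovRes hg hr₂ hsub₂ hg.c0 hg.c1
  have hthin := H19.stThin Y X O v hv hO V₂ G c r₂ d lam θ hg₂.toIsCov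
  obtain ⟨z, hz, hz0, hz1, hbz⟩ := hbne r₂ hr₂
  obtain ⟨w₀, m', Φ, hw₀0, hw₀, hbw₀, hbaw₀, hΦ, hΦ0, hΦe⟩ :=
    exists_base hg₂.toIsCov hz hz0 hz1 (hb z (ball_subset_ball hr₂₁ hz)) hbz
  obtain ⟨N, s, ε, φ, hN, hε, hε1, hs, hφ, hE, hcases⟩ :=
    stPuiS X V₂ G c r₂ d lam θ hg₂.toIsCov w₀ hw₀0 hw₀ m' Φ hΦ hΦ0 hΦe
  have hφ' : ∀ k, ∀ w ∈ ball w₀ ε, HolAt X (φ k) w ∧ φ k w ∈ V₂ ∧ G (φ k w) = pw (s k) w := hφ
  -- the set `W₀`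
  have hW₀ : ∀ᶠ w in 𝓝 w₀, w ∈ ball w₀ ε ∧ bl w ∈ ball c r₂ ∧ b (bl w) ≠ 0 ∧ Φ w ≠ 0 ∧
      θ (bl w) = w 0 ^ m' * Φ w := by
    filter_upwards [ball_mem_nhds w₀ hε, continuous_bl.continuousAt.eventually
      (isOpen_ball.mem_nhds hw₀), continuous_bl.continuousAt.eventually
      (hbaw₀.continuousAt.eventually_ne hbw₀), hΦ.continuousAt.eventually_ne hΦ0, hΦe]
      with w h1 h2 h3 h4 h5
    exact ⟨h1, h2, h3, h4, h5⟩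
  obtain ⟨W₀, hW₀s, hW₀o, hw₀W₀⟩ := _root_.mem_nhds_iff.1 hW₀
  have hex : ∀ k, ∀ W' ⊆ W₀, IsOpen W' → ∀ w' ∈ W', w' 0 = 0 →
      ∃ w₁ ∈ W', w₁ 0 = 0 ∧ LiftV (O \ Γ) v L M m Q T ρ (φ k) w₁ := by
    intro k W' hW' hW'o w' hw' hw'0
    have hb' : ∀ w ∈ W', w ∈ ball w₀ ε := fun w hw => (hW₀s (hW' hw)).1
    refine hlifts W' w' (φ k) hW'o hw' hw'0 (fun w hw => (hφ' k w (hb' w hw)).1)
      (fun w hw h0 => ?_) ?_
    · obtain ⟨-, g2, g3⟩ := hφ' k w (hb' w hw)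
      rw [hg₂.memS _ g2, g3, pw_zero (hs k).1 h0]
      exact bl_zero h0
    · exact wedge_closure' hg₂.toIsCov (fun y hy hyV => hΓθ y hy hyV.1) hthin hW'o (hs k).1
        fun w hw => (hφ' k w (hb' w hw)).2
  obtain ⟨w₁, hw₁W, hw₁0, hw₁L⟩ := exists_common
    (P := fun k w => LiftV (O \ Γ) v L M m Q T ρ (φ k) w)
    (fun k w hw h => liftV_eventually hM hL (hφ' k w (hW₀s hw).1).1.1 h) hex Finset.univ W₀ Subset.rfl
    hW₀o w₀ hw₀W₀ hw₀0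
  have hw₁b := (hW₀s hw₁W).1
  have hbl₁ := (hW₀s hw₁W).2.1
  -- the point of `S` over `bl w₁`
  set k₀ : Fin d := ⟨0, hg.dpos⟩ with hk₀
  have hφG : ∀ k, G (φ k w₁) = bl w₁ := fun k => by
    rw [(hφ' k w₁ hw₁b).2.2, pw_zero (hs k).1 hw₁0]
  have hφV : ∀ k, φ k w₁ ∈ V₂ := fun k => (hφ' k w₁ hw₁b).2.1
  have hpS : φ k₀ w₁ ∈ S := by
    rw [hg₂.memS _ (hφV k₀), hφG]
    exact bl_zero hw₁0
  have huniq : ∀ y ∈ V₂, G y = bl w₁ → y = φ k₀ w₁ := fun y hy hyG =>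
    hg₂.uniq _ (hφV k₀) hpS y hy (by rw [hyG, hφG])
  choose i₀ hi₀ using fun e => (hL e).cover (φ k₀ w₁)
  have hi₀' : ∀ k e, φ k w₁ ∈ (L e).U (i₀ e) := fun k e => by
    rw [huniq _ (hφV k) (hφG k)]; exact hi₀ e
  choose γ ch μ τ J hlift using fun k => liftV_vl hM hL hT
    (hφ' k w₁ hw₁b).1 (hi₀' k) (hw₁L k (Finset.mem_univ k))
  -- the small ball
  have hsmall : ∀ᶠ z in 𝓝 (bl w₁), z ∈ ball c r₂ ∧ b z ≠ 0 ∧
      ∀ e, ∀ x ∈ V₂, G x = z → x ∈ (L e).U (i₀ e) := by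
    filter_upwards [isOpen_ball.mem_nhds hbl₁,
      (hb _ (ball_subset_ball hr₂₁ hbl₁)).continuousAt.eventually_ne (hW₀s hw₁W).2.2.1,
      eventually_all.2 fun e => cov_eventually hg₂.toIsCov hbl₁ (W := (L e).U (i₀ e))
        fun x hx hxG => by
          rw [huniq x hx hxG]; exact ((hL e).isOpen (i₀ e)).mem_nhds (hi₀ e)] with z h1 h2 h3
    exact ⟨h1, h2, h3⟩
  obtain ⟨r₃, hr₃, hball₃⟩ := Metric.eventually_nhds_iff_ball.1 hsmall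
  have hsub₃ : ball (bl w₁) r₃ ⊆ ball c r₂ := fun z hz => (hball₃ z hz).1
  have hg₃ : IsGood X S {x | x ∈ V₂ ∧ G x ∈ ball (bl w₁) r₃} G (bl w₁) r₃ d lam θ :=
    IsGood.restrict H335.stCovRes hg₂ hr₃ hsub₃ (bl_zero hw₁0).1 (bl_zero hw₁0).2
  set V₃ : Set X.pt := {x | x ∈ V₂ ∧ G x ∈ ball (bl w₁) r₃} with hV₃
  have hVL : ∀ e, V₃ ⊆ (L e).U (i₀ e) := fun e x hx => (hball₃ _ hx.2).2.2 e x hx.1 rfl
  have ha₃ : ∀ i, ∀ x ∈ V₃, X.Hol (a i) x := fun i x hx =>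
    ha i x hx.1.1 (ball_subset_ball hr₂₁ hx.1.2)
  obtain ⟨κ, hκa, hκ⟩ := H335.stDet X V₃ G (bl w₁) r₃ d lam θ hg₃.toIsCov a ha₃
  have hζ₃ : IsCoord X V₃ ζ := hζ.mono hg₃.isOpen fun x hx => hx.1.1
  have hgen₃ : ∀ i, Gen V₃ G (bl w₁) r₃ a b (fam i) := fun i =>
    (hgen₂ i).mono (fun x hx => hx.1) hsub₃
  have hpwc : ∀ s : ℕ, 1 ≤ s → ∀ᶠ w in 𝓝 w₁, pw s w ∈ ball (bl w₁) r₃ := by
    intro s hs
    refine (analyticAt_pw s w₁).continuousAt.eventually_mem ?_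
    rw [pw_zero hs hw₁0]
    exact ball_mem_nhds _ hr₃
  have hballw : ∀ᶠ w in 𝓝 w₁, w ∈ ball w₀ ε := isOpen_ball.mem_nhds hw₁b
  have hE₃ : ∀ᶠ w in 𝓝 w₁, w 0 ≠ 0 → Enum V₃ G ![w 0 ^ N, w 1 * w 0 ^ N, w 2, w 3]
      (fun k => φ k ![w 0 ^ (N / s k), w 1, w 2, w 3]) := by
    filter_upwards [hballw, hpwc N hN] with w h1 h2 hw0
    exact Enum.restrict (hE w h1 hw0) h2
  have hφ₃ : ∀ k, ∀ᶠ w in 𝓝 w₁, HolAt X (φ k) w ∧ φ k w ∈ V₃ ∧ G (φ k w) = pw (s k) w := by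
    intro k
    filter_upwards [hballw, hpwc (s k) (hs k).1] with w h1 h2
    obtain ⟨g1, g2, g3⟩ := hφ' k w h1
    exact ⟨g1, ⟨g2, by rw [g3]; exact h2⟩, g3⟩
  have hd : (1 : ℝ) ≤ d := by exact_mod_cast hg.dpos
  set δ : Fin d → ℝ := fun k => ∑ e, ρ e * (τ k e / Q e) + J k with hδ
  have hδ0 : ∀ k, 0 < δ k := fun k => (hlift k).pos
  have hs0 : ∀ k, (0 : ℝ) < s k := fun k => by exact_mod_cast (hs k).1
  have key : ∀ p : ℝ, (∃ C : ℝ, 0 < C ∧ ∀ᶠ w in 𝓝 w₁, w 0 ≠ 0 → θ (bl w) ≠ 0 →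
      ‖κ (bl w)‖ ≤ C * ‖w 0‖ ^ p) →
      (∑ k, δ k / s k) + (∑ k, 1 / (s k : ℝ)) - 2 * d + p ≤ 0 := by
    intro p hp
    have key := contraS (r := r₃) (c := bl w₁) (V := V₃) (G := G) (lam := lam) (θ := θ) (b := b)
      (κ := κ) (a := a) (ζ := ζ) (χ := χ) (N := N) (s := s) (φ := φ) (w₁ := w₁) (γ := γ)
      (ch := ch) (μ := μ) (τ := τ) (J := J) (p := p) (i₀ := i₀)
      hχ hM hNef hv hO hΓ hg₃.toIsCov (fun y hy hyV => hΓθ y hy hyV.1.1) hζ₃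
      (fun z hz => ⟨(hb z (ball_subset_ball hr₂₁ (hsub₃ hz))).continuousAt, (hball₃ z hz).2.1⟩)
      (fun l => hgen₃ (Sum.inr l)) (fun l f => hgen₃ (Sum.inl ⟨l, f⟩)) hκa hκ hL hQ hρ hρm hT
      hlow hVL hw₁0 (mem_ball_self hr₃) ?_ hN (fun k => ⟨(hs k).1, (hs k).2.2⟩)
      (fun k => (hφ₃ k).mono fun w hw => ⟨hw.1.1, hw.2⟩) hE₃ hlift hp
    · have h2 : ∀ k, (2 * (∑ e, ρ e * (τ k e / Q e) + J k) + 2 * (1 - 2 * s k)) / (s k : ℝ) =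
          2 * (δ k / s k) + 2 * (1 / s k) - 4 := by
        intro k
        have h3 := (hs0 k).ne'
        rw [hδ]
        field_simp
        ring
      rw [Finset.sum_congr rfl fun k _ => h2 k, Finset.sum_sub_distrib, Finset.sum_add_distrib,
        ← Finset.mul_sum, ← Finset.mul_sum, Finset.sum_const, Finset.card_univ, Fintype.card_fin,
        nsmul_eq_mul] at key
      linarith
    · filter_upwards [hW₀o.mem_nhds hw₁W] with w hw hw0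
      rw [(hW₀s hw).2.2.2.2]
      exact mul_ne_zero (pow_ne_zero _ hw0) (hW₀s hw).2.2.2.1
  have hδs : 0 < ∑ k, δ k / s k :=
    Finset.sum_pos (fun k _ => div_pos (hδ0 k) (hs0 k)) ⟨k₀, Finset.mem_univ _⟩
  by_contra hd1
  have hd2 : (2 : ℝ) ≤ d := by
    have h1 := hg.dpos
    exact_mod_cast (by omega : 2 ≤ d)
  rcases hcases with h2 | hrot
  · -- at least two cycles
    obtain ⟨Cκ, hCκ0, hCκ⟩ := kappa_le hg₃ ha₃ hκ hw₁0 (mem_ball_self hr₃)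
    have h3 := key ((2 * (d - 1) : ℕ) : ℝ) ⟨Cκ, hCκ0, by
      filter_upwards [hCκ] with w h1 _ h3
      rw [Real.rpow_natCast]
      exact h1 h3⟩
    have h4 : ((2 * (d - 1) : ℕ) : ℝ) = 2 * ((d : ℝ) - 1) := by
      rw [Nat.cast_mul, Nat.cast_sub hg.dpos]; push_cast; ring
    rw [h4] at h3
    linarith
  · -- all sheets are rotations of each other
    have hsd : ∀ k, s k = d := fun k => (hrot k k).1
    choose η hη1 hη2 using fun k => (hrot k k₀).2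
    have hram := kappa_le_ram (φ := φ) (η := η) (k₀ := k₀) (N := N) hg₃ ha₃ hκ hw₁0
      (mem_ball_self hr₃) hN (by rw [← hsd k₀]; exact (hs k₀).2.2)
      (fun k => (hφ₃ k).mono fun w hw => by rw [hsd] at hw; exact hw)
      (by simp only [hsd] at hE₃; exact hE₃) hη1
      (fun k => hballw.mono fun w hw hw0 => hη2 k w hw hw0)
    have h3 := key _ hram
    have h4 : ∑ k, 1 / (s k : ℝ) = 1 := by
      rw [Finset.sum_congr rfl (g := fun _ => 1 / (d : ℝ)) fun k _ => by rw [hsd k],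
        Finset.sum_const, Finset.card_univ, Fintype.card_fin, nsmul_eq_mul]
      field_simp
    have h5 : (2 * ((d : ℝ) - 1) * (1 + 1 / d)) = 2 * d - 2 * (1 / d) := by
      field_simp
      ring
    rw [h4, h5] at h3
    have h6 : 1 / (d : ℝ) ≤ 1 / 2 := one_div_le_one_div_of_le (by norm_num) hd2
    linarith

end

end Vale.Agent.P277Z.Val.Reg

namespace Vale.Agent.P277Z.Val

open Vale.Agent.P277 Vale.Agent.P277.TX Vale.Agent.P277.H19 Vale.Agent.P277.H371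
  Vale.Agent.P277.T2 Vale.Agent.P277.H335.RC

/-- (REG with boundary) -/
theorem regY : StRegY := by
  intro Y _ _ _ _ _ χ hχ k M hM hNef m ρ hρ hρm X hX O v hv hO Γ hΓ hh L hL Q hQ T hT hlow S hSan
    hSO hlifts
  have hS2 : DimLe X 2 S := hO.mono hSO
  refine sing_global hX hv hO hSan hS2 fun U₀ hU₀ hS1 => ?_
  obtain ⟨V', G, c, r, d, lam, θ, n, ζ, hVU, hg, hζ⟩ := TX.stMinLoc_final Y X hX O v hv
    hO S hSan U₀ hU₀ (fun x hx => hSO hx.1) hS1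
  have hc := hg.toIsCov
  obtain ⟨x, hxV, hxc⟩ := (hc.finite c (mem_ball_self hc.pos)).2
  have hxS : x ∈ S := (hg.memS x hxV).2 (by rw [hxc]; exact ⟨hg.c0, hg.c1⟩)
  have hd : d = 1 := by
    obtain ⟨h, hh1, hh2⟩ := hh x
    have h1 : ∀ᶠ z in 𝓝 c, z ∈ ball c r ∧ ∀ y ∈ V', G y = z →
        y ∈ {x' | X.Hol h x' ∧ (¬ h =ᶠ[𝓝 x'] 0) ∧ (x' ∈ v '' (O ∩ Γ) → h x' = 0)} := by
      refine Filter.Eventually.and (ball_mem_nhds c hc.pos)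
        (cov_eventually hc (mem_ball_self hc.pos) fun y hy hyc => ?_)
      rw [hg.uniq x hxV hxS y hy (by rw [hyc, hxc])]
      exact (hol_eventually hh1).and hh2
    obtain ⟨r', hr', hball⟩ := Metric.eventually_nhds_iff_ball.1 h1
    have hg' := IsGood.restrict H335.stCovRes hg hr' (fun z hz => (hball z hz).1) hg.c0 hg.c1
    have hV : ∀ y ∈ {x | x ∈ V' ∧ G x ∈ ball c r'},
        X.Hol h y ∧ (¬ h =ᶠ[𝓝 y] 0) ∧ (y ∈ v '' (O ∩ Γ) → h y = 0) := fun y hy =>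
      (hball _ hy.2).2 y hy.1 rfl
    obtain ⟨η, hη1, hη2, hη3⟩ := Reg.exists_norm hg'.toIsCov (fun y hy => (hV y hy).1)
      fun y hy => (hV y hy).2.1
    refine Reg.sharpY hX hχ hM hNef hρ hρm hv hO hΓ hSan hS2 hL hQ hT hlow
      (Reg.isGood_mul hg' hη1 hη2) ?_ (hζ.mono hg'.isOpen fun y hy => hy.1) hlifts
    intro y hy hyV hθ hyΓ
    exact right_ne_zero_of_mul hθ (hη3 _ hyV ((hV _ hyV).2.2 ⟨y, ⟨hy, hyΓ⟩, rfl⟩))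
  subst hd
  obtain ⟨s, hs1, hs2⟩ := (H335.IsCov.toPre hc).sec_of_one (fun a ha b hb hab hθ => by
    obtain ⟨y, hy⟩ := hc.enum (G a) (hc.maps a ha) hθ
    obtain ⟨k, hk⟩ := (hy.2 a).2 ⟨ha, rfl⟩
    obtain ⟨l, hl⟩ := (hy.2 b).2 ⟨hb, hab.symm⟩
    rw [← hk, ← hl, Subsingleton.elim k l]) ⟨x, hxV⟩ hζ
  exact ⟨x, ⟨hxS, hVU hxV⟩, isReg_of_sec hc.holo ⟨V', s, hc.isOpen, hxV, Subset.rfl,
    hc.openMap _ Subset.rfl hc.isOpen, fun y hy => ⟨hs2 y hy, (hs1 _ (hc.maps y hy)).2.2⟩⟩⟩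

end Vale.Agent.P277Z.Val
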