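import Vale.Agent.P277Z.Val.Sk
import Vale.Agent.P277Z.Val.Fin
import Vale.Agent.P277Z.Hir.Out
import Vale.Agent.P277.HD.Klt
import Vale.Agent.P277.H615.R.FlipD

/-!
# P277, block VAL: the construction of the models (statements)
-/

open scoped Manifold ContDiff Topology ComplexOrder
open Vale.Agent.P272.K Vale.Agent.P285.H281.FD Vale.Agent.P277 Set Filter
open Vale.Agent.P277.T2 (IsLEq IsCmpV)
open Vale.Agent.P277.PH (HolF)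
open Vale.Agent.P277.T3 (ThinM Lifts)
open Vale.Agent.P277.HD (pull)
open Vale.Agent.P277.H615 (FlipD comb)
open Vale.Agent.P277Z.Hir (Cpb)

noncomputable section

namespace Vale.Agent.P277Z.Val

/-- Hermitian forms in the charts of the model -/
abbrev Lg.Fm (V : Lg) : Type := Chart 4 V.W → Cm 4 → Matrix (Fin 4) (Fin 4) ℂ

/-- `p : W → X` is holomorphic -/
structure HolTo (V : Lg) (X : CSp) (p : V.W → X.pt) : Prop where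
  cont : Continuous p
  hol : ∀ y g, X.Hol g (p y) → HolF 4 (fun y => g (p y)) y

/-! ### principalization -/

/-- The functions `nm γ` on the open sets `U γ` are local norms of an ideal with zero set `Z₀`. -/
structure Idl (V : Lg) {Γ : Type} (U : Γ → Set V.W) (nm : Γ → V.W → ℝ) (Z₀ : Set V.W) : Prop where
  isOpen : ∀ γ, IsOpen (U γ)
  cover : ∀ y, ∃ γ, y ∈ U γ
  dense : Dense Z₀ᶜ
  loc : ∀ y, ∃ (m : ℕ) (f : Fin m → V.W → ℂ), ∀ᶠ x in 𝓝 y, (∀ k, HolF 4 (f k) x) ∧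
    (x ∈ Z₀ ↔ ∀ k, f k x = 0) ∧ ∀ γ, x ∈ U γ → Cpb (𝓝 x) (nm γ) fun y => ∑ k, ‖f k y‖

/-- a projective modification of Kähler models, an isomorphism over the complement of `Z₀` -/
structure Blw (V' V : Lg) (π : V'.W → V.W) (χ' : V'.Fm) (exc : Finset (Fin V'.r))
    (Z₀ : Set V.W) : Prop where
  kahler : IsKahler χ'
  hom : Hom V' V π
  res : Res V' V.X π exc
  sub : ∀ k ∈ exc, π '' V'.G k ⊆ Z₀
  pre : ∀ y, π y ∈ Z₀ → y ∈ V'.E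

/-- (GH) principalization -/
def StGH : Prop :=
  ∀ (V : Lg) (χ : V.Fm), IsKahler χ → ∀ (Γ : Type) (U : Γ → Set V.W) (nm : Γ → V.W → ℝ)
    (Z₀ : Set V.W), Idl V U nm Z₀ → ThinM 4 2 (Z₀ \ V.E) →
    ∃ (V' : Lg) (π : V'.W → V.W) (χ' : V'.Fm) (exc : Finset (Fin V'.r)) (ex : Fin V'.r → ℕ),
      Blw V' V π χ' exc Z₀ ∧ ∀ y γ ζ, π y ∈ U γ → V'.Eq y ζ →
        Cpb (𝓝 y) (fun y' => nm γ (π y')) fun y' => ∏ k, ‖ζ k y'‖ ^ ex k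

/-- (GH0) resolution, an isomorphism over the regular points -/
def StGH0 : Prop :=
  ∀ Y : CSp, IsNormal 4 Y → ∃ (V : Lg) (μ : V.W → Y.pt), Res V Y μ Finset.univ ∧
    ∀ k, ∀ y ∈ V.G k, ¬ IsReg 4 Y (μ y)

/-- (GHP) several ideals with two generators `ζ (u i) ^ q i`, `ζ (v i)` become principal -/
def StGHP : Prop :=
  ∀ (V : Lg) (χ : V.Fm), IsKahler χ → ∀ (ι : Type) [Fintype ι] (u v : ι → Fin V.r) (q : ι → ℕ),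
    (∀ i, 1 ≤ q i) → ∃ (V' : Lg) (π : V'.W → V.W) (χ' : V'.Fm) (exc : Finset (Fin V'.r)),
      Blw V' V π χ' exc (⋃ i, V.G (u i) ∩ V.G (v i)) ∧ ∀ y ζ i, V.Eq (π y) ζ → ∃ C : ℝ,
        (∀ᶠ y' in 𝓝 y, ‖ζ (u i) (π y')‖ ^ q i ≤ C * ‖ζ (v i) (π y')‖) ∨
        ∀ᶠ y' in 𝓝 y, ‖ζ (v i) (π y')‖ ≤ C * ‖ζ (u i) (π y')‖ ^ q i

/-- (DOM) resolution of the map `u : W ⇢ X'` to a space which is projective over `Z` -/
def StDom : Prop :=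
  ∀ (V : Lg) (χ : V.Fm), IsKahler χ → ∀ (X' Z : CSp) (f' : X'.pt → Z.pt) (Λ' : Bd X'.pt)
    (q : V.W → Z.pt) (B : Set Z.pt) (Λ : Bd V.W) (u : V.W → X'.pt)
    (T : Λ.ι → Λ'.ι → V.W → ℂ), (∀ x, HolMap X' Z f' x) → IsLBx X' Λ' → RelAmple X' Z f' Λ' →
    HolTo V Z q → IsClosed B → Dense (q ⁻¹' B)ᶜ → ThinM 4 2 (q ⁻¹' B \ V.E) → IsLB 4 Λ →
    (∀ y, q y ∉ B → HolMap V.X X' u y ∧ f' (u y) = q y) → IsIsoY (q ⁻¹' B)ᶜ u Λ' Λ (fun j i => T i j) →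
    (∀ (O : Set Z.pt) (k : ℕ) (s' : Λ'.ι → X'.pt → ℂ), IsOpen O → 1 ≤ k →
      IsSecx X' (f' ⁻¹' O) (Λ'.pow k) s' → ∃ σ : Λ.ι → V.W → ℂ,
        (∀ i, ∀ y ∈ Λ.U i, q y ∈ O → HolF 4 (σ i) y ∧ (q y ∈ B → σ i y = 0)) ∧
        ∀ i j, ∀ y ∈ Λ.U i, q y ∈ O → q y ∉ B → u y ∈ Λ'.U j → σ i y = T i j y ^ k * s' j (u y)) →
    ∃ (V' : Lg) (π : V'.W → V.W) (χ' : V'.Fm) (exc : Finset (Fin V'.r)) (p' : V'.W → X'.pt),
      Blw V' V π χ' exc (q ⁻¹' B) ∧ HolTo V' X' p' ∧ (∀ y, f' (p' y) = q (π y)) ∧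
        ∀ y, q (π y) ∉ B → p' y = u (π y)

/-! ### resolutions -/

/-- (EXTC) extension across closed sets of codimension two -/
def StExtC : Prop :=
  ∀ X : CSp, IsNormal 4 X → ∀ O T : Set X.pt, IsOpen O → IsClosed T → DimLe X 2 (O ∩ T) →
    ∀ g : X.pt → ℂ, (∀ x ∈ O \ T, X.Hol g x) →
      ∃ h : X.pt → ℂ, (∀ x ∈ O, X.Hol h x) ∧ ∀ x ∈ O \ T, h x = g x

/-- `Res` without the field `an`, with explicit `P`, `c`, `τ` -/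
structure Res₀ (V : Lg) (X : CSp) (p : V.W → X.pt) (exc : Finset (Fin V.r)) (P : Bd V.W)
    (c : Fin V.r → ℕ) (τ : (Bd.inv P).ι → V.W → ℂ) : Prop where
  hol : HolTo V X p
  surj : Function.Surjective p
  emb : IsOpenEmb X (⋃ l ∈ exc, V.G l)ᶜ p
  inj : ∀ y y', y ∉ ⋃ l ∈ exc, V.G l → p y' = p y → y' = y
  dim : DimLe X 2 (p '' ⋃ l ∈ exc, V.G l)
  lb : IsLB 4 P
  amp : RelAmple V.X X p P
  pos : ∀ l, 0 < c l ↔ l ∈ exc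
  div : IsDiv V (Bd.inv P) τ c

/-- (AN) holomorphic functions descend, the fibres are connected, the image of the exceptional set
is analytic -/
def StAn : Prop :=
  ∀ (V : Lg) (X : CSp) (p : V.W → X.pt) exc P c τ, IsNormal 4 X → Res₀ V X p exc P c τ →
    Res V X p exc ∧ (∀ x, IsPreconnected (p ⁻¹' {x})) ∧
    ∀ (O : Set X.pt) (h : V.W → ℂ), IsOpen O → (∀ y, p y ∈ O → HolF 4 h y) →
      ∃ H : X.pt → ℂ, (∀ x ∈ O, X.Hol H x) ∧ ∀ y, p y ∈ O → h y = H (p y)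

/-- (AMPC) ample over ample -/
def StAmpC : Prop :=
  ∀ (V : Lg) (X Z : CSp) (p : V.W → X.pt) (f : X.pt → Z.pt) (P : Bd V.W) (Λ : Bd X.pt),
    HolTo V X p → (∀ x, HolMap X Z f x) → IsLB 4 P → IsLBx X Λ → RelAmple V.X X p P →
    RelAmple X Z f Λ → ∃ N₀ : ℕ, ∀ N, N₀ ≤ N →
      RelAmple V.X Z (fun y => f (p y)) (P.mul ((pull p Λ).pow N))

/-- (COMP) composition of resolutions -/
def StComp : Prop :=
  ∀ (V' V : Lg) (X : CSp) (p : V.W → X.pt) (π : V'.W → V.W) exc exc₁ s, IsNormal 4 X →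
    Hom V' V π → IsStr V' V π s → Res V' V.X π exc₁ → Res V X p exc →
    (∀ k, k ∈ exc₁ ↔ k ∉ range s) ∧ Res V' X (fun y => p (π y)) (exc₁ ∪ exc.image s)

/-- (NEFP) the pull back of a nef line bundle -/
def StNefP : Prop :=
  ∀ (V' V : Lg) (π : V'.W → V.W) (χ' : V'.Fm) (χ : V.Fm) (M : Bd V.W), IsKahler χ' → IsKahler χ →
    HolTo V' V.X π → IsLB 4 M → IsLB 4 (pull π M) ∧ (Nef χ M → Nef χ' (pull π M))

/-- (CMPP) the pull back of the comparison -/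
def StCmpP : Prop :=
  ∀ (V' V : Lg) (π : V'.W → V.W) (s : Fin V.r → Fin V'.r), Hom V' V π → IsStr V' V π s →
    ∀ (X : CSp) (p : V.W → X.pt) (k : ℕ) (m c : Fin k → ℕ) (M : Fin k → Bd V.W)
    (L : Fin k → Bd X.pt) (n : Fin k → Fin V.r → ℤ), Continuous p → (∀ e, IsLBx X (L e)) →
    (∀ e, IsLB 4 (M e)) → (∀ e, 1 ≤ c e) →
    (∃ t, IsCmpV p L (fun e => (((Bd.can 4 V.W).pow (m e)).mul (M e)).pow (c e)) V.G n t) →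
    ∃ n' : Fin k → Fin V'.r → ℤ, (∃ t, IsCmpV (fun y => p (π y)) L
        (fun e => (((Bd.can 4 V'.W).pow (m e)).mul (pull π (M e))).pow (c e)) V'.G n' t) ∧
      (∀ e l, n' e (s l) = n e l) ∧
      ∀ ρ : Fin k → ℝ, ∑ e, ρ e * m e = 1 → Crep V' V π (disc ρ c n') (disc ρ c n)

/-! ### a flip on a common model -/

/-- `V` is a common model of `X` and `X'` -/
structure Cmn (V : Lg) {X Z X' : CSp} (f : X.pt → Z.pt) (f' : X'.pt → Z.pt) (p : V.W → X.pt)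
    (p' : V.W → X'.pt) : Prop where
  hol : HolTo V X p
  hol' : HolTo V X' p'
  comm : ∀ y, f' (p' y) = f (p y)
  pre : ∀ y, f (p y) ∈ Amin f → y ∈ V.E

/-- `G l` lies over the flipped set -/
def Ov (V : Lg) {X Z : CSp} (f : X.pt → Z.pt) (p : V.W → X.pt) (l : Fin V.r) : Prop :=
  ∀ y ∈ V.G l, f (p y) ∈ Amin f

/-- the orders `μ e l` of the isomorphisms `s e` along the components -/
structure Mu (V : Lg) {X Z X' : CSp} (f : X.pt → Z.pt) (p : V.W → X.pt) (p' : V.W → X'.pt) {k : ℕ}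
    (L : Fin k → Bd X.pt) (L' : Fin k → Bd X'.pt) (s : ∀ e, (L e).ι → (L' e).ι → Z.pt → ℂ)
    (a : Fin k → ℤ) (μ : Fin k → Fin V.r → ℤ) : Prop where
  mon : ∀ y ζ e i j, V.Eq y ζ → p y ∈ (L e).U i → p' y ∈ (L' e).U j → ∃ u : V.W → ℂ,
    HolF 4 u y ∧ u y ≠ 0 ∧ ∀ᶠ y' in 𝓝 y, y' ∉ V.E → s e i j (f (p y')) = u y' * ∏ l, ζ l y' ^ μ e l
  neg : ∀ l o, Ov V f p l → ∑ e, comb a o e * μ e l < 0
  zero : ∀ l, ¬ Ov V f p l → ∀ e, μ e l = 0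
  cover : ∀ y, f (p y) ∈ Amin f → ∃ l, y ∈ V.G l ∧ Ov V f p l

/-- (CMPS) -/
def StCmpS : Prop :=
  ∀ (V : Lg) (X Z X' : CSp) (f : X.pt → Z.pt) (f' : X'.pt → Z.pt) (k : ℕ) (L : Fin k → Bd X.pt)
    (L' : Fin k → Bd X'.pt) (p₁ q₁ : Fin k → ℕ) s a, FlipD f f' L L' p₁ q₁ s a → 1 ≤ k →
    ∀ p p', Cmn V f f' p p' → ∃ μ, Mu V f p p' L L' s a μ

/-- (RESF) a common model is a log resolution of the flip -/
def StResF : Prop :=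
  ∀ (V : Lg) (X Z X' : CSp) (f : X.pt → Z.pt) (f' : X'.pt → Z.pt) (k : ℕ) (L : Fin k → Bd X.pt)
    (L' : Fin k → Bd X'.pt) (p₁ q₁ : Fin k → ℕ) s a, FlipD f f' L L' p₁ q₁ s a →
    ∀ p p' μ exc, Cmn V f f' p p' → Mu V f p p' L L' s a μ → Res V X p exc →
      (∀ l, Ov V f p l → l ∈ exc) ∧ Res V X' p' exc

/-- the result of one step -/
structure Step {k : ℕ} (ρ : Fin k → ℝ) (m : Fin k → ℕ) {X Z X' : CSp} (f : X.pt → Z.pt)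
    (f' : X'.pt → Z.pt) (L : Fin k → Bd X.pt) (L' : Fin k → Bd X'.pt) (c c' : Fin k → ℕ) (V : Lg)
    (χ : V.Fm) (M : Fin k → Bd V.W) (p : V.W → X.pt) (p' : V.W → X'.pt) (exc : Finset (Fin V.r))
    (n n' : Fin k → Fin V.r → ℤ) : Prop where
  pm : IsPM m V χ M X L c p exc n
  pm' : IsPM m V χ M X' L' c' p' exc n'
  comm : ∀ y, f' (p' y) = f (p y)
  lt : ∀ l, Ov V f p l → l ∈ exc ∧ disc ρ c n l < disc ρ c' n' l
  eq : ∀ l, ¬ Ov V f p l → disc ρ c' n' l = disc ρ c n l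
  cover : ∀ y, f (p y) ∈ Amin f → ∃ l, y ∈ V.G l ∧ Ov V f p l

/-- (PULL) -/
def StPull : Prop :=
  ∀ (k : ℕ) (m : Fin k → ℕ) (V : Lg) (χ : V.Fm) (M : Fin k → Bd V.W) (X : CSp)
    (L : Fin k → Bd X.pt) (c : Fin k → ℕ) (p : V.W → X.pt) exc n, IsNormal 4 X →
    (∀ e, IsLBx X (L e)) → (∀ e, 1 ≤ c e) → IsPM m V χ M X L c p exc n →
    ∀ (V' : Lg) (π : V'.W → V.W) χ' exc₁ Z₀ s, Blw V' V π χ' exc₁ Z₀ → IsStr V' V π s →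
      ∃ n', IsPM m V' χ' (fun e => pull π (M e)) X L c (fun y => p (π y)) (exc₁ ∪ exc.image s) n' ∧
        (∀ k, k ∈ exc₁ ↔ k ∉ range s) ∧ (∀ e l, n' e (s l) = n e l) ∧
        ∀ ρ : Fin k → ℝ, ∑ e, ρ e * m e = 1 → Crep V' V π (disc ρ c n') (disc ρ c n)

/-- (STEP) -/
def StStep : Prop :=
  ∀ (k : ℕ) (ρ : Fin k → ℝ) (m : Fin k → ℕ) (X Z X' : CSp) (f : X.pt → Z.pt) (f' : X'.pt → Z.pt)
    (A : Set Z.pt) (L : Fin k → Bd X.pt) (L' : Fin k → Bd X'.pt) (c c' : Fin k → ℕ),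
    ∑ e, ρ e * m e = 1 → (∀ e, 1 ≤ c e) → IsFlipR X Z X' f f' A L L' c c' ρ →
    ∀ (V : Lg) (χ : V.Fm) (M : Fin k → Bd V.W) (p : V.W → X.pt) exc n,
      IsPM m V χ M X L c p exc n →
      ∃ (V' : Lg) (π : V'.W → V.W) (χ' : V'.Fm) (exc₁ : Finset (Fin V'.r))
        (s : Fin V.r → Fin V'.r) (p' : V'.W → X'.pt) (q : Fin k → ℕ) (n₀ n' : Fin k → Fin V'.r → ℤ),
        Blw V' V π χ' exc₁ {y | f (p y) ∈ Amin f} ∧ IsStr V' V π s ∧ (∀ e, 1 ≤ q e) ∧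
        (∀ k, k ∈ exc₁ ↔ k ∉ range s) ∧ (∀ e l, n₀ e (s l) = n e l) ∧
        Crep V' V π (disc ρ c n₀) (disc ρ c n) ∧
        Step ρ m f f' L (fun e => (L' e).pow (q e)) c (fun e => c' e * q e) V' χ'
          (fun e => pull π (M e)) (fun y => p (π y)) p' (exc₁ ∪ exc.image s) n₀ n'

/-! ### slices -/

/-- `C` contains a piece of a smooth surface -/
def BigX (X : CSp) (C : Set X.pt) : Prop :=
  ∃ (g : Cm 2 → X.pt) (w : Cm 2) (h : Fin 2 → X.pt → ℂ), HolAt X g w ∧ (∀ᶠ w' in 𝓝 w, g w' ∈ C) ∧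
    (∀ i, X.Hol (h i) (g w)) ∧ (fderiv ℂ (fun w' i => h i (g w')) w).det ≠ 0

/-- (BIG) -/
def StBig : Prop :=
  (∀ (X : CSp) (S : Set X.pt), IsAn X univ S → DimLe X 2 S → ¬ DimLe X 1 S → BigX X S) ∧
  ∀ (V : Lg) (X : CSp) (p : V.W → X.pt) l k S, HolTo V X p → IsCC V l k S →
    ¬ DimLe X 1 (p '' S) → BigX X (p '' S)

/-- (IMG) -/
def StImg : Prop :=
  ∀ (V : Lg) (X : CSp) (p : V.W → X.pt) l k S, HolTo V X p → IsCC V l k S →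
    DimLe X 2 (p '' V.G k) → ¬ DimLe X 1 (p '' S) → p '' V.G k = p '' S

open Classical in
/-- The compact curves `cv b ⊆ G (o b)` in a general slice through `x`. -/
structure Slc (V : Lg) {X : CSp} (p : V.W → X.pt) (exc : Finset (Fin V.r)) {k : ℕ}
    (ρ : Fin k → ℝ) (a : Fin V.r → ℝ) (x : X.pt) {J : Type} [Fintype J] (cv : J → Set V.W)
    (o : J → Fin V.r) (q : J → J → ℤ) (κ : J → ℤ) (dm : Fin k → J → ℕ) (nn : Fin V.r → J → ℕ) :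
    Prop where
  own : ∀ b, o b ∈ exc
  sub : ∀ b, cv b ⊆ V.G (o b) ∩ p ⁻¹' {x}
  closed : ∀ b, IsClosed (cv b)
  inf : ∀ b, (cv b).Infinite
  fin : ∀ b l, l ≠ o b → (cv b ∩ V.G l).Finite
  cover : ∀ y, p y = x → ∀ l ∈ exc, y ∈ V.G l → ∃ b, o b = l ∧ y ∈ cv b
  disj : ∀ b b', b ≠ b' → o b = o b' → Disjoint (cv b) (cv b')
  symm : ∀ b b', q b b' = q b' b
  off : ∀ b b', b ≠ b' → q b b' = (cv b ∩ cv b').ncard
  neg : ∃ c : J → ℝ, (∀ b, 0 < c b) ∧ ∀ b', ∑ b, c b * q b b' < 0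
  adj : ∀ b, -2 ≤ κ b + q b b
  nn_eq : ∀ b, ∀ l ∉ exc, nn l b = (cv b ∩ V.G l).ncard
  eqn : ∀ b, κ b + ∑ e, ρ e * dm e b + ∑ l with l ∉ exc, -a l * nn l b =
    ∑ b', a (o b') * q b' b

/-- (SLC) -/
def StSlc : Prop :=
  ∀ (k : ℕ) (ρ : Fin k → ℝ) (m : Fin k → ℕ) (V : Lg) (χ : V.Fm) (M : Fin k → Bd V.W) (X : CSp)
    (L : Fin k → Bd X.pt) (c : Fin k → ℕ) (p : V.W → X.pt) exc n, ∑ e, ρ e * m e = 1 →
    (∀ e, IsLBx X (L e)) → (∀ e, 1 ≤ c e) → IsPM m V χ M X L c p exc n →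
    ∀ C D : Set X.pt, BigX X C → DimLe X 1 D → ∃ x ∈ C, x ∉ D ∧
      ∃ (J : Type) (_ : Fintype J) (cv : J → Set V.W) (o : J → Fin V.r) (q : J → J → ℤ)
        (κ : J → ℤ) (dm : Fin k → J → ℕ) (nn : Fin V.r → J → ℕ),
        Slc V p exc ρ (disc ρ c n) x cv o q κ dm nn

open Classical in
/-- the components with positive discrepancy -/
def pos {r : ℕ} (a : Fin r → ℝ) : Finset (Fin r) := Finset.univ.filter fun k => 0 < a k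

/-- `V` is a good log resolution of the terminal pair on `Y` -/
structure Trm {k : ℕ} (ρ : Fin k → ℝ) (m : Fin k → ℕ) (V : Lg) (χ : V.Fm) (M : Fin k → Bd V.W)
    (Y : CSp) (L : Fin k → Bd Y.pt) (c : Fin k → ℕ) (ψ : V.W → Y.pt)
    (n : Fin k → Fin V.r → ℤ) : Prop where
  hρ : ∀ e, 0 < ρ e
  sum : ∑ e, ρ e * m e = 1
  normal : IsNormal 4 Y
  lb : ∀ e, IsLBx Y (L e)
  hc : ∀ e, 1 ≤ c e
  pm : IsPM m V χ M Y L c ψ (pos (disc ρ c n)) n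
  good : Good V (disc ρ c n)

/-- (SURF) -/
def StSurf : Prop :=
  ∀ (k : ℕ) (ρ : Fin k → ℝ) (m : Fin k → ℕ) (V : Lg) χ M Y L c ψ n, Trm ρ m V χ M Y L c ψ n →
    ∀ α, α ≤ 1 → Surf V (disc ρ c n) Y ψ α

/-- (REGT) -/
def StRegT : Prop :=
  ∀ (k : ℕ) (ρ : Fin k → ℝ) (m : Fin k → ℕ) (V : Lg) χ M Y L c ψ n, Trm ρ m V χ M Y L c ψ n →
    DimLe Y 1 {x | ¬ IsReg 4 Y x}

/-- no echo is alive over a set of dimension `≤ 1` -/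
def NoEcho (V : Lg) (a : Fin V.r → ℝ) (Y : CSp) (ψ : V.W → Y.pt) : Prop :=
  ∀ c ∈ V.cmp, a c.1 < 0 → DimLe Y 1 (ψ '' c.2) → 1 ≤ V.eC a c

/-- (VG) -/
def StVG : Prop :=
  ∀ (V : Lg) (χ : V.Fm) (a : Fin V.r → ℝ) (Y : CSp) (ψ : V.W → Y.pt), IsKahler χ → Good V a →
    Res V Y ψ (pos a) → ∃ (V' : Lg) (π : V'.W → V.W) (χ' : V'.Fm) (exc : Finset (Fin V'.r))
      (Z₀ : Set V.W), Blw V' V π χ' exc Z₀ ∧
      ∀ a', Crep V' V π a' a → NoEcho V' a' Y fun y => ψ (π y)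

/-- (SEPG) -/
def StSepG : Prop :=
  ∀ (V : Lg) (χ : V.Fm), IsKahler χ → ∃ (V' : Lg) (π : V'.W → V.W) (χ' : V'.Fm)
    (exc : Finset (Fin V'.r)) (Z₀ : Set V.W), Blw V' V π χ' exc Z₀ ∧
      ∀ s, IsStr V' V π s → ∀ l l', l ≠ l' → Disjoint (V'.G (s l)) (V'.G (s l'))

/-! ### the terminal model -/

/-- the trivial line bundle -/
def triv (W : Type) : Bd W where
  ι := Unit
  U _ := univ
  g _ _ _ := 1

/-- The push forward of `m₀ • K + ∑ b l • G l` is `ℚ`-Cartier on `Y`. -/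
def QCar (V : Lg) (Y : CSp) (ψ : V.W → Y.pt) (exc : Finset (Fin V.r)) (m₀ : ℕ)
    (b : Fin V.r → ℤ) : Prop :=
  ∃ (L : Bd Y.pt) (q : ℕ) (ν : Fin V.r → ℤ), IsLBx Y L ∧ 1 ≤ q ∧
    (∃ t, IsCmpV ψ (fun _ : Fin 1 => L)
      (fun _ => (((Bd.can 4 V.W).pow m₀).mul (triv V.W)).pow q) V.G (fun _ => ν) t) ∧
    ∀ l ∉ exc, ν l = -(q * b l)

/-- Kähler spaces -/
def KahX (X : CSp) : Prop :=
  ∃ (ι : Type) (U : ι → Set X.pt) (u : ι → X.pt → ℝ), (∀ i, IsOpen (U i)) ∧ (∀ x, ∃ i, x ∈ U i) ∧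
    (∀ i, ∀ x ∈ U i, ∃ (N k : ℕ) (O : Set X.pt) (Ω : Set (Cm N)) (h : Fin k → Cm N → ℂ)
      (φ : X.pt → Cm N) (v : Cm N → ℝ), x ∈ O ∧ IsModel X.Hol O Ω h φ ∧
      (∀ᶠ z in 𝓝 (φ x), ContDiffAt ℝ ∞ v z) ∧ (cHess v (φ x)).PosDef ∧
      ∀ᶠ y in 𝓝 x, u i y = v (φ y)) ∧
    ∀ i j x, x ∈ U i → x ∈ U j → ∃ g, X.Hol g x ∧ ∀ᶠ y in 𝓝 x, u i y - u j y = (g y).re

/-- (KAHP) projective over Kähler -/
def StKahP : Prop :=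
  ∀ (Y X : CSp) (g : Y.pt → X.pt) (Λ : Bd Y.pt), (∀ y, HolMap Y X g y) → IsLBx Y Λ →
    RelAmple Y X g Λ → KahX X → KahX Y

/-- (KAHM) Kähler manifolds -/
def StKahM : Prop := ∀ V : Lg, KahX V.X ↔ ∃ χ : V.Fm, IsKahler χ

open Classical in
/-- (EXTR) the terminal model -/
def StExtrV : Prop :=
  ∀ (k : ℕ) (ρ : Fin k → ℝ) (m : Fin k → ℕ) (V : Lg) (χ : V.Fm) (M : Fin k → Bd V.W) (X : CSp)
    (L : Fin k → Bd X.pt) (c : Fin k → ℕ) (p : V.W → X.pt) exc n, (∀ e, 0 < ρ e) →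
    ∑ e, ρ e * m e = 1 → IsNormal 4 X → (∀ e, IsLBx X (L e)) → (∀ e, 1 ≤ c e) →
    IsPM m V χ M X L c p exc n → (∀ l, -1 < disc ρ c n l) → (∀ l ∉ exc, disc ρ c n l ≤ 0) →
    ∃ (V' : Lg) (π : V'.W → V.W) (χ' : V'.Fm) (exc₁ : Finset (Fin V'.r)) (Z₀ : Set V.W)
      (s : Fin V.r → Fin V'.r) (Y : CSp) (g : Y.pt → X.pt) (ψ : V'.W → Y.pt) (Λ : Bd Y.pt),
      Blw V' V π χ' exc₁ Z₀ ∧ IsStr V' V π s ∧ IsNormal 4 Y ∧ (∀ y, HolMap Y X g y) ∧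
      (∀ y, g (ψ y) = p (π y)) ∧ IsLBx Y Λ ∧ RelAmple Y X g Λ ∧
      Res V' Y ψ (exc₁ ∪ (pos (disc ρ c n)).image s) ∧
      ∀ m₀ b, QCar V' Y ψ (exc₁ ∪ (pos (disc ρ c n)).image s) m₀ b

/-- (TOP) the bound for the relations -/
def StTopV : Prop :=
  ∀ (V₀ : Lg) (χ₀ : V₀.Fm), IsKahler χ₀ → ∃ h : ℕ, ∀ (k : ℕ) (ρ : Fin k → ℝ) (m : Fin k → ℕ)
    (V : Lg) (χ : V.Fm) (M : Fin k → Bd V.W) (Y : CSp) (L : Fin k → Bd Y.pt) (c : Fin k → ℕ)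
    (ψ : V.W → Y.pt) (n : Fin k → Fin V.r → ℤ) (π : V.W → V₀.W) (V₁ : Lg) (μ₁ : V₁.W → Y.pt)
    (μ : V.W → V₁.W), Trm ρ m V χ M Y L c ψ n → Hom V V₀ π →
    (∀ l, ThinM 4 2 (π '' V.G l) → 0 < disc ρ c n l) → KahX Y →
    (∀ m₀ b, QCar V Y ψ (pos (disc ρ c n)) m₀ b) → DimLe Y 1 {x | ¬ IsReg 4 Y x} →
    Res V₁ Y μ₁ Finset.univ → (∀ l, ∀ y ∈ V₁.G l, ¬ IsReg 4 Y (μ₁ y)) → HolTo V V₁.X μ →
    (∀ y, μ₁ (μ y) = ψ y) → NoEcho V (disc ρ c n) Y ψ →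
    ∀ α, 0 < α → α ≤ 1 → Top V (disc ρ c n) Y ψ α h

/-- (GKLT) there is no infinite sequence of flips of generalized klt pairs on Kähler fourfolds -/
def StGklt : Prop :=
  ∀ (k : ℕ) (ρ : Fin k → ℝ) (m : Fin k → ℕ) (X Z : ℕ → CSp) (f : ∀ j, (X j).pt → (Z j).pt)
    (f' : ∀ j, (X (j + 1)).pt → (Z j).pt) (A : ∀ j, Set (Z j).pt) (L : ∀ j, Fin k → Bd (X j).pt)
    (c : ℕ → Fin k → ℕ), (∀ e, 0 < ρ e) → ∑ e, ρ e * m e = 1 → (∀ j e, 1 ≤ c j e) →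
    (∀ j, KahX (X j)) →
    (∀ j, IsFlipR (X j) (Z j) (X (j + 1)) (f j) (f' j) (A j) (L j) (L (j + 1)) (c j) (c (j + 1)) ρ) →
    ∀ (V : Lg) (χ : V.Fm) (M : Fin k → Bd V.W) (p : V.W → (X 0).pt) exc n,
      IsPM m V χ M (X 0) (L 0) (c 0) p exc n → (∀ l, -1 < disc ρ (c 0) n l) →
      (∀ l ∉ exc, disc ρ (c 0) n l ≤ 0) → False

end Vale.Agent.P277Z.Val
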