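import Vale.Agent.P277Z.Val.RegTA
import Vale.Agent.P277Z.Val.USk
import Vale.Agent.P277Z.Val.Reg
import Vale.Agent.P277Z.Val.LiftsA
import Vale.Agent.P277Z.Val.Disc
import Vale.Agent.P277Z.Val.Mon
import Vale.Agent.P277.H884.W2

/-!
# P277, block VAL: the terminal model is smooth in codimension two
-/

open scoped Manifold ContDiff Topology
open Vale.Agent.P272.K Vale.Agent.P285.H281.FD Vale.Agent.P277 Set Filter
open Vale.Agent.P277.PH (HolF)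

noncomputable section

namespace Vale.Agent.P277Z.Val

namespace RegT

open U

theorem num {γ : Fin 4 → ℕ} {b : Fin 4 → ℝ} (hb : ∀ i, b i < 1) {i₀ : Fin 4} (h1 : 1 ≤ γ i₀)
    (h2 : b i₀ < 0) {J : ℕ}
    (hJ : ∑ i, (γ i - 1) + (3 - (4 - (Finset.univ.filter fun i => 1 ≤ γ i).card)) ≤ J) :
    0 < -∑ i, b i * γ i + J := by
  have h3 := cast_jac hJ
  rw [Nat.cast_sub (by simpa using Finset.card_le_univ (Finset.univ.filter fun i => 1 ≤ γ i))] at h3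
  have h4 : (γ i₀ : ℝ) * (1 - b i₀) ≤ ∑ i, (γ i : ℝ) * (1 - b i) :=
    Finset.single_le_sum (f := fun i => (γ i : ℝ) * (1 - b i))
      (fun i _ => mul_nonneg (Nat.cast_nonneg _) (sub_pos.2 (hb i)).le) (Finset.mem_univ i₀)
  have h5 : (1 : ℝ) ≤ γ i₀ := by exact_mod_cast h1
  have h6 : ∑ i, (γ i : ℝ) * (1 - b i) = ∑ i, (γ i : ℝ) - ∑ i, b i * γ i := by
    rw [← Finset.sum_sub_distrib]
    exact Finset.sum_congr rfl fun i _ => by ring
  push_cast at h3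
  nlinarith

theorem zpow_sum {ι : Type} {x : ℂ} (hx : x ≠ 0) (s : Finset ι) (f : ι → ℤ) :
    x ^ ∑ i ∈ s, f i = ∏ i ∈ s, x ^ f i := by
  induction s using Finset.cons_induction with
  | empty => simp
  | cons i s hi ih => rw [Finset.sum_cons, Finset.prod_cons, zpow_add₀ hx, ih]

variable {V : Lg} {γ : Cm 4 → V.W} {w₁ : Cm 4}

/-- generic points of the centre of a wedge -/
theorem gen (hγ : AnM 4 γ w₁) (h0 : w₁ 0 = 0) (h : ∃ᶠ w in 𝓝 w₁, γ w ∉ V.E) :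
    ∃ᶠ w₂ in 𝓝 w₁, w₂ 0 = 0 ∧ ∀ᶠ w in 𝓝 w₂, w 0 ≠ 0 → γ w ∉ V.E := by
  obtain ⟨ζ, hζ⟩ := V.exEq (γ w₁)
  have h1 := hγ.1.eventually hζ.iff
  obtain ⟨g, -, h2⟩ := exists_ord (f := fun w => ∏ l, ζ l (γ w))
    (Finset.analyticAt_fun_prod _ fun l _ => hγ.hol (hζ.hol l)) h0
    ((h.and_eventually h1).mono fun w k => Finset.prod_ne_zero_iff.2 fun l _ e =>
      k.1 (mem_iUnion.2 ⟨l, (k.2 l).1 e⟩))
  refine (h2.and_eventually h1.eventually_nhds).mono fun w₂ ⟨⟨k0, u, k1, k2, k3⟩, k4⟩ => ⟨k0, ?_⟩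
  filter_upwards [k3, k4, k1.continuousAt.eventually_ne k2] with w l1 l2 l3 l4 l5
  obtain ⟨l, l6⟩ := mem_iUnion.1 l5
  exact mul_ne_zero (pow_ne_zero g l4) l3
    (l1.symm.trans (Finset.prod_eq_zero (Finset.mem_univ l) ((l2 l).2 l6)))

/-- the discrepancy of a wedge with centre in a component with positive discrepancy -/
theorem wedge (hγ : AnM 4 γ w₁) (h0 : w₁ 0 = 0) (hE : ∀ᶠ w in 𝓝 w₁, w 0 ≠ 0 → γ w ∉ V.E)
    {a : Fin V.r → ℝ} (ha : ∀ l, -1 < a l) {k : Fin V.r} (hk : γ w₁ ∈ V.G k) (hk' : 0 < a k)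
    {ch : Chart 4 V.W} (hch : At ch (γ w₁)) {ζ} (hζ : V.Eq (γ w₁) ζ) :
    ∃ (g : Fin V.r → ℕ) (J : ℕ) (C : ℝ), (∀ l, OrdEq (fun w => ζ l (γ w)) w₁ (g l)) ∧
      (∀ᶠ w in 𝓝 w₁, ‖(fderiv ℂ (fun w => ch (γ w)) w).det‖ ≤ C * ‖w 0‖ ^ J) ∧
      0 < ∑ l, a l * g l + J := by
  obtain ⟨c, ξ, lab, hc⟩ := exists_ch V (γ w₁)
  have hg : ∀ l, ∃ g, OrdEq (fun w => eqs c lab l (γ w)) w₁ g := fun l => by
    refine exists_ordEq (hγ.hol (hc.holF l)) h0 ?_
    filter_upwards [hγ.1.eventually hc.eqs_zero, hE] with w e1 e2 e3 e4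
    exact e2 e3 (mem_iUnion.2 ⟨l, (e1 l).1 e4⟩)
  choose g hg using hg
  obtain ⟨q, b, k1, k2, k3, k4⟩ := coords hγ h0 hc hg a
  obtain ⟨i, hi, -⟩ := (hc.mem.self_of_nhds k).1 hk
  have h1 : 1 ≤ q i := by
    rw [k3 k i hi]
    by_contra e
    exact (show g k = 0 by omega ▸ hg k).ne_zero ((hc.eqs_zero.self_of_nhds k).2 hk)
  have h2 := hc.crd.an_comp hγ
  obtain ⟨u, h3, h4⟩ := jac_ordGe h0 k1 (rank_Tm_le h2 (Finset.univ.filter fun i => 1 ≤ q i)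
    fun i hi => (k1 i).mono (Finset.mem_filter.1 hi).2)
  obtain ⟨U, h5, h6⟩ := hc.eq.unit hζ
  have h7 := (hc.crd.chg (crd_chart hch)).1
  have h8 : ContinuousAt (fun w => ‖jd (fun z => ch (ξ z)) (c (γ w)) * u w‖) w₁ :=
    ((ContinuousAt.comp (f := fun w => c (γ w)) (an_jac h7).continuousAt h2.continuousAt).mul
      h3.continuousAt).norm
  refine ⟨g, ∑ i, (q i - 1) + (3 - (4 - (Finset.univ.filter fun i => 1 ≤ q i).card)),
    ‖jd (fun z => ch (ξ z)) (c (γ w₁)) * u w₁‖ + 1, fun l => ?_, ?_, ?_⟩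
  · exact ((hg l).mul (ordEq_zero (hγ.hol (h5 l).1) (h5 l).2)).congr
      ((hγ.1.eventually h6).mono fun w e => (e l).symm)
  · filter_upwards [h4, h8.eventually (gt_mem_nhds (lt_add_one _)), h2.eventually_analyticAt,
      h2.continuousAt.eventually h7.eventually_analyticAt,
      (hγ.1.eventually hc.crd.left).eventually_nhds] with w e1 e2 e3 e4 e5
    have e6 : (fun w => ch (γ w)) =ᶠ[𝓝 w] fun w => ch (ξ (c (γ w))) :=
      e5.mono fun w hw => (congrArg ch hw).symm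
    rw [e6.fderiv_eq, det_comp (φ := fun z => ch (ξ z)) e4.differentiableAt e3.differentiableAt,
      e1, mul_left_comm, norm_mul, norm_pow, mul_comm]
    exact mul_le_mul_of_nonneg_right e2.le (by positivity)
  · rw [k2]
    refine num (fun j => ?_) h1 ?_ le_rfl
    · rcases k4 j with e | ⟨l, -, -, e, -⟩
      · linarith [e.1]
      · linarith [ha l]
    · rcases k4 i with e | ⟨l, e1, -, e, -⟩
      · omega
      · rw [e, hc.inj l k i e1 hi]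
        linarith

/-- bounded below near `y` -/
def Lo (y : V.W) (F : V.W → ℝ) : Prop := ∃ C : ℝ, ∀ᶠ x in 𝓝 y, -C ≤ F x

theorem lo_cont {y : V.W} {F : V.W → ℝ} (h : ContinuousAt F y) : Lo y F :=
  ⟨-(F y - 1), (h.eventually (lt_mem_nhds (sub_one_lt (F y)))).mono fun x e => by linarith⟩

theorem lo_sum {ι : Type} [Fintype ι] {y : V.W} {F : ι → V.W → ℝ} (h : ∀ i, Lo y (F i)) :
    Lo y fun x => ∑ i, F i x := by
  choose C hC using h
  refine ⟨∑ i, C i, (eventually_all.2 hC).mono fun x e => ?_⟩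
  rw [← Finset.sum_neg_distrib]
  exact Finset.sum_le_sum fun i _ => e i

theorem lo_log {y : V.W} {f : V.W → ℂ} (h : ContinuousAt f y) {a : ℝ} (h' : f y = 0 → a ≤ 0) :
    Lo y fun x => a * Real.log ‖f x‖ := by
  by_cases e : f y = 0
  · refine ⟨0, (h.norm.eventually (gt_mem_nhds (by simp [e] : ‖f y‖ < 1))).mono fun x k => ?_⟩
    rw [neg_zero]
    exact mul_nonneg_of_nonpos_of_nonpos (h' e) (Real.log_nonpos (norm_nonneg _) k.le)
  · exact lo_cont (continuousAt_const.mul (h.norm.log (norm_ne_zero_iff.2 e)))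

end RegT

open RegT in
/-- (REGT) -/
theorem regT : StRegT := by
  classical
  intro k ρ m V χ M Y L c ψ n h
  obtain ⟨t, ht⟩ := h.pm.cmp
  have hr := h.pm.res
  set a := disc ρ c n with ha
  set O : Set V.W := (⋃ l ∈ pos a, V.G l)ᶜ with hO
  set Γ : Set V.W := ⋃ l ∉ pos a, V.G l with hΓ
  have hE : ∀ y, y ∈ O \ Γ ↔ y ∉ V.E := fun y => by
    simp only [hO, hΓ, Lg.E, Set.mem_sdiff, mem_compl_iff, mem_iUnion, not_exists]
    exact ⟨fun e l => if hl : l ∈ pos a then e.1 l hl else e.2 l hl,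
      fun e => ⟨fun l _ => e l, fun l _ => e l⟩⟩
  have hS : (ψ '' O)ᶜ = ψ '' ⋃ l ∈ pos a, V.G l := by
    ext x
    obtain ⟨y, rfl⟩ := hr.surj x
    exact ⟨fun e => ⟨y, not_not.1 fun e' => e ⟨y, e', rfl⟩, rfl⟩,
      fun ⟨y', e1, e2⟩ ⟨y'', e3, e4⟩ => e3 (hr.inj y'' y' e3 (e2.trans e4.symm) ▸ e1)⟩
  refine (regY V.W χ h.pm.kahler k M h.pm.lb h.pm.nef m ρ h.hρ h.sum Y h.normal O ψ hr.emb
    (hS ▸ hr.dim) Γ
    (isClosed_iUnion_of_finite fun l => isClosed_iUnion_of_finite fun _ => V.closed l)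
    (fun x => ?_) L h.lb c h.hc t (fun e => ⟨fun y hy i j ch hch hi hj => ?_,
      fun y hy i i₁ j j₁ => ht.change y e i i₁ j j₁ ((hE y).1 hy)⟩) ?_ _ hr.an hS.ge ?_).mono
    fun x hx => ⟨hS ▸ fun ⟨y, e1, e2⟩ => hx (e2 ▸ hr.emb.isReg e1), hx⟩
  · obtain ⟨g, h1, h2⟩ := exists_eqn hr x
    exact ⟨g, h1, h2.mono fun x' e => ⟨e.1, fun e' => e.2 (image_mono inter_subset_right e')⟩⟩
  · obtain ⟨ζ, hζ, h1⟩ := ht.div y
    obtain ⟨u, h2, h3, h4⟩ := h1 e i j hi hj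
    have h5 := (Lg.Eq.ne hζ).self_of_nhds ((hE y).1 hy)
    have h6 := h4.and (V.closedE.isOpen_compl.mem_nhds ((hE y).1 hy))
    refine ⟨((h3 ch hch).fun_mul (Finset.analyticAt_fun_prod _ fun l _ =>
      (Lg.Eq.hol hζ l ch hch).fun_zpow (n := n e l) (by rw [ch.left_inv hch.2]; exact h5 l))).congr
        (((ch.tendsto_symm hch.2).eventually h6).mono fun z e => (e.1 e.2).symm), ?_⟩
    rw [h6.self_of_nhds.1 h6.self_of_nhds.2]
    exact mul_ne_zero h2 (Finset.prod_ne_zero_iff.2 fun l _ => zpow_ne_zero _ (h5 l))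
  · intro y hy ch i μ hch hi hμ
    obtain ⟨ζ, hζ, h1⟩ := ht.div y
    choose u h2 h3 h4 using fun e => h1 e (i e) (ch, μ e) (hi e) ⟨hch, hμ e⟩
    obtain ⟨C₁, k1⟩ := lo_sum fun e => lo_log (a := ρ e / c e) (holF_cont (n := 4) (h3 e))
      fun e' => absurd e' (h2 e)
    obtain ⟨C₂, k2⟩ := lo_sum fun l => lo_log (a := a l) (holF_cont (Lg.Eq.hol hζ l)) fun e' =>
      not_lt.1 fun e => hy (mem_biUnion (Finset.mem_filter.2 ⟨Finset.mem_univ l, e⟩)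
        (((Lg.Eq.iff hζ).self_of_nhds l).1 e'))
    refine ⟨C₁ + C₂, ?_⟩
    filter_upwards [k1, k2, eventually_all.2 h4, Lg.Eq.ne hζ, hr.emb.isOpen.mem_nhds hy,
      eventually_all.2 fun e => (holF_cont (n := 4) (h3 e)).eventually_ne (h2 e)]
      with x e1 e2 e3 e4 e5 e6 e7
    have e8 := (hE x).1 ⟨e5, e7⟩
    have e9 : ∀ e, Real.log ‖t e (i e) (ch, μ e) x‖ =
        Real.log ‖u e x‖ + ∑ l, n e l * Real.log ‖ζ l x‖ := fun e => by
      have e10 : ∀ l ∈ Finset.univ, ‖ζ l x ^ n e l‖ ≠ 0 := fun l _ =>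
        norm_ne_zero_iff.2 (zpow_ne_zero _ (e4 e8 l))
      rw [e3 e e8, norm_mul, norm_prod, Real.log_mul (norm_ne_zero_iff.2 (e6 e))
        (Finset.prod_ne_zero_iff.2 e10), Real.log_prod e10]
      simp only [norm_zpow, Real.log_zpow]
    have e11 : ∑ e, ρ e / c e * ∑ l, n e l * Real.log ‖ζ l x‖ = ∑ l, a l * Real.log ‖ζ l x‖ := by
      simp only [ha, disc, Finset.mul_sum, Finset.sum_mul]
      rw [Finset.sum_comm]
      exact Finset.sum_congr rfl fun l _ => Finset.sum_congr rfl fun e _ => by ring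
    simp only [e9, mul_add, Finset.sum_add_distrib, e11]
    linarith
  · intro W w₀ φ hW hw₀ h0 hφ hφS hcl
    have hcl' : ∀ w ∈ W, ∃ᶠ w' in 𝓝 w, φ w' ∈ ψ '' (O \ Γ) := fun w hw =>
      (mem_closure_iff_frequently.1 (hcl hw)).mono fun _ e => e.2
    obtain ⟨w₂, hw₂, h2, h3⟩ := H884.W.exists_good (stResLifts V Y ψ _ h.normal hr W hW φ hφ
      (hcl.trans (closure_mono fun w e => ⟨e.1, image_mono sdiff_subset e.2⟩))) h0 (hW.mem_nhds hw₀)
    obtain ⟨γ, hγ, hγ', h4⟩ := not_not.1 fun e => h3 ⟨hw₂, h2, e⟩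
    have h5 : ∀ᶠ w in 𝓝 w₂, φ w ∈ ψ '' (O \ Γ) → γ w ∈ O \ Γ ∧ ψ (γ w) = φ w :=
      h4.mono fun w e ⟨y, e1, e2⟩ => by
        have e3 := (e ⟨y, e1.1, e2⟩).2
        exact ⟨hr.inj y _ e1.1 (e3.trans e2.symm) ▸ e1, e3⟩
    have h6 : AnM 4 γ w₂ := ⟨hγ, hγ'⟩
    obtain ⟨w₁, ⟨k0, k1⟩, k2, k3, k4⟩ := ((gen h6 h2 (((hcl' w₂ hw₂).and_eventually h5).mono
      fun w e => (hE _).1 (e.2 e.1).1)).and_eventually (h6.eventually.and
        (h5.eventually_nhds.and (hW.mem_nhds hw₂)))).exists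
    have k5 : ψ (γ w₁) = φ w₁ := tendsto_nhds_unique_of_frequently_eq
      (hr.cont.continuousAt.comp k2.1) (hφ w₁ k4).1
      (((hcl' w₁ k4).and_eventually k3).mono fun w e => (e.2 e.1).2)
    obtain ⟨l, hl, k6⟩ : ∃ l ∈ pos a, γ w₁ ∈ V.G l := by
      have : ψ (γ w₁) ∈ (ψ '' O)ᶜ := by
        rw [hS, k5]
        exact hφS w₁ k4 k0
      simpa [hO] using fun e => this ⟨_, e, rfl⟩
    have hch := PH.at_chartAt (n := 4) (γ w₁)
    obtain ⟨ζ, hζ, k7⟩ := ht.div (γ w₁)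
    obtain ⟨g, J, C, k8, k9, k10⟩ :=
      wedge k2 k0 k1 h.good.klt k6 (Finset.mem_filter.1 hl).2 hch hζ
    choose μ hμ using fun e => (h.pm.lb e).cover (γ w₁)
    choose i hi using fun e => (h.lb e).cover (φ w₁)
    choose u l1 l2 l3 using fun e => k7 e (i e) (_, μ e) (k5 ▸ hi e) ⟨hch, hμ e⟩
    choose U l4 l5 l6 using k8
    refine ⟨w₁, k4, k0, γ, _, μ, i, 1, fun e => ∑ l, g l * n e l,
      fun e w => u e (γ w) * ∏ l, U l w ^ n e l, J, C, le_rfl, k2.1, hch, hμ, k2.2 _ hch, k3, hi,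
      fun e => ⟨(k2.hol (l2 e)).fun_mul (Finset.analyticAt_fun_prod _ fun l _ =>
        (l4 l).fun_zpow (l5 l)), mul_ne_zero (l1 e)
          (Finset.prod_ne_zero_iff.2 fun l _ => zpow_ne_zero _ (l5 l))⟩, fun e => ?_, k9, ?_⟩
    · filter_upwards [k2.1.eventually (l3 e), eventually_all.2 l6] with w e1 e2 e3 e4
      rw [pow_one, e1 ((hE _).1 e3), mul_left_comm, zpow_sum e4,
        ← Finset.prod_mul_distrib]
      refine congrArg _ (Finset.prod_congr rfl fun l _ => ?_)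
      rw [e2 l, mul_zpow, zpow_mul, zpow_natCast]
    · convert k10 using 2
      simp only [disc, Finset.mul_sum, Finset.sum_mul, Finset.sum_div, Int.cast_sum]
      rw [Finset.sum_comm]
      refine Finset.sum_congr rfl fun l _ => Finset.sum_congr rfl fun e _ => ?_
      push_cast
      ring

end Vale.Agent.P277Z.Val
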