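import Vale.Agent.P277Z.Val.KB
import Vale.Agent.P277Z.Val.CmpS
import Vale.Agent.P277Z.Val.Jz

/-!
# P277, block VAL: one step of the sequence of flips
-/

open scoped Manifold ContDiff Topology
open Vale.Agent.P272.K Vale.Agent.P285.H281.FD Vale.Agent.P277 Set Filter
open Vale.Agent.P277.T2 (IsLEq IsCmpV)
open Vale.Agent.P277.PH (HolF at_chartAt)
open Vale.Agent.P277.HD (pull)
open Vale.Agent.P277.H615 (FlipD comb exists_flipD)

noncomputable section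

namespace Vale.Agent.P277Z.Val

namespace Stp

variable {V : Lg} {X Z X' : CSp} {f : X.pt → Z.pt} {f' : X'.pt → Z.pt} {p : V.W → X.pt}
  {p' : V.W → X'.pt} {k : ℕ} {L : Fin k → Bd X.pt} {L' : Fin k → Bd X'.pt} {p₁ q₁ : Fin k → ℕ}
  {s : ∀ e, (L e).ι → (L' e).ι → Z.pt → ℂ} {a : Fin k → ℤ} {μ : Fin k → Fin V.r → ℤ}

theorem toHD {A : Set Z.pt} {c c' : Fin k → ℕ} {ρ : Fin k → ℝ}
    (h : IsFlipR X Z X' f f' A L L' c c' ρ) : HD.IsFlipR X Z X' f f' A L L' c c' ρ :=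
  ⟨h.normal, h.normalZ, h.normal', h.small, h.small', h.ninj, h.ninj', h.lb, h.lb', h.iso, h.ample,
    h.ample'⟩

theorem g_one {L : Bd X.pt} (hL : IsLBx X L) {i x} (hx : x ∈ L.U i) : L.g i i x = 1 :=
  mul_left_cancel₀ (hL.ne_zero i i _ hx hx) ((hL.cocycle i i i _ hx hx hx).trans (mul_one _).symm)

theorem prod_div {ι : Type} [Fintype ι] {z : ι → ℂ} (hz : ∀ l, z l ≠ 0) (n μ : ι → ℤ) (q : ℕ) :
    (∏ l, z l ^ n l) ^ q / ∏ l, z l ^ μ l = ∏ l, z l ^ (q * n l - μ l) := by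
  rw [← Finset.prod_pow, ← Finset.prod_div_distrib]
  refine Finset.prod_congr rfl fun l _ => ?_
  rw [zpow_sub₀ (hz l), mul_comm, zpow_mul, zpow_natCast]

/-- the comparison on the flip -/
theorem cmp (hc : Cmn V f f' p p') (h : FlipD f f' L L' p₁ q₁ s a) (hμ : Mu V f p p' L L' s a μ)
    {B : Fin k → Bd V.W} (hB : ∀ e j, IsOpen ((B e).U j)) {c c' : Fin k → ℕ}
    (hcc : ∀ e, c e * p₁ e = c' e) {n : Fin k → Fin V.r → ℤ} {t}
    (ht : IsCmpV p L (fun e => (B e).pow (c e)) V.G n t) :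
    ∃ t', IsCmpV p' (fun e => (L' e).pow (q₁ e)) (fun e => (B e).pow (c' e)) V.G
      (fun e l => p₁ e * n e l - μ e l) t' := by
  choose i₀ hi₀ using fun e y => (h.lb e).cover (p y)
  have hA : ∀ y, y ∉ ⋃ l, V.G l → f (p y) ∉ Amin f := fun y hy b => hy (hc.pre y b)
  refine ⟨fun e j ν y => t e (i₀ e y) ν y ^ p₁ e / s e (i₀ e y) j (f (p y)), fun y => ?_,
    fun y e j j₁ ν ν₁ hy hj hj₁ hν hν₁ => ?_⟩
  · obtain ⟨ζ, hζ, h1⟩ := ht.div y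
    refine ⟨ζ, hζ, fun e j ν hj hν => ?_⟩
    obtain ⟨u, hu, hu', h2⟩ := h1 e (i₀ e y) ν (hi₀ e y) hν
    obtain ⟨w, hw, hw', h3⟩ := hμ.mon y ζ e (i₀ e y) j hζ (hi₀ e y) hj
    refine ⟨fun x => u x ^ p₁ e / w x, div_ne_zero (pow_ne_zero _ hu) hw', fun ch hch =>
      ((hu' ch hch).fun_pow _).fun_div (hw ch hch) (by rwa [ch.left_inv hch.2]), ?_⟩
    filter_upwards [h2, h3, Lg.Eq.ne (V := V) hζ, (hB e ν).mem_nhds hν,
      (holF_cont (n := 4) hu').eventually_ne hu,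
      hc.hol.cont.continuousAt.eventually (((h.lb e).isOpen _).mem_nhds (hi₀ e y)),
      hc.hol'.cont.continuousAt.eventually (((h.lb' e).isOpen _).mem_nhds hj)]
      with x k2 k3 k4 k5 k6 k7 k8 hx
    have k9 : t e (i₀ e y) ν x ≠ 0 := by
      rw [k2 hx]
      exact mul_ne_zero k6 (Finset.prod_ne_zero_iff.2 fun l _ => zpow_ne_zero _ (k4 hx l))
    have k10 := ht.change x e _ _ ν ν hx k7 k7 k5 k5
    rw [g_one (h.lb e) k7, one_mul] at k10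
    have k11 := ht.change x e _ _ ν ν hx k7 (hi₀ e x) k5 k5
    rw [mul_assoc, ← k10] at k11
    have k12 : s e (i₀ e x) j (f (p x)) = (L e).g (i₀ e y) (i₀ e x) (p x) ^ p₁ e *
        s e (i₀ e y) j (f (p x)) * (L' e).g j j (p' x) ^ q₁ e :=
      (h.iso e).change (p x) (p' x) _ _ j j (hA x hx) (hc.comm x) k7 (hi₀ e x) k8 k8
    rw [k11, k12, g_one (h.lb' e) k8, one_pow, mul_one, mul_pow, mul_div_mul_left _ _
      (pow_ne_zero _ ((h.lb e).ne_zero _ _ _ k7 (hi₀ e x))), k2 hx, k3 hx, mul_pow,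
      mul_div_mul_comm, prod_div (k4 hx)]
  · have k1 : t e (i₀ e y) ν₁ y = (L e).g (i₀ e y) (i₀ e y) (p y) * t e (i₀ e y) ν y *
        (B e).g ν₁ ν y ^ c e := ht.change y e _ _ ν ν₁ hy (hi₀ e y) (hi₀ e y) hν hν₁
    have k2 : s e (i₀ e y) j (f (p y)) = (L e).g (i₀ e y) (i₀ e y) (p y) ^ p₁ e *
        s e (i₀ e y) j₁ (f (p y)) * (L' e).g j j₁ (p' y) ^ q₁ e :=
      (h.iso e).change (p y) (p' y) _ _ j₁ j (hA y hy) (hc.comm y) (hi₀ e y) (hi₀ e y) hj₁ hj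
    have k3 := pow_ne_zero (q₁ e) ((h.lb' e).ne_zero j j₁ _ hj hj₁)
    show t e (i₀ e y) ν₁ y ^ p₁ e / s e (i₀ e y) j₁ (f (p y)) = (L' e).g j j₁ (p' y) ^ q₁ e *
      (t e (i₀ e y) ν y ^ p₁ e / s e (i₀ e y) j (f (p y))) * (B e).g ν₁ ν y ^ c' e
    rw [k1, k2, g_one (h.lb e) (hi₀ e y), one_pow, one_mul, one_mul, mul_pow, ← pow_mul, hcc,
      mul_comm (s e _ j₁ _), ← mul_div_assoc, mul_div_mul_left _ _ k3, mul_div_right_comm]

theorem disc_eq {ρ : Fin k → ℝ} {c c' : Fin k → ℕ} (hp : ∀ e, 1 ≤ p₁ e)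
    (hcc : ∀ e, c e * p₁ e = c' e) (n : Fin k → Fin V.r → ℤ) (l : Fin V.r) :
    disc ρ c' (fun e l => p₁ e * n e l - μ e l) l =
      disc ρ c n l - ∑ e, ρ e / (c e * p₁ e) * μ e l := by
  simp only [disc, ← Finset.sum_sub_distrib]
  refine Finset.sum_congr rfl fun e _ => ?_
  have h1 : (p₁ e : ℝ) ≠ 0 := Nat.cast_ne_zero.2 (Nat.one_le_iff_ne_zero.1 (hp e))
  rw [← hcc, ← mul_div_mul_right (ρ e * n e l) _ h1]
  push_cast
  ring

theorem neg (hk : 1 ≤ k) {ν : Fin k → ℤ} (h : ∀ o, ∑ e, comb a o e * ν e < 0) {x : Fin k → ℝ}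
    {d : ℕ} (hx : ∀ e, (a e : ℝ) ≤ d * x e ∧ d * x e ≤ a e + 1) : ∑ e, x e * ν e < 0 := by
  have hk0 : (k : ℝ) ≠ 0 := by positivity
  have h0 : ∀ o, 0 < -∑ e, (comb a o e : ℝ) * ν e := fun o => neg_pos.2 (by exact_mod_cast h o)
  have h1 := (H615.sum_comb (θ₀ := -∑ e, (comb a none e : ℝ) * ν e)
    (θ := fun e => -∑ e', (comb a (some e) e' : ℝ) * ν e') hk (a := fun e => a e)
    (x := fun e => d * x e) (q := fun e => ν e) (fun e => by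
      rw [CmpS.sum_comb]
      field_simp
      ring) (neg_neg _).symm (h0 _).le (fun e => (h0 _).le) hx).2 (h0 _) fun e => h0 _
  simp only [mul_assoc, ← Finset.mul_sum] at h1
  exact neg_of_mul_neg_right h1 (Nat.cast_nonneg d)

end Stp

open Stp in
/-- (STEP) -/
theorem step_of (hG : GH.StGraph) (hK : StKB) (hP : StPull) : StStep := by
  intro k ρ m X Z X' f f' A L L' c c' hm hc hf V χ M p exc n hV
  have hk : 1 ≤ k := by
    rcases k with _ | k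
    · simp at hm
    · omega
  obtain ⟨p₁, q₁, σ, d, a, -, hcc, hD, ha⟩ := exists_flipD hf hc
  have hc' : ∀ e, 1 ≤ c' e := fun e =>
    Nat.pos_of_mul_pos_right (hcc e ▸ Nat.mul_pos (hc e) (hD.hp e))
  obtain ⟨V', π, p', new, exc', r1, hπ, hE, hn, hcm, r2, r3⟩ :=
    hG k X Z X' f f' A L L' c c' ρ hc hc' (toHD hf) V p exc hV.res
  obtain ⟨χ', hχ⟩ := hK V' V π new χ hV.kahler r1
  have hB : Blw V' V π χ' new {y | f (p y) ∈ Amin f} :=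
    ⟨hχ, hπ, r1, fun l hl _ ⟨y, b, e⟩ => e ▸ hn l hl y b, fun y b => (hE y).2 (.inr b)⟩
  obtain ⟨s, hs⟩ := stStr _ _ _ hπ
  obtain ⟨n₀, k1, k2, k3, k4⟩ := hP k m V χ M X L c p exc n hf.normal hf.lb hc hV V' π χ' new _ s hB hs
  obtain rfl : exc' = new ∪ exc.image s := Finset.ext fun l =>
    (exc_iff _ _ _ _ r2 l).trans (exc_iff _ _ _ _ k1.res l).symm
  have hC : Cmn V' f f' (fun y => p (π y)) p' :=
    ⟨⟨r2.cont, r2.hol⟩, ⟨r3.cont, r3.hol⟩, hcm, fun y b => (hE y).2 (.inr b)⟩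
  obtain ⟨μ, hμ⟩ := cmpS V' X Z X' f f' k L L' p₁ q₁ σ a hD hk _ p' hC
  obtain ⟨t, ht⟩ := k1.cmp
  refine ⟨V', π, χ', new, s, p', q₁, n₀, fun e l => p₁ e * n₀ e l - μ e l, hB, hs, hD.hq, k2, k3,
    k4 ρ hm, k1, ⟨hχ, k1.lb, k1.nef, r3, cmp hC hD hμ (fun e j => ?_) hcc ht⟩, hcm,
    fun l hl => ⟨(exc_iff _ _ _ _ r2 l).2 (hD.small.dim.mono ?_), ?_⟩, fun l hl => ?_, hμ.cover⟩
  · exact (isOpen_iff_mem_nhds.2 fun _ h => ev_at h).inter ((k1.lb e).isOpen j.2)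
  · rintro _ ⟨y, b, rfl⟩
    exact hl y b
  · rw [disc_eq hD.hp hcc]
    exact lt_sub_iff_add_lt.2 (add_lt_iff_neg_left.2 (neg hk (fun o => hμ.neg l o hl) ha))
  · rw [disc_eq hD.hp hcc]
    simp [hμ.zero l hl]

end Vale.Agent.P277Z.Val
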