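import Vale.Agent.P277Z.Val.Tw1

/-!
# P277, block VAL: the slice over a flipped surface
-/

open scoped Manifold ContDiff Topology
open Vale.Agent.P272.K Vale.Agent.P285.H281.FD Vale.Agent.P277 Set Filter

noncomputable section

namespace Vale.Agent.P277Z.Val.Tw

theorem sl_of (h : StSlc) : StSL := by
  intro k ρ m X Z X' f f' L L' c c' V χ M p p' exc n n' Λ hm hL hc hs hρ hn hb
  obtain ⟨x, hx, -, J, _, cv, o, q, κ, dm, nn, H⟩ := h k ρ m V χ M X' L' c' p' exc n' hm hL hc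
    hs.pm' _ ∅ hb (by
      obtain ⟨g, w, -⟩ := hb
      exact ⟨fun _ => ∅, fun _ _ => g w, fun _ => isOpen_empty, fun _ _ d => d.elim, empty_subset _⟩)
  have key : ∀ y, p' y = x → ∃ l, y ∈ V.G l ∧ Ov V f p l := fun y e =>
    hs.cover y (by rw [← hs.comm, e]; exact hx)
  obtain ⟨y, hy⟩ := hs.pm'.res.surj x
  obtain ⟨l, h1, h2⟩ := key y hy
  obtain ⟨b, -⟩ := H.cover y hy l (hs.lt l h2).1 h1
  obtain ⟨cf, d1, d2⟩ := H.neg
  classical
  refine ⟨J, _, ⟨b⟩, o, ⟨q, κ, fun b => ∑ e, ρ e * dm e b + ∑ l with l ∉ exc, -disc ρ c' n' l * nn l b,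
    cf, H.symm, fun b b' e => H.off b b' e ▸ Nat.cast_nonneg _, d1, d2, H.adj, fun b => ?_,
    fun b => ?_⟩, fun b => ?_⟩
  · refine add_mem (sum_mem fun e _ => ?_) (sum_mem fun l hl => ?_)
    · simpa [mul_comm] using nsmul_mem (hρ e) (dm e b)
    · simpa [mul_comm] using nsmul_mem (hn l (Finset.mem_filter.1 hl).2) (nn l b)
  · have := H.eqn b
    simp only [sub_add_cancel_left, neg_mul, Finset.sum_neg_distrib] at this ⊢
    linarith
  · obtain ⟨y, e1, e2⟩ := ((H.inf b).sdiff (finite_iUnion fun l : {l // l ≠ o b} =>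
      H.fin b l l.2)).nonempty
    obtain ⟨l, e3, e4⟩ := key y (H.sub b e1).2
    obtain rfl : l = o b := by_contra fun d => e2 (mem_iUnion.2 ⟨⟨l, d⟩, e1, e3⟩)
    exact (hs.lt _ e4).2

end Vale.Agent.P277Z.Val.Tw
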