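import Vale.Agent.P277Z.Val.Up
import Vale.Agent.P277Z.Val.Ghp
import Vale.Agent.P277.H60.Z.Chain

/-!
# P277, block VAL: very good models
-/

set_option linter.unusedSectionVars false

open scoped Manifold ContDiff
open Set Filter Metric Topology Function
open Vale.Agent.P272.K Vale.Agent.P277.PH
open Vale.Agent.P277.T3 (ThinM IsAnAt)
open Vale.Agent.P277.H762 (Cv)

noncomputable section

namespace Vale.Agent.P277Z.Val.U

variable {V V' : Lg} {π : V'.W → V.W} {a' : Fin V'.r → ℝ} {a : Fin V.r → ℝ}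
  {s : Fin V.r → Fin V'.r}

theorem mon_pos {y : V.W} {f : V.W → ℂ} {n : Fin V.r → ℕ} (h : Mon V y f n) {j : Fin V.r}
    (hy : y ∈ V.G j) : (∀ᶠ x in 𝓝 y, x ∈ V.G j → f x = 0) ↔ 1 ≤ n j := by
  obtain ⟨ζ, hζ⟩ := V.exEq y
  obtain ⟨u, h1, h2, h3⟩ := h ζ hζ
  constructor
  · intro e
    obtain ⟨x, e1, e2, e3, e4, e5⟩ := ((freq_gen hy).and_eventually (e.and (h3.and (hζ.iff.and
      ((holF_cont h1).eventually_ne h2))))).exists
    rw [e2 e1.1, eq_comm, mul_eq_zero, Finset.prod_eq_zero_iff] at e3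
    obtain ⟨i, -, e6⟩ := e3.resolve_left e5
    rw [pow_eq_zero_iff'] at e6
    obtain rfl : i = j := by_contra fun e => e1.2 i e ((e4 i).1 e6.1)
    exact Nat.one_le_iff_ne_zero.2 e6.2
  · intro e
    filter_upwards [h3, hζ.iff] with x e1 e2 e3
    rw [e1, Finset.prod_eq_zero (Finset.mem_univ j) (by rw [(e2 j).2 e3, zero_pow (by omega)]),
      mul_zero]

theorem mon_ord {γ : Cm 4 → V.W} {w₁ : Cm 4} {f : V.W → ℂ} {n : Fin V.r → ℕ}
    (h : Mon V (γ w₁) f n) (hγ : AnM 4 γ w₁) {ζ} (hζ : V.Eq (γ w₁) ζ) {g : Fin V.r → ℕ}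
    (hg : ∀ j, OrdEq (fun w => ζ j (γ w)) w₁ (g j)) :
    OrdEq (fun w => f (γ w)) w₁ (∑ j, g j * n j) := by
  obtain ⟨u, h1, h2, h3⟩ := h ζ hζ
  have h4 := hγ.hol h1
  have h5 := (ordEq_zero h4 h2).mul (ordEq_prod Finset.univ fun j _ => (hg j).pow (n j))
  rw [zero_add] at h5
  exact h5.congr ((hγ.1.eventually h3).mono fun _ e => e.symm)

/-- the estimate at a general point of the surface -/
theorem vg_pt (h : Hom V' V π) (hs : IsStr V' V π s) (hC : Crep V' V π a' a) (ha : Good V a)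
    {l : Fin V.r} {k : Fin V'.r} {S : Set V'.W} (hS : IsCC V' (s l) k S) (hl : a l < 0)
    {y : V'.W} (hy : y ∈ S) (hy' : ∀ m, m ≠ s l → m ≠ k → y ∉ V'.G m) {q : ℕ} (hq : 1 ≤ q)
    (hq' : 1 ≤ q * (1 + a l))
    (hA : (∀ m, m ≠ l → π y ∉ V.G m) → ∃ B, ThinM 4 1 B ∧ ∀ᶠ x in 𝓝 y, x ∈ S → π x ∈ B)
    (hB : ∀ ζ m, V.Eq (π y) ζ → ∃ C : ℝ,
      (∀ᶠ x in 𝓝 y, ‖ζ m (π x)‖ ^ q ≤ C * ‖ζ l (π x)‖) ∨
        ∀ᶠ x in 𝓝 y, ‖ζ l (π x)‖ ≤ C * ‖ζ m (π x)‖ ^ q) : 1 ≤ a' k := by
  classical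
  obtain ⟨c', ξ', lab', h', hk0, hl1, hsc⟩ := sc_of_cc hS hy
  obtain ⟨c, ξ, lab, hc⟩ := exists_ch V (π y)
  have hz := h.cont.continuousAt.eventually hc.eqs_zero
  choose n hn using fun m => exists_mon (V := V') (y := y) (f := fun x => eqs c lab m (π x))
    ((holM h y).2 _ (hc.holF m))
    (hz.mono fun x e1 e2 e3 => e2 (h.pre _ (mem_iUnion.2 ⟨m, (e1 m).1 e3⟩)))
  have hyl : π y ∈ V.G l := img_cc hs hS ⟨y, hy, rfl⟩
  have hn1 : 1 ≤ n l (s l) := (mon_pos (hn l) (hS.sub hy).1).1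
    (hz.mono fun x e1 e2 => (e1 l).2 (hs.img l ▸ mem_image_of_mem π e2))
  obtain ⟨h0, h1⟩ := hsc.mem.self_of_nhds.1 hy
  have hloc := an_loc (holM h y) h'.crd hc.crd
  have hm : ∀ᶠ x in 𝓝 y, ∀ m, m ≠ s l → m ≠ k → x ∉ V'.G m := eventually_all.2 fun m => by
    by_cases e4 : y ∈ V'.G m
    · exact Eventually.of_forall fun _ e5 e6 => absurd e4 (hy' m e5 e6)
    · exact eventually_of_mem ((closed_G V' m).isOpen_compl.mem_nhds e4) fun _ e _ _ => e
  obtain ⟨J₀, hJ₀⟩ := exists_ordEq (an_jac hloc) h0 (by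
    filter_upwards [h'.crd.tend.eventually hm, h'.mem_par, li_par h h'.crd hc.crd]
      with w e1 e0 e2 e3
    have e4 : ∀ j, j ≠ s l → ξ' w ∉ V'.G j := fun j hj e => by
      by_cases e5 : j = k
      · exact e3 (by simpa [hk0] using (e0 k).1 (e5 ▸ e))
      · exact e1 j hj e5 e
    by_cases e5 : ξ' w ∈ V'.G (s l)
    · exact e2.1 (li_str h hs ⟨e5, e4⟩)
    · refine e2.1 (li_of_notE h fun e => ?_)
      obtain ⟨j, hj⟩ := mem_iUnion.1 e
      exact e4 j (fun e => e5 (e ▸ hj)) hj)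
  obtain ⟨e, he, e1, e2, e3, e4⟩ := ((freq_gen (hS.sub hy).2).and_eventually (h'.eventually.and
    ((h.cont.continuousAt.eventually hc.eventually).and ((eventually_all.2 fun m =>
      (hn m).eventually).and (h'.crd.cont.eventually hJ₀.eventually))))).exists
  have e0 := (e1.mem_iff hk0).self_of_nhds.1 he.1
  obtain ⟨g, J, k1, k2, k3⟩ := disc_gen h hC he e1 hk0 e2
  obtain rfl : J = J₀ := k2.unique e0 e4
  have hg : ∀ m, g m = n m k := fun m => (k1 m).unique e0 (by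
    have := mon_ord (γ := ξ') (w₁ := c' e) (g := fun j => if j = k then 1 else 0)
      (by rw [e1.crd.inv]; exact e3 m) e1.crd.an (by rw [e1.crd.inv]; exact e1.eq) fun j => by
        by_cases hj : j = k
        · simp only [hj, if_true, eqs, hk0, Option.elim_some]
          exact (ordEq_coord _).congr (e1.crd.right.mono fun w hw => (congrFun hw 0).symm)
        · simp only [if_neg hj]
          refine ordEq_zero (e1.crd.an.hol (by rw [e1.crd.inv]; exact e1.holF j)) ?_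
          rw [e1.crd.inv]
          exact fun e => he.2 j hj ((e1.eqs_zero.self_of_nhds j).1 e)
    simpa using this)
  have k4 : J + a l * g l ≤ a' k := by
    rw [← k3, ← Finset.add_sum_erase _ _ (Finset.mem_univ l), ← add_assoc, le_add_iff_nonneg_right]
    refine Finset.sum_nonneg fun m hm => ?_
    by_cases e5 : a m < 0
    · rw [hg, show n m k = 0 from by_contra fun e6 => Set.disjoint_left.1
        (ha.disj m l (Finset.ne_of_mem_erase hm) e5 hl) ((hz.self_of_nhds m).1 (((mon_pos (hn m)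
          (hS.sub hy).2).2 (by omega)).self_of_nhds (hS.sub hy).2)) hyl]
      simp
    · exact mul_nonneg (not_lt.1 e5) (Nat.cast_nonneg _)
  have hkl := ha.klt l
  obtain ⟨i, hi, -⟩ := (hc.mem.self_of_nhds l).1 hyl
  by_cases hcase : ∀ m, m ≠ l → π y ∉ V.G m
  · obtain ⟨B, b1, b2⟩ := hA hcase
    set w₁ : Cm 4 := update (c' y) 1 1 with hw₁
    have w0 : w₁ 0 = 0 := h0
    have wp : pr w₁ = pr (c' y) := funext fun i => by fin_cases i <;> rfl
    have wb : blw 1 w₁ = c' y := by rw [blw_D le_rfl w0, wp, hsc.pl hy]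
    have hb : Tendsto (blw 1) (𝓝 w₁) (𝓝 (c' y)) := wb ▸ (an_blw 1 w₁).continuousAt
    have hγ : AnM 4 (fun w => ξ' (blw 1 w)) w₁ :=
      AnM.comp (γ := ξ') (by rw [wb]; exact h'.crd.an) (an_blw 1 w₁)
    have hγ0 : ξ' (blw 1 w₁) = y := by rw [wb, h'.crd.inv]
    have hr := hb.eventually h'.crd.right
    have m1 := fun m => mon_ord (γ := fun w => ξ' (blw 1 w)) (w₁ := w₁)
      (g := fun j => if j = k then 1 else if j = s l then 1 else 0)
      (by rw [hγ0]; exact hn m) hγ (by rw [hγ0]; exact h'.eq) fun j => by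
        by_cases e5 : j = k
        · simp only [e5, if_true, eqs, hk0, Option.elim_some]
          exact (ordEq_coord _).congr
            (hr.mono fun w e => ((congrFun e 0).trans (blw_zero 1 w)).symm)
        by_cases e6 : j = s l
        · simp only [e6, if_true, if_neg hS.ne.symm, eqs, hl1, Option.elim_some]
          exact ⟨fun w => w 1, an_coord _ _, one_ne_zero,
            hr.mono fun w e => (congrFun e 1).trans (blw_one 1 w)⟩
        · simp only [if_neg e5, if_neg e6]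
          refine ordEq_zero (hγ.hol (by rw [hγ0]; exact h'.holF j)) ?_
          rw [hγ0]
          exact fun e => hy' j e6 e5 ((h'.eqs_zero.self_of_nhds j).1 e)
    obtain ⟨u, u1, u2, u3⟩ := hJ₀
    have m2 : OrdEq (jd fun w => c (π (ξ' (blw 1 w)))) w₁ (1 + J) := ⟨fun w => u (blw 1 w),
      AnalyticAt.comp (g := u) (by rwa [wb]) (an_blw 1 w₁), by simpa only [wb] using u2, by
        filter_upwards [hb.eventually (u3.and hloc.eventually_analyticAt)] with w e
        rw [jd, det_comp (φ := fun w => c (π (ξ' w))) e.2.differentiableAt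
          (an_blw 1 w).differentiableAt, e.1, blw_zero, show (fderiv ℂ (blw 1) w).det = _ from
            jd_blw 1 w]
        ring⟩
    have hF := hγ.map (holM h _)
    have hc' : Ch V (π (ξ' (blw 1 w₁))) c ξ lab := by rw [hγ0]; exact hc
    obtain ⟨γ, b, m3, -, m4, -⟩ := coords hF w0 hc' m1 a
    obtain ⟨T, t1, t2⟩ := cv_of_thinM b1 hc'.crd
    have hF' := hc'.crd.an_comp hF
    have hγt : Tendsto (fun w => ξ' (blw 1 w)) (𝓝 w₁) (𝓝 y) := hγ0 ▸ hγ.1
    have m5 : ∑ i, (γ i - 1) + (3 - 1) ≤ 1 + J := jac_le w0 m3 (rank_Tm_of_cv hF' t1 (by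
      filter_upwards [(pr.continuous.tendsto' _ _ wp).eventually (hsc.par hy), hγt.eventually b2,
        hF.1.eventually t2] with w f1 f2 f3 f4
      exact f3 (f2 (by rw [blw_D le_rfl f4]; exact f1.1)))) m2
    have m6 : γ i - 1 ≤ ∑ i, (γ i - 1) :=
      Finset.single_le_sum (f := fun i => γ i - 1) (fun _ _ => Nat.zero_le _) (Finset.mem_univ i)
    have m7 : n l k + n l (s l) ≤ γ i := by
      rw [m4 l i hi]
      refine le_trans ?_ (Finset.sum_le_sum_of_subset (Finset.subset_univ {k, s l}))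
      rw [Finset.sum_pair hS.ne]
      simp [hS.ne.symm]
    have m8 : ((g l + 1 : ℕ) : ℝ) ≤ J := by
      rw [hg]
      exact_mod_cast (by omega)
    push_cast at m8
    nlinarith [(Nat.cast_nonneg (g l) : (0 : ℝ) ≤ _)]
  · push Not at hcase
    obtain ⟨m, hml, hm⟩ := hcase
    have n0 : ¬ 1 ≤ n m (s l) := fun e => hml (Lg.not_sub (hs.img l ▸ image_subset_iff.2
      (G_subset (fun x _ => isAnAt_preimage (holM h x) (isAnAt_G V m _)) (hS.sub hy).1
        ((hz.and ((mon_pos (hn m) (hS.sub hy).1).2 e)).mono fun x e1 e2 =>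
          (e1.1 m).1 (e1.2 e2))))).symm
    obtain ⟨u, u1, u2, u3⟩ := hn m _ h'.eq
    have n1 : 1 ≤ n m k := by
      have e5 := u3.self_of_nhds.symm.trans ((hz.self_of_nhds m).2 hm)
      rw [mul_eq_zero, Finset.prod_eq_zero_iff] at e5
      obtain ⟨j, -, e6⟩ := e5.resolve_left u2
      rw [pow_eq_zero_iff'] at e6
      by_cases e7 : j = s l
      · exact absurd (Nat.one_le_iff_ne_zero.2 (e7 ▸ e6.2)) n0
      · obtain rfl : j = k := by_contra fun e8 =>
          hy' j e7 e8 ((h'.eqs_zero.self_of_nhds j).1 e6.1)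
        exact Nat.one_le_iff_ne_zero.2 e6.2
    obtain ⟨C, hC | hC⟩ := hB _ m hc.eq
    · refine absurd ((mon_pos (hn m) (hS.sub hy).1).1 ?_) n0
      filter_upwards [hC, hz] with x f1 f2 f3
      rw [(f2 l).2 (hs.img l ▸ mem_image_of_mem π f3), norm_zero, mul_zero] at f1
      exact norm_eq_zero.1 (pow_eq_zero_iff (by omega) |>.1 (le_antisymm f1 (by positivity)))
    have n2 : n m k * q ≤ n l k := Ghp.exp_le (ex := fun j => n m j * q)
      (C := |C| * (‖u y‖ + 1) ^ q) h'.eq (hn l) (by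
        filter_upwards [hC, u3, (holF_cont u1).norm.eventually_lt continuousAt_const
          (lt_add_one _)] with x f1 f2 f3
        refine f1.trans ?_
        rw [f2, norm_mul, mul_pow, norm_prod, ← Finset.prod_pow, mul_assoc]
        simp only [norm_pow, pow_mul]
        gcongr
        exact le_abs_self C) (hS.sub hy).2
    have n3 : q ≤ g l := by rw [hg]; nlinarith
    obtain ⟨j, hj, -⟩ := (hc.mem.self_of_nhds m).1 hm
    obtain ⟨γ, b, m3, -, m4, -⟩ := coords (e1.crd.an.map (holM h _)) e0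
      (by rw [e1.crd.inv]; exact e2) k1 a
    have hij : i ≠ j := fun e => hml (hc.inj _ _ j hj (e ▸ hi))
    have m5 := rank_Tm_le (an_loc (holM h e) e1.crd e2.crd) {i, j} fun x hx => (m3 x).mono (by
      simp only [Finset.mem_insert, Finset.mem_singleton] at hx
      rcases hx with rfl | rfl
      · rw [m4 l x hi]; omega
      · rw [m4 m x hj, hg]; omega)
    rw [Finset.card_pair hij] at m5
    have m6 : ∑ i, (γ i - 1) + (3 - (4 - 2)) ≤ J := jac_le e0 m3 m5 k2
    have m7 : γ i - 1 ≤ ∑ i, (γ i - 1) :=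
      Finset.single_le_sum (f := fun i => γ i - 1) (fun _ _ => Nat.zero_le _) (Finset.mem_univ i)
    rw [m4 l i hi] at m7
    have m8 : (g l : ℝ) ≤ J := by exact_mod_cast (by omega)
    have m9 : (q : ℝ) ≤ g l := by exact_mod_cast n3
    nlinarith

end Vale.Agent.P277Z.Val.U

namespace Vale.Agent.P277Z.Val

open U

/-- (VG) -/
theorem vg_of (H : StGHPn) : StVG := by
  intro V χ a Y ψ hχ ha hR
  have hne := Ghp.nonempty hR
  have hq : ∀ l, ∃ q : ℕ, 1 ≤ q ∧ 1 ≤ q * (1 + a l) := fun l => by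
    have h1 : 0 < 1 + a l := by linarith [ha.klt l]
    obtain ⟨q, hq⟩ := exists_nat_ge (1 / (1 + a l))
    refine ⟨q + 1, by omega, ?_⟩
    rw [div_le_iff₀ h1] at hq
    push_cast
    linarith
  choose q q1 q2 using hq
  obtain ⟨V', π, χ', exc, hB, h1⟩ := H V χ hne hχ (Fin V.r × Fin V.r) Prod.fst Prod.snd
    (fun i => q i.2) fun i => q1 i.2
  refine ⟨V', π, χ', exc, _, hB, fun a' hC ⟨j, S⟩ hc hj hd => ?_⟩
  have h := hB.hom
  obtain ⟨s, hs⟩ := stStr V' V π h
  obtain ⟨l, rfl⟩ := neg_str h hs hC ha hj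
  obtain ⟨k, hS⟩ := Lg.cmp_iff.1 hc
  have hl : a l < 0 := (stStrA V' V π s a' a h hs hC).2 l ▸ hj
  rw [IsCC.eC hS]
  obtain ⟨y₀, hy₀⟩ := hS.conn.nonempty
  obtain ⟨y, ⟨e1, e2⟩, e3⟩ := ((Lg.freq2 (hS.sub hy₀)).and_eventually (hS.loc y₀ hy₀)).exists
  refine vg_pt h hs hC ha hS hl (e3.2 e1) e2 (q1 l) (q2 l) (fun e => ⟨_,
    P277.H60.Z.thinM_of_emb hR.emb hd, ?_⟩) fun ζ m hζ => h1 y ζ (m, l) hζ
  refine (h.cont.continuousAt.eventually (hR.emb.isOpen.mem_nhds fun e4 => ?_)).mono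
    fun x e4 e5 => ⟨e4, x, e5, rfl⟩
  obtain ⟨m, e5, e6⟩ := mem_iUnion₂.1 e4
  by_cases e7 : m = l
  · exact absurd (Finset.mem_filter.1 e5).2 (by rw [e7]; linarith)
  · exact e m e7 e6

end Vale.Agent.P277Z.Val
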