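import Vale.Agent.P277Z.Val.Tw2
import Vale.Agent.P277Z.Val.TwSL
import Vale.Agent.P277Z.Val.Step
import Vale.Agent.P277Z.Val.Slc
import Vale.Agent.P277Z.Val.Pull
import Vale.Agent.P277Z.Val.Comp
import Vale.Agent.P277Z.Val.AmpC
import Vale.Agent.P277Z.Val.An
import Vale.Agent.P277Z.Val.NefP
import Vale.Agent.P277Z.Val.Ghp
import Vale.Agent.P277Z.Val.RegT
import Vale.Agent.P277Z.Val.Dom
import Vale.Agent.P277Z.Val.Dom1
import Vale.Agent.P277Z.Val.VG
import Vale.Agent.P277Z.Val.Surf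
import Vale.Agent.P277Z.Val.Big
import Vale.Agent.P277Z.Val.DomV
import Vale.Agent.P277Z.Val.NegV
import Vale.Agent.P277Z.Val.Glue
import Vale.Agent.P277Z.Val.Up
import Vale.Agent.P277Z.Val.RkC
import Vale.Agent.P277Z.Val.Disc
import Vale.Agent.P277Z.GH.ToVal
import Vale.Agent.P277Z.GH.Graph
import Vale.Agent.P277Z.GH.Prin
import Vale.Agent.P277Z.GH.Res0
import Vale.Agent.P277Z.GH.KahM
import Vale.Agent.P277Z.GH.KahMan

/-!
# P277, block VAL: the klt case from the other blocks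
-/

namespace Vale.Agent.P277Z.Val

theorem kb : StKB := kb_of GH.kr GH.kproj GH.kman

theorem gklt0 (hK : Pos.KOD) (h1 : Hir.StMain) (h2 : Hir.StMainL) (hE : StExtrV)
    (hT : Top.StTop) (hN : StNeg3) : St.MOD (· < 1) :=
  have hn := GH.ghn_of (GH.prin_of hK h2) nx
  have hg := GH.gh_of hn kb
  have ha := ampC_of hK
  have hp := pull_of (comp_of ha an) nefP
  Tw.gklt_of ⟨step_of (GH.graph_of hn ha an) kb hp, Tw.sl_of slc, hp, cmpP, sepG_of (ghp_of hg), hE,
    regT, GH.gh0_of (GH.res0_of hK h1), dom1_of (dom_of hg) an, vg_of (ghp_of hg),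
    surf_of slc big img an, hT, vol_of' negV nx extC, car, big,
    val_of stStr stStrA stGd stUp stRK hN⟩

end Vale.Agent.P277Z.Val
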