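import Vale.Agent.P277Z.Val.NegV

/-!
# P277, block VAL: the negativity lemma on the components
-/

open scoped Manifold ContDiff Topology
open Vale.Agent.P272.K Vale.Agent.P285.H281.FD Vale.Agent.P277 Set Filter Real
open Vale.Agent.P277.PH (HolF at_chartAt)
open Vale.Agent.P277Z.Brg (lbn_of_isLB)
open Vale.Agent.P277Z.Neg

noncomputable section

namespace Vale.Agent.P277Z.Val

namespace N3

variable {V : Lg} {X : CSp} {p : V.W → X.pt}

/-- a disc in a contracted surface which is tangent to the fibre -/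
theorem exists_disc (hp : Pj.HolTo 4 X p) {l k : Fin V.r} {S : Set V.W} (hS : IsCC V l k S)
    (hd : DimLe X 1 (p '' S)) {N m : ℕ} {O : Set X.pt} {Ω : Set (Cm N)} {h : Fin m → Cm N → ℂ}
    {φ : X.pt → Cm N} (hm : IsModel X.Hol O Ω h φ) {z : V.W} (hz : z ∈ S) (hV : p z ∈ O) :
    ∃ γ : ℂ → V.W, γ 0 = z ∧ ContinuousAt γ 0 ∧ (∀ᶠ ζ in 𝓝 0, γ ζ ∈ S) ∧
      (∀ f, HolF 4 f z → AnalyticAt ℂ (fun ζ => f (γ ζ)) 0) ∧
      deriv (fun ζ => φ (p (γ ζ))) 0 = 0 ∧ deriv (fun ζ => chartAt (Cm 4) z (γ ζ)) 0 ≠ 0 := by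
  obtain ⟨Φ, ρ, lab, H, hl, hk, hs⟩ := V.snc.nch2 hS.ne.symm (hS.sub hz).1 (hS.sub hz).2
    (zero_ne_one (α := Fin 4)) ((hp.cont.continuousAt.eventually
      (hm.isOpen.mem_nhds hV)).and (hS.loc z hz))
  have hc := H.crd z H.src
  set j : Cm 2 →L[ℂ] Cm 4 := (insL (0 : Fin 4)).comp (insL (0 : Fin 3)) with hj
  have j0 : ∀ w, j w 0 = 0 := fun w => insL_self (0 : Fin 4) (insL (0 : Fin 3) w)
  have j1 : ∀ w, j w 1 = 0 := fun w =>
    (congrFun (rem_ins (0 : Fin 4) (insL (0 : Fin 3) w)) 0).trans (insL_self 0 w)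
  have e0 : j 0 = Φ z := by rw [map_zero, H.zero]
  have e1 : Φ.symm (j 0) = z := by rw [e0, hc.inv]
  have ha : AnM 4 (fun w => Φ.symm (j w)) 0 := AnM.comp (e0 ▸ hc.an) (j.analyticAt _)
  have hf : ∀ f, HolF 4 f z → AnalyticAt ℂ (fun w => f (Φ.symm (j w))) 0 :=
    fun f k => ha.hol (by rwa [e1])
  have hg : AnalyticAt ℂ (fun w => φ (p (Φ.symm (j w)))) 0 :=
    AnalyticAt.pi fun a => hf _ (Brg.Ramp.hol_model hp hm hV a)
  have hb : ∀ᶠ w in 𝓝 (0 : Cm 2), Φ.symm (j w) ∈ S ∧ p (Φ.symm (j w)) ∈ O := by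
    filter_upwards [j.continuous.continuousAt.eventually (show Metric.ball 0 ρ ∈ 𝓝 (j 0) by
        rw [map_zero]; exact Metric.ball_mem_nhds _ H.pos)] with w hw
    obtain ⟨b1, b2⟩ := H.symm_mem hw
    exact ⟨(hs _ b1).2.2 ⟨(H.iff1 hl b1).2 (by rw [b2, j0]), (H.iff1 hk b1).2 (by rw [b2, j1])⟩,
      (hs _ b1).1⟩
  obtain ⟨v, v1, v2⟩ : ∃ v, fderiv ℂ (fun w => φ (p (Φ.symm (j w)))) 0 v = 0 ∧ v ≠ 0 := by
    by_contra! k
    exact L44.not_big one_lt_two (L44.cv_img (O := O) (F := φ) (fun y hy a => (hm.hol _ hy _).2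
      ⟨fun z => z a, (ContinuousLinearMap.proj a : Cm N →L[ℂ] ℂ).analyticAt _, .rfl⟩) hd)
      ⟨_, 0, hb.mono fun w a => ⟨_, ⟨⟨_, a.1, rfl⟩, a.2⟩, rfl⟩, hg,
        (injective_iff_map_eq_zero _).2 k⟩
  have a0 : (0 : ℂ) • v = 0 := zero_smul _ _
  have a1 : HasDerivAt (fun ζ : ℂ => ζ • v) v 0 := by
    simpa using (hasDerivAt_id (0 : ℂ)).smul_const v
  have a2 : Tendsto (fun ζ : ℂ => ζ • v) (𝓝 0) (𝓝 0) := a0 ▸ a1.continuousAt
  refine ⟨fun ζ => Φ.symm (j (ζ • v)), by simp only [a0, e1], ContinuousAt.comp_of_eq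
    (g := fun w => Φ.symm (j w)) (f := fun ζ : ℂ => ζ • v) ha.1 a1.continuousAt a0,
    (a2.eventually hb).mono fun _ a => a.1, fun f k =>
    (hf f k).comp_of_eq (f := fun ζ : ℂ => ζ • v) (by fun_prop) a0, ?_, ?_⟩
  · exact (hg.differentiableAt.hasFDerivAt.comp_hasDerivAt_of_eq 0 a1 a0.symm).deriv.trans v1
  · have b1 := hc.chg (crd_chart (at_chartAt z))
    have b2 := (b1.1.differentiableAt.hasFDerivAt.comp_hasDerivAt_of_eq 0
      (j.hasFDerivAt.comp_hasDerivAt 0 a1) (by rw [← e0, Function.comp, a0])).deriv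
    refine fun k => v2 ?_
    have b3 := (injective_iff_map_eq_zero _).1 b1.inj _ (b2.symm.trans k)
    rw [← rem_ins 0 v, ← rem_ins (0 : Fin 4) (insL (0 : Fin 3) v)]
    exact (congrArg (fun w => remL 0 (remL 0 w)) b3).trans (by simp only [map_zero])

theorem core (hp : Pj.HolTo 4 X p) {P : Bd V.W} {c : Fin V.r → ℕ} {τ} (P1 : IsLB 4 P)
    (P2 : RelAmple V.X X p P) (P4 : IsDiv V (Bd.inv P) τ c) {l : Fin V.r} (hl : c l = 0)
    {m : Set V.W → ℝ} (hg : V.Green l m) {s : ℝ} (hs : 0 < s)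
    (hb : ∀ k S, IsCC V l k S → m S ≤ s * c k) {k₀ : Fin V.r} {S₀ : Set V.W}
    (h0 : IsCC V l k₀ S₀) (he : m S₀ = s * c k₀) (hd : DimLe X 1 (p '' S₀)) : False := by
  classical
  obtain ⟨z₀, hz⟩ := h0.conn.nonempty
  have hL : ∀ _ : Unit, IsLB 4 P := fun _ => P1
  obtain ⟨Λ, hΛ⟩ := Brg.ramp 4 V.W X p P hp P1 P2 (p z₀)
  obtain ⟨N, n, V₀, Ω, h, φ, hx, hm⟩ := X.model (p z₀)
  obtain ⟨O, V1, V2, V3⟩ := eventually_nhds_iff.1 ((hp.cont.isClosedMap.eventually_nhds_fiber _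
    fun w hw => Brg.Ramp.posX_ev hL (hΛ w hw)).and (hm.isOpen.mem_nhds hx))
  have hV : ∀ y, p y ∈ O → ∀ᶠ x in 𝓝 y, p x ∈ O := fun y a =>
    hp.cont.continuousAt.eventually (V2.mem_nhds a)
  choose κ hκ using P1.cover
  choose ζ hζ using V.exEq
  obtain ⟨g, hg⟩ := hg
  choose! F cf H1 H2 H3 using fun y a => hg y a _ (hζ y)
  choose u u1 u2 u3 using fun y => P4.div y _ _ (hκ y) (hζ y)
  set ex : V.W → Fin V.r → ℝ := fun y k => if k ≠ l then s * c k - cf y k else 0 with hex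
  set Q : V.W → V.W → ℝ := fun y x => exp (s / 2 * Λ (fun _ => κ y) x + s * log ‖u y x‖ -
    (F y x).re) * ∏ k, ‖ζ y k x‖ ^ ex y k with hQ
  have hz' : ∀ y k, y ∉ V.G k → ζ y k y ≠ 0 := fun y k a b => a (((hζ y).iff.self_of_nhds k).1 b)
  have hS : ∀ y, p y ∈ O → ∀ᶠ x in 𝓝 y, Spsh 4 (Λ fun _ => κ y) x := fun y a =>
    ((V1 _ a).1 y rfl).all (fun a => lbn_of_isLB (hL a) univ) (mem_univ y) fun _ => hκ y
  have A : ∀ y ∈ V.G l, p y ∈ O → ∀ᶠ x in 𝓝 y, x ∈ V.G l → (∀ k, k ≠ l → x ∉ V.G k) →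
      Q y x = exp (s / 2 * Λ (fun _ => κ x) x + s * log ‖τ (κ x) x‖ - g x) := by
    intro y a a'
    filter_upwards [H3 y a, u3 y, (hζ y).iff, ((V1 _ a').1 y rfl).chg, (P1.isOpen _).mem_nhds (hκ y),
      (holF_cont (u1 y)).eventually_ne (u2 y)] with x a1 a2 a3 a4 a5 a6 a7 a8
    have b1 : ∀ k, k ≠ l → 0 < ‖ζ y k x‖ := fun k b => norm_pos_iff.2 fun e => a8 k b ((a3 k).1 e)
    have b2 : ∀ k ∈ Finset.univ, ‖ζ y k x ^ c k‖ ≠ 0 := fun k _ => by
      by_cases b : k = l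
      · simp [b, hl]
      · simpa [norm_pow] using fun e => absurd (norm_pos_iff.1 (b1 k b)) (not_not.2 e)
    have b3 := norm_ne_zero_iff.2 (P1.ne_zero _ _ x (hκ x) a5)
    have b4 : log ‖τ (κ x) x‖ = log ‖u y x‖ + ∑ k, c k * log ‖ζ y k x‖ -
        log ‖P.g (κ x) (κ y) x‖ := by
      have b5 := mul_ne_zero (norm_ne_zero_iff.2 a6) (Finset.prod_ne_zero_iff.2 b2)
      rw [P4.sec.change _ _ x (hκ x) a5, a2, norm_mul, norm_mul, norm_prod]
      refine (log_mul (norm_ne_zero_iff.2 (inv_ne_zero (norm_ne_zero_iff.1 b3))) b5).trans ?_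
      rw [norm_inv, log_inv, neg_add_eq_sub, log_mul (norm_ne_zero_iff.2 a6)
        (Finset.prod_ne_zero_iff.2 b2), log_prod b2]
      simp only [norm_pow, log_pow]
    have b5 : ∏ k, ‖ζ y k x‖ ^ ex y k = exp (s * ∑ k, c k * log ‖ζ y k x‖ -
        ∑ k with k ≠ l, cf y k * log ‖ζ y k x‖) := by
      rw [Finset.sum_filter, Finset.mul_sum, ← Finset.sum_sub_distrib, exp_sum]
      refine Finset.prod_congr rfl fun k _ => ?_
      by_cases b : k = l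
      · simp [hex, b, hl]
      · simp only [hex, if_pos b, rpow_def_of_pos (b1 k b)]
        exact congrArg _ (by ring)
    rw [a4 _ (fun _ => κ y) (fun _ => hκ x) fun _ => a5, b4, a1 a7 a8]
    simp only [hQ, b5, ← exp_add, Finset.univ_unique, Finset.sum_singleton, log_pow]
    exact congrArg _ (by push_cast; ring)
  have B : ∀ y ∈ V.G l, p y ∈ O → ∀ᶠ x in 𝓝 y, ContinuousAt (Q y) x := by
    intro y a a'
    have E : ∀ k, ∀ᶠ x in 𝓝 y, ‖ζ y k x‖ ≠ 0 ∨ 0 ≤ ex y k := fun k => by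
      by_cases b : y ∈ V.G k
      · refine .of_forall fun _ => .inr ?_
        by_cases b' : k = l
        · simp [hex, b']
        · simp only [hex, if_pos b', H2 y a k b' b]
          exact sub_nonneg.2 (hb k _ (isCC_cc b' ⟨a, b⟩))
      · exact ((holF_cont ((hζ y).hol k)).eventually_ne (hz' y k b)).mono fun _ e =>
          .inl (norm_ne_zero_iff.2 e)
    filter_upwards [hS y a', holF_ev (H1 y a), (hζ y).eventually, holF_ev (u1 y),
      (holF_cont (u1 y)).eventually_ne (u2 y), eventually_all.2 E] with x a1 a2 a3 a4 a5 a6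
    exact (((continuousAt_const.mul (NG.spsh_cont a1)).add (continuousAt_const.mul
      ((holF_cont a4).norm.log (norm_ne_zero_iff.2 a5)))).sub
      (Complex.continuous_re.continuousAt.comp (holF_cont a2))).rexp.mul
      (tendsto_finsetProd _ fun k _ => (holF_cont (a3.hol k)).norm.rpow_const (a6 k))
  have C : ∀ y ∈ V.G l, p y ∈ O → ∀ᶠ x in 𝓝 y, x ∈ V.G l → Q x x = Q y x := by
    intro y a a'
    filter_upwards [B y a a', (A y a a').eventually_nhds, hV y a'] with x a1 a2 a3 a4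
    exact tendsto_nhds_unique_of_frequently_eq (B x a4 a3).self_of_nhds a1
      (((Lg.freq1 a4).and_eventually (a2.and (A x a4 a3))).mono fun w k =>
        (k.2.2 k.1.1 k.1.2).trans (k.2.1 k.1.1 k.1.2).symm)
  obtain ⟨z₁, ⟨z0, z1⟩, z2, z3⟩ :=
    ((Lg.freq2 (h0.sub hz)).and_eventually ((hV z₀ V3).and (h0.loc z₀ hz))).exists
  refine maxp (S := S₀) (P := fun x => Q x x) (φ := φ) (z₁ := z₁) V2 hp.cont
    (fun K _ k => (h0.closed.inter (k.isClosed.preimage hp.cont)).isCompact)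
    ((continuousOn_iff_continuous_domRestrict.2 hm.emb.continuous).mono fun x a => (V1 x a).2)
    (fun x a e => congrArg Subtype.val (hm.emb.injective (a₁ := ⟨x, (V1 x a).2⟩)
      (a₂ := ⟨_, (V1 _ z2).2⟩) e))
    (fun y a => (B y (h0.sub a.1).1 a.2).self_of_nhds.continuousWithinAt.congr_of_eventuallyEq
      (eventually_nhdsWithin_iff.2 ((C y (h0.sub a.1).1 a.2).mono fun x b b' =>
        b (h0.sub b'.1).1)) rfl) (z3.2 z0) z2
    (mul_pos (exp_pos _) (Finset.prod_pos fun k _ => ?_)) fun z a1 a2 a3 => ?_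
  · by_cases e : k = l
    · simp [hex, e]
    · by_cases e' : k = k₀
      · simp [hex, e', H2 z₁ z0.1 k₀ h0.ne z0.2, ← h0.eq z₁ (z3.2 z0), he]
      · exact rpow_pos_of_pos (norm_pos_iff.2 (hz' _ k (z1 k e e'))) _
  obtain ⟨γ, rfl, g2, g3, g4, g5, g6⟩ := exists_disc hp h0 hd hm a1 (V1 _ a2).2
  obtain ⟨t, t0, ht⟩ := NG.up_spsh (hS _ a2).self_of_nhds g2 (at_chartAt _)
    (AnalyticAt.pi fun i => g4 _ (holF_chart (at_chartAt _) i)) g6
  have D : ∀ k, ex (γ 0) k = 0 ∨ ζ (γ 0) k (γ 0) ≠ 0 := fun k => or_iff_not_imp_left.2 fun e e' =>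
    a3.ne' (mul_eq_zero_of_right _ (Finset.prod_eq_zero (Finset.mem_univ k)
      (by rw [e', norm_zero, zero_rpow e])))
  refine ⟨γ, rfl, g2, g3, AnalyticAt.pi fun a => g4 _
    (Brg.Ramp.hol_model hp hm (V1 _ a2).2 a), g5, s / 2 * t, by positivity, ?_⟩
  have w := (((ht.smul (t := s / 2) (by positivity)).add (up_log (g4 _ (u1 _)) (u2 _) s)).add
    (up_re (g4 _ (H1 _ (h0.sub a1).1)).neg)).add (up_sum Finset.univ (b := fun _ => 0)
    (f := fun k w => ex (γ 0) k * log ‖ζ (γ 0) k (γ w)‖) fun k _ => (D k).elim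
      (fun e => by simpa [e] using up_const 0) fun e => up_log (g4 _ ((hζ _).hol k)) e _)
  rw [Finset.sum_const_zero, add_zero, add_zero, add_zero] at w
  refine w.congr ?_
  filter_upwards [g3, g2.eventually (C _ (h0.sub a1).1 a2), g2.eventually (eventually_all.2 fun k =>
    show ∀ᶠ x in 𝓝 (γ 0), ex (γ 0) k = 0 ∨ ζ (γ 0) k x ≠ 0 from (D k).elim
      (fun e => .of_forall fun _ => .inl e)
      fun e => ((holF_cont ((hζ _).hol k)).eventually_ne e).mono fun _ => .inr)] with w e0 e1 e2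
  have e3 : ∀ k ∈ Finset.univ, ‖ζ (γ 0) k (γ w)‖ ^ ex (γ 0) k ≠ 0 := fun k _ => (e2 k).elim
    (fun e => by simp [e]) fun e => (rpow_pos_of_pos (norm_pos_iff.2 e) _).ne'
  rw [e1 (h0.sub e0).1, log_mul (exp_pos _).ne' (Finset.prod_ne_zero_iff.2 e3), log_exp,
    log_prod e3]
  refine congrArg₂ _ (by simp [sub_eq_add_neg]) (Finset.sum_congr rfl fun k _ => (e2 k).elim
    (fun e => by simp [e]) fun e => log_rpow (norm_pos_iff.2 e) _)

end N3

/-- (NEG3) -/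
theorem stNeg3 : StNeg3 := by
  classical
  intro V Y ψ exc h l hl
  obtain ⟨P, c, τ, P1, P2, P3, P4⟩ := h.amp
  have hc : c l = 0 := by simpa [hl] using P3 l
  have hp : Pj.HolTo 4 Y ψ := ⟨h.cont, h.hol⟩
  set T := V.cmp.filter fun c => c.1 = l ∧ DimLe Y 1 (ψ '' c.2) with hT
  have h1 : ∀ d ∈ T, ∃ k, IsCC V l k d.2 ∧ V.eC (fun k => c k) d = c k ∧ d = (l, d.2) ∧
      DimLe Y 1 (ψ '' d.2) := fun d hd => by
    obtain ⟨a, rfl, b⟩ := Finset.mem_filter.1 hd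
    obtain ⟨k, e⟩ := Lg.cmp_iff.1 a
    exact ⟨k, e, e.eC _, rfl, b⟩
  have h2 : ∀ d ∈ T, 0 < V.eC (fun k => c k) d := fun d hd => by
    obtain ⟨k, a1, a2, -, a3⟩ := h1 d hd
    rw [a2]
    exact (Nat.cast_nonneg _).lt_of_ne fun e => N3.core hp P1 P2 P4 hc ((V.RG T).zero_mem.2 l)
      one_pos (fun k _ _ => by simp) a1 (by simpa using e) a3
  suffices key : ∀ ρ ∈ V.RG T, ρ ≤ 0 from fun ρ hρ =>
    le_antisymm (key ρ hρ) (neg_nonpos.1 (key _ (neg_mem hρ)))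
  intro ρ hρ d
  refine not_lt.1 fun (hd : 0 < ρ d) => ?_
  have hd' : d ∈ T := by_contra fun e => hd.ne' (hρ.1 d e)
  obtain ⟨d₀, b1, b2⟩ := T.exists_max_image (fun d => ρ d / V.eC (fun k => c k) d) ⟨d, hd'⟩
  have s0 := (div_pos hd (h2 d hd')).trans_le (b2 d hd')
  obtain ⟨k₀, a1, a2, a3, a4⟩ := h1 d₀ b1
  refine N3.core hp P1 P2 P4 hc (hρ.2 l) s0 (fun k S e => ?_) a1
    (by rw [← a2, div_mul_cancel₀ _ (h2 d₀ b1).ne', ← a3]) a4
  by_cases b : (l, S) ∈ T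
  · exact e.eC (fun k => c k) ▸ (div_le_iff₀ (h2 _ b)).1 (b2 _ b)
  · exact (hρ.1 _ b).trans_le (mul_nonneg s0.le (Nat.cast_nonneg _))

end Vale.Agent.P277Z.Val
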