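import Vale.Agent.P277Z.Val.Disc
import Vale.Agent.P277Z.Val.Fin
import Vale.Agent.P277.H622.B1

/-!
# P277, block VAL: the points of a surface at which a map is immersive
-/

set_option linter.unusedSectionVars false

open scoped Manifold ContDiff
open Set Filter Metric Topology Function
open Vale.Agent.P272.K Vale.Agent.P277.PH
open Vale.Agent.P277.T3 (ThinM IsAnAt)
open Vale.Agent.P277.H762 (Cv)

noncomputable section

namespace Vale.Agent.P277Z.Val.U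

theorem exists_P {k n : ℕ} {F : Cm k → Cm n} {p : Cm k} (hF : AnalyticAt ℂ F p)
    (h : Injective (fderiv ℂ F p)) : ∃ P : Cm n →L[ℂ] Cm k, LocIso (fun z => P (F z)) p := by
  obtain ⟨P, hP⟩ := (fderiv ℂ F p : Cm k →ₗ[ℂ] Cm n).exists_leftInverse_of_injective
    (LinearMap.ker_eq_bot.2 h)
  refine ⟨LinearMap.toContinuousLinearMap P,
    locIso_of_inj (((LinearMap.toContinuousLinearMap P).analyticAt _).comp hF) ?_⟩
  rw [HasFDerivAt.fderiv (f := fun z => LinearMap.toContinuousLinearMap P (F z))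
    ((LinearMap.toContinuousLinearMap P).hasFDerivAt.comp p hF.differentiableAt.hasFDerivAt)]
  exact LeftInverse.injective (g := id) fun v => LinearMap.congr_fun hP v

theorem inj_of_P {k n : ℕ} {F : Cm k → Cm n} {p : Cm k} (hF : AnalyticAt ℂ F p)
    (P : Cm n →L[ℂ] Cm k) (h : jd (fun z => P (F z)) p ≠ 0) : Injective (fderiv ℂ F p) := by
  have h1 := LocIso.inj ⟨(P.analyticAt _).comp hF, h⟩
  rw [(P.hasFDerivAt.comp p hF.differentiableAt.hasFDerivAt).fderiv] at h1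
  exact Injective.of_comp (f := P) h1

/-- the immersive points of a ball -/
theorem conn_inj {k n : ℕ} {F : Cm (k + 1) → Cm n} {U : Set (Cm (k + 1))} (hU : IsOpen U)
    (hc : Convex ℝ U) (hF : ∀ p ∈ U, AnalyticAt ℂ F p) {p₁ : Cm (k + 1)} (h1 : p₁ ∈ U)
    (h : Injective (fderiv ℂ F p₁)) : IsPreconnected (U ∩ {p | Injective (fderiv ℂ F p)}) ∧
      U ⊆ closure (U ∩ {p | Injective (fderiv ℂ F p)}) := by
  obtain ⟨P, hP⟩ := exists_P (hF _ h1) h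
  have h2 : AnalyticOnNhd ℂ (jd fun z => P (F z)) U := fun p hp =>
    an_jac ((P.analyticAt _).comp (hF p hp))
  obtain ⟨W, g, e1, e2, e3⟩ := P277.H622.stB1 k U _ hU h2 fun z hz e =>
    hP.2 (h2.eqOn_zero_of_preconnected_of_eventuallyEq_zero hc.isPreconnected hz e h1)
  obtain ⟨f1, f2⟩ := conn_cv hU hc ⟨W, g, e1, fun l p hp => (e2 l p hp).1, e3⟩
  have f3 : U \ {z | z ∈ U ∧ jd (fun z => P (F z)) z = 0} ⊆
      U ∩ {p | Injective (fderiv ℂ F p)} := fun p hp =>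
    ⟨hp.1, inj_of_P (hF p hp.1) P fun e => hp.2 ⟨hp.1, e⟩⟩
  exact ⟨f1.subset_closure f3 (inter_subset_left.trans f2), f2.trans (closure_mono f3)⟩

theorem conn_of_local {X : Type*} [TopologicalSpace X] {S C : Set X} (hS : IsPreconnected S)
    (hC : C ⊆ S) (h : ∀ y ∈ S, ∃ B ∈ 𝓝 y, (B ∩ C).Nonempty →
      IsPreconnected (B ∩ C) ∧ B ∩ S ⊆ closure (B ∩ C)) : IsPreconnected C := by
  rintro u v hu hv huv ⟨x, hx⟩ ⟨y, hy⟩
  by_contra hcon
  have h1 := conn_prop hS (p := fun y => y ∈ closure (C ∩ u)) (fun z hz hp => ?_)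
    (fun z _ hp => isClosed_closure.mem_of_frequently_of_tendsto (hp.mono fun _ h => h.2)
      tendsto_id) (hC hx.1) (subset_closure hx) y (hC hy.1)
  · obtain ⟨z, e1, e2⟩ := mem_closure_iff_nhds.1 h1 v (hv.mem_nhds hy.2)
    exact hcon ⟨z, e2.1, e2.2, e1⟩
  · obtain ⟨B, e1, e2⟩ := h z hz
    obtain ⟨w, e3, e4⟩ := mem_closure_iff_nhds.1 hp B e1
    obtain ⟨e5, e6⟩ := e2 ⟨w, e3, e4.1⟩
    filter_upwards [e1] with w' e7 e8
    refine closure_mono (show B ∩ C ⊆ C ∩ u from fun t ht =>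
      ⟨ht.2, by_contra fun e9 => hcon ?_⟩) (e6 ⟨e7, e8⟩)
    obtain ⟨t', g1, g2⟩ := e5 u v hu hv (inter_subset_right.trans huv) ⟨w, ⟨e3, e4.1⟩, e4.2⟩
      ⟨t, ht, (huv ht.2).resolve_left e9⟩
    exact ⟨t', g1.2, g2⟩

variable {M M' : Type} [TopologicalSpace M] [TopologicalSpace M']
  [ChartedSpace (Cm 4) M] [IsManifold 𝓘(ℂ, Cm 4) ω M]
  [ChartedSpace (Cm 4) M'] [IsManifold 𝓘(ℂ, Cm 4) ω M']

/-- coordinates in which `S` is the plane `{w 0 = w 1 = 0}` -/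
structure Sc (S : Set M') (y : M') (c' : M' → Cm 4) (ξ' : Cm 4 → M') : Prop where
  crd : Crd c' ξ' y
  mem : ∀ᶠ x in 𝓝 y, x ∈ S ↔ c' x 0 = 0 ∧ c' x 1 = 0

/-- a smooth surface -/
def IsSf (S : Set M') : Prop := ∀ y ∈ S, ∃ c' ξ', Sc S y c' ξ'

/-- the restriction of `π` to `S` is immersive at `y` -/
def Imm (π : M' → M) (S : Set M') (y : M') : Prop :=
  ∃ (θ : Cm 2 → M') (p : Cm 2) (c : M → Cm 4) (ξ : Cm 4 → M), AnM 4 θ p ∧ θ p = y ∧
    (∀ᶠ p' in 𝓝 p, θ p' ∈ S) ∧ Crd c ξ (π y) ∧ Injective (fderiv ℂ (fun p => c (π (θ p))) p)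

variable {S : Set M'} {y : M'} {c' : M' → Cm 4} {ξ' : Cm 4 → M'} {π : M' → M}
  {c : M → Cm 4} {ξ : Cm 4 → M}

theorem Sc.eventually (h : Sc S y c' ξ') : ∀ᶠ x in 𝓝 y, Sc S x c' ξ' :=
  (h.crd.eventually.and h.mem.eventually_nhds).mono fun _ h => ⟨h.1, h.2⟩

theorem Sc.pl (h : Sc S y c' ξ') (hy : y ∈ S) : pl (pr (c' y)) = c' y :=
  pl_pr (h.mem.self_of_nhds.1 hy).1 (h.mem.self_of_nhds.1 hy).2

theorem Sc.inv (h : Sc S y c' ξ') (hy : y ∈ S) : ξ' (U.pl (pr (c' y))) = y := by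
  rw [h.pl hy, h.crd.inv]

theorem Sc.an (h : Sc S y c' ξ') (hy : y ∈ S) : AnM 4 (fun p => ξ' (U.pl p)) (pr (c' y)) :=
  AnM.comp (γ := ξ') (by rw [h.pl hy]; exact h.crd.an) (U.pl.analyticAt _)

theorem Sc.tend (h : Sc S y c' ξ') (hy : y ∈ S) :
    Tendsto (fun p => ξ' (U.pl p)) (𝓝 (pr (c' y))) (𝓝 y) := by
  have := (h.an hy).1
  rwa [ContinuousAt, h.inv hy] at this

theorem Sc.par (h : Sc S y c' ξ') (hy : y ∈ S) :
    ∀ᶠ p in 𝓝 (pr (c' y)), ξ' (U.pl p) ∈ S ∧ pr (c' (ξ' (U.pl p))) = p := by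
  have h1 : Tendsto U.pl (𝓝 (pr (c' y))) (𝓝 (c' y)) := U.pl.continuous.tendsto' _ _ (h.pl hy)
  filter_upwards [h1.eventually h.crd.right, (h.tend hy).eventually h.mem] with p e1 e2
  rw [e2, e1]
  exact ⟨⟨rfl, rfl⟩, rfl⟩

theorem Sc.loc (h : Sc S y c' ξ') (hy : y ∈ S) (hπ : HolM 4 4 π y) (hc : Crd c ξ (π y)) :
    AnalyticAt ℂ (fun p => c (π (ξ' (U.pl p)))) (pr (c' y)) :=
  AnalyticAt.comp (g := fun w => c (π (ξ' w))) (by rw [h.pl hy]; exact an_loc hπ h.crd hc)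
    (U.pl.analyticAt _)

theorem Imm.mem (h : Imm π S y) : y ∈ S := by
  obtain ⟨θ, p, -, -, -, rfl, h, -⟩ := h
  exact h.self_of_nhds

theorem imm_iff (h : Sc S y c' ξ') (hy : y ∈ S) (hπ : HolM 4 4 π y) (hc : Crd c ξ (π y)) :
    Imm π S y ↔ Injective (fderiv ℂ (fun p => c (π (ξ' (pl p)))) (pr (c' y))) := by
  refine ⟨?_, fun e => ⟨_, _, c, ξ, h.an hy, h.inv hy, (h.par hy).mono fun _ h => h.1, hc, e⟩⟩
  rintro ⟨θ, p, c₁, ξ₁, h1, rfl, h2, h3, h4⟩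
  have f1 : AnalyticAt ℂ (fun p => pr (c' (θ p))) p := (pr.analyticAt _).comp (h.crd.an_comp h1)
  have f2 := h.loc hy hπ hc
  have f3 := (hc.chg h3).1
  have f4 : (fun p => c₁ (π (θ p))) =ᶠ[𝓝 p]
      (fun w => c₁ (ξ w)) ∘ (fun p => c (π (ξ' (pl p)))) ∘ fun p => pr (c' (θ p)) := by
    filter_upwards [h1.1.eventually h.eventually, h2, (hπ.1.tendsto.comp h1.1).eventually hc.left]
      with q e1 e2 e3
    simp only [comp_apply, e1.inv e2]
    exact (congrArg c₁ e3).symm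
  rw [f4.fderiv_eq, fderiv_comp _ (by simp only [comp_apply, h.inv hy]; exact f3.differentiableAt)
    (f2.differentiableAt.comp p f1.differentiableAt),
    fderiv_comp p (f := fun p => pr (c' (θ p))) f2.differentiableAt f1.differentiableAt] at h4
  have f5 : Injective (fderiv ℂ (fun p => c (π (ξ' (pl p)))) (pr (c' (θ p))) ∘
      fderiv ℂ (fun p => pr (c' (θ p))) p) := Injective.of_comp h4
  exact f5.of_comp_right ((LinearMap.injective_iff_surjective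
    (f := (fderiv ℂ (fun p => pr (c' (θ p))) p : Cm 2 →ₗ[ℂ] Cm 2))).1 f5.of_comp)

theorem imm_ev (h : Sc S y c' ξ') (hπ : ∀ y, HolM 4 4 π y) (hc : Crd c ξ (π y)) :
    ∀ᶠ x in 𝓝 y, x ∈ S → ξ' (pl (pr (c' x))) = x ∧
      AnalyticAt ℂ (fun p => c (π (ξ' (pl p)))) (pr (c' x)) ∧
      (Imm π S x ↔ Injective (fderiv ℂ (fun p => c (π (ξ' (pl p)))) (pr (c' x)))) := by
  filter_upwards [h.eventually, (hπ y).1.eventually hc.eventually] with x e1 e2 e3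
  exact ⟨e1.inv e3, e1.loc e3 (hπ x) e2, imm_iff e1 e3 (hπ x) e2⟩

theorem Imm.eventually (h : Imm π S y) (hS : IsSf S) (hπ : ∀ y, HolM 4 4 π y) :
    ∀ᶠ x in 𝓝 y, x ∈ S → Imm π S x := by
  obtain ⟨c', ξ', h'⟩ := hS y h.mem
  have hc := crd_chart (at_chartAt (n := 4) (π y))
  obtain ⟨P, hP⟩ := exists_P (h'.loc h.mem (hπ y) hc) ((imm_iff h' h.mem (hπ y) hc).1 h)
  filter_upwards [imm_ev h' hπ hc,
    ((pr.continuous.tendsto _).comp h'.crd.cont).eventually hP.eventually] with x e1 e2 e3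
  exact (e1 e3).2.2.2 (inj_of_P (e1 e3).2.1 P e2.2)

theorem closed_notImm (hS : IsSf S) (hc : IsClosed S) (hπ : ∀ y, HolM 4 4 π y) :
    IsClosed {y | y ∈ S ∧ ¬ Imm π S y} := by
  refine isClosed_iff_frequently.2 fun y hy => ?_
  have h1 := hc.mem_of_frequently_of_tendsto (hy.mono fun _ h => h.1) tendsto_id
  refine ⟨h1, fun h => ?_⟩
  obtain ⟨x, e1, e2⟩ := (hy.and_eventually (h.eventually hS hπ)).exists
  exact e1.2 (e2 e1.1)

/-- the immersive points of a connected surface form a connected set -/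
theorem conn_imm (hS : IsSf S) (hc : IsPreconnected S) (hπ : ∀ y, HolM 4 4 π y) :
    IsPreconnected {y | Imm π S y} := by
  refine conn_of_local hc (fun _ h => h.mem) fun y hy => ?_
  obtain ⟨c', ξ', h'⟩ := hS y hy
  have hc := crd_chart (at_chartAt (n := 4) (π y))
  set c := chartAt (Cm 4) (π y)
  obtain ⟨r, hr, hb⟩ := Metric.eventually_nhds_iff_ball.1 ((h'.an hy).eventually.and
    ((h'.par hy).and ((h'.tend hy).eventually (imm_ev h' hπ hc))))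
  have h1 : ∀ p ∈ ball (pr (c' y)) r, AnalyticAt ℂ (fun p => c (π (ξ' (pl p)))) p ∧
      (Imm π S (ξ' (pl p)) ↔ Injective (fderiv ℂ (fun p => c (π (ξ' (pl p)))) p)) := by
    intro p hp
    have := ((hb p hp).2.2 (hb p hp).2.1.1).2
    rwa [(hb p hp).2.1.2] at this
  have h2 : {x | x ∈ S → x ∈ (fun p => ξ' (pl p)) '' ball (pr (c' y)) r} ∩ {y | Imm π S y} =
      (fun p => ξ' (pl p)) '' (ball (pr (c' y)) r ∩
        {p | Injective (fderiv ℂ (fun p => c (π (ξ' (pl p)))) p)}) := by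
    ext x
    constructor
    · rintro ⟨e1, e2⟩
      obtain ⟨p, e3, rfl⟩ := e1 e2.mem
      exact ⟨p, ⟨e3, (h1 p e3).2.1 e2⟩, rfl⟩
    · rintro ⟨p, ⟨e1, e2⟩, rfl⟩
      exact ⟨fun _ => ⟨p, e1, rfl⟩, (h1 p e1).2.2 e2⟩
  refine ⟨{x | x ∈ S → x ∈ (fun p => ξ' (pl p)) '' ball (pr (c' y)) r}, ?_, ?_⟩
  · filter_upwards [h'.eventually,
      ((pr.continuous.tendsto _).comp h'.crd.cont).eventually (ball_mem_nhds _ hr)] with x e1 e2 e3
    exact ⟨_, e2, e1.inv e3⟩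
  · rw [h2]
    rintro ⟨_, p₁, ⟨e1, e2⟩, -⟩
    obtain ⟨e3, e4⟩ := conn_inj isOpen_ball (convex_ball _ _) (fun p hp => (h1 p hp).1) e1 e2
    refine ⟨e3.image _ fun p hp => (hb p hp.1).1.1.continuousWithinAt, ?_⟩
    rintro x ⟨e5, e6⟩
    obtain ⟨p, e7, rfl⟩ := e5 e6
    exact (hb p e7).1.1.continuousWithinAt.mem_closure_image (e4 e7)

theorem nul_notImm [SecondCountableTopology M'] (hS : IsSf S) (hπ : ∀ y, HolM 4 4 π y) {z : M}
    (hc : Crd c ξ z) : ∃ T : Set (Cm 4), Nul 2 T ∧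
      ∀ᶠ z' in 𝓝 z, z' ∈ π '' {y | y ∈ S ∧ ¬ Imm π S y} → c z' ∈ T := by
  refine ⟨(fun y => c (π y)) '' {y | y ∈ S ∧ ¬ Imm π S y ∧ Crd c ξ (π y)},
    nul_of_local fun y hy => ?_, ?_⟩
  · obtain ⟨c', ξ', h'⟩ := hS y hy.1
    refine ⟨_, imm_ev h' hπ hy.2.2, (nul_single (g := fun p => c (π (ξ' (pl p))))
      (S := {p | _ ∧ _}) fun _ h => h).mono ?_⟩
    rintro _ ⟨x, ⟨e1, e2⟩, rfl⟩
    obtain ⟨e3, e4, e5⟩ := e1 e2.1
    exact ⟨pr (c' x), ⟨e4.differentiableAt, fun e => e2.2.1 (e5.2 e)⟩, by simp only [e3]⟩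
  · filter_upwards [hc.eventually] with z' e1
    rintro ⟨y, e2, rfl⟩
    exact ⟨y, ⟨e2.1, e2.2, e1⟩, rfl⟩

theorem Imm.not_thin (h : Imm π S y) (hπ : HolM 4 4 π y) : ¬ ThinM 4 1 (π '' S) := by
  obtain ⟨θ, p, c, ξ, h1, rfl, h2, h3, h4⟩ := h
  intro ht
  obtain ⟨T, t1, t2⟩ := cv_of_thinM ht h3
  have h5 := rank_lt_of_nul (h3.an_comp (h1.map hπ)) (nul_of_cv t1) (by
    filter_upwards [h2, (hπ.1.tendsto.comp h1.1).eventually t2] with q e1 e2
    exact e2 ⟨_, e1, rfl⟩)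
  rw [rank_Jm, LinearMap.finrank_range_of_inj h4] at h5
  simp at h5

/-- coordinates adapted to the image of the surface -/
theorem Imm.adapt (h : Imm π S y) (h' : Sc S y c' ξ') (hπ : HolM 4 4 π y) (hc : Crd c ξ (π y))
    (h1 : ∀ᶠ x in 𝓝 y, x ∈ S → c (π x) 1 = 0) :
    ∃ (c₂ : M → Cm 4) (ξ₂ : Cm 4 → M), Crd c₂ ξ₂ (π y) ∧ (∀ᶠ z in 𝓝 (π y), c₂ z 1 = c z 1) ∧
      ∀ᶠ x in 𝓝 y, x ∈ S → c₂ (π x) = c' x := by
  have hy := h.mem
  have hF := h'.loc hy hπ hc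
  have hL := (imm_iff h' hy hπ hc).1 h
  set F := fun p => c (π (ξ' (pl p))) with hFe
  set p₀ := pr (c' y)
  have hF1 : ∀ᶠ p in 𝓝 p₀, F p 1 = 0 := by
    filter_upwards [(h'.tend hy).eventually h1, h'.par hy] with p e1 e2 using e1 e2.1
  have hL1 : ∀ u, fderiv ℂ F p₀ u 1 = 0 := fun u => by
    have e1 := (hasFDerivAt_pi'.1 hF.differentiableAt.hasFDerivAt 1).unique
      ((hasFDerivAt_const (0 : ℂ) p₀).congr_of_eventuallyEq hF1)
    exact DFunLike.congr_fun e1 u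
  obtain ⟨m, hm⟩ : ∃ m, ∀ u : Cm 3, fderiv ℂ F p₀ (tl 2 u) + u 0 • Pi.single 1 1 ≠ m := by
    by_contra hcon
    push Not at hcon
    have e1 := LinearMap.finrank_le_finrank_of_surjective
      (f := ((fderiv ℂ F p₀).comp (tl 2) + (ContinuousLinearMap.proj 0 : Cm 3 →L[ℂ] ℂ).smulRight
        (Pi.single 1 1 : Cm 4) : Cm 3 →L[ℂ] Cm 4).toLinearMap) hcon
    simp at e1
  set v : Cm 4 := m - m 1 • Pi.single 1 1 with hv
  set A : Cm 4 →L[ℂ] Cm 4 := (ContinuousLinearMap.proj 0 : Cm 4 →L[ℂ] ℂ).smulRight v +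
    (ContinuousLinearMap.proj 1 : Cm 4 →L[ℂ] ℂ).smulRight (Pi.single 1 1 : Cm 4) with hA
  have hA1 : ∀ w, A w 1 = w 1 := fun w => by simp [hA, hv]
  have hA0 : ∀ p, A (pl p) = 0 := fun p => by simp [hA, pl_zero, pl_one]
  have hΓ : LocIso (fun w => F (pr w) + A w) (c' y) := by
    refine locIso_of_inj ((AnalyticAt.comp (g := F) hF (pr.analyticAt _)).add (A.analyticAt _)) ?_
    rw [HasFDerivAt.fderiv (f := fun w => F (pr w) + A w)
      ((HasFDerivAt.comp (g := F) (c' y) hF.differentiableAt.hasFDerivAt pr.hasFDerivAt).add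
        A.hasFDerivAt)]
    refine (injective_iff_map_eq_zero _).2 fun u hu => ?_
    have e1 : fderiv ℂ F p₀ (pr u) + A u = 0 := hu
    have e2 : u 1 = 0 := by simpa [hL1, hA1] using congrFun e1 1
    have e3 : A u = u 0 • v := by simp [hA, e2]
    have e4 : u 0 = 0 := by
      by_contra e4
      refine hm (Fin.cons (m 1) (-(u 0)⁻¹ • pr u)) ?_
      have e5 : fderiv ℂ F p₀ (pr u) = -(u 0 • v) := by rw [← e3]; exact eq_neg_of_add_eq_zero_left e1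
      show fderiv ℂ F p₀ (-(u 0)⁻¹ • pr u) + m 1 • Pi.single 1 1 = m
      rw [map_smul, e5, neg_smul, smul_neg, neg_neg, smul_smul, inv_mul_cancel₀ e4, one_smul, hv,
        sub_add_cancel]
    rw [e3, e4, zero_smul, add_zero, map_eq_zero_iff _ hL] at e1
    rw [← pl_pr e4 e2, e1, map_zero]
  have hΓ0 : F (pr (c' y)) + A (c' y) = c (π y) := by
    rw [← h'.pl hy, hA0, add_zero, pr_pl, hFe]
    simp only [h'.inv hy]
  obtain ⟨Ψ, k1, k2, k3, k4⟩ := hΓ.exists_inv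
  rw [hΓ0] at k1 k2 k4
  refine ⟨_, _, hc.comp k1.1 (k2 ▸ hΓ.1) k4 (k2 ▸ k3), ?_, ?_⟩
  · have e1 : Tendsto (fun z => pr (Ψ (c z))) (𝓝 (π y)) (𝓝 p₀) :=
      (pr.continuous.tendsto _).comp ((k2 ▸ k1.1.continuousAt.tendsto).comp hc.cont)
    filter_upwards [hc.cont.eventually k4, e1.eventually hF1] with z e2 e3
    rw [← e2, Pi.add_apply, e3, hA1, zero_add, e2]
  · filter_upwards [h'.crd.cont.eventually k3, h'.eventually] with x e1 e2 e3
    have e4 : F (pr (c' x)) + A (c' x) = c (π x) := by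
      rw [← e2.pl e3, hA0, add_zero, pr_pl, hFe]
      simp only [e2.inv e3]
    rwa [e4] at e1

end Vale.Agent.P277Z.Val.U
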