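import Vale.Agent.P277Z.Val.Man
import Vale.Agent.P277.H622.B1

/-!
# P277, block VAL, row RK: the critical values of a generically injective map of threefolds
-/

open Set Filter Metric Topology
open Vale.Agent.P272.K
open Vale.Agent.P277.H762 (Cv cv_iUnion cv_biUnion cv_of_family cv_empty)

noncomputable section

namespace Vale.Agent.P277Z.Val.Rk

/-- a function which is injective on a punctured disc has a nonzero derivative at the centre -/
theorem deriv_ne {g : ℂ → ℂ} (hg : AnalyticAt ℂ g 0) {N : Set ℂ} (hN : N ∈ 𝓝 (0 : ℂ))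
    (hi : ∀ s ∈ N, ∀ s' ∈ N, s ≠ 0 → s' ≠ 0 → g s = g s' → s = s') : deriv g 0 ≠ 0 := by
  intro hd
  have hh : AnalyticAt ℂ (fun s => g s - g 0) 0 := hg.sub analyticAt_const
  have hm : ∀ μ : ℂ, Tendsto (fun t : ℂ => μ * t) (𝓝 0) (𝓝 0) := fun μ => by
    simpa using (continuous_const_mul μ).tendsto 0
  have hfr : ∃ᶠ t in 𝓝 (0 : ℂ), t ≠ 0 :=
    (Eventually.frequently (self_mem_nhdsWithin (s := {0}ᶜ))).filter_mono nhdsWithin_le_nhds
  by_cases htop : analyticOrderAt (fun s => g s - g 0) 0 = ⊤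
  · have h1 := analyticOrderAt_eq_top.1 htop
    obtain ⟨t, e1, e2, e3, e4, e5⟩ := (hfr.and_eventually (h1.and (((hm 2).eventually h1).and
      ((show ∀ᶠ t in 𝓝 (0 : ℂ), t ∈ N from hN).and ((hm 2).eventually hN))))).exists
    have e6 := hi t e4 (2 * t) e5 e1 (mul_ne_zero two_ne_zero e1) (by linear_combination e2 - e3)
    exact e1 (by linear_combination -e6)
  obtain ⟨m, hm'⟩ := ENat.ne_top_iff_exists.1 htop
  obtain ⟨u, h1, h2, h3⟩ := hh.analyticOrderAt_eq_natCast.1 hm'.symm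
  simp only [sub_zero, smul_eq_mul] at h3
  have hm0 : m ≠ 0 := by
    rintro rfl
    have := h3.self_of_nhds
    simp only [sub_self, pow_zero, one_mul] at this
    exact h2 this.symm
  have hm1 : m ≠ 1 := by
    rintro rfl
    have e1 : HasDerivAt (fun s => s ^ 1 * u s) (u 0) 0 := by
      simpa using (hasDerivAt_id (0 : ℂ)).fun_mul h1.differentiableAt.hasDerivAt
    have e2 := (hg.differentiableAt.hasDerivAt.sub_const (g 0)).unique
      (e1.congr_of_eventuallyEq h3)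
    exact h2 (e2.symm.trans hd)
  set v : ℂ → ℂ := fun s => Complex.exp (Complex.log (u s / u 0) / m) with hv
  have hva : AnalyticAt ℂ v 0 := by
    refine AnalyticAt.cexp' (AnalyticAt.div_const ?_)
    exact (h1.div_const).clog (by rw [div_self h2]; exact Complex.one_mem_slitPlane)
  have hg0 : (m : ℂ) ≠ 0 := by exact_mod_cast hm0
  have hvg : ∀ᶠ s in 𝓝 (0 : ℂ), u s = u 0 * v s ^ m := by
    filter_upwards [h1.continuousAt.eventually_ne h2] with s e1
    rw [hv, ← Complex.exp_nat_mul, mul_div_cancel₀ _ hg0, Complex.exp_log (div_ne_zero e1 h2)]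
    field_simp
  have hφ : HasStrictDerivAt (fun s => s * v s) (v 0) 0 := by
    simpa using (hasStrictDerivAt_id (0 : ℂ)).fun_mul hva.hasStrictDerivAt
  have hmap := hφ.map_nhds_eq (Complex.exp_ne_zero _)
  rw [zero_mul] at hmap
  have h4 : ∀ᶠ t in 𝓝 (0 : ℂ), ∃ s ∈ N, s * v s = t ∧ g s - g 0 = u 0 * t ^ m := by
    refine Eventually.filter_mono hmap.ge (eventually_map.2 ?_)
    filter_upwards [hN, h3, hvg] with s e1 e2 e3
    exact ⟨s, e1, rfl, by rw [e2, e3]; ring⟩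
  obtain ⟨μ, hμ⟩ : ∃ μ : ℂ, IsPrimitiveRoot μ m := ⟨_, Complex.isPrimitiveRoot_exp m hm0⟩
  obtain ⟨t, e1, ⟨s, e2, e3, e4⟩, s', e5, e6, e7⟩ :=
    (hfr.and_eventually (h4.and ((hm μ).eventually h4))).exists
  have e8 : s ≠ 0 := by
    rintro rfl
    exact e1 (by rw [← e3, zero_mul])
  have e9 : s' ≠ 0 := by
    rintro rfl
    exact mul_ne_zero (hμ.ne_zero hm0) e1 (by rw [← e6, zero_mul])
  rw [mul_pow, hμ.pow_eq_one, one_mul] at e7
  have e10 := hi s e2 s' e5 e8 e9 (by linear_combination e4 - e7)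
  rw [← e10, e3] at e6
  exact hμ.ne_one (by omega) (mul_right_cancel₀ e1 (by rw [← e6, one_mul]))

/-- a map which is injective outside `{w j = 0}` and an immersion on `{w j = 0}` is a local
isomorphism -/
theorem locIso_of_tan {n : ℕ} {F : Cm n → Cm n} {w₁ : Cm n} (hF : AnalyticAt ℂ F w₁) {j : Fin n}
    (h0 : w₁ j = 0) {N : Set (Cm n)} (hN : N ∈ 𝓝 w₁)
    (hi : ∀ w ∈ N, ∀ w' ∈ N, w j ≠ 0 → w' j ≠ 0 → F w = F w' → w = w')
    (ht : ∀ v, v j = 0 → fderiv ℂ F w₁ v = 0 → v = 0) : LocIso F w₁ := by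
  refine locIso_of_inj hF ?_
  by_contra hne
  set D := fderiv ℂ F w₁ with hD
  obtain ⟨v₀, hv₀, hv₁⟩ : ∃ v₀, D v₀ = 0 ∧ v₀ j = 1 := by
    obtain ⟨v, h1, h2⟩ : ∃ v, D v = 0 ∧ v ≠ 0 := by
      by_contra hcon
      push Not at hcon
      exact hne ((injective_iff_map_eq_zero D).2 hcon)
    have h3 : v j ≠ 0 := fun h => h2 (ht v h h1)
    exact ⟨(v j)⁻¹ • v, by rw [map_smul, h1, smul_zero], by simp [h3]⟩
  obtain ⟨u, hu⟩ : ∃ u, u ∉ range D := by
    by_contra hcon
    push Not at hcon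
    exact hne ((LinearMap.injective_iff_surjective (f := (D : Cm n →ₗ[ℂ] Cm n))).2 hcon)
  let pj : Cm n →L[ℂ] ℂ := ContinuousLinearMap.proj j
  let L : Cm n →L[ℂ] Cm n := D + pj.smulRight u
  have hLi : Function.Injective L := by
    refine (injective_iff_map_eq_zero L).2 fun v hv => ?_
    have h1 : D v + v j • u = 0 := hv
    by_cases h2 : v j = 0
    · rw [h2, zero_smul, add_zero] at h1
      exact ht v h2 h1
    · refine (hu ⟨(-(v j)⁻¹) • v, ?_⟩).elim
      rw [map_smul, eq_neg_of_add_eq_zero_left h1, smul_neg, smul_smul]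
      simp [h2]
  let B : Cm n →L[ℂ] Cm n := ((LinearEquiv.ofInjectiveEndo (L : Cm n →ₗ[ℂ] Cm n)
    hLi).symm.toContinuousLinearEquiv : Cm n ≃L[ℂ] Cm n)
  have hBi : Function.Injective B :=
    (LinearEquiv.ofInjectiveEndo (L : Cm n →ₗ[ℂ] Cm n) hLi).symm.injective
  have hBL : ∀ v, B (L v) = v := fun v =>
    (LinearEquiv.ofInjectiveEndo (L : Cm n →ₗ[ℂ] Cm n) hLi).symm_apply_apply v
  have hBD : ∀ v, B (D v) = v - v j • v₀ := fun v => by
    have h1 : L (v - v j • v₀) = D v := by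
      show D (v - v j • v₀) + (v - v j • v₀) j • u = D v
      simp [hv₀, hv₁]
    rw [← h1, hBL]
  let Q : Cm n →L[ℂ] Cm n := B - (pj.comp B).smulRight v₀
  have hQ : ∀ z, Q z = B z - B z j • v₀ := fun _ => rfl
  set Φ : Cm n → Cm n := fun w => Q (F w) + w j • v₀ with hΦ
  have hΦj : ∀ w, Φ w j = w j := fun w => by simp [hΦ, hQ, hv₁]
  have hΦa : AnalyticAt ℂ Φ w₁ :=
    ((Q.analyticAt _).comp hF).add ((an_coord j w₁).smul analyticAt_const)
  have hΦd : HasFDerivAt Φ (ContinuousLinearMap.id ℂ (Cm n)) w₁ := by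
    have h1 := (Q.hasFDerivAt.comp w₁ hF.differentiableAt.hasFDerivAt).add
      (pj.smulRight v₀).hasFDerivAt
    refine h1.congr_fderiv ?_
    ext1 v
    show Q (D v) + v j • v₀ = v
    rw [hQ, hBD]
    simp [hv₁]
  have hΦi : LocIso Φ w₁ := locIso_of_inj hΦa (by rw [hΦd.fderiv]; exact Function.injective_id)
  obtain ⟨θ, t1, t2, -, t4⟩ := hΦi.exists_inv
  set l : ℂ → Cm n := fun s => Φ w₁ + s • v₀ with hl
  have hla : AnalyticAt ℂ l 0 := analyticAt_const.add (analyticAt_id.smul analyticAt_const)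
  have hl0 : l 0 = Φ w₁ := by simp [hl]
  have hlt : Tendsto l (𝓝 0) (𝓝 (Φ w₁)) := by
    have := hla.continuousAt
    rwa [ContinuousAt, hl0] at this
  have hδa : AnalyticAt ℂ (fun s => θ (l s)) 0 := AnalyticAt.comp (by rw [hl0]; exact t1.1) hla
  have hδ0 : θ (l 0) = w₁ := by rw [hl0, t2]
  have hδt : Tendsto (fun s => θ (l s)) (𝓝 0) (𝓝 w₁) := by
    have := hδa.continuousAt
    rwa [ContinuousAt, hδ0] at this
  have hδd : HasDerivAt (fun s => θ (l s)) v₀ 0 := by
    have h1 := hδa.differentiableAt.hasDerivAt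
    have h2 : HasDerivAt (fun s => Φ (θ (l s))) (deriv (fun s => θ (l s)) 0) 0 :=
      HasFDerivAt.comp_hasDerivAt (l := Φ) (l' := ContinuousLinearMap.id ℂ (Cm n)) 0
        (by rw [hδ0]; exact hΦd) h1
    have h3 : HasDerivAt l v₀ 0 := by
      simpa [hl] using ((hasDerivAt_id (0 : ℂ)).smul_const v₀).const_add (Φ w₁)
    rwa [h2.unique (h3.congr_of_eventuallyEq (hlt.eventually t4))] at h1
  have hgd : HasDerivAt (fun s => B (F (θ (l s))) j) 0 0 := by
    have h1 : HasDerivAt (fun s => F (θ (l s))) (D v₀) 0 :=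
      HasFDerivAt.comp_hasDerivAt (l := F) (l' := D) 0
        (by rw [hδ0]; exact hF.differentiableAt.hasFDerivAt) hδd
    have h2 := (pj.comp B).hasFDerivAt.comp_hasDerivAt 0 h1
    rwa [hv₀, map_zero] at h2
  have hga : AnalyticAt ℂ (fun s => B (F (θ (l s))) j) 0 :=
    ((pj.comp B).analyticAt _).comp (AnalyticAt.comp (g := F) (by rw [hδ0]; exact hF) hδa)
  refine deriv_ne hga (((hlt.eventually t4).and (hδt.eventually hN)) :) ?_ hgd.deriv
  rintro s ⟨e1, e2⟩ s' ⟨e3, e4⟩ e5 e6 e7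
  have k1 : ∀ s, Φ (θ (l s)) = l s → θ (l s) j = s ∧
      B (F (θ (l s))) = Φ w₁ + B (F (θ (l s))) j • v₀ := by
    intro s hs
    have k2 : θ (l s) j = s := by
      rw [← hΦj (θ (l s)), hs]
      simp [hl, hΦj, h0, hv₁]
    refine ⟨k2, ?_⟩
    have k3 : Q (F (θ (l s))) + θ (l s) j • v₀ = Φ w₁ + s • v₀ := hs
    rw [k2, hQ] at k3
    rw [← add_right_cancel k3, sub_add_cancel]
  have k4 : F (θ (l s)) = F (θ (l s')) := hBi (by rw [(k1 s e1).2, (k1 s' e3).2, e7])
  have k5 := hi _ e2 _ e4 (by rw [(k1 s e1).1]; exact e5) (by rw [(k1 s' e3).1]; exact e6) k4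
  rw [← (k1 s e1).1, k5, (k1 s' e3).1]

theorem cv_image_local {V V' : Type*} [TopologicalSpace V] [SecondCountableTopology V]
    [NormedAddCommGroup V'] [NormedSpace ℂ V'] {k : ℕ} {S : Set V} {f : V → V'}
    (h : ∀ x ∈ S, ∃ N ∈ 𝓝 x, Cv k (f '' (N ∩ S))) : Cv k (f '' S) := by
  choose! N hN hd using h
  obtain ⟨t, htT, htc, ht⟩ := TopologicalSpace.countable_cover_nhdsWithin
    (f := N) (s := S) fun p hp => mem_nhdsWithin_of_mem_nhds (hN p hp)
  refine (cv_biUnion htc fun p hp => hd p (htT hp)).mono ?_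
  rintro _ ⟨x, hx, rfl⟩
  obtain ⟨p, hp, hxp⟩ := mem_iUnion₂.1 (ht hx)
  exact mem_iUnion₂.2 ⟨p, hp, x, ⟨hxp, hx⟩, rfl⟩

theorem cv_single {V : Type*} [NormedAddCommGroup V] [NormedSpace ℂ V] {k : ℕ} {Ω : Set (Cm k)}
    {g : Cm k → V} (h1 : IsOpen Ω) (h2 : ∀ p ∈ Ω, AnalyticAt ℂ g p) : Cv k (g '' Ω) :=
  ⟨fun _ => Ω, fun _ => g, fun _ => h1, fun _ => h2, subset_iUnion (fun _ : ℕ => g '' Ω) 0⟩

theorem cv_zero {m : ℕ} {c : Cm (m + 1) → ℂ} {q q' : Cm (m + 1)} {r : ℝ}
    (hc : ∀ z ∈ ball q r, AnalyticAt ℂ c z) (h1 : q' ∈ ball q r) (h2 : c q' ≠ 0) :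
    Cv m {z | z ∈ ball q r ∧ c z = 0} := by
  obtain ⟨W, g, k1, k2, k3⟩ := P277.H622.stB1 m _ c isOpen_ball hc fun z hz h =>
    h2 (AnalyticOnNhd.eqOn_zero_of_preconnected_of_eventuallyEq_zero hc
      (convex_ball q r).isPreconnected hz h h1)
  exact ⟨W, g, k1, fun l p hp => (k2 l p hp).1, k3⟩

/-- constant rank one -/
theorem cv_rank_one {n : ℕ} {f : Cm 2 → Cm n} {q : Cm 2} (hf : AnalyticAt ℂ f q)
    (hb : ∀ᶠ z in 𝓝 q, ¬ Function.Injective (fderiv ℂ f z)) {v : Cm 2} {i : Fin n}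
    (hv : fderiv ℂ f q v i ≠ 0) : ∃ N ∈ 𝓝 q, Cv 1 (f '' N) := by
  obtain ⟨m, hm⟩ : ∃ m : Fin 2, ∀ x : Cm 2, fderiv ℂ f q x i = 0 → x m = 0 → x = 0 := by
    have hx : ∀ x : Cm 2, fderiv ℂ f q x i = x 0 * fderiv ℂ f q (Pi.single 0 1) i +
        x 1 * fderiv ℂ f q (Pi.single 1 1) i := fun x => by
      have e : x = x 0 • (Pi.single 0 1 : Cm 2) + x 1 • (Pi.single 1 1 : Cm 2) := by
        ext a; fin_cases a <;> simp
      conv_lhs => rw [e]
      simp
    by_cases h0 : fderiv ℂ f q (Pi.single 0 1) i = 0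
    · have h1 : fderiv ℂ f q (Pi.single 1 1) i ≠ 0 := fun h1 => hv (by rw [hx, h0, h1]; simp)
      refine ⟨0, fun x e1 e2 => ?_⟩
      rw [hx, e2, zero_mul, zero_add] at e1
      ext a; fin_cases a
      · exact e2
      · exact (mul_eq_zero.1 e1).resolve_right h1
    · refine ⟨1, fun x e1 e2 => ?_⟩
      rw [hx, e2, zero_mul, add_zero] at e1
      ext a; fin_cases a
      · exact (mul_eq_zero.1 e1).resolve_right h0
      · exact e2
  set Φ : Cm 2 → Cm 2 := fun w => ![f w i, w m] with hΦ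
  have hΦa : AnalyticAt ℂ Φ q := analyticAt_pi_iff.2 fun a => by
    fin_cases a
    · exact analyticAt_pi_iff.1 hf i
    · exact an_coord m q
  have hΦi : LocIso Φ q := by
    refine locIso_of_inj hΦa ((injective_iff_map_eq_zero _).2 fun x hx => hm x ?_ ?_)
    · refine Eq.trans ?_ (congrFun hx 0)
      have e2 := (hasFDerivAt_pi'.1 hΦa.differentiableAt.hasFDerivAt 0).unique
        (hasFDerivAt_pi'.1 hf.differentiableAt.hasFDerivAt i)
      exact (DFunLike.congr_fun e2 x).symm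
    · refine Eq.trans ?_ (congrFun hx 1)
      have e2 := (hasFDerivAt_pi'.1 hΦa.differentiableAt.hasFDerivAt 1).unique
        (ContinuousLinearMap.proj (R := ℂ) (φ := fun _ : Fin 2 => ℂ) m).hasFDerivAt
      exact (DFunLike.congr_fun e2 x).symm
  obtain ⟨θ, t1, t2, t3, t4⟩ := hΦi.exists_inv
  have hθ : Tendsto θ (𝓝 (Φ q)) (𝓝 q) := by
    have := t1.1.continuousAt
    rwa [ContinuousAt, t2] at this
  have h1 : ∀ᶠ s in 𝓝 (Φ q), AnalyticAt ℂ (fun s => f (θ s)) s ∧
      fderiv ℂ (fun s => f (θ s)) s (Pi.single 1 1) = 0 := by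
    filter_upwards [t1.eventually, t4.eventually_nhds, hθ.eventually hb,
      hθ.eventually hf.eventually_analyticAt] with s e1 e2 e3 e4
    have e5 := e4.differentiableAt.hasFDerivAt.comp s e1.1.differentiableAt.hasFDerivAt
    refine ⟨e4.comp e1.1, ?_⟩
    obtain ⟨x, e6, e7⟩ : ∃ x, fderiv ℂ f (θ s) x = 0 ∧ x ≠ 0 := by
      by_contra hcon
      push Not at hcon
      exact e3 ((injective_iff_map_eq_zero _).2 hcon)
    obtain ⟨y, rfl⟩ := (LinearMap.injective_iff_surjective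
      (f := (fderiv ℂ θ s : Cm 2 →ₗ[ℂ] Cm 2))).1 e1.inj x
    have e8 : fderiv ℂ (fun s => f (θ s)) s y = 0 := by
      have := e5.fderiv
      exact (DFunLike.congr_fun this y).trans e6
    have e9 : y 0 = 0 := by
      have k1 := hasFDerivAt_pi'.1 (e4.comp e1.1).differentiableAt.hasFDerivAt i
      have k2 : HasFDerivAt (fun s => f (θ s) i)
          (ContinuousLinearMap.proj (R := ℂ) (φ := fun _ : Fin 2 => ℂ) 0) s :=
        (ContinuousLinearMap.proj (R := ℂ) (φ := fun _ : Fin 2 => ℂ) 0).hasFDerivAt.congr_of_eventuallyEq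
          (e2.mono fun z hz => congrFun hz 0)
      exact (DFunLike.congr_fun (k1.unique k2) y).symm.trans (congrFun e8 i)
    have e10 : y 1 ≠ 0 := fun h => e7 (by
      have : y = 0 := by
        ext a; fin_cases a
        · exact e9
        · exact h
      rw [this, map_zero])
    have e11 : (Pi.single 1 1 : Cm 2) = (y 1)⁻¹ • y := by
      ext a; fin_cases a <;> simp [e9, e10]
    rw [e11, map_smul, e8, smul_zero]
  obtain ⟨ρ, hρ, h2⟩ := Metric.eventually_nhds_iff_ball.1 h1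
  have hmem : ∀ a b : ℂ, a ∈ ball (Φ q 0) ρ → b ∈ ball (Φ q 1) ρ →
      (![a, b] : Cm 2) ∈ ball (Φ q) ρ := by
    intro a b ha hb
    rw [mem_ball, dist_pi_lt_iff hρ]
    intro x; fin_cases x
    · exact ha
    · exact hb
  have hc : ∀ s ∈ ball (Φ q) ρ, f (θ s) = f (θ ![s 0, Φ q 1]) := by
    intro s hs
    have k0 : ∀ x, s x ∈ ball (Φ q x) ρ := (dist_pi_lt_iff hρ).1 hs
    have k1 : ∀ t ∈ ball (Φ q 1) ρ, HasDerivAt (fun t : ℂ => f (θ ![s 0, t])) 0 t := by
      intro t ht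
      have k2 : HasDerivAt (fun t : ℂ => (![s 0, t] : Cm 2)) (Pi.single 1 1) t := by
        refine hasDerivAt_pi.2 fun x => ?_
        fin_cases x
        · simpa using hasDerivAt_const t (s 0)
        · simpa using hasDerivAt_id' t
      obtain ⟨k3, k4⟩ := h2 _ (hmem _ _ (k0 0) ht)
      have k5 := k3.differentiableAt.hasFDerivAt.comp_hasDerivAt t k2
      rwa [k4] at k5
    have k6 := isOpen_ball.is_const_of_deriv_eq_zero (convex_ball (Φ q 1) ρ).isPreconnected
      (fun t ht => (k1 t ht).differentiableAt.differentiableWithinAt)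
      (fun t ht => (k1 t ht).deriv) (k0 1) (mem_ball_self hρ)
    rw [← k6]
    congr 2
    ext x; fin_cases x <;> rfl
  refine ⟨{z | θ (Φ z) = z ∧ Φ z ∈ ball (Φ q) ρ},
    t3.and (hΦa.continuousAt.eventually (ball_mem_nhds _ hρ)), ?_⟩
  refine (cv_single (Ω := {t : Cm 1 | t 0 ∈ ball (Φ q 0) ρ}) (g := fun t => f (θ ![t 0, Φ q 1]))
    (isOpen_ball.preimage (continuous_apply 0)) fun t ht => ?_).mono ?_
  · refine AnalyticAt.comp (g := fun s => f (θ s)) (h2 _ (hmem _ _ ht (mem_ball_self hρ))).1 ?_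
    refine analyticAt_pi_iff.2 fun a => ?_
    fin_cases a
    · exact an_coord 0 t
    · exact analyticAt_const
  · rintro _ ⟨z, ⟨e1, e2⟩, rfl⟩
    exact ⟨fun _ => Φ z 0, (dist_pi_lt_iff hρ).1 e2 0, (hc _ e2).symm.trans (by rw [e1])⟩

/-- the image of the set of the critical points of a map from a surface -/
theorem cv_crit2 {n : ℕ} {f : Cm 2 → Cm n} {U : Set (Cm 2)} (hU : IsOpen U)
    (hf : ∀ z ∈ U, AnalyticAt ℂ f z) :
    Cv 1 (f '' {z | z ∈ U ∧ ¬ Function.Injective (fderiv ℂ f z)}) := by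
  refine cv_image_local fun q hq => ?_
  obtain ⟨r, hr, hB⟩ := Metric.isOpen_iff.1 hU q hq.1
  have hfB : ∀ z ∈ ball q r, AnalyticAt ℂ f z := fun z hz => hf z (hB hz)
  refine ⟨ball q r, ball_mem_nhds q hr, ?_⟩
  by_cases h1 : ∃ q' ∈ ball q r, Function.Injective (fderiv ℂ f q')
  · obtain ⟨q', e1, e2⟩ := h1
    obtain ⟨P₀, hP₀⟩ := LinearMap.exists_leftInverse_of_injective
      (fderiv ℂ f q' : Cm 2 →ₗ[ℂ] Cm n) (LinearMap.ker_eq_bot.2 e2)
    let P : Cm n →L[ℂ] Cm 2 := LinearMap.toContinuousLinearMap P₀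
    have hd : ∀ z ∈ ball q r, fderiv ℂ (fun z => P (f z)) z = P.comp (fderiv ℂ f z) := fun z hz =>
      (P.hasFDerivAt.comp z (hfB z hz).differentiableAt.hasFDerivAt).fderiv
    have ha : ∀ z ∈ ball q r, AnalyticAt ℂ (fun z => P (f z)) z := fun z hz =>
      (P.analyticAt _).comp (hfB z hz)
    have h2 : LocIso (fun z => P (f z)) q' := by
      refine locIso_of_inj (ha q' e1) ?_
      rw [hd q' e1]
      intro a b hab
      exact (LinearMap.congr_fun hP₀ a).symm.trans (hab.trans (LinearMap.congr_fun hP₀ b))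
    refine ((cv_zero (fun z hz => an_jac (ha z hz)) e1 h2.2).image isOpen_ball
      (fun z hz => hz.1) hfB).mono (image_mono fun z hz => ⟨hz.1, ?_⟩)
    by_contra h3
    have h4 := LocIso.inj ⟨ha z hz.1, h3⟩
    rw [hd z hz.1] at h4
    exact hz.2.2 (Function.Injective.of_comp (f := P) h4)
  push Not at h1
  refine Cv.mono ?_ (image_mono inter_subset_left)
  by_cases h2 : ∃ q' ∈ ball q r, ∃ v i, fderiv ℂ f q' v i ≠ 0
  · obtain ⟨q', e1, v, i, e2⟩ := h2
    have ha : ∀ z ∈ ball q r, AnalyticAt ℂ (fun z => fderiv ℂ f z v i) z := fun z hz =>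
      analyticAt_pi_iff.1 (((ContinuousLinearMap.apply ℂ (Cm n) v).analyticAt _).comp
        (hfB z hz).fderiv) i
    have h3 := (cv_zero ha e1 e2).image isOpen_ball (fun z hz => hz.1) hfB
    have h4 : Cv 1 (f '' {z | z ∈ ball q r ∧ fderiv ℂ f z v i ≠ 0}) := by
      refine cv_image_local fun z hz => ?_
      obtain ⟨N, k1, k2⟩ := cv_rank_one (hfB z hz.1)
        (by filter_upwards [isOpen_ball.mem_nhds hz.1] with y hy using h1 y hy) hz.2
      exact ⟨N, k1, k2.mono (image_mono inter_subset_left)⟩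
    refine (h3.union h4).mono ?_
    rintro _ ⟨z, hz, rfl⟩
    by_cases h5 : fderiv ℂ f z v i = 0
    · exact Or.inl ⟨z, ⟨hz, h5⟩, rfl⟩
    · exact Or.inr ⟨z, ⟨hz, h5⟩, rfl⟩
  · push Not at h2
    refine (cv_single (Ω := (univ : Set (Cm 1))) (g := fun _ => f q) isOpen_univ
      fun _ _ => analyticAt_const).mono ?_
    rintro _ ⟨z, hz, rfl⟩
    refine ⟨0, mem_univ _, isOpen_ball.is_const_of_fderiv_eq_zero (𝕜 := ℂ)
      (convex_ball q r).isPreconnected
      (fun y hy => (hfB y hy).differentiableAt.differentiableWithinAt)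
      (fun y hy => ?_) (mem_ball_self hr) hz⟩
    ext v i
    exact h2 y hy _ i

/-- the inclusion of the hyperplane `{w j = 0}` -/
def ins {m : ℕ} (j : Fin (m + 1)) : Cm m →L[ℂ] Cm (m + 1) :=
  ContinuousLinearMap.pi fun i => Fin.succAboveCases j 0 (fun a => ContinuousLinearMap.proj a) i

/-- the projection to the hyperplane `{w j = 0}` -/
def del {m : ℕ} (j : Fin (m + 1)) : Cm (m + 1) →L[ℂ] Cm m :=
  ContinuousLinearMap.pi fun a => ContinuousLinearMap.proj (j.succAbove a)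

theorem ins_same {m : ℕ} (j : Fin (m + 1)) (z : Cm m) : ins j z j = 0 := by
  simp [ins]

theorem ins_succ {m : ℕ} (j : Fin (m + 1)) (z : Cm m) (a : Fin m) :
    ins j z (j.succAbove a) = z a := by
  simp [ins]

theorem del_apply {m : ℕ} (j : Fin (m + 1)) (w : Cm (m + 1)) (a : Fin m) :
    del j w a = w (j.succAbove a) := rfl

theorem del_ins {m : ℕ} (j : Fin (m + 1)) (z : Cm m) : del j (ins j z) = z :=
  funext fun a => ins_succ j z a

theorem ins_del {m : ℕ} {j : Fin (m + 1)} {w : Cm (m + 1)} (h : w j = 0) : ins j (del j w) = w := by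
  funext i
  refine Fin.succAboveCases j ?_ (fun a => ?_) i
  · rw [ins_same, h]
  · rw [ins_succ, del_apply]

/-- the critical values of a map which is an injective local isomorphism outside some coordinate
hyperplanes -/
theorem cv_crit3 {F : Cm 3 → Cm 3} {U : Set (Cm 3)} (hU : IsOpen U)
    (hF : ∀ z ∈ U, AnalyticAt ℂ F z) (J : Set (Fin 3))
    (h1 : ∀ z ∈ U, (∀ j ∈ J, z j ≠ 0) → LocIso F z)
    (h2 : ∀ z ∈ U, ∀ z' ∈ U, (∀ j ∈ J, z j ≠ 0) → F z = F z' → z = z') :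
    Cv 1 (F '' {z | z ∈ U ∧ ¬ LocIso F z}) := by
  have k1 : ∀ l : Fin 3, Cv 1 (F '' (U ∩ range fun t : Cm 1 => (Pi.single l (t 0) : Cm 3))) := by
    intro l
    refine Cv.image (U := U) ?_ hU inter_subset_left hF
    refine (cv_single (Ω := (univ : Set (Cm 1))) (g := fun t => (Pi.single l (t 0) : Cm 3))
      isOpen_univ fun t _ => ?_).mono fun z hz => by simpa using hz.2
    exact ((ContinuousLinearMap.single ℂ (fun _ : Fin 3 => ℂ) l).analyticAt _).comp (an_coord 0 t)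
  have k2 : ∀ j : Fin 3, Cv 1 ((fun p => F (ins j p)) '' {p | p ∈ ins j ⁻¹' U ∧
      ¬ Function.Injective (fderiv ℂ (fun p => F (ins j p)) p)}) := fun j =>
    cv_crit2 (hU.preimage (ins j).continuous) fun p hp => (hF _ hp).comp ((ins j).analyticAt p)
  refine ((cv_iUnion k1).union (cv_iUnion k2)).mono ?_
  rintro _ ⟨z, ⟨hz, hz'⟩, rfl⟩
  obtain ⟨j, hj, hj0⟩ : ∃ j ∈ J, z j = 0 := by
    by_contra hcon
    push Not at hcon
    exact hz' (h1 z hz hcon)
  by_cases h3 : ∃ j' ≠ j, z j' = 0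
  · obtain ⟨j', e1, e2⟩ := h3
    obtain ⟨l, hl⟩ := (by decide : ∀ j j' : Fin 3, j' ≠ j → ∃ l : Fin 3, ∀ i, i ≠ l →
      i = j ∨ i = j') j j' e1
    refine Or.inl (mem_iUnion.2 ⟨l, z, ⟨hz, fun _ => z l, ?_⟩, rfl⟩)
    funext i
    by_cases e3 : i = l
    · simp [e3]
    · simp only [Pi.single_eq_of_ne e3]
      rcases hl i e3 with rfl | rfl
      · exact hj0.symm
      · exact e2.symm
  · push Not at h3
    refine Or.inr (mem_iUnion.2 ⟨j, del j z, ⟨?_, fun hinj => hz' ?_⟩, congrArg F (ins_del hj0)⟩)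
    · show ins j (del j z) ∈ U
      rwa [ins_del hj0]
    · have e1 : ∀ᶠ w in 𝓝 z, w ∈ U ∧ ∀ j' ≠ j, w j' ≠ 0 := by
        refine (hU.eventually_mem hz).and (eventually_all.2 fun j' => ?_)
        by_cases e2 : j' = j
        · exact Eventually.of_forall fun w h => (h e2).elim
        · exact ((continuous_apply j').continuousAt.eventually_ne (h3 j' e2)).mono fun w h _ => h
      refine locIso_of_tan (hF z hz) hj0 e1 (fun w e2 w' e3 e4 _ e5 => ?_) fun v e2 e3 => ?_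
      · refine h2 w e2.1 w' e3.1 (fun j' _ => ?_) e5
        by_cases e6 : j' = j
        · rwa [e6]
        · exact e2.2 j' e6
      · have e4 : HasFDerivAt (fun p => F (ins j p)) ((fderiv ℂ F z).comp (ins j)) (del j z) := by
          refine HasFDerivAt.comp (g := F) _ ?_ (ins j).hasFDerivAt
          rw [ins_del hj0]
          exact (hF z hz).differentiableAt.hasFDerivAt
        rw [e4.fderiv] at hinj
        have e5 : del j v = 0 := (injective_iff_map_eq_zero _).1 hinj _ (by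
          show fderiv ℂ F z (ins j (del j v)) = 0
          rwa [ins_del e2])
        rw [← ins_del e2, e5, map_zero]

end Vale.Agent.P277Z.Val.Rk
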