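import Vale.Agent.P277Z.Val.AmpC
import Vale.Agent.P277Z.Pos.Jo
import Vale.Agent.P277Z.Pos.Soft
import Vale.Agent.P277Z.Pos.Pk
import Vale.Agent.P277Z.Van.Horm
import Vale.Agent.P277Z.Van.Vol

/-!
# P277, block VAL: ample over ample, without hypotheses
-/

namespace Vale.Agent.P277Z.Val

theorem kodAll : Pos.KOD := Pos.kod (Pos.jo Van.horm Van.vol Pos.pk) Pos.soft

theorem ampC : StAmpC := ampC_of kodAll

end Vale.Agent.P277Z.Val
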