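import Vale.Agent.P277Z.Val.All0
import Vale.Agent.P277Z.Val.AmpC2
import Vale.Agent.P277Z.Hir.All

/-!
# P277, block VAL: the klt case
-/

namespace Vale.Agent.P277Z.Val

theorem gklt (hE : StExtrV) (hT : Top.StTop) (hN : StNeg3) : St.MOD (· < 1) :=
  gklt0 kodAll Hir.stMain Hir.stMainL hE hT hN

end Vale.Agent.P277Z.Val
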