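import Vale.Agent.P277Z.Val.Jac

/-!
# P277, block VAL: the local lemma (echo divisors)

Target coordinates: `z 1 = y` is the equation of the only component with positive coefficient,
`z 0 = x`.
-/

open Set Filter Metric Topology
open Vale.Agent.P272.K

noncomputable section

namespace Vale.Agent.P277Z.Val

variable {m : ℕ}

/-- `ψ` is a local isomorphism at `w`. -/
def LocIso {n : ℕ} (ψ : Cm n → Cm n) (w : Cm n) : Prop :=
  AnalyticAt ℂ ψ w ∧ (fderiv ℂ ψ w).det ≠ 0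

/-- the chart `(x, η, u) ↦ (x, x ^ q * η, u)` of the weighted blow-up -/
def blw (q : ℕ) (w : Cm (m + 2)) : Cm (m + 2) := Function.update w 1 (w 0 ^ q * w 1)

theorem blw_one (q : ℕ) (w : Cm (m + 2)) : blw q w 1 = w 0 ^ q * w 1 := by simp [blw]

theorem blw_ne (q : ℕ) (w : Cm (m + 2)) {i : Fin (m + 2)} (hi : i ≠ 1) : blw q w i = w i := by
  simp [blw, hi]

theorem blw_zero (q : ℕ) (w : Cm (m + 2)) : blw q w 0 = w 0 := blw_ne q w zero_ne_one

theorem blw_blw (q q' : ℕ) (w : Cm (m + 2)) : blw q (blw q' w) = blw (q + q') w := by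
  funext i
  by_cases hi : i = 1
  · rw [hi, blw_one, blw_one, blw_one, blw_zero]
    ring
  · rw [blw_ne _ _ hi, blw_ne _ _ hi, blw_ne _ _ hi]

theorem an_update {n k : ℕ} {γ : Cm n → Cm k} {η : Cm n → ℂ} {w : Cm n} (i : Fin k)
    (h : AnalyticAt ℂ γ w) (h' : AnalyticAt ℂ η w) :
    AnalyticAt ℂ (fun w => Function.update (γ w) i (η w)) w := by
  refine analyticAt_pi_iff.2 fun j => ?_
  by_cases hj : j = i
  · subst hj
    simpa using h'
  · simp only [Function.update_of_ne hj]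
    exact analyticAt_pi_iff.1 h j

theorem an_blw (q : ℕ) (w : Cm (m + 2)) : AnalyticAt ℂ (blw q) w :=
  an_update 1 analyticAt_id (((an_coord 0 w).pow q).mul (an_coord 1 w))

theorem det_blw_comp (q : ℕ) {ψ : Cm (m + 2) → Cm (m + 2)} {w : Cm (m + 2)}
    (h : AnalyticAt ℂ ψ w) :
    (fderiv ℂ (fun w => blw q (ψ w)) w).det = ψ w 0 ^ q * (fderiv ℂ ψ w).det := by
  have h1 : AnalyticAt ℂ (fun w => blw q (ψ w)) w := (an_blw q _).comp h
  have hc : ∀ i, DifferentiableAt ℂ (fun w => ψ w i) w := fun i =>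
    (analyticAt_pi_iff.1 h i).differentiableAt
  have e : Jm (fun w => blw q (ψ w)) w = (Jm ψ w).updateRow 1
      (ψ w 0 ^ q • Jm ψ w 1 + (q * ψ w 0 ^ (q - 1) * ψ w 1) • Jm ψ w 0) := by
    ext i j
    rw [Jm_apply h1.differentiableAt, Matrix.updateRow_apply]
    by_cases hi : i = 1
    · rw [if_pos hi, hi]
      simp only [blw_one, Pi.add_apply, Pi.smul_apply, smul_eq_mul]
      rw [pd_mul ((hc 0).fun_pow q) (hc 1), pd_pow (hc 0), Jm_apply h.differentiableAt,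
        Jm_apply h.differentiableAt]
      ring
    · rw [if_neg hi, Jm_apply h.differentiableAt]
      simp only [blw_ne _ _ hi]
  rw [det_eq_Jm, det_eq_Jm, e, Matrix.det_updateRow_add, Matrix.det_updateRow_smul,
    Matrix.det_updateRow_smul, Matrix.updateRow_eq_self,
    Matrix.det_updateRow_eq_zero (zero_ne_one : (0 : Fin (m + 2)) ≠ 1)]
  ring

/-- the rows of the coordinates which vanish on `{w 0 = 0}` are zero -/
theorem Tm_row {k : ℕ} {γ : Cm (m + 1) → Cm k} {w₁ : Cm (m + 1)} (hγ : AnalyticAt ℂ γ w₁)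
    {i : Fin k} (h : OrdGe (fun w => γ w i) w₁ 1) :
    ∀ᶠ w in 𝓝 w₁, w 0 = 0 → ∀ j, Tm γ w i j = 0 := by
  obtain ⟨u, h1, h2⟩ := h
  filter_upwards [hγ.eventually_analyticAt, h1.eventually_analyticAt, h2.eventually_nhds] with
    w e1 e2 e3 e4 j
  have e5 : Tm γ w i j = Jm γ w i j.succ := rfl
  rw [e5, Jm_apply e1.differentiableAt, pd_congr e3, pd_pow_mul (g := 0) e2, e4,
    if_neg (Fin.succ_ne_zero j).symm]
  simp

theorem rank_le_of_rows {k l : ℕ} (A : Matrix (Fin k) (Fin l) ℂ) (I : Finset (Fin k))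
    (h : ∀ i ∈ I, ∀ j, A i j = 0) : A.rank ≤ k - I.card := by
  classical
  rw [Matrix.rank_eq_finrank_span_row]
  have h1 : Submodule.span ℂ (range A.row) ≤ Submodule.span ℂ ((Iᶜ.image A.row : Finset _) : Set _) := by
    rw [Submodule.span_le]
    rintro _ ⟨i, rfl⟩
    by_cases hi : i ∈ I
    · have : A.row i = 0 := funext (h i hi)
      rw [this]
      exact Submodule.zero_mem _
    · exact Submodule.subset_span (Finset.mem_coe.2 (Finset.mem_image_of_mem _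
        (Finset.mem_compl.2 hi)))
  refine (Submodule.finrank_mono h1).trans ((finrank_span_finset_le_card _).trans
    (Finset.card_image_le.trans ?_))
  rw [Finset.card_compl, Fintype.card_fin]

theorem rank_Tm_le {k : ℕ} {γ : Cm (m + 1) → Cm k} {w₁ : Cm (m + 1)} (hγ : AnalyticAt ℂ γ w₁)
    (I : Finset (Fin k)) (h : ∀ i ∈ I, OrdGe (fun w => γ w i) w₁ 1) :
    ∀ᶠ w in 𝓝 w₁, w 0 = 0 → (Tm γ w).rank ≤ k - I.card := by
  filter_upwards [(eventually_all_finset I).2 fun i hi => Tm_row hγ (h i hi)] with w e1 e2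
  exact rank_le_of_rows _ I fun i hi => e1 i hi e2

/-- (ECHO, numerical part) an exceptional wedge with discrepancy `< 1`. -/
theorem echo_num {γ : Cm (m + 2) → Cm (m + 2)} {w₁ : Cm (m + 2)} (h0 : w₁ 0 = 0)
    {g : Fin (m + 2) → ℕ} (hg : ∀ i, OrdGe (fun w => γ w i) w₁ (g i)) {r : ℕ} (hrm : r ≤ m)
    (hr : ∀ᶠ w in 𝓝 w₁, w 0 = 0 → (Tm γ w).rank ≤ r) {J : ℕ}
    (hJ : OrdEq (fun w => (fderiv ℂ γ w).det) w₁ J) {b : Fin (m + 2) → ℝ} (hb1 : b 1 < 1)
    (hb : ∀ i, i ≠ 1 → b i ≤ 0) (ha : (J : ℝ) - ∑ i, b i * g i < 1) :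
    0 < b 1 ∧ 1 ≤ g 1 ∧ J = g 1 ∧ r = m ∧ (∀ i, i ≠ 1 → g i ≤ 1) ∧
      ∀ i j, i ≠ 1 → j ≠ 1 → 1 ≤ g i → 1 ≤ g j → i = j := by
  have key : ∀ r, r ≤ m → (∀ᶠ w in 𝓝 w₁, w 0 = 0 → (Tm γ w).rank ≤ r) →
      0 < b 1 ∧ 1 ≤ g 1 ∧ J = g 1 ∧ r = m ∧ ∀ i, i ≠ 1 → g i ≤ 1 := by
    intro r hrm hr
    have h1 : (g 1 - 1) + ∑ i ∈ Finset.univ.erase 1, (g i - 1) + (m + 1 - r) ≤ J := by
      have := jac_le h0 hg hr hJ
      rwa [← Finset.add_sum_erase _ _ (Finset.mem_univ 1)] at this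
    rw [← Finset.add_sum_erase _ _ (Finset.mem_univ 1)] at ha
    have h2 : ∑ i ∈ Finset.univ.erase 1, b i * g i ≤ 0 := Finset.sum_nonpos fun i hi =>
      mul_nonpos_of_nonpos_of_nonneg (hb i (Finset.ne_of_mem_erase hi)) (Nat.cast_nonneg _)
    have h3 : (J : ℝ) - b 1 * g 1 < 1 := by linarith
    have hJ1 : (1 : ℝ) ≤ J := by exact_mod_cast (by omega : 1 ≤ J)
    have h4 : 0 < b 1 * g 1 := by linarith
    have h5 : 0 < b 1 := by
      by_contra hcon
      exact absurd h4 (not_lt.2 (mul_nonpos_of_nonpos_of_nonneg (not_lt.1 hcon) (Nat.cast_nonneg _)))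
    have h6 : 1 ≤ g 1 := by
      by_contra hcon
      rw [show g 1 = 0 by omega] at h4
      simp at h4
    have h7 : J < g 1 + 1 := by
      have h8 : (1 : ℝ) ≤ g 1 := by exact_mod_cast h6
      have h9 : (J : ℝ) < g 1 + 1 := by nlinarith
      exact_mod_cast h9
    refine ⟨h5, h6, by omega, by omega, fun i hi => ?_⟩
    have h8 : g i - 1 ≤ ∑ i ∈ Finset.univ.erase 1, (g i - 1) :=
      Finset.single_le_sum (f := fun i => g i - 1) (fun _ _ => Nat.zero_le _)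
        (Finset.mem_erase.2 ⟨hi, Finset.mem_univ i⟩)
    omega
  obtain ⟨h1, h2, h3, h4, h5⟩ := key r hrm hr
  refine ⟨h1, h2, h3, h4, h5, fun i j hi hj hgi hgj => ?_⟩
  by_contra hij
  have hγ : AnalyticAt ℂ γ w₁ := analyticAt_pi_iff.2 fun i => (hg i).an
  have hc : ({1, i, j} : Finset (Fin (m + 2))).card = 3 :=
    Finset.card_eq_three.2 ⟨1, i, j, hi.symm, hj.symm, hij, rfl⟩
  have h6 := rank_Tm_le hγ {1, i, j} fun k hk => (hg k).mono (by
    simp only [Finset.mem_insert, Finset.mem_singleton] at hk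
    rcases hk with rfl | rfl | rfl <;> assumption)
  have h7 : 3 ≤ m + 2 := by
    have := Finset.card_le_univ ({1, i, j} : Finset (Fin (m + 2)))
    rwa [hc, Fintype.card_fin] at this
  have h8 := (key _ (by omega) h6).2.2.2.1
  omega

/-- positive discrepancy of exceptional wedges -/
theorem disc_pos {γ : Cm (m + 2) → Cm (m + 2)} {w₁ : Cm (m + 2)} (h0 : w₁ 0 = 0)
    {g : Fin (m + 2) → ℕ} (hg : ∀ i, OrdGe (fun w => γ w i) w₁ (g i))
    (hr : ∀ᶠ w in 𝓝 w₁, w 0 = 0 → (Tm γ w).rank ≤ m) {J : ℕ}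
    (hJ : OrdEq (fun w => (fderiv ℂ γ w).det) w₁ J) {b : Fin (m + 2) → ℝ} (hb1 : b 1 < 1)
    (hb : ∀ i, i ≠ 1 → b i ≤ 0) : 0 < (J : ℝ) - ∑ i, b i * g i := by
  by_contra hcon
  obtain ⟨-, h2, h3, -⟩ := echo_num h0 hg le_rfl hr hJ hb1 hb (by linarith)
  rw [← Finset.add_sum_erase _ _ (Finset.mem_univ 1), h3] at hcon
  have h4 : ∑ i ∈ Finset.univ.erase 1, b i * g i ≤ 0 := Finset.sum_nonpos fun i hi =>
    mul_nonpos_of_nonpos_of_nonneg (hb i (Finset.ne_of_mem_erase hi)) (Nat.cast_nonneg _)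
  have h8 : (1 : ℝ) ≤ g 1 := by exact_mod_cast h2
  nlinarith

/-- (ECHO, equality case) if the orders of `x`, `y` and the Jacobian are `1`, `q`, `q`, then the
wedge is the chart `blw q` up to a local isomorphism of the source. -/
theorem echo_iso {γ : Cm (m + 2) → Cm (m + 2)} {w₁ : Cm (m + 2)} (hγ : AnalyticAt ℂ γ w₁)
    {q : ℕ} (hx : OrdEq (fun w => γ w 0) w₁ 1) (hy : OrdGe (fun w => γ w 1) w₁ q)
    (hJ : OrdEq (fun w => (fderiv ℂ γ w).det) w₁ q) :
    ∃ ψ : Cm (m + 2) → Cm (m + 2), LocIso ψ w₁ ∧ OrdEq (fun w => ψ w 0) w₁ 1 ∧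
      ∀ᶠ w in 𝓝 w₁, γ w = blw q (ψ w) := by
  obtain ⟨u, h1, h2, h3⟩ := id hx
  obtain ⟨v, h4, h5⟩ := hy
  set ψ : Cm (m + 2) → Cm (m + 2) := fun w => Function.update (γ w) 1 (v w * (u w ^ q)⁻¹) with hψ
  have hψa : AnalyticAt ℂ ψ w₁ :=
    an_update 1 hγ (h4.mul ((h1.pow q).inv (pow_ne_zero q h2)))
  have hψ0 : ∀ w, ψ w 0 = γ w 0 := fun w => Function.update_of_ne zero_ne_one _ _
  have he : ∀ᶠ w in 𝓝 w₁, γ w = blw q (ψ w) := by
    filter_upwards [h3, h5, h1.continuousAt.eventually_ne h2] with w e1 e2 e3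
    funext i
    by_cases hi : i = 1
    · rw [hi, blw_one, hψ0, e1, e2]
      simp only [hψ, Function.update_self]
      field_simp
      ring
    · rw [blw_ne _ _ hi]
      exact (Function.update_of_ne hi _ _).symm
  refine ⟨ψ, ⟨hψa, ?_⟩, by simpa only [hψ0] using hx, he⟩
  refine OrdEq.ne_zero (OrdEq.of_mul (g := q) (hJ.congr ?_) ?_ (an_jac hψa) (f := fun w => γ w 0 ^ q))
  · filter_upwards [he.eventually_nhds, hψa.eventually_analyticAt] with w e1 e2
    rw [EventuallyEq.fderiv_eq e1, det_blw_comp q e2, hψ0]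
  · simpa using hx.pow q

/-- (ECHO) in the equality case the order of `x` is exactly one at generic points. -/
theorem echo_gen {γ : Cm (m + 2) → Cm (m + 2)} {w₁ : Cm (m + 2)} (hγ : AnalyticAt ℂ γ w₁)
    (h0 : w₁ 0 = 0) {q : ℕ} (hq : 1 ≤ q) (hx : OrdGe (fun w => γ w 0) w₁ 1)
    (hy : OrdGe (fun w => γ w 1) w₁ q) (hJ : OrdEq (fun w => (fderiv ℂ γ w).det) w₁ q) :
    ∃ᶠ w₂ in 𝓝 w₁, w₂ 0 = 0 ∧ ∃ ψ : Cm (m + 2) → Cm (m + 2), LocIso ψ w₂ ∧
      OrdEq (fun w => ψ w 0) w₂ 1 ∧ ∀ᶠ w in 𝓝 w₂, γ w = blw q (ψ w) := by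
  rcases hx.succ_or h0 with h | h
  · exfalso
    set g : Fin (m + 2) → ℕ := fun i => if i = 0 then 2 else if i = 1 then q else 0 with hg
    have h1 : ∀ i, OrdGe (fun w => γ w i) w₁ (g i) := by
      intro i
      by_cases hi : i = 0
      · simpa [hg, hi] using h
      · by_cases hi' : i = 1
        · simpa [hg, hi'] using hy
        · simpa [hg, hi, hi'] using ordGe_zero (analyticAt_pi_iff.1 hγ i)
    have h2 := rank_Tm_le hγ {0, 1} fun k hk => by
      simp only [Finset.mem_insert, Finset.mem_singleton] at hk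
      rcases hk with rfl | rfl
      · exact hx
      · exact hy.mono hq
    rw [Finset.card_pair zero_ne_one] at h2
    have h3 := jac_le h0 h1 h2 hJ
    have h4 : ∑ i ∈ ({0, 1} : Finset (Fin (m + 2))), (g i - 1) ≤ ∑ i, (g i - 1) :=
      Finset.sum_le_sum_of_subset (Finset.subset_univ _)
    rw [Finset.sum_pair zero_ne_one] at h4
    have h5 : g 0 = 2 := by simp [hg]
    have h6 : g 1 = q := by simp [hg]
    rw [h5, h6] at h4
    generalize ∑ i, (g i - 1) = s at h3 h4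
    omega
  · refine (h.and_eventually (hγ.eventually_analyticAt.and (hy.eventually.and hJ.eventually))).mono ?_
    rintro w ⟨⟨e1, e2⟩, e3, e4, e5⟩
    exact ⟨e1, echo_iso e3 e2 e4 e5⟩

end Vale.Agent.P277Z.Val
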