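import Vale.Agent.P277Z.Val.USk
import Vale.Agent.P277Z.Val.KahPA

/-!
# P277, block VAL: a space which is projective over a Kaehler space is Kaehler
-/

open scoped ContDiff Topology ComplexOrder
open Vale.Agent.P272.K Vale.Agent.P285.H281.FD Vale.Agent.P277 Set Filter Metric Real
open Vale.Agent.P284Z (levi)
open Vale.Agent.P284Y.Lib
open Vale.Agent.P298.H265 (nv pot nv_pos nv_smul)

noncomputable section

namespace Vale.Agent.P277Z.Val

namespace KP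

variable {X Y : CSp} {N : ℕ} {φ : X.pt → Cm N} {x : X.pt} {f f' : X.pt → ℝ}

/-- `φ` is a model near `x` -/
def Cd (X : CSp) {N : ℕ} (φ : X.pt → Cm N) (x : X.pt) : Prop :=
  ∃ (k : ℕ) (O : Set X.pt) (Ω : Set (Cm N)) (h : Fin k → Cm N → ℂ), x ∈ O ∧ IsModel X.Hol O Ω h φ

theorem Cd.ev (h : Cd X φ x) : ∀ᶠ y in 𝓝 x, Cd X φ y :=
  let ⟨k, O, Ω, f, h1, h2⟩ := h
  mem_of_superset (h2.isOpen.mem_nhds h1) fun _ hy => ⟨k, O, Ω, f, hy, h2⟩

theorem Cd.cont (h : Cd X φ x) : ContinuousAt φ x :=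
  let ⟨_, _, _, _, h1, h2⟩ := h
  h2.continuousAt h1

theorem Cd.hol (h : Cd X φ x) (i : Fin N) : X.Hol (fun y => φ y i) x :=
  let ⟨_, _, _, _, h1, h2⟩ := h
  h2.isCoord.hol i x h1

theorem Cd.ext (h : Cd X φ x) {ι : Type} [Fintype ι] {f : X.pt → ι → ℂ}
    (hf : ∀ i, X.Hol (fun y => f y i) x) :
    ∃ F : Cm N → ι → ℂ, AnalyticAt ℂ F (φ x) ∧ ∀ᶠ y in 𝓝 x, F (φ y) = f y := by
  obtain ⟨_, _, _, _, h1, h2⟩ := h
  choose F h3 h4 using fun i => (h2.hol x h1 _).1 (hf i)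
  exact ⟨fun z i => F i z, analyticAt_pi_iff.2 h3,
    (eventually_all.2 h4).mono fun y hy => funext fun i => (hy i).symm⟩

/-- strictly plurisubharmonic at `x` -/
def SP (X : CSp) (f : X.pt → ℝ) (x : X.pt) : Prop :=
  ∃ (N : ℕ) (φ : X.pt → Cm N) (v : Cm N → ℝ), Cd X φ x ∧ Sw v (φ x) ∧ Pos v (φ x) ∧
    ∀ᶠ y in 𝓝 x, f y = v (φ y)

theorem SP.ev (h : SP X f x) : ∀ᶠ y in 𝓝 x, SP X f y := by
  obtain ⟨N, φ, v, h1, h2, h3, h4⟩ := h
  filter_upwards [h1.ev, h1.cont.eventually h2.eventually_nhds, h1.cont.eventually (h3.ev h2.two),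
    h4.eventually_nhds] with y a b c d using ⟨N, φ, v, a, b, c, d⟩

theorem SP.congr (h : SP X f x) (e : ∀ᶠ y in 𝓝 x, f' y = f y) : SP X f' x :=
  let ⟨N, φ, v, h1, h2, h3, h4⟩ := h
  ⟨N, φ, v, h1, h2, h3, (e.and h4).mono fun _ k => k.1.trans k.2⟩

theorem SP.add_re (h : SP X f x) {g : X.pt → ℂ} (hg : X.Hol g x) :
    SP X (fun y => f y + (g y).re) x := by
  obtain ⟨N, φ, v, h1, h2, h3, h4⟩ := h
  obtain ⟨G, a, b⟩ := h1.ext (f := fun y (_ : Unit) => g y) fun _ => hg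
  have a' := analyticAt_pi_iff.1 a ()
  have c : Sw (fun z => (G z ()).re) (φ x) :=
    (an_sm a').mono fun z k => Complex.reCLM.contDiff.contDiffAt.comp z k
  refine ⟨N, φ, _, h1, h2.add c, fun w hw => ?_,
    (h4.and b).mono fun y k => by simp only [k.1, k.2]⟩
  rw [levi_add h2.two c.two, levi_re a', add_zero]
  exact h3 w hw

theorem SP.add_pull {f : Y.pt → ℝ} {y : Y.pt} {g : Y.pt → X.pt} {u : X.pt → ℝ} (h : SP Y f y)
    (hg : HolMap Y X g y) (hu : SP X u (g y)) {c : ℝ} (hc : 0 ≤ c) :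
    SP Y (fun y => f y + c * u (g y)) y := by
  obtain ⟨N, φ, v, h1, h2, h3, h4⟩ := h
  obtain ⟨N', φ', v', k1, k2, k3, k4⟩ := hu
  obtain ⟨G, a, b⟩ := h1.ext (f := fun y => φ' (g y)) fun i => hg.2 _ (k1.hol i)
  rw [← b.self_of_nhds] at k2 k3
  have d := k2.comp a
  refine ⟨N, φ, _, h1, h2.add (d.const_mul c), fun w hw => ?_,
    (h4.and (b.and (hg.1.eventually k4))).mono fun y k => by simp only [k.1, k.2.1, k.2.2]⟩
  rw [levi_add h2.two (d.const_mul c).two, levi_const_mul d.two, levi_hol a k2.two]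
  exact add_pos_of_pos_of_nonneg (h3 w hw) (mul_nonneg hc (k3.nonneg _))

/-- smooth at `x` -/
def Sm (X : CSp) (f : X.pt → ℝ) (x : X.pt) : Prop :=
  ∀ (N : ℕ) (φ : X.pt → Cm N), Cd X φ x → ∃ v, Sw v (φ x) ∧ ∀ᶠ y in 𝓝 x, v (φ y) = f y

theorem bump {O : Set X.pt} (hO : O ∈ 𝓝 x) : ∃ θ : X.pt → ℝ, (∀ y, Sm X θ y) ∧
    {y | θ y ≠ 0} ∈ 𝓝 x ∧ ∀ y ∉ O, ∀ᶠ y' in 𝓝 y, θ y' = 0 := by
  classical
  obtain ⟨N, k, V, Ω, h, φ, hx, hM⟩ := X.model x
  obtain ⟨K, h1, h2, h3⟩ := local_compact_nhds (inter_mem hO (hM.isOpen.mem_nhds hx))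
  have h4 : Subtype.val ⁻¹' K ∈ 𝓝 (⟨x, hx⟩ : V) := continuous_subtype_val.continuousAt h1
  rw [hM.emb.isInducing.nhds_eq_comap] at h4
  obtain ⟨B, h5, h6⟩ := h4
  obtain ⟨ε, hε, h7⟩ := Metric.mem_nhds_iff.1 h5
  let β : ContDiffBump (φ x) := ⟨ε / 2, ε, half_pos hε, half_lt_self hε⟩
  have h8 : ∀ y ∉ K, ∀ᶠ y' in 𝓝 y, (if y' ∈ V then β (φ y') else 0) = 0 := fun y hy => by
    filter_upwards [h3.isClosed.isOpen_compl.mem_nhds hy] with y' hy'
    split_ifs with c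
    · exact β.zero_of_le_dist (not_lt.1 fun k => hy' (h6 (a := ⟨y', c⟩) (h7 k)))
    · rfl
  have h9 : ∀ y ∈ V, ∀ᶠ y' in 𝓝 y, β (φ y') = if y' ∈ V then β (φ y') else 0 := fun y hy =>
    mem_of_superset (hM.isOpen.mem_nhds hy) fun y' hy' => (if_pos hy').symm
  refine ⟨fun y => if y ∈ V then β (φ y) else 0, fun y M ψ hψ => ?_, ?_,
    fun y hy => h8 y fun k => hy (h2 k).1⟩
  · by_cases hy : y ∈ V
    · obtain ⟨T, a, b⟩ := hψ.ext (f := φ) (Cd.hol ⟨k, V, Ω, h, hy, hM⟩)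
      exact ⟨fun z => β (T z), Sw.comp (.of_forall fun _ => β.contDiff.contDiffAt) a,
        (b.and (h9 y hy)).mono fun y' e => (congrArg β e.1).trans e.2⟩
    · exact ⟨fun _ => 0, .of_forall fun _ => contDiffAt_const,
        (h8 y fun k => hy (h2 k).2).mono fun _ e => e.symm⟩
  · filter_upwards [h9 x hx, (β.continuous.continuousAt.comp (hM.continuousAt hx)).eventually_ne
      (y := 0) (by
        show β (φ x) ≠ 0
        rw [β.one_of_mem_closedBall (mem_closedBall_self (half_pos hε).le)]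
        exact one_ne_zero)] with y e1 e2
    exact e1 ▸ e2

theorem log_re {f : X.pt → ℂ} (hf : X.Hol f x) (h0 : f x ≠ 0) :
    ∃ h, X.Hol h x ∧ ∀ᶠ y in 𝓝 x, log (‖f y‖ ^ 2) = (h y).re := by
  refine ⟨fun y => 2 * (Complex.log (f y / f x) + log ‖f x‖),
    hol_comp₁ (G := fun t => 2 * (Complex.log (t / f x) + log ‖f x‖)) hf
      (analyticAt_const.mul (((analyticAt_id.div analyticAt_const h0).clog (by
        simp [div_self h0])).add analyticAt_const)), ?_⟩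
  filter_upwards [(hol_continuousAt hf).eventually_ne h0] with y hy
  rw [log_pow]
  simp [Complex.log_re, log_div (norm_ne_zero_iff.2 hy) (norm_ne_zero_iff.2 h0)]

theorem exp_pot {κ : Type} [Fintype κ] {k : ℕ} (hk : 1 ≤ k) {c : ℂ} (hc : c ≠ 0) {s : κ → ℂ}
    (hs : s ≠ 0) : exp ((k : ℝ)⁻¹ * log (nv (c ^ k • s))) =
      ‖c‖ ^ 2 * exp ((k : ℝ)⁻¹ * log (nv s)) := by
  have h1 : 0 < ‖c‖ ^ 2 := pow_pos (norm_pos_iff.2 hc) 2
  have h2 : (k : ℝ) ≠ 0 := Nat.cast_ne_zero.2 (by omega)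
  rw [nv_smul, norm_pow, ← pow_mul, mul_comm k, pow_mul, log_mul (pow_pos h1 k).ne' (nv_pos hs).ne',
    log_pow (‖c‖ ^ 2), mul_add, ← mul_assoc, inv_mul_cancel₀ h2, one_mul, exp_add, exp_log h1]

end KP

open KP in
/-- (KAHP) -/
theorem kahP : StKahP := by
  classical
  rintro Y X g Λ hg hΛ ha ⟨ι, U, u, hU, hUc, hu, hd⟩
  have hu' : ∀ i, ∀ x ∈ U i, SP X (u i) x := fun i x hx =>
    let ⟨N, k, O, Ω, h, φ, v, a, b, c, d, e⟩ := hu i x hx
    ⟨N, φ, v, ⟨k, O, Ω, h, a, b⟩, c, (pos_iff (Sw.two c)).1 d, e⟩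
  have hgc : Continuous g := continuous_iff_continuousAt.2 fun y => (hg y).1
  choose O k N s hO hxO hk hs h1 h2 h3 using ha
  choose θ hθ1 hθ2 hθ3 using fun x => bump ((hO x).mem_nhds (hxO x))
  obtain ⟨t, ht⟩ := CompactSpace.elim_nhds_subcover _ hθ2
  have ht' : ∀ x, ∃ j ∈ t, θ j x ≠ 0 := fun x => by
    simpa using (ht ▸ mem_univ x : x ∈ ⋃ j ∈ t, {y | θ j y ≠ 0})
  have hin : ∀ j x, θ j x ≠ 0 → x ∈ O j := fun j x h =>
    by_contra fun k => h (hθ3 j x k).self_of_nhds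
  obtain ⟨ψ, hψ⟩ : ∃ ψ : Λ.ι → Y.pt → ℝ, ∀ a y, ψ a y =
      log (∑ j ∈ t, θ j (g y) ^ 2 * exp ((k j : ℝ)⁻¹ * log (nv fun l => s j l a y))) :=
    ⟨_, fun _ _ => rfl⟩
  have dψ : ∀ a b y, y ∈ Λ.U a → y ∈ Λ.U b → ψ a y - ψ b y = log (‖Λ.g a b y‖ ^ 2) := by
    intro a b y ha hb
    have c0 := hΛ.ne_zero a b y ha hb
    obtain ⟨j, hj, hj'⟩ := ht' (g y)
    rw [hψ, hψ, sub_eq_iff_eq_add, ← log_mul (pow_pos (norm_pos_iff.2 c0) 2).ne'
      (Finset.sum_pos' (fun _ _ => by positivity) ⟨j, hj, by positivity⟩).ne', Finset.mul_sum]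
    refine congrArg log (Finset.sum_congr rfl fun i _ => ?_)
    by_cases c : θ i (g y) = 0
    · simp [c]
    · have e : (fun l => s i l a y) = Λ.g a b y ^ k i • fun l => s i l b y :=
        funext fun l => (hs i l).change a b y (hin i _ c) ha hb
      rw [e, exp_pot (hk i) c0 (Function.ne_iff.2 (h1 i y b (hin i _ c) hb))]
      ring
  have dif : ∀ (c : ℝ) i j a b y, g y ∈ U i → g y ∈ U j → y ∈ Λ.U a → y ∈ Λ.U b →
      ∃ h, Y.Hol h y ∧ ∀ᶠ y' in 𝓝 y,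
        (ψ a y' + c * u i (g y')) - (ψ b y' + c * u j (g y')) = (h y').re := by
    intro c i j a b y hi hj ha hb
    obtain ⟨p, p1, p2⟩ := log_re (hΛ.holo a b y ha hb) (hΛ.ne_zero a b y ha hb)
    obtain ⟨q, q1, q2⟩ := hd i j _ hi hj
    refine ⟨fun y => p y + c * q (g y), hol_add p1 (hol_mul (hol_const _ _) ((hg y).2 q q1)), ?_⟩
    filter_upwards [p2, (hg y).1.eventually q2, (hΛ.isOpen a).mem_nhds ha,
      (hΛ.isOpen b).mem_nhds hb] with y' e1 e2 e3 e4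
    rw [Complex.add_re, Complex.re_ofReal_mul, ← e1, ← e2, ← dψ a b y' e3 e4]
    ring
  have loc : ∀ y i a, g y ∈ U i → y ∈ Λ.U a →
      ∃ c : ℝ, SP Y (fun y' => ψ a y' + c * u i (g y')) y := by
    intro y i a hi ha
    obtain ⟨M, φX, v, cX, sv, pv, ev⟩ := hu' i _ hi
    obtain ⟨n, k', V, Ω, h, φ, hy, hM⟩ := Y.model y
    have cY : Cd Y φ y := ⟨k', V, Ω, h, hy, hM⟩
    obtain ⟨Γ, aΓ, eΓ⟩ := cY.ext (f := fun y => φX (g y)) fun b => (hg y).2 _ (cX.hol b)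
    choose Θ sΘ eΘ using fun j => hθ1 j (g y) M φX cX
    have hS : ∀ j, ∃ S : Cm n → Fin (N j + 1) → ℂ, g y ∈ O j → AnalyticAt ℂ S (φ y) ∧
        ∀ᶠ y' in 𝓝 y, S (φ y') = fun l => s j l a y' := fun j => by
      by_cases c : g y ∈ O j
      · exact (cY.ext fun l => (hs j l).holo a y c ha).imp fun _ e _ => e
      · exact ⟨0, fun e => (c e).elim⟩
    choose S hS using hS
    obtain ⟨j, hj, hj'⟩ := ht' (g y)
    have hjO := hin j _ hj'
    obtain ⟨l, hl⟩ := h1 j y a hjO ha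
    choose m g' G b1 b2 b3 using fun b => h3 j y a l hjO ha hl _ (cY.hol b)
    choose G' c1 c2 using fun b => cX.ext (f := fun x a' => g' b a' x) (b1 b)
    have e0 := eΓ.self_of_nhds
    have e1 := (hS j hjO).2.self_of_nhds
    obtain ⟨c, F, d1, d2, d3⟩ := core (z := φ y) (t.filter fun j => g y ∈ O j) (Θ := Θ) (S := S)
      (c := fun j => (k j : ℝ)⁻¹) (v := v) (j := j) (l := l)
      (G := fun p b => G b (G' b p.1, p.2)) aΓ (fun j _ => e0 ▸ sΘ j)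
      (fun j hj => ⟨(hS j (Finset.mem_filter.1 hj).2).1, by
        rw [(hS j (Finset.mem_filter.1 hj).2).2.self_of_nhds]
        exact Function.ne_iff.2 (h1 j y a (Finset.mem_filter.1 hj).2 ha)⟩)
      (fun j => inv_pos.2 (Nat.cast_pos.2 (hk j))) (e0 ▸ sv) (e0 ▸ pv)
      (Finset.mem_filter.2 ⟨hj, hjO⟩) (by rwa [e0, (eΘ j).self_of_nhds]) (by rwa [e1])
      (analyticAt_pi_iff.2 fun b => by
        rw [e0, e1]
        refine AnalyticAt.fun_comp (g := G b) (f := fun p : Cm M × Cm (N j + 1) => (G' b p.1, p.2))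
          ?_ (((c1 b).comp_of_eq analyticAt_fst rfl).prod analyticAt_snd)
        rw [(c2 b).self_of_nhds]
        exact b2 b)
    refine ⟨c, n, φ, F, cY, d1, d2, ?_⟩
    have f1 : ∀ j ∈ t, ∀ᶠ y' in 𝓝 y, (g y ∈ O j → Θ j (φX (g y')) = θ j (g y') ∧
        S j (φ y') = fun l => s j l a y') ∧ (g y ∉ O j → θ j (g y') = 0) := fun j _ => by
      by_cases c : g y ∈ O j
      · exact (((hg y).1.eventually (eΘ j)).and (hS j c).2).mono fun _ e =>
          ⟨fun _ => e, fun e' => (e' c).elim⟩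
      · exact ((hg y).1.eventually (hθ3 j _ c)).mono fun _ e => ⟨fun e' => (c e').elim, fun _ => e⟩
    filter_upwards [eΓ, (eventually_all_finset t).2 f1, (hg y).1.eventually ev,
      eventually_all.2 b3, (hg y).1.eventually (eventually_all.2 c2)] with y' r1 r2 r3 r4 r5
    have r6 : (fun b => G b (G' b (φX (g y')), fun m => s j m a y' / s j l a y')) = φ y' :=
      funext fun b => by rw [r5 b]; exact (r4 b).symm
    rw [d3, hψ, r1, ((r2 j hj).1 hjO).2, r3, r6, sub_self, Finset.sum_filter]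
    have r7 : nv (0 : Cm n) = 0 := by simp [nv]
    rw [r7, add_zero]
    refine congrArg (fun r => log r + c * v (φX (g y'))) (Finset.sum_congr rfl fun i hi => ?_)
    split_ifs with c
    · rw [((r2 i hi).1 c).1, pot, ((r2 i hi).1 c).2]
    · simp [(r2 i hi).2 c]
  obtain ⟨c, hc⟩ := (unif (isCompact_univ (X := Y.pt)) (P := fun c y => ∀ i a, g y ∈ U i →
      y ∈ Λ.U a → SP Y (fun y' => ψ a y' + c * u i (g y')) y) fun y _ => by
    obtain ⟨i₀, hi⟩ := hUc (g y)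
    obtain ⟨a₀, ha⟩ := hΛ.cover y
    obtain ⟨c₀, hc⟩ := loc y i₀ a₀ hi ha
    refine ⟨c₀, ?_⟩
    filter_upwards [hc.ev, ((hU i₀).preimage hgc).mem_nhds hi, (hΛ.isOpen a₀).mem_nhds ha]
      with y' e1 e2 e3 c hcc i a e4 e5
    obtain ⟨h, p1, p2⟩ := dif c i i₀ a a₀ y' e4 e2 e5 e3
    refine ((e1.add_pull (hg y') (hu' i₀ _ e2) (sub_nonneg.2 hcc)).add_re p1).congr
      (p2.mono fun w e => ?_)
    rw [← e]
    ring).exists
  refine ⟨ι × Λ.ι, fun p => g ⁻¹' U p.1 ∩ Λ.U p.2, fun p y => ψ p.2 y + c * u p.1 (g y),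
    fun p => ((hU _).preimage hgc).inter (hΛ.isOpen _), fun y => ?_, fun p y hy => ?_,
    fun p q y hp hq => dif c _ _ _ _ y hp.1 hq.1 hp.2 hq.2⟩
  · obtain ⟨i, hi⟩ := hUc (g y)
    obtain ⟨a, ha⟩ := hΛ.cover y
    exact ⟨(i, a), hi, ha⟩
  · obtain ⟨n, φ, v, ⟨k', V, Ω, h, a, b⟩, d, e, e'⟩ := hc y (mem_univ y) _ _ hy.1 hy.2
    exact ⟨n, k', V, Ω, h, φ, v, a, b, d, (pos_iff d.two).2 e, e'⟩

end Vale.Agent.P277Z.Val
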