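import Vale.Agent.P277Z.Val.Sk
import Vale.Agent.P277Z.Val.Fin

/-!
# P277, block VAL: the lower bound for the difficulty
-/

set_option linter.unusedSectionVars false

open Vale.Agent.P272.K Vale.Agent.P285.H281.FD Vale.Agent.P277 Set Module
open P277Z.Num (wt wt_finite le_wt_iff)

noncomputable section

namespace Vale.Agent.P277Z.Val

section lin
variable {A : Type*} [DecidableEq A] {R : Finset A → Submodule ℝ (A → ℝ)} {Q : (A → ℝ) → Prop}
  (hR : ∀ T ρ, ρ ∈ R T ↔ (∀ c ∉ T, ρ c = 0) ∧ Q ρ)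
include hR

theorem rg_mono {T T' : Finset A} (h : T ⊆ T') : R T ≤ R T' := fun _ hρ =>
  (hR _ _).2 ⟨fun c hc => ((hR _ _).1 hρ).1 c fun e => hc (h e), ((hR _ _).1 hρ).2⟩

theorem rg_fin (T : Finset A) : Module.Finite ℝ (R T) :=
  Module.Finite.of_injective ((LinearMap.funLeft ℝ ℝ (Subtype.val : T → A)).comp (R T).subtype)
    ((injective_iff_map_eq_zero _).2 fun ρ h => Subtype.ext (funext fun c => by
      by_cases hc : c ∈ T
      · exact congrFun h ⟨c, hc⟩
      · exact ((hR _ _).1 ρ.2).1 c hc))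

theorem rg_le (T T' : Finset A) : finrank ℝ (R T) ≤ finrank ℝ (R T') + (T \ T').card := by
  have := rg_fin hR T
  have := rg_fin hR T'
  set φ := (LinearMap.funLeft ℝ ℝ (Subtype.val : ↥(T \ T') → A)).comp (R T).subtype
  have h1 := φ.finrank_range_add_finrank_ker
  have h2 := (LinearMap.range φ).finrank_le
  rw [finrank_fintype_fun_eq_card, Fintype.card_coe] at h2
  have h3 : finrank ℝ (LinearMap.ker φ) ≤ finrank ℝ (R T') := by
    rw [← Submodule.finrank_map_subtype_eq]
    refine Submodule.finrank_mono ?_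
    rintro _ ⟨ρ, hρ, rfl⟩
    refine (hR _ _).2 ⟨fun c hc => ?_, ((hR _ _).1 ρ.2).2⟩
    by_cases hc' : c ∈ T
    · exact congrFun (LinearMap.mem_ker.1 hρ) ⟨c, Finset.mem_sdiff.2 ⟨hc', hc⟩⟩
    · exact ((hR _ _).1 ρ.2).1 c hc'
  omega

theorem rg_sum {B : Type*} [DecidableEq B] (f : A → B) (T : Finset A) (K : Finset B) :
    ∑ k ∈ K, finrank ℝ (R (T.filter fun c => f c = k)) ≤
      finrank ℝ (R (T.filter fun c => f c ∈ K)) := by
  induction K using Finset.induction_on with
  | empty => simp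
  | insert k K hk ih =>
    have := rg_fin hR (T.filter fun c => f c = k)
    have := rg_fin hR (T.filter fun c => f c ∈ K)
    have := rg_fin hR (T.filter fun c => f c ∈ insert k K)
    have h1 := Submodule.finrank_sup_add_finrank_inf_eq (R (T.filter fun c => f c = k))
      (R (T.filter fun c => f c ∈ K))
    have h2 : R (T.filter fun c => f c = k) ⊓ R (T.filter fun c => f c ∈ K) = ⊥ := by
      refine eq_bot_iff.2 fun ρ hρ => funext fun c => ?_
      by_cases hc : f c = k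
      · exact ((hR _ _).1 hρ.2).1 c (by simp [hc, hk])
      · exact ((hR _ _).1 hρ.1).1 c (by simp [hc])
    have h3 : finrank ℝ ↥(R (T.filter fun c => f c = k) ⊔ R (T.filter fun c => f c ∈ K)) ≤
        finrank ℝ (R (T.filter fun c => f c ∈ insert k K)) :=
      Submodule.finrank_mono (sup_le (rg_mono hR (Finset.monotone_filter_right _ (by
        simp +contextual))) (rg_mono hR (Finset.monotone_filter_right _ (by simp +contextual))))
    rw [h2, finrank_bot] at h1
    rw [Finset.sum_insert hk]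
    omega

end lin

theorem wt_mono {α b b' e e' : ℝ} (hb : b < 1) (h : b' ≤ b) (h' : e ≤ e') :
    wt α b' e' ≤ wt α b e :=
  ncard_le_ncard (fun k hk => ⟨hk.1, by
    have := mul_le_mul_of_nonneg_left h (Nat.cast_nonneg k)
    have := hk.2
    linarith⟩) (wt_finite hb)

theorem wt_pos {α x : ℝ} (hx : -1 < x) : 1 ≤ wt α (-x) 0 ↔ x + 1 < α := by
  rw [le_wt_iff (by linarith) le_rfl]
  constructor <;> intro h <;> push_cast at * <;> linarith

theorem wt_zero {α x : ℝ} (hx : -1 < x) (h : α ≤ x + 1) : wt α (-x) 0 = 0 := by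
  have := (wt_pos (α := α) hx).not.2 (not_lt.2 h)
  omega

variable {V : Lg} {a : Fin V.r → ℝ}

theorem Good.eC (hg : Good V a) {c} (hc : c ∈ V.cmp) (h : a c.1 < 0) : 0 ≤ V.eC a c := by
  obtain ⟨k, hk⟩ := Lg.cmp_iff.1 hc
  obtain ⟨y, hy⟩ := hk.conn.nonempty
  rw [hk.eC a]
  exact not_lt.1 fun e => disjoint_left.1 (hg.disj _ _ hk.ne e h) (hk.sub hy).2 (hk.sub hy).1

open Classical in
theorem nA_mono {a' : Fin V.r → ℝ} (ha : ∀ l, -1 < a l) (h : a ≤ a') (α : ℝ) :
    V.nA a' α + (if ∃ k, a k < α ∧ α ≤ a' k then 1 else 0) ≤ V.nA a α := by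
  have h1 : (Finset.univ.filter fun k => a' k < α) ⊆ Finset.univ.filter fun k => a k < α :=
    Finset.monotone_filter_right _ fun k _ e => (h k).trans_lt e
  have h2 : ∑ c ∈ V.cmp with a' c.1 < 0, wt α (-a' c.1) (V.eC a' c) ≤
      ∑ c ∈ V.cmp with a c.1 < 0, wt α (-a c.1) (V.eC a c) :=
    (Finset.sum_le_sum fun c _ => wt_mono (by linarith [ha c.1]) (neg_le_neg (h _))
      (Finset.sum_le_sum fun k _ => h k)).trans (Finset.sum_le_sum_of_subset
      (Finset.monotone_filter_right _ fun c _ e => (h _).trans_lt e))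
  unfold Lg.nA
  split_ifs with e
  · obtain ⟨k, e1, e2⟩ := e
    have := Finset.card_lt_card (Finset.ssubset_iff_of_subset h1 |>.2
      ⟨k, by simpa using e1, by simpa using e2⟩)
    omega
  · have := Finset.card_le_card h1
    omega

open Classical in
/-- the lower bound -/
theorem low (h3 : StNeg3) (hg : Good V a) {Y : CSp} {ψ : V.W → Y.pt} {α : ℝ} (hα : α ≤ 1) {h : ℕ}
    (hr : Res V Y ψ (Finset.univ.filter fun k => 0 < a k)) (hs : Surf V a Y ψ α)
    (ht : Top V a Y ψ α h) :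
    ∑ k, wt α (-a k) 0 * finrank ℝ (V.RG (V.cmp.filter fun c => c.1 = k)) ≤ h + V.nA a α := by
  have hR : ∀ T ρ, ρ ∈ V.RG T ↔ (∀ c ∉ T, ρ c = 0) ∧ ∀ l, V.Green l fun S => ρ (l, S) :=
    fun _ _ => Iff.rfl
  set Bg := (Tp V a α).filter fun c => ¬ DimLe Y 1 (ψ '' c.2) with hB
  set Z := V.cmp.filter fun c => a c.1 + 1 < α ∧ ¬ 0 < V.eC a c with hZ
  have k1 : ∀ k, wt α (-a k) 0 * finrank ℝ (V.RG (V.cmp.filter fun c => c.1 = k)) +
      (Bg.filter fun c => c.1 = k).card ≤ wt α (-a k) 0 * (Bg.filter fun c => c.1 = k).card +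
      wt α (-a k) 0 * (Z.filter fun c => c.1 = k).card +
      finrank ℝ (V.RG ((Tp V a α).filter fun c => c.1 = k)) := by
    intro k
    by_cases hk : a k + 1 < α
    · have e1 := (rg_le hR (V.cmp.filter fun c => c.1 = k) ((Tp V a α).filter fun c => c.1 = k)).trans
        (Nat.add_le_add_left (Finset.card_le_card (t := Z.filter fun c => c.1 = k) fun c hc => by
          simp only [hZ, Tp, Finset.mem_sdiff, Finset.mem_filter] at hc ⊢
          obtain ⟨⟨b1, rfl⟩, b2⟩ := hc
          exact ⟨⟨b1, hk, fun b => b2 ⟨⟨b1, hk, b⟩, rfl⟩⟩, rfl⟩) _)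
      have e2 := (rg_le hR (V.cmp.filter fun c => c.1 = k)
        (V.cmp.filter fun c => c.1 = k ∧ DimLe Y 1 (ψ '' c.2))).trans
        (Nat.add_le_add_left ((Finset.card_le_card (t := (Bg.filter fun c => c.1 = k) ∪
          Z.filter fun c => c.1 = k) fun c hc => by
          simp only [hZ, hB, Tp, Finset.mem_sdiff, Finset.mem_filter, Finset.mem_union] at hc ⊢
          obtain ⟨⟨b1, rfl⟩, b2⟩ := hc
          by_cases b : 0 < V.eC a c
          · exact .inl ⟨⟨⟨b1, hk, b⟩, fun b3 => b2 ⟨b1, rfl, b3⟩⟩, rfl⟩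
          · exact .inr ⟨⟨b1, hk, b⟩, rfl⟩).trans (Finset.card_union_le _ _)) _)
      rw [(Submodule.eq_bot_iff _).2 (h3 V Y ψ _ hr k (by simp; linarith)), finrank_bot,
        zero_add] at e2
      obtain ⟨u, hu⟩ := Nat.exists_eq_add_of_le' ((wt_pos (hg.klt k)).2 hk)
      rw [hu]
      nlinarith [Nat.mul_le_mul_left u e2]
    · have : (Bg.filter fun c => c.1 = k) = ∅ := Finset.filter_eq_empty_iff.2 fun c hc e =>
        hk (e ▸ (Finset.mem_filter.1 (Finset.mem_filter.1 hc).1).2.1)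
      simp [this, wt_zero (hg.klt k) (not_lt.1 hk)]
  have fw : ∀ T : Finset (Fin V.r × Set V.W),
      ∑ k, wt α (-a k) 0 * (T.filter fun c => c.1 = k).card = ∑ c ∈ T, wt α (-a c.1) 0 := fun T => by
    rw [← Finset.sum_fiberwise T fun c => c.1]
    exact Finset.sum_congr rfl fun k _ => by
      rw [mul_comm, ← smul_eq_mul, ← Finset.sum_const]
      exact Finset.sum_congr rfl fun c hc => by rw [(Finset.mem_filter.1 hc).2]
  have k2 := Finset.sum_le_sum fun k (_ : k ∈ Finset.univ) => k1 k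
  simp only [Finset.sum_add_distrib, fw] at k2
  rw [← Finset.card_eq_sum_card_fiberwise fun _ _ => Finset.mem_coe.2 (Finset.mem_univ _)] at k2
  have k3 := rg_sum hR (fun c => c.1) (Tp V a α) Finset.univ
  rw [Finset.filter_true_of_mem fun _ _ => Finset.mem_univ _] at k3
  have hm : ∀ c ∈ Bg, ψ '' c.2 ∈ Sf V a Y ψ α := fun c hc => Finset.mem_image_of_mem _ hc
  have hS : ∀ C ∈ Sf V a Y ψ α, ¬ DimLe Y 1 C := fun C hC => by
    obtain ⟨c, b, rfl⟩ := Finset.mem_image.1 hC
    exact (Finset.mem_filter.1 b).2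
  have hf : ∀ C ∈ Sf V a Y ψ α, ((Tp V a α).filter fun c => ψ '' c.2 = C) =
      Bg.filter fun c => ψ '' c.2 = C := fun C hC => by
    rw [hB, Finset.filter_filter]
    exact Finset.filter_congr fun c _ => ⟨fun e => ⟨e ▸ hS C hC, e⟩, fun e => e.2⟩
  have k4 := Finset.sum_le_sum fun C hC => hf C hC ▸ hs C hC
  simp only [Finset.sum_add_distrib, Finset.sum_fiberwise_of_maps_to hm] at k4
  rw [← Finset.card_eq_sum_card_fiberwise hm, ← Finset.card_eq_sum_ones] at k4
  have k5 : N3 V a Y ψ α + ∑ C ∈ Sf V a Y ψ α, (Finset.univ.filter fun k => 0 < a k ∧ a k < α ∧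
      ψ '' V.G k = C).card ≤ (Finset.univ.filter fun k => a k < α).card := by
    rw [← Finset.card_biUnion fun C _ C' _ e => Finset.disjoint_filter.2 fun k _ b b' =>
      e (b.2.2.symm.trans b'.2.2), N3, ← Finset.card_union_of_disjoint]
    · refine Finset.card_le_card fun k hk => ?_
      simp only [Finset.mem_union, Finset.mem_biUnion, Finset.mem_filter] at hk ⊢
      exact ⟨Finset.mem_univ _, hk.elim (fun b => b.2.2.1) fun ⟨_, _, b⟩ => b.2.2.1⟩
    · refine Finset.disjoint_left.2 fun k b b' => ?_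
      obtain ⟨C, b1, b2⟩ := Finset.mem_biUnion.1 b'
      exact hS C b1 ((Finset.mem_filter.1 b2).2.2.2 ▸ (Finset.mem_filter.1 b).2.2.2)
  have k6 : ∑ c ∈ Bg, wt α (-a c.1) (V.eC a c) + ∑ c ∈ Z, wt α (-a c.1) 0 ≤
      ∑ c ∈ V.cmp with a c.1 < 0, wt α (-a c.1) (V.eC a c) := by
    rw [Finset.sum_congr (s₁ := Z) (g := fun c => wt α (-a c.1) (V.eC a c)) rfl fun c hc => by
      obtain ⟨b1, b2, b3⟩ := Finset.mem_filter.1 hc
      rw [le_antisymm (not_lt.1 b3) (hg.eC b1 (by linarith))], ← Finset.sum_union]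
    · refine Finset.sum_le_sum_of_subset fun c hc => ?_
      simp only [hZ, hB, Tp, Finset.mem_filter, Finset.mem_union] at hc ⊢
      exact hc.elim (fun b => ⟨b.1.1, by linarith [b.1.2.1]⟩) fun b => ⟨b.1, by linarith [b.2.1]⟩
    · exact Finset.disjoint_left.2 fun c b b' => (Finset.mem_filter.1 b').2.2
        (Finset.mem_filter.1 (Finset.mem_filter.1 b).1).2.2
  unfold Top at ht
  unfold Lg.nA
  omega

end Vale.Agent.P277Z.Val
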