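import Vale.Agent.P277.H19.DivL
import Mathlib.Analysis.Calculus.FDeriv.Analytic
import Mathlib.Analysis.Analytic.Uniqueness
import Mathlib.LinearAlgebra.Matrix.Rank

/-!
# P277, block VAL: orders of vanishing along the hyperplane `{w 0 = 0}`
-/

open Set Filter Metric Topology
open Vale.Agent.P272.K

noncomputable section

namespace Vale.Agent.P277Z.Val

variable {m : ℕ}

/-- `f` is `w 0 ^ g` times an analytic function near `w₁`. -/
def OrdGe (f : Cm (m + 1) → ℂ) (w₁ : Cm (m + 1)) (g : ℕ) : Prop :=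
  ∃ u : Cm (m + 1) → ℂ, AnalyticAt ℂ u w₁ ∧ ∀ᶠ w in 𝓝 w₁, f w = w 0 ^ g * u w

/-- `f` is `w 0 ^ g` times a unit near `w₁`. -/
def OrdEq (f : Cm (m + 1) → ℂ) (w₁ : Cm (m + 1)) (g : ℕ) : Prop :=
  ∃ u : Cm (m + 1) → ℂ, AnalyticAt ℂ u w₁ ∧ u w₁ ≠ 0 ∧ ∀ᶠ w in 𝓝 w₁, f w = w 0 ^ g * u w

theorem an_coord {n : ℕ} (i : Fin n) (w : Cm n) : AnalyticAt ℂ (fun w : Cm n => w i) w :=
  (ContinuousLinearMap.proj (R := ℂ) (φ := fun _ : Fin n => ℂ) i).analyticAt w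

theorem freq_ne (w : Cm (m + 1)) : ∃ᶠ z in 𝓝 w, z 0 ≠ 0 := by
  have ht : Tendsto (fun t : ℂ => w + t • (Pi.single 0 1 : Cm (m + 1))) (𝓝[≠] 0) (𝓝 w) := by
    have : Continuous fun t : ℂ => w + t • (Pi.single 0 1 : Cm (m + 1)) := by fun_prop
    have h1 := this.tendsto 0
    rw [zero_smul, add_zero] at h1
    exact h1.mono_left nhdsWithin_le_nhds
  refine ht.frequently (Eventually.frequently ?_)
  have e1 : ∀ t : ℂ, (w + t • (Pi.single 0 1 : Cm (m + 1))) 0 = w 0 + t := fun t => by simp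
  simp only [e1]
  by_cases hw : w 0 = 0
  · filter_upwards [self_mem_nhdsWithin] with t ht
    rw [hw, zero_add]
    exact ht
  · have : ∀ᶠ t in 𝓝 (0 : ℂ), w 0 + t ≠ 0 :=
      (continuous_const.add continuous_id).continuousAt.eventually_ne (by simpa using hw)
    exact this.filter_mono nhdsWithin_le_nhds

theorem eq_of_ne {T : Type*} [TopologicalSpace T] [T2Space T] {F G : Cm (m + 1) → T}
    {w : Cm (m + 1)} (hF : ContinuousAt F w) (hG : ContinuousAt G w)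
    (h : ∀ᶠ z in 𝓝 w, z 0 ≠ 0 → F z = G z) : F w = G w :=
  tendsto_nhds_unique_of_frequently_eq hF hG (((freq_ne w).and_eventually h).mono
    fun _ hz => hz.2 hz.1)

theorem ev_eq_of_ne {F G : Cm (m + 1) → ℂ} {w : Cm (m + 1)} (hF : AnalyticAt ℂ F w)
    (hG : AnalyticAt ℂ G w) (h : ∀ᶠ z in 𝓝 w, z 0 ≠ 0 → F z = G z) :
    ∀ᶠ z in 𝓝 w, F z = G z := by
  filter_upwards [hF.eventually_analyticAt, hG.eventually_analyticAt, h.eventually_nhds] with
    z h1 h2 h3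
  exact eq_of_ne h1.continuousAt h2.continuousAt h3

variable {f f' : Cm (m + 1) → ℂ} {w₁ : Cm (m + 1)} {g g' : ℕ}

theorem OrdEq.ge (h : OrdEq f w₁ g) : OrdGe f w₁ g :=
  let ⟨u, h1, _, h3⟩ := h
  ⟨u, h1, h3⟩

theorem OrdGe.an (h : OrdGe f w₁ g) : AnalyticAt ℂ f w₁ := by
  obtain ⟨u, h1, h2⟩ := h
  exact (((an_coord 0 w₁).pow g).mul h1).congr (h2.mono fun w hw => hw.symm)

theorem ordGe_zero (h : AnalyticAt ℂ f w₁) : OrdGe f w₁ 0 :=
  ⟨f, h, Eventually.of_forall fun w => by simp⟩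

theorem ordEq_zero (h : AnalyticAt ℂ f w₁) (h' : f w₁ ≠ 0) : OrdEq f w₁ 0 :=
  ⟨f, h, h', Eventually.of_forall fun w => by simp⟩

theorem OrdEq.ne_zero (h : OrdEq f w₁ 0) : f w₁ ≠ 0 := by
  obtain ⟨u, -, h2, h3⟩ := h
  rw [h3.self_of_nhds]
  simpa using h2

theorem OrdGe.congr (h : OrdGe f w₁ g) (e : f =ᶠ[𝓝 w₁] f') : OrdGe f' w₁ g := by
  obtain ⟨u, h1, h2⟩ := h
  exact ⟨u, h1, by filter_upwards [h2, e] with w e1 e2 using e2 ▸ e1⟩

theorem OrdEq.congr (h : OrdEq f w₁ g) (e : f =ᶠ[𝓝 w₁] f') : OrdEq f' w₁ g := by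
  obtain ⟨u, h1, h0, h2⟩ := h
  exact ⟨u, h1, h0, by filter_upwards [h2, e] with w e1 e2 using e2 ▸ e1⟩

theorem OrdGe.mono (h : OrdGe f w₁ g) (e : g' ≤ g) : OrdGe f w₁ g' := by
  obtain ⟨u, h1, h2⟩ := h
  obtain ⟨k, rfl⟩ := Nat.exists_eq_add_of_le e
  refine ⟨fun w => w 0 ^ k * u w, ((an_coord 0 w₁).pow k).mul h1, ?_⟩
  filter_upwards [h2] with w e1
  rw [e1]
  ring

theorem OrdGe.mul (h : OrdGe f w₁ g) (h' : OrdGe f' w₁ g') :
    OrdGe (fun w => f w * f' w) w₁ (g + g') := by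
  obtain ⟨u, h1, h2⟩ := h
  obtain ⟨u', h1', h2'⟩ := h'
  refine ⟨fun w => u w * u' w, h1.mul h1', ?_⟩
  filter_upwards [h2, h2'] with w e1 e2
  rw [e1, e2]
  ring

theorem OrdEq.mul (h : OrdEq f w₁ g) (h' : OrdEq f' w₁ g') :
    OrdEq (fun w => f w * f' w) w₁ (g + g') := by
  obtain ⟨u, h1, h0, h2⟩ := h
  obtain ⟨u', h1', h0', h2'⟩ := h'
  refine ⟨fun w => u w * u' w, h1.mul h1', mul_ne_zero h0 h0', ?_⟩
  filter_upwards [h2, h2'] with w e1 e2
  rw [e1, e2]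
  ring

theorem OrdEq.pow (h : OrdEq f w₁ g) (k : ℕ) : OrdEq (fun w => f w ^ k) w₁ (g * k) := by
  obtain ⟨u, h1, h0, h2⟩ := h
  refine ⟨fun w => u w ^ k, h1.pow k, pow_ne_zero k h0, ?_⟩
  filter_upwards [h2] with w e1
  rw [e1, mul_pow, ← pow_mul]

theorem OrdGe.add (h : OrdGe f w₁ g) (h' : OrdGe f' w₁ g) :
    OrdGe (fun w => f w + f' w) w₁ g := by
  obtain ⟨u, h1, h2⟩ := h
  obtain ⟨u', h1', h2'⟩ := h'
  refine ⟨fun w => u w + u' w, h1.add h1', ?_⟩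
  filter_upwards [h2, h2'] with w e1 e2
  rw [e1, e2]
  ring

theorem ordGe_of_zero (h : ∀ᶠ w in 𝓝 w₁, f w = 0) : OrdGe f w₁ g :=
  ⟨fun _ => 0, analyticAt_const, h.mono fun w hw => by rw [hw, mul_zero]⟩

theorem ordGe_sum {ι : Type*} (s : Finset ι) {F : ι → Cm (m + 1) → ℂ}
    (h : ∀ i ∈ s, OrdGe (F i) w₁ g) : OrdGe (fun w => ∑ i ∈ s, F i w) w₁ g := by
  classical
  induction s using Finset.induction_on with
  | empty => exact ordGe_of_zero (Eventually.of_forall fun w => by simp)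
  | insert a s ha ih =>
    simp only [Finset.sum_insert ha]
    exact (h a (Finset.mem_insert_self a s)).add
      (ih fun i hi => h i (Finset.mem_insert_of_mem hi))

theorem ordEq_prod {ι : Type*} (s : Finset ι) {F : ι → Cm (m + 1) → ℂ} {k : ι → ℕ}
    (h : ∀ i ∈ s, OrdEq (F i) w₁ (k i)) : OrdEq (fun w => ∏ i ∈ s, F i w) w₁ (∑ i ∈ s, k i) := by
  classical
  induction s using Finset.induction_on with
  | empty => exact ordEq_zero (by simpa using analyticAt_const) (by simp)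
  | insert a s ha ih =>
    simp only [Finset.prod_insert ha, Finset.sum_insert ha]
    exact (h a (Finset.mem_insert_self a s)).mul
      (ih fun i hi => h i (Finset.mem_insert_of_mem hi))

theorem ordEq_coord (w₁ : Cm (m + 1)) : OrdEq (fun w => w 0) w₁ 1 :=
  ⟨fun _ => 1, analyticAt_const, one_ne_zero, Eventually.of_forall fun w => by simp⟩

theorem OrdGe.eventually (h : OrdGe f w₁ g) : ∀ᶠ w in 𝓝 w₁, OrdGe f w g := by
  obtain ⟨u, h1, h2⟩ := h
  filter_upwards [h1.eventually_analyticAt, h2.eventually_nhds] with w e1 e2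
  exact ⟨u, e1, e2⟩

theorem OrdEq.eventually (h : OrdEq f w₁ g) : ∀ᶠ w in 𝓝 w₁, OrdEq f w g := by
  obtain ⟨u, h1, h0, h2⟩ := h
  filter_upwards [h1.eventually_analyticAt, h1.continuousAt.eventually_ne h0,
    h2.eventually_nhds] with w e1 e0 e2
  exact ⟨u, e1, e0, e2⟩

/-- the exact order is the largest one -/
theorem OrdGe.le (h0 : w₁ 0 = 0) (h : OrdGe f w₁ g) (h' : OrdEq f w₁ g') : g ≤ g' := by
  obtain ⟨u, h1, h2⟩ := h
  obtain ⟨u', h1', h0', h2'⟩ := h'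
  by_contra hcon
  obtain ⟨k, rfl⟩ : ∃ k, g = g' + k + 1 := ⟨g - g' - 1, by omega⟩
  have e1 : u' w₁ = w₁ 0 * (w₁ 0 ^ k * u w₁) := by
    refine eq_of_ne (F := u') (G := fun w => w 0 * (w 0 ^ k * u w)) h1'.continuousAt
      ((an_coord 0 w₁).mul (((an_coord 0 w₁).pow k).mul h1)).continuousAt ?_
    filter_upwards [h2, h2'] with w e1 e2 e3
    refine mul_left_cancel₀ (pow_ne_zero g' e3) ?_
    rw [← e2, e1]
    ring
  rw [h0, zero_mul] at e1
  exact h0' e1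

theorem OrdEq.unique (h0 : w₁ 0 = 0) (h : OrdEq f w₁ g) (h' : OrdEq f w₁ g') : g = g' :=
  le_antisymm (h.ge.le h0 h') (h'.ge.le h0 h)

theorem OrdGe.zero_on (h : OrdGe f w₁ g) (hg : 1 ≤ g) : ∀ᶠ w in 𝓝 w₁, w 0 = 0 → f w = 0 := by
  obtain ⟨u, -, h2⟩ := h
  filter_upwards [h2] with w e1 e2
  rw [e1, e2, zero_pow (by omega), zero_mul]

theorem ordGe_one (hf : AnalyticAt ℂ f w₁) (h0 : w₁ 0 = 0)
    (hz : ∀ᶠ w in 𝓝 w₁, w 0 = 0 → f w = 0) : OrdGe f w₁ 1 := by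
  obtain ⟨u, h1, h2⟩ := P277.H19.exists_div hf h0 hz
  exact ⟨u, h1, by simpa using h2⟩

/-- cancellation of a factor of known order -/
theorem OrdGe.of_mul (h : OrdGe (fun w => f w * f' w) w₁ (g + g')) (h' : OrdEq f w₁ g)
    (hf : AnalyticAt ℂ f' w₁) : OrdGe f' w₁ g' := by
  obtain ⟨u, h1, h2⟩ := h
  obtain ⟨u', h1', h0', h2'⟩ := h'
  refine ⟨fun w => u w * (u' w)⁻¹, h1.mul (h1'.inv h0'), ?_⟩
  refine ev_eq_of_ne hf (((an_coord 0 w₁).pow g').mul (h1.mul (h1'.inv h0'))) ?_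
  filter_upwards [h2, h2', h1'.continuousAt.eventually_ne h0'] with w e1 e2 e3 e4
  rw [e2] at e1
  have e5 : w 0 ^ g ≠ 0 := pow_ne_zero _ e4
  field_simp
  refine mul_left_cancel₀ e5 ?_
  rw [pow_add] at e1
  linear_combination e1

theorem OrdEq.of_mul (h : OrdEq (fun w => f w * f' w) w₁ (g + g')) (h' : OrdEq f w₁ g)
    (hf : AnalyticAt ℂ f' w₁) : OrdEq f' w₁ g' := by
  obtain ⟨u, h1, h0, h2⟩ := h
  obtain ⟨u', h1', h0', h2'⟩ := h'
  refine ⟨fun w => u w * (u' w)⁻¹, h1.mul (h1'.inv h0'), mul_ne_zero h0 (inv_ne_zero h0'), ?_⟩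
  refine ev_eq_of_ne hf (((an_coord 0 w₁).pow g').mul (h1.mul (h1'.inv h0'))) ?_
  filter_upwards [h2, h2', h1'.continuousAt.eventually_ne h0'] with w e1 e2 e3 e4
  rw [e2] at e1
  have e5 : w 0 ^ g ≠ 0 := pow_ne_zero _ e4
  field_simp
  refine mul_left_cancel₀ e5 ?_
  rw [pow_add] at e1
  linear_combination e1

/-- either the order is larger, or it is exact at points arbitrarily near -/
theorem OrdGe.succ_or (h0 : w₁ 0 = 0) (h : OrdGe f w₁ g) :
    OrdGe f w₁ (g + 1) ∨ ∃ᶠ w in 𝓝 w₁, w 0 = 0 ∧ OrdEq f w g := by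
  obtain ⟨u, h1, h2⟩ := h
  by_cases hz : ∀ᶠ w in 𝓝 w₁, w 0 = 0 → u w = 0
  · left
    obtain ⟨u', h1', h2'⟩ := P277.H19.exists_div h1 h0 hz
    refine ⟨u', h1', ?_⟩
    filter_upwards [h2, h2'] with w e1 e2
    rw [e1, e2]
    ring
  · right
    rw [not_eventually] at hz
    refine (hz.and_eventually (h1.eventually_analyticAt.and h2.eventually_nhds)).mono ?_
    intro w ⟨e1, e2, e3⟩
    push Not at e1
    exact ⟨e1.1, u, e2, e1.2, e3⟩

theorem zero_of_forall (h : ∀ g, OrdGe f w₁ g) (h0 : w₁ 0 = 0) : ∀ᶠ w in 𝓝 w₁, f w = 0 := by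
  obtain ⟨r, hr, hb⟩ := Metric.eventually_nhds_iff_ball.1 (h 0).an.eventually_analyticAt
  filter_upwards [ball_mem_nhds w₁ hr] with w hw
  set ℓ : ℂ → Cm (m + 1) := fun t => w₁ + t • (w - w₁) with hℓ
  have hℓa : ∀ t, AnalyticAt ℂ ℓ t := fun t =>
    analyticAt_const.add (analyticAt_id.smul analyticAt_const)
  have hℓ0 : ℓ 0 = w₁ := by simp [hℓ]
  have hℓt : Tendsto ℓ (𝓝 0) (𝓝 w₁) := by
    have := (hℓa 0).continuousAt
    rwa [ContinuousAt, hℓ0] at this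
  have hU : ∀ t ∈ closedBall (0 : ℂ) 1, ℓ t ∈ ball w₁ r := by
    intro t ht
    rw [mem_ball, dist_eq_norm] at hw ⊢
    rw [mem_closedBall, dist_zero_right] at ht
    simp only [hℓ, add_sub_cancel_left, norm_smul]
    exact (mul_le_of_le_one_left (norm_nonneg _) ht).trans_lt hw
  have hA : AnalyticOnNhd ℂ (fun t => f (ℓ t)) (closedBall 0 1) := fun t ht =>
    (hb _ (hU t ht)).comp (hℓa t)
  have hz : (fun t => f (ℓ t)) =ᶠ[𝓝 0] 0 := by
    have h1 : analyticOrderAt (fun t => f (ℓ t)) 0 = ⊤ := by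
      refine ENat.eq_top_iff_forall_ge.2 fun g => ?_
      rw [natCast_le_analyticOrderAt (hA 0 (mem_closedBall_self zero_le_one))]
      obtain ⟨u, h1, h2⟩ := h g
      refine ⟨fun t => (w 0) ^ g * u (ℓ t), analyticAt_const.mul
        (AnalyticAt.comp (by rwa [hℓ0]) (hℓa 0)), ?_⟩
      filter_upwards [hℓt.eventually h2] with t e1
      rw [e1]
      simp only [hℓ, Pi.add_apply, Pi.smul_apply, Pi.sub_apply, h0, smul_eq_mul]
      ring
    exact analyticOrderAt_eq_top.1 h1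
  have h2 := hA.eqOn_zero_of_preconnected_of_eventuallyEq_zero
    (convex_closedBall (0 : ℂ) 1).isPreconnected (mem_closedBall_self zero_le_one) hz
    (x := 1) (by simp)
  simpa [hℓ] using h2

/-- existence of the generic order -/
theorem exists_ord (hf : AnalyticAt ℂ f w₁) (h0 : w₁ 0 = 0) (hne : ∃ᶠ w in 𝓝 w₁, f w ≠ 0) :
    ∃ g, OrdGe f w₁ g ∧ ∃ᶠ w in 𝓝 w₁, w 0 = 0 ∧ OrdEq f w g := by
  by_contra hcon
  push Not at hcon
  have h1 : ∀ g, OrdGe f w₁ g := by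
    intro g
    induction g with
    | zero => exact ordGe_zero hf
    | succ g ih =>
      refine (ih.succ_or h0).resolve_right fun h => ?_
      exact (h.and_eventually (hcon g ih)).exists.elim fun w hw => hw.2 hw.1.1 hw.1.2
  exact (hne.and_eventually (zero_of_forall h1 h0)).exists.elim fun w hw => hw.1 hw.2

end Vale.Agent.P277Z.Val
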