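import Vale.Agent.P277.H335.RegCore

/-!
# P277, REG with boundary: enlarging the branch divisor of a branched covering
-/

open scoped Manifold ContDiff ComplexOrder Topology
open Vale.Agent.P272.K Vale.Agent.P285.H281.FD Vale.Agent.P267.H175 Set Metric Filter

noncomputable section

namespace Vale.Agent.P277Z.Val.Reg

open Vale.Agent.P277 Vale.Agent.P277.TX Vale.Agent.P277.H19 Vale.Agent.P277.H371

section
variable {X : CSp} {S V : Set X.pt} {G : X.pt → Cm 4} {c : Cm 4} {r : ℝ} {d : ℕ}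
  {lam : X.pt → ℂ} {θ : Cm 4 → ℂ}

theorem freq_ne {f : Cm 4 → ℂ} {z : Cm 4} (h : ¬ f =ᶠ[𝓝 z] 0) : ∃ᶠ w in 𝓝 z, f w ≠ 0 := by
  rw [Filter.EventuallyEq, Filter.not_eventually] at h
  exact h

theorem isCov_mul (hc : IsCov X V G c r d lam θ) {η : Cm 4 → ℂ}
    (hη : ∀ z ∈ ball c r, AnalyticAt ℂ η z) (hne : ∀ z ∈ ball c r, ¬ η =ᶠ[𝓝 z] 0) :
    IsCov X V G c r d lam (fun z => θ z * η z) where
  isOpen := hc.isOpen
  pos := hc.pos
  dpos := hc.dpos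
  holo := hc.holo
  maps := hc.maps
  proper := hc.proper
  openMap := hc.openMap
  finite := hc.finite
  lamHol := hc.lamHol
  an z hz := (hc.an z hz).mul (hη z hz)
  ne z hz := by
    intro hcon
    obtain ⟨z', h1, h2, h3⟩ := ((freq_ne (hc.ne z hz)).and_eventually
      (hcon.eventually_nhds.and (isOpen_ball.mem_nhds hz))).exists
    refine hne z' h3 ?_
    filter_upwards [h2, (hc.an z' h3).continuousAt.eventually_ne h1] with w hw hw'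
    exact (mul_eq_zero.1 hw).resolve_left hw'
  enum z hz h := hc.enum z hz (left_ne_zero_of_mul h)
  sep z hz h := hc.sep z hz (left_ne_zero_of_mul h)
  etale x hx h := by
    obtain ⟨N, h1, h2, h3, h4, h5, h6⟩ := hc.etale x hx (left_ne_zero_of_mul h)
    refine ⟨{y | y ∈ N ∧ η (G y) ≠ 0}, ?_, ⟨h2, right_ne_zero_of_mul h⟩, fun y hy => h3 hy.1,
      h4.mono fun y hy => hy.1, fun y hy => mul_ne_zero (h5 y hy.1) hy.2,
      fun y hy => h6 y hy.1⟩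
    rw [isOpen_iff_mem_nhds]
    rintro y ⟨hy, hy'⟩
    have h7 : ContinuousAt (fun y => η (G y)) y :=
      ContinuousAt.comp (g := η) (hη _ (hc.maps y (h3 hy))).continuousAt
        (cov_continuousAt hc (h3 hy))
    filter_upwards [h1.mem_nhds hy, h7.eventually_ne hy'] with y' a b
    exact ⟨a, b⟩
  sym h hh := by
    obtain ⟨P, h1, h2, h3⟩ := hc.sym h hh
    exact ⟨P, h1, h2, fun z hz h => h3 z hz (left_ne_zero_of_mul h)⟩

theorem isGood_mul (hg : IsGood X S V G c r d lam θ) {η : Cm 4 → ℂ}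
    (hη : ∀ z ∈ ball c r, AnalyticAt ℂ η z) (hne : ∀ z ∈ ball c r, ¬ η =ᶠ[𝓝 z] 0) :
    IsGood X S V G c r d lam (fun z => θ z * η z) where
  toIsCov := isCov_mul hg.toIsCov hη hne
  c0 := hg.c0
  c1 := hg.c1
  memS := hg.memS
  uniq := hg.uniq
  red := hg.red

/-- finitely many open sets which are dense near `z` -/
theorem exists_inter {ι : Type} {Z : ι → Set (Cm 4)} (hZ : ∀ k, IsOpen (Z k)) {U : Set (Cm 4)}
    (hU : ∀ z ∈ U, ∀ k, z ∈ closure (Z k)) (s : Finset ι) :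
    ∀ U' ⊆ U, IsOpen U' → U'.Nonempty → ∃ z ∈ U', ∀ k ∈ s, z ∈ Z k := by
  classical
  induction s using Finset.induction_on with
  | empty =>
    rintro U' - - ⟨z, hz⟩
    exact ⟨z, hz, by simp⟩
  | insert a s ha ih =>
    intro U' hU' hU'o hne
    obtain ⟨z, hz, hzs⟩ := ih U' hU' hU'o hne
    have h1 : IsOpen (U' ∩ ⋂ k ∈ s, Z k) := hU'o.inter (isOpen_biInter_finset fun k _ => hZ k)
    obtain ⟨z', h2, h3⟩ := mem_closure_iff.1 (hU z (hU' hz) a) _ h1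
      ⟨hz, mem_iInter₂.2 hzs⟩
    refine ⟨z', h2.1, fun k hk => ?_⟩
    rcases Finset.mem_insert.1 hk with rfl | hk
    · exact h3
    · exact mem_iInter₂.1 h2.2 k hk

/-- the norm of a function which does not vanish identically -/
theorem exists_norm (hc : IsCov X V G c r d lam θ) {h : X.pt → ℂ} (hh : ∀ x ∈ V, X.Hol h x)
    (hne : ∀ x ∈ V, ¬ h =ᶠ[𝓝 x] 0) :
    ∃ η : Cm 4 → ℂ, (∀ z ∈ ball c r, AnalyticAt ℂ η z) ∧ (∀ z ∈ ball c r, ¬ η =ᶠ[𝓝 z] 0) ∧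
      ∀ x ∈ V, h x = 0 → η (G x) = 0 := by
  obtain ⟨P, h1, h2, h3⟩ := hc.sym h hh
  refine ⟨fun z => (P z).coeff 0, fun z hz => (h1 z hz).2.2 0, fun z hz hcon => ?_,
    fun x hx h0 => ?_⟩
  swap
  · have h4 := h2 x hx
    rw [h0, ← Polynomial.coeff_zero_eq_eval_zero] at h4
    exact h4
  obtain ⟨z', g1, g2, g3⟩ := ((freq_ne (hc.ne z hz)).and_eventually
    (hcon.eventually_nhds.and (isOpen_ball.mem_nhds hz))).exists
  obtain ⟨x, hxi, hx⟩ := hc.enum z' g3 g1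
  have hxV : ∀ k, x k ∈ V ∧ G (x k) = z' := fun k => (hx (x k)).1 ⟨k, rfl⟩
  choose N hNo hxN hNV hNi _ _ using fun k => hc.etale (x k) (hxV k).1
    (by rw [(hxV k).2]; exact g1)
  have hop : ∀ k, IsOpen {y | y ∈ N k ∧ h y ≠ 0} := by
    intro k
    rw [isOpen_iff_mem_nhds]
    rintro y ⟨hy, hy'⟩
    filter_upwards [(hNo k).mem_nhds hy,
      (hol_continuousAt (hh y (hNV k hy))).eventually_ne hy'] with y' a b
    exact ⟨a, b⟩
  have hZ : ∀ k, IsOpen (G '' {y | y ∈ N k ∧ h y ≠ 0}) := fun k =>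
    hc.openMap _ (fun y hy => hNV k hy.1) (hop k)
  have hcl : ∀ w ∈ ⋂ k, G '' N k, ∀ k, w ∈ closure (G '' {y | y ∈ N k ∧ h y ≠ 0}) := by
    intro w hw k
    obtain ⟨y, hy, rfl⟩ := mem_iInter.1 hw k
    refine ContinuousWithinAt.mem_closure_image
      (cov_continuousAt hc (hNV k hy)).continuousWithinAt ?_
    rw [mem_closure_iff_frequently]
    have h5 := hne y (hNV k hy)
    rw [Filter.EventuallyEq, Filter.not_eventually] at h5
    exact (h5.and_eventually ((hNo k).mem_nhds hy)).mono fun y' hy' => ⟨hy'.2, hy'.1⟩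
  have hU : ∀ᶠ w in 𝓝 z', w ∈ (⋂ k, G '' N k) ∧ (P w).coeff 0 = 0 ∧ w ∈ ball c r ∧ θ w ≠ 0 ∧
      ∀ y ∈ V, G y = w → y ∈ ⋃ k, N k := by
    have h5 : IsOpen (⋂ k, G '' N k) :=
      isOpen_iInter_of_finite fun k => hc.openMap _ (hNV k) (hNo k)
    filter_upwards [h5.mem_nhds (mem_iInter.2 fun k => ⟨x k, hxN k, (hxV k).2⟩), g2,
      isOpen_ball.mem_nhds g3, (hc.an z' g3).continuousAt.eventually_ne g1,
      cov_eventually hc g3 (W := ⋃ k, N k) fun y hy hyz => by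
        obtain ⟨k, rfl⟩ := (hx y).2 ⟨hy, hyz⟩
        exact (isOpen_iUnion hNo).mem_nhds (mem_iUnion.2 ⟨k, hxN k⟩)] with w a1 a2 a3 a4 a5
    exact ⟨a1, a2, a3, a4, a5⟩
  obtain ⟨U', hU's, hU'o, hzU'⟩ := _root_.mem_nhds_iff.1 hU
  obtain ⟨w, hw, hwZ⟩ := exists_inter hZ hcl Finset.univ U' (fun w hw => (hU's hw).1) hU'o
    ⟨z', hzU'⟩
  obtain ⟨-, a2, a3, a4, a5⟩ := hU's hw
  obtain ⟨x', hx'⟩ := hc.enum w a3 a4
  rw [h3 w a3 a4 x' hx', Polynomial.coeff_zero_eq_eval_zero, Polynomial.eval_prod,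
    Finset.prod_eq_zero_iff] at a2
  obtain ⟨l, -, hl⟩ := a2
  obtain ⟨b1, b2⟩ := (hx'.2 (x' l)).1 ⟨l, rfl⟩
  obtain ⟨k, hk⟩ := mem_iUnion.1 (a5 _ b1 b2)
  obtain ⟨y, ⟨hy1, hy2⟩, hy3⟩ := hwZ k (Finset.mem_univ k)
  have h5 : y = x' l := hNi k hy1 hk (by rw [hy3, b2])
  rw [h5] at hy2
  refine hy2 ?_
  simpa using hl

end

/-- the wedge is mapped generically to the complement of the boundary -/
theorem wedge_closure' {Y : Type} [TopologicalSpace Y] [ChartedSpace (Cm 4) Y] {X : CSp}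
    {O Γ : Set Y} {v : Y → X.pt} {V : Set X.pt} {G : X.pt → Cm 4} {c : Cm 4} {r : ℝ} {d : ℕ}
    {lam : X.pt → ℂ} {θ : Cm 4 → ℂ} (hc : IsCov X V G c r d lam θ)
    (hΓ : ∀ y ∈ O, v y ∈ V → θ (G (v y)) ≠ 0 → y ∉ Γ)
    (hE : Thin 2 (ball c r) (G '' {x | x ∈ V ∧ ¬ ∃ y ∈ O, v y = x ∧ RankGe3 v G y}))
    {W : Set (Cm 4)} (hW : IsOpen W) {φ : Cm 4 → X.pt} {s : ℕ} (hs : 1 ≤ s)
    (hφ : ∀ w ∈ W, φ w ∈ V ∧ G (φ w) = pw s w) :
    W ⊆ closure {w | w ∈ W ∧ φ w ∈ v '' (O \ Γ)} := by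
  intro w hw
  rw [mem_closure_iff_nhds]
  intro N hN
  obtain ⟨N', hN'N, hN'o, hwN'⟩ := _root_.mem_nhds_iff.1 (inter_mem hN (hW.mem_nhds hw))
  obtain ⟨w', hw', hw'0⟩ := exists_ne_zero (hN'o.mem_nhds hwN')
  have h1 : pw s w' ∈ ball c r := by
    rw [← (hφ w' (hN'N hw').2).2]
    exact hc.maps _ (hφ w' (hN'N hw').2).1
  have h2 : ∃ᶠ z in 𝓝 (pw s w'),
      z ∉ G '' {x | x ∈ V ∧ ¬ ∃ y ∈ O, v y = x ∧ RankGe3 v G y} ∧ θ z ≠ 0 := by
    rw [Filter.frequently_iff]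
    intro U hU
    obtain ⟨z', g1, g2, g3⟩ := ((freq_ne (hc.ne _ h1)).and_eventually
      ((eventually_mem_nhds_iff.2 hU).and (isOpen_ball.mem_nhds h1))).exists
    obtain ⟨z'', g4, g5, g6⟩ := ((thin_frequently hE isOpen_ball g3).and_eventually
      (((hc.an z' g3).continuousAt.eventually_ne g1).and g2)).exists
    exact ⟨z'', g6, g4, g5⟩
  rw [← map_nhds_pw hs hw'0, frequently_map] at h2
  obtain ⟨w'', hw'', hw''N⟩ := (h2.and_eventually (hN'o.mem_nhds hw')).exists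
  obtain ⟨h3, h4⟩ := hφ w'' (hN'N hw''N).2
  refine ⟨w'', (hN'N hw''N).1, (hN'N hw''N).2, ?_⟩
  by_contra hnot
  refine hw''.1 ⟨φ w'', ⟨h3, ?_⟩, h4⟩
  rintro ⟨y, hy, hyw, -⟩
  refine hnot ⟨y, ⟨hy, hΓ y hy (by rw [hyw]; exact h3) ?_⟩, hyw⟩
  rw [hyw, h4]
  exact hw''.2

end Vale.Agent.P277Z.Val.Reg
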