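import Vale.Agent.P277Z.Val.Reg1

/-!
# P277, REG with boundary: the weighted function on the base of the covering
-/

open scoped Manifold ContDiff ComplexOrder Topology
open Vale.Agent.P272.K Vale.Agent.P285.H281.FD Vale.Agent.P267.H175 Set Metric Filter

noncomputable section

namespace Vale.Agent.P277Z.Val.Reg

open Vale.Agent.P277 Vale.Agent.P277.TX Vale.Agent.P277.H19 Vale.Agent.P277.H371
  Vale.Agent.P277.H335.RC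

section
variable {Y : Type} [TopologicalSpace Y] [ChartedSpace (Cm 4) Y] {X : CSp} {O Γ : Set Y}
  {v : Y → X.pt} {V : Set X.pt} {G : X.pt → Cm 4} {d : ℕ} {k : ℕ} {L : Fin k → Bd X.pt}
  {M : Fin k → Bd Y} {m Q : Fin k → ℕ}
  {T : ∀ e, (L e).ι → ((((Bd.can 4 Y).pow (m e)).mul (M e)).pow (Q e)).ι → Y → ℂ}
  {ρ : Fin k → ℝ} {i₀ : ∀ e, (L e).ι} {ψ : ∀ e, (M e).ι → Y → ℝ} {idx : ∀ e, Y → (M e).ι}

/-- the weighted sum of the weights -/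
def LamS (T : ∀ e, (L e).ι → ((((Bd.can 4 Y).pow (m e)).mul (M e)).pow (Q e)).ι → Y → ℂ)
    (v : Y → X.pt) (G : X.pt → Cm 4) (ρ : Fin k → ℝ) (i₀ : ∀ e, (L e).ι)
    (ψ : ∀ e, (M e).ι → Y → ℝ) (idx : ∀ e, Y → (M e).ι) (y : Y) : ℝ :=
  ∑ e, ρ e / Q e * Lam (T e) v G (i₀ e) 1 (ψ e) (idx e) y

theorem isBr_up {D : Set (Cm 4)} {σ : Fin d → Cm 4 → Y} (hb : IsBr (O \ Γ) v V G D σ) :
    IsBr O v V G D σ :=
  ⟨hb.isOpen, fun z hz l => ⟨(hb.mem z hz l).1.1, (hb.mem z hz l).2⟩, hb.cont, hb.an, hb.inj,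
    hb.all⟩

theorem emb_diff (hv : IsOpenEmb X O v) (hΓ : IsClosed Γ) : IsOpenEmb X (O \ Γ) v :=
  hv.mono (hv.isOpen.sdiff hΓ) sdiff_subset

theorem posSemidef_sum {ι : Type} (s : Finset ι) {A : ι → Matrix (Fin 4) (Fin 4) ℂ}
    (h : ∀ i, (A i).PosSemidef) : (∑ i ∈ s, A i).PosSemidef := by
  classical
  induction s using Finset.induction_on with
  | empty => simpa using Matrix.PosSemidef.zero
  | insert a s ha ih =>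
    rw [Finset.sum_insert ha]
    exact (h a).add ih

variable [IsManifold 𝓘(ℂ, Cm 4) ω Y]

theorem phi_pshS {χ : Chart 4 Y → Cm 4 → Matrix (Fin 4) (Fin 4) ℂ} (hχ : IsKahler χ)
    (hM : ∀ e, IsLB 4 (M e)) (hv : IsOpenEmb X O v) (hΓ : IsClosed Γ)
    (hG : ∀ x ∈ V, ∀ i, X.Hol (fun y => G y i) x) (hL : ∀ e, IsLBx X (L e))
    (hQ : ∀ e, 1 ≤ Q e) (hρ : ∀ e, 0 < ρ e)
    (hT : ∀ e, IsIsoY (O \ Γ) v (L e) ((((Bd.can 4 Y).pow (m e)).mul (M e)).pow (Q e)) (T e))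
    (hVL : ∀ e, V ⊆ (L e).U (i₀ e)) {D : Set (Cm 4)} {σ : Fin d → Cm 4 → Y}
    (hb : IsBr (O \ Γ) v V G D σ) {δ : ℝ} (hψ : ∀ e, IsMet 4 (M e) (ψ e))
    (hcurv : ∀ e i (ch : Chart 4 Y) x, At ch x → x ∈ (M e).U i →
      (cHess (fun z => ψ e i (ch.symm z)) (ch x) + (δ : ℂ) • χ ch (ch x)).PosSemidef)
    (hidx : ∀ e y, y ∈ (M e).U (idx e y)) {κ : Cm 4 → ℂ}
    (hκ : ∀ w ∈ D, AnalyticAt ℂ κ w ∧ κ w ≠ 0) {z : Cm 4} (hz : z ∈ D) :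
    ContDiffAt ℝ 2 (phi O v V G (LamS T v G ρ i₀ ψ idx) 1 κ) z ∧
      (cHess (phi O v V G (LamS T v G ρ i₀ ψ idx) 1 κ) z +
        (((∑ e, ρ e) * δ : ℝ) : ℂ) • pushH χ O v V G z).PosSemidef := by
  have hv' := emb_diff hv hΓ
  have hb' := isBr_up hb
  have h1 := fun e => hb.phi_psh (K := 1) hχ (hM e) hv' hG (hL e) (hT e) (hVL e) (hψ e)
    (hcurv e) (hidx e) 0 hκ hz
  set f : Fin k → Cm 4 → ℝ := fun e =>
    phi (O \ Γ) v V G (Lam (T e) v G (i₀ e) 1 (ψ e) (idx e)) 0 κ with hf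
  have hev : phi O v V G (LamS T v G ρ i₀ ψ idx) 1 κ =ᶠ[𝓝 z] fun w =>
      (∑ e, ρ e / Q e * f e w) - Real.log (‖κ w‖ ^ 2) := by
    filter_upwards [hb.isOpen.mem_nhds hz] with w hw
    simp only [hf, phi, hb.finsum hv' hw, hb'.finsum hv hw, LamS, zero_mul, sub_zero, one_mul,
      Finset.mul_sum]
    rw [Finset.sum_comm]
  have h2 : ∀ e, ContDiffAt ℝ 2 (fun w => ρ e / Q e * f e w) z := fun e =>
    contDiffAt_const.mul (h1 e).1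
  have h3 : ContDiffAt ℝ 2 (fun w => ∑ e, ρ e / Q e * f e w) z :=
    ContDiffAt.sum fun e _ => h2 e
  obtain ⟨hκa, hκ0⟩ := hκ z hz
  have hnr : ContDiffAt ℝ 2 κ z := ((hκa.contDiffAt (n := ω)).restrict_scalars ℝ).of_le le_top
  have hlog : ContDiffAt ℝ 2 (fun y => Real.log (‖κ y‖ ^ 2)) z := by
    refine ContDiffAt.log (hnr.norm_sq ℝ) ?_
    exact pow_ne_zero _ (norm_ne_zero_iff.2 hκ0)
  refine ⟨(h3.sub hlog).congr_of_eventuallyEq hev, ?_⟩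
  have h4 : pushH χ (O \ Γ) v V G z = pushH χ O v V G z := by
    rw [hb.pushH_eq χ hv' hG hz, hb'.pushH_eq χ hv hG hz]
  rw [cHess_congr hev, cHess_sub h3 hlog, cHess_log_norm_sq hκa.contDiffAt hκ0, sub_zero,
    cHess_sum _ (fun e _ => h2 e)]
  have h5 := posSemidef_sum Finset.univ fun e =>
    posSemidef_real_smul (h1 e).2 (c := ρ e / Q e) (div_nonneg (hρ e).le (Nat.cast_nonneg _))
  convert h5 using 1
  rw [Finset.sum_mul, Complex.ofReal_sum, Finset.sum_smul, ← Finset.sum_add_distrib]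
  refine Finset.sum_congr rfl fun e _ => ?_
  rw [cHess_const_mul (ρ e / Q e) (h1 e).1, smul_add, smul_smul, h4]
  congr 2
  have hQ0 : (Q e : ℂ) ≠ 0 := by exact_mod_cast (Nat.one_le_iff_ne_zero.1 (hQ e))
  push_cast
  field_simp

/-- the weight in a chart -/
theorem LamS_eq (hM : ∀ e, IsLB 4 (M e)) (hv : IsOpenEmb X O v)
    (hG : ∀ x ∈ V, ∀ i, X.Hol (fun y => G y i) x) (hL : ∀ e, IsLBx X (L e))
    (hQ : ∀ e, 1 ≤ Q e) (hρm : ∑ e, ρ e * m e = 1)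
    (hT : ∀ e, IsIsoY O v (L e) ((((Bd.can 4 Y).pow (m e)).mul (M e)).pow (Q e)) (T e))
    (hVL : ∀ e, V ⊆ (L e).U (i₀ e)) (hψ : ∀ e, IsMet 4 (M e) (ψ e))
    (hidx : ∀ e y, y ∈ (M e).U (idx e y)) {y : Y} (hy : y ∈ O) (hyV : v y ∈ V)
    {ch : Chart 4 Y} (he : At ch y) (h0 : (jacG v G ch y).det ≠ 0) {μ : ∀ e, (M e).ι}
    (hμ : ∀ e, y ∈ (M e).U (μ e)) :
    LamS T v G ρ i₀ ψ idx y = (∑ e, ρ e * ψ e (μ e) y) -
      2 * (∑ e, ρ e / Q e * Real.log ‖T e (i₀ e) (ch, μ e) y‖) +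
      2 * Real.log ‖(jacG v G ch y).det‖ := by
  have hdi : ‖(jacG v G ch y).det‖ ≠ 0 := norm_ne_zero_iff.2 h0
  have h1 : ∀ e, ρ e / Q e * Lam (T e) v G (i₀ e) 1 (ψ e) (idx e) y = ρ e * ψ e (μ e) y -
      2 * (ρ e / Q e * Real.log ‖T e (i₀ e) (ch, μ e) y‖) +
      2 * (ρ e * m e) * Real.log ‖(jacG v G ch y).det‖ := by
    intro e
    have hT0 : T e (i₀ e) (ch, μ e) y ≠ 0 :=
      ((hT e).holo y hy (i₀ e) (ch, μ e) ch he (hVL e hyV) ⟨he, hμ e⟩).2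
    have hQ0 : (Q e : ℝ) ≠ 0 := by exact_mod_cast (Nat.one_le_iff_ne_zero.1 (hQ e))
    rw [Lam_eq (hM e) hv hG (hL e) (hT e) (hψ e) (hidx e) hy hyV (hVL e hyV) he h0 (hμ e),
      nY_eq (hM e) hv hG (hL e) (hT e) hy hyV (hVL e hyV) he (hμ e), norm_mul, norm_pow,
      norm_pow, norm_inv, Real.log_pow, Real.log_mul
        (pow_ne_zero _ (norm_ne_zero_iff.2 hT0)) (pow_ne_zero _ (inv_ne_zero hdi)),
      Real.log_pow, Real.log_pow, Real.log_inv]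
    push_cast
    field_simp
    ring
  rw [LamS, Finset.sum_congr rfl fun e _ => h1 e, Finset.sum_add_distrib, Finset.sum_sub_distrib,
    ← Finset.mul_sum, ← Finset.sum_mul, ← Finset.mul_sum, hρm, mul_one]

theorem Jf_leS (hM : ∀ e, IsLB 4 (M e)) (hv : IsOpenEmb X O v) (hΓ : IsClosed Γ)
    (hVo : IsOpen V) (hG : ∀ x ∈ V, ∀ i, X.Hol (fun y => G y i) x) (hL : ∀ e, IsLBx X (L e))
    (hQ : ∀ e, 1 ≤ Q e) (hρm : ∑ e, ρ e * m e = 1)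
    (hT : ∀ e, IsIsoY (O \ Γ) v (L e) ((((Bd.can 4 Y).pow (m e)).mul (M e)).pow (Q e)) (T e))
    (hlow : ∀ y ∈ O, ∀ (ch : Chart 4 Y) (i : ∀ e, (L e).ι) (μ : ∀ e, (M e).ι), At ch y →
      (∀ e, v y ∈ (L e).U (i e)) → (∀ e, y ∈ (M e).U (μ e)) → ∃ C : ℝ, ∀ᶠ y' in 𝓝 y, y' ∉ Γ →
        -C ≤ ∑ e, ρ e / Q e * Real.log ‖T e (i e) (ch, μ e) y'‖)
    (hVL : ∀ e, V ⊆ (L e).U (i₀ e)) (hψ : ∀ e, IsMet 4 (M e) (ψ e))
    (hidx : ∀ e y, y ∈ (M e).U (idx e y)) (y₀ : Y) {y : Y} (hy : y ∈ O) (hyV : v y ∈ V) :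
    ∃ ch : Chart 4 Y, At ch y ∧ ∃ C : ℝ, ∀ᶠ y' in 𝓝 y,
      Jf (emb_diff hv hΓ) y₀ G (LamS T v G ρ i₀ ψ idx) 1 (v y') ≤
        C * ‖(fderiv ℂ (fun z => G (v (ch.symm z))) (ch y')).det‖ := by
  have hv' := emb_diff hv hΓ
  set ch : Chart 4 Y := chartAt (Cm 4) y with he'
  have he : At ch y := at_chartAt _
  set μ : ∀ e, (M e).ι := fun e => idx e y with hμ'
  have hμ : ∀ e, y ∈ (M e).U (μ e) := fun e => hidx e y
  have hecont : ContinuousAt ch y := ch.continuousAt he.2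
  have hψc : ∀ e, ContinuousAt (ψ e (μ e)) y := by
    intro e
    have h1 := ((hψ e).smooth (μ e) ch y he (hμ e)).continuousAt
    have h2 : ContinuousAt (fun y' => ψ e (μ e) (ch.symm (ch y'))) y :=
      ContinuousAt.comp (g := fun z => ψ e (μ e) (ch.symm z)) (f := ch) h1 hecont
    refine h2.congr ?_
    filter_upwards [ch.open_source.mem_nhds he.2] with y' hy'
    rw [ch.left_inv hy']
  have hsc : ContinuousAt (fun y' => ∑ e, ρ e * ψ e (μ e) y') y :=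
    tendsto_finsetSum _ fun e _ => tendsto_const_nhds.mul (hψc e)
  obtain ⟨C, hC⟩ := hlow y hy ch i₀ μ he (fun e => hVL e hyV) hμ
  set B : ℝ := (∑ e, ρ e * ψ e (μ e) y) + 1 with hB
  refine ⟨ch, he, Real.exp (B / 2 + C), ?_⟩
  filter_upwards [hv.isOpen.mem_nhds hy, (hv.continuousAt hy).eventually_mem (hVo.mem_nhds hyV),
    ch.open_source.mem_nhds he.2,
    eventually_all.2 fun e => (((hM e).isOpen (μ e)).mem_nhds (hμ e) : ∀ᶠ y' in 𝓝 y, _),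
    hsc.eventually_lt_const (lt_add_one _), hC] with y' h1 h2 h3 h4 h5 h6
  have hnn : 0 ≤ Real.exp (B / 2 + C) *
      ‖(fderiv ℂ (fun z => G (v (ch.symm z))) (ch y')).det‖ := by positivity
  by_cases hy' : y' ∈ Γ
  · have h7 : v y' ∉ v '' (O \ Γ) := by
      rintro ⟨y'', g1, g2⟩
      rw [hv.inj g1.1 h1 g2] at g1
      exact g1.2 hy'
    unfold Jf
    rw [if_neg fun h => h7 h.1]
    exact hnn
  have h1' : y' ∈ O \ Γ := ⟨h1, hy'⟩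
  have he1 : At ch y' := ⟨he.1, h3⟩
  have hGa := an_G hv hG h1 h2 he1
  by_cases h0 : (jacG v G (chartAt (Cm 4) y') y').det = 0
  · rw [Jf_eq_zero hv' y₀ G _ 1 h1' h0]
    exact hnn
  rw [Jf_eq hv' y₀ G _ 1 h1' h0, ← det_jacG hGa.differentiableAt]
  have h0' : (jacG v G ch y').det ≠ 0 := by
    intro h0'
    have h6 := congrArg Matrix.det (jacG_change (v := v) (G := G) he1 (at_chartAt y') hGa)
    rw [Matrix.det_mul, h0', zero_mul] at h6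
    exact h0 h6
  rw [LamS_eq hM hv' hG hL hQ hρm hT hVL hψ hidx h1' h2 he1 h0' h4,
    ← Real.exp_log (norm_pos_iff.2 h0'), ← Real.exp_add, Real.log_exp]
  refine Real.exp_le_exp.2 ?_
  have h8 := h6 hy'
  linarith

end

section
variable {Y : Type} [TopologicalSpace Y] [T2Space Y] [CompactSpace Y] [ChartedSpace (Cm 4) Y]
  [IsManifold 𝓘(ℂ, Cm 4) ω Y] {X : CSp} {O Γ : Set Y}
  {v : Y → X.pt} {V : Set X.pt} {G : X.pt → Cm 4} {c : Cm 4} {r : ℝ} {d : ℕ} {lam : X.pt → ℂ}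
  {θ : Cm 4 → ℂ} {k : ℕ} {L : Fin k → Bd X.pt}
  {M : Fin k → Bd Y} {m Q : Fin k → ℕ}
  {T : ∀ e, (L e).ι → ((((Bd.can 4 Y).pow (m e)).mul (M e)).pow (Q e)).ι → Y → ℂ}
  {ρ : Fin k → ℝ} {i₀ : ∀ e, (L e).ι} {ψ : ∀ e, (M e).ι → Y → ℝ} {idx : ∀ e, Y → (M e).ι}

omit [T2Space Y] [CompactSpace Y] [IsManifold 𝓘(ℂ, Cm 4) ω Y] in
theorem mem_diff_of (hΓθ : ∀ y ∈ O, v y ∈ V → θ (G (v y)) ≠ 0 → y ∉ Γ) {z : Cm 4}
    (hz : z ∉ G '' {x | x ∈ V ∧ ¬ ∃ y ∈ O, v y = x ∧ RankGe3 v G y}) (hθ : θ z ≠ 0) :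
    ∀ x ∈ V, G x = z → x ∈ v '' (O \ Γ) := by
  intro x hx hxz
  by_contra hcon
  refine hz ⟨x, ⟨hx, ?_⟩, hxz⟩
  rintro ⟨y, hy, hyx, -⟩
  exact hcon ⟨y, ⟨hy, hΓθ y hy (by rw [hyx]; exact hx) (by rw [hyx, hxz]; exact hθ)⟩, hyx⟩

theorem locBdS (hM : ∀ e, IsLB 4 (M e)) (hv : IsOpenEmb X O v) (hΓ : IsClosed Γ)
    (hc : IsCov X V G c r d lam θ) (hΓθ : ∀ y ∈ O, v y ∈ V → θ (G (v y)) ≠ 0 → y ∉ Γ)
    (hL : ∀ e, IsLBx X (L e)) (hQ : ∀ e, 1 ≤ Q e) (hρm : ∑ e, ρ e * m e = 1)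
    (hT : ∀ e, IsIsoY (O \ Γ) v (L e) ((((Bd.can 4 Y).pow (m e)).mul (M e)).pow (Q e)) (T e))
    (hlow : ∀ y ∈ O, ∀ (ch : Chart 4 Y) (i : ∀ e, (L e).ι) (μ : ∀ e, (M e).ι), At ch y →
      (∀ e, v y ∈ (L e).U (i e)) → (∀ e, y ∈ (M e).U (μ e)) → ∃ C : ℝ, ∀ᶠ y' in 𝓝 y, y' ∉ Γ →
        -C ≤ ∑ e, ρ e / Q e * Real.log ‖T e (i e) (ch, μ e) y'‖)
    (hVL : ∀ e, V ⊆ (L e).U (i₀ e)) {n : ℕ} {ζ : Fin n → X.pt → ℂ} (hζ : IsCoord X V ζ)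
    {a : Fin d → X.pt → ℂ} {b : Cm 4 → ℂ} (hb : ∀ z ∈ ball c r, ContinuousAt b z ∧ b z ≠ 0)
    (hgen : ∀ l : Fin d, ∀ f : Fin (l : ℕ) → Fin n, Gen V G c r a b (fun x => ∏ t, ζ (f t) x))
    {κ : Cm 4 → ℂ} (hκ : ∀ z ∈ ball c r, θ z ≠ 0 → ∀ x : Fin d → X.pt, Enum V G z x →
      κ z = (Matrix.of fun i k => a i (x k)).det ^ 2)
    (hψ : ∀ e, IsMet 4 (M e) (ψ e)) (hidx : ∀ e y, y ∈ (M e).U (idx e y)) :
    LocBdAbove c r θ (G '' {x | x ∈ V ∧ ¬ ∃ y ∈ O, v y = x ∧ RankGe3 v G y})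
      (phi O v V G (LamS T v G ρ i₀ ψ idx) 1 κ) := by
  rintro z₀ ⟨hz₀, hz₀E⟩
  have hv' := emb_diff hv hΓ
  have hO : ∀ x ∈ V, G x = z₀ → ∃ y ∈ O, v y = x ∧ RankGe3 v G y := by
    intro x hx hxz
    by_contra hcon
    exact hz₀E ⟨x, ⟨hx, hcon⟩, hxz⟩
  obtain ⟨y₀⟩ : Nonempty Y := by
    obtain ⟨-, p, hpV, hpG⟩ := hc.finite z₀ hz₀
    obtain ⟨y, -, -⟩ := hO p hpV hpG
    exact ⟨y⟩
  set Λ : Y → ℝ := LamS T v G ρ i₀ ψ idx with hΛ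
  obtain ⟨w, C₁, h1⟩ := H19.stBr Y X O v hv V G c r d lam θ hc n ζ hζ z₀ hz₀ hO
    (Jf hv' y₀ G Λ 1) (Jf_nonneg hv' y₀ G Λ 1) (fun x hx hxz => by
      obtain ⟨y, hy, hyx, -⟩ := hO x hx hxz
      obtain ⟨e, he, C, hC⟩ := Jf_leS hM hv hΓ hc.isOpen hc.holo hL hQ hρm hT hlow hVL hψ hidx
        y₀ hy (by rw [hyx]; exact hx)
      exact ⟨y, hy, hyx, e, he, C, hC⟩)
  obtain ⟨C₂, hC₂, h2⟩ := vand_le (h := fun x => ∑ j, w j * ζ j x)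
    (fun l => gen_pow (hgen l) w) hκ hz₀ (hb z₀ hz₀).1 (hb z₀ hz₀).2
  set C₃ : ℝ := (|C₁| + 1) * C₂ with hC₃
  have hC₃0 : 0 < C₃ := by positivity
  refine ⟨2 * Real.log C₃, ?_⟩
  filter_upwards [h1, h2, isOpen_ball.mem_nhds hz₀] with z d1 d2 hz hzE
  obtain ⟨hzE, hθ⟩ := hzE
  obtain ⟨D, σ, hzD, hDs, hbr⟩ := exists_br hv' hc hz hθ (mem_diff_of hΓθ hzE hθ)
  have hE := hbr.enum hv' hzD
  have h3 := (d1 hθ _ hE).trans (mul_le_mul_of_nonneg_right (le_abs_self C₁) (sq_nonneg _))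
  have h4 := d2 hθ _ hE
  have h5 : ∏ k, Jf hv' y₀ G Λ 1 (v (σ k z)) = Real.exp ((∑ k, Λ (σ k z)) / (2 * 1)) := by
    rw [Finset.sum_div, Real.exp_sum]
    exact Finset.prod_congr rfl fun k _ => Jf_eq hv' y₀ G Λ 1 (hbr.mem z hzD k).1
      (hbr.det_ne_zero hv' hc.holo hzD (at_chartAt _))
  rw [h5] at h3
  have h6 : Real.exp ((∑ k, Λ (σ k z)) / (2 * 1)) ≤ C₃ * ‖κ z‖ := by
    refine h3.trans ?_
    calc |C₁| * ‖(Matrix.vandermonde fun k => ∑ j, w j * ζ j (v (σ k z))).det‖ ^ 2 ≤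
          |C₁| * (C₂ * ‖κ z‖) := mul_le_mul_of_nonneg_left h4 (abs_nonneg _)
      _ ≤ (|C₁| + 1) * (C₂ * ‖κ z‖) := by
        refine mul_le_mul_of_nonneg_right (by linarith) (by positivity)
      _ = C₃ * ‖κ z‖ := by rw [hC₃]; ring
  have hκ0 : 0 < ‖κ z‖ := by
    have h7 := (Real.exp_pos _).trans_le h6
    exact pos_of_mul_pos_right h7 hC₃0.le
  have h7 := Real.log_le_log (Real.exp_pos _) h6
  rw [Real.log_exp, Real.log_mul hC₃0.ne' hκ0.ne', div_le_iff₀ (by positivity)] at h7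
  rw [phi, (isBr_up hbr).finsum hv hzD, Real.log_pow]
  push_cast
  linarith

end

end Vale.Agent.P277Z.Val.Reg
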