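import Vale.Agent.P277Z.Val.Reg2

/-!
# P277, REG with boundary: the inequality for the orders along the wedges
-/

open scoped Manifold ContDiff ComplexOrder Topology
open Vale.Agent.P272.K Vale.Agent.P285.H281.FD Vale.Agent.P267.H175 Set Metric Filter

noncomputable section

namespace Vale.Agent.P277Z.Val.Reg

open Vale.Agent.P277 Vale.Agent.P277.TX Vale.Agent.P277.H19 Vale.Agent.P277.H371
  Vale.Agent.P277.H335.RC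

section
variable {Y : Type} [TopologicalSpace Y] [ChartedSpace (Cm 4) Y] {X : CSp} {O Γ : Set Y}
  {v : Y → X.pt} {V : Set X.pt} {G : X.pt → Cm 4} {d : ℕ} {k : ℕ} {L : Fin k → Bd X.pt}
  {M : Fin k → Bd Y} {m Q : Fin k → ℕ}
  {T : ∀ e, (L e).ι → ((((Bd.can 4 Y).pow (m e)).mul (M e)).pow (Q e)).ι → Y → ℂ}
  {ρ : Fin k → ℝ} {i₀ : ∀ e, (L e).ι} {ψ : ∀ e, (M e).ι → Y → ℝ} {idx : ∀ e, Y → (M e).ι}
  {φ : Cm 4 → X.pt} {w₁ : Cm 4} {γ : Cm 4 → Y} {ch : Chart 4 Y} {μ : ∀ e, (M e).ι}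
  {τ : Fin k → ℝ} {J s : ℕ}

theorem vl_nlift (h : VL O v L M m Q T ρ φ w₁ i₀ γ ch μ τ J) (e : Fin k) :
    NLift O v (L e) (M e) (m e) (Q e) (T e) (i₀ e) 0 φ w₁ γ ch (μ e) (fun _ => 1) :=
  ⟨h.cont, h.at', h.mem e, h.an, h.lift, analyticAt_const, Eventually.of_forall fun w _ => by simp⟩

variable [IsManifold 𝓘(ℂ, Cm 4) ω Y]

theorem LamS_ge (hM : ∀ e, IsLB 4 (M e)) (hv : IsOpenEmb X O v)
    (hG : ∀ x ∈ V, ∀ i, X.Hol (fun y => G y i) x) (hL : ∀ e, IsLBx X (L e))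
    (hQ : ∀ e, 1 ≤ Q e) (hρ : ∀ e, 0 < ρ e) (hρm : ∑ e, ρ e * m e = 1)
    (hT : ∀ e, IsIsoY O v (L e) ((((Bd.can 4 Y).pow (m e)).mul (M e)).pow (Q e)) (T e))
    (hVL : ∀ e, V ⊆ (L e).U (i₀ e)) (hψ : ∀ e, IsMet 4 (M e) (ψ e))
    (hidx : ∀ e y, y ∈ (M e).U (idx e y)) (h : VL O v L M m Q T ρ φ w₁ i₀ γ ch μ τ J)
    (hs : 1 ≤ s) (hφ : ∀ᶠ w in 𝓝 w₁, ContinuousAt φ w ∧ φ w ∈ V ∧ G (φ w) = pw s w) :
    ∃ C : ℝ, ∀ᶠ w in 𝓝 w₁, w 0 ≠ 0 → φ w ∈ v '' O →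
      (2 * (∑ e, ρ e * (τ e / Q e) + J) + 2 * (1 - 2 * s)) * Real.log (1 / ‖w 0‖) - C ≤
        LamS T v G ρ i₀ ψ idx (γ w) := by
  choose C hC using fun e => Lam_geR (K := 1) (α := τ e) (j := J) (hM e) hv hG (hL e) (hT e)
    (hVL e) (hψ e) (hidx e) (vl_nlift h e) hs hφ (by simpa only [pow_one] using h.bdT e) h.bdJ
  refine ⟨∑ e, ρ e / Q e * C e, ?_⟩
  filter_upwards [eventually_all.2 hC] with w d1 hw hwO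
  have h1 := Finset.sum_le_sum fun e (_ : e ∈ Finset.univ) =>
    mul_le_mul_of_nonneg_left (d1 e hw hwO) (div_nonneg (hρ e).le (Nat.cast_nonneg (Q e)))
  refine le_trans (le_of_eq ?_) h1
  have h2 : ∀ e, ρ e / Q e * ((2 * τ e + 2 * ((m e * Q e * 1 : ℕ) : ℝ) * (J + 1 - 2 * s)) *
      Real.log (1 / ‖w 0‖) - C e) = 2 * Real.log (1 / ‖w 0‖) * (ρ e * (τ e / Q e)) +
      2 * (J + 1 - 2 * s) * Real.log (1 / ‖w 0‖) * (ρ e * m e) - ρ e / Q e * C e := by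
    intro e
    have hQ0 : (Q e : ℝ) ≠ 0 := by exact_mod_cast (Nat.one_le_iff_ne_zero.1 (hQ e))
    push_cast
    field_simp
  rw [Finset.sum_congr rfl fun e _ => h2 e, Finset.sum_sub_distrib, Finset.sum_add_distrib,
    ← Finset.mul_sum, ← Finset.mul_sum, hρm]
  ring

end

section
variable {Y : Type} [TopologicalSpace Y] [T2Space Y] [CompactSpace Y] [ChartedSpace (Cm 4) Y]
  [IsManifold 𝓘(ℂ, Cm 4) ω Y] {X : CSp} {O Γ : Set Y}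
  {v : Y → X.pt} {V : Set X.pt} {G : X.pt → Cm 4} {c : Cm 4} {r : ℝ} {d : ℕ} {lam : X.pt → ℂ}
  {θ : Cm 4 → ℂ} {k : ℕ} {L : Fin k → Bd X.pt}
  {M : Fin k → Bd Y} {m Q : Fin k → ℕ}
  {T : ∀ e, (L e).ι → ((((Bd.can 4 Y).pow (m e)).mul (M e)).pow (Q e)).ι → Y → ℂ}
  {ρ : Fin k → ℝ} {i₀ : ∀ e, (L e).ι}
  {χ : Chart 4 Y → Cm 4 → Matrix (Fin 4) (Fin 4) ℂ}
  {N : ℕ} {s : Fin d → ℕ} {φ : Fin d → Cm 4 → X.pt} {w₁ : Cm 4} {γ : Fin d → Cm 4 → Y}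
  {ch : Fin d → Chart 4 Y} {μ : Fin d → ∀ e, (M e).ι} {τ : Fin d → Fin k → ℝ} {J : Fin d → ℕ}

omit [T2Space Y] [CompactSpace Y] in
/-- lower bound for `φ` at the wedge -/
theorem phi_geS (hM : ∀ e, IsLB 4 (M e)) (hv : IsOpenEmb X O v) (hΓ : IsClosed Γ)
    (hc : IsCov X V G c r d lam θ) {a : Fin d → X.pt → ℂ} {b : Cm 4 → ℂ}
    (hb : ∀ z ∈ ball c r, ContinuousAt b z ∧ b z ≠ 0)
    (hgen : ∀ l : Fin d, Gen V G c r a b (fun x => lam x ^ (l : ℕ)))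
    {κ : Cm 4 → ℂ} (hκ : ∀ z ∈ ball c r, θ z ≠ 0 → ∀ x : Fin d → X.pt, Enum V G z x →
      κ z = (Matrix.of fun i k => a i (x k)).det ^ 2)
    (hL : ∀ e, IsLBx X (L e)) (hQ : ∀ e, 1 ≤ Q e) (hρ : ∀ e, 0 < ρ e)
    (hρm : ∑ e, ρ e * m e = 1)
    (hT : ∀ e, IsIsoY (O \ Γ) v (L e) ((((Bd.can 4 Y).pow (m e)).mul (M e)).pow (Q e)) (T e))
    (hVL : ∀ e, V ⊆ (L e).U (i₀ e)) (h0 : w₁ 0 = 0) (hw₁ : bl w₁ ∈ ball c r)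
    (hθ : ∀ᶠ w in 𝓝 w₁, w 0 ≠ 0 → θ (bl w) ≠ 0) (hN : 1 ≤ N)
    (hs : ∀ l, 1 ≤ s l ∧ s l ∣ N)
    (hφ : ∀ l, ∀ᶠ w in 𝓝 w₁, ContinuousAt (φ l) w ∧ φ l w ∈ V ∧ G (φ l w) = pw (s l) w)
    (hE : ∀ᶠ w in 𝓝 w₁, w 0 ≠ 0 → Enum V G ![w 0 ^ N, w 1 * w 0 ^ N, w 2, w 3]
      (fun l => φ l ![w 0 ^ (N / s l), w 1, w 2, w 3]))
    (hlift : ∀ l, VL (O \ Γ) v L M m Q T ρ (φ l) w₁ i₀ (γ l) (ch l) (μ l) (τ l) (J l))
    (e₀ : Fin k) {p : ℝ} (hκb : ∃ C : ℝ, 0 < C ∧ ∀ᶠ w in 𝓝 w₁, w 0 ≠ 0 → θ (bl w) ≠ 0 →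
      ‖κ (bl w)‖ ≤ C * ‖w 0‖ ^ p)
    {ψ : ∀ e, (M e).ι → Y → ℝ} (hψ : ∀ e, IsMet 4 (M e) (ψ e)) {idx : ∀ e, Y → (M e).ι}
    (hidx : ∀ e y, y ∈ (M e).U (idx e y)) :
    ∃ C : ℝ, ∀ᶠ w in 𝓝 w₁, w 0 ≠ 0 → (∀ x ∈ V, G x = bl w → x ∈ v '' (O \ Γ)) →
      ((∑ l, (2 * (∑ e, ρ e * (τ l e / Q e) + J l) + 2 * (1 - 2 * s l)) / s l) + 2 * p) *
        Real.log (1 / ‖w 0‖) - C ≤ phi O v V G (LamS T v G ρ i₀ ψ idx) 1 κ (bl w) := by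
  have hv' := emb_diff hv hΓ
  choose C hC using fun l => LamS_ge hM hv' hc.holo hL hQ hρ hρm hT hVL hψ hidx (hlift l)
    (hs l).1 (hφ l)
  obtain ⟨Cκ, hCκ0, hCκ⟩ := hκb
  refine ⟨(∑ l, C l) + 2 * Real.log Cκ, ?_⟩
  filter_upwards [wedge_pts hN hs h0 hE fun l =>
      (hC l).and ((vl_nlift (hlift l) e₀).jac hv' hc.holo (hφ l)),
    hθ, hCκ, continuous_bl.continuousAt.eventually (isOpen_ball.mem_nhds hw₁)]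
    with w d1 d2 d3 d4 hw hO
  obtain ⟨u, hu, hen⟩ := d1 hw
  have hφO : ∀ l, φ l (u l) ∈ v '' (O \ Γ) := fun l => by
    obtain ⟨g1, g2⟩ := (hen.2 (φ l (u l))).1 ⟨l, rfl⟩
    exact hO _ g1 g2
  have hy : ∀ l, γ l (u l) ∈ O \ Γ ∧ v (γ l (u l)) = φ l (u l) := fun l => by
    obtain ⟨g1, g2, -⟩ := (hu l).2.2.2 (hφO l)
    exact ⟨g1, g2⟩
  have hen' : Enum V G (bl w) (fun l => v (γ l (u l))) := by
    have h1 : (fun l => v (γ l (u l))) = fun l => φ l (u l) := funext fun l => (hy l).2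
    rw [h1]; exact hen
  rw [phi, finsum_enum hv (fun l => (hy l).1.1) hen']
  have ht : 0 < ‖w 0‖ := norm_pos_iff.2 hw
  have h1 : ∀ l, (2 * (∑ e, ρ e * (τ l e / Q e) + J l) + 2 * (1 - 2 * s l)) / s l *
      Real.log (1 / ‖w 0‖) - C l ≤ LamS T v G ρ i₀ ψ idx (γ l (u l)) := by
    intro l
    have h2 := (hu l).2.2.1 (hu l).2.1 (hφO l)
    have h3 : Real.log (1 / ‖u l 0‖) = Real.log (1 / ‖w 0‖) / s l := by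
      have hsk : (s l : ℝ) ≠ 0 := by exact_mod_cast (Nat.one_le_iff_ne_zero.1 (hs l).1)
      have h4 : ‖w 0‖ = ‖u l 0‖ ^ s l := by rw [← norm_pow, (hu l).1]
      rw [one_div, one_div, Real.log_inv, Real.log_inv, h4, Real.log_pow]
      field_simp
    rw [h3] at h2
    refine le_trans (le_of_eq ?_) h2
    ring
  have hκ0 : κ (bl w) ≠ 0 := kappa_ne_zero hc hgen hκ d4 (d2 hw) (hb _ d4).2
  have h5 := Real.log_le_log (norm_pos_iff.2 hκ0) (d3 hw (d2 hw))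
  rw [Real.log_mul hCκ0.ne' (Real.rpow_pos_of_pos ht p).ne', Real.log_rpow ht] at h5
  have h6 : Real.log (‖κ (bl w)‖ ^ 2) = 2 * Real.log ‖κ (bl w)‖ := by
    rw [Real.log_pow]; push_cast; ring
  have h8 := Finset.sum_le_sum (s := Finset.univ) fun l _ => h1 l
  rw [Finset.sum_sub_distrib, ← Finset.sum_mul] at h8
  have h9 : Real.log (1 / ‖w 0‖) = -Real.log ‖w 0‖ := by rw [one_div, Real.log_inv]
  rw [h6]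
  rw [h9] at h8 ⊢
  nlinarith

/-- all wedges lift: then the sum of the discrepancies is not positive. -/
theorem contraS (hχ : IsKahler χ) (hM : ∀ e, IsLB 4 (M e)) (hNef : ∀ e, Nef χ (M e))
    (hv : IsOpenEmb X O v) (hO : DimLe X 2 (v '' O)ᶜ) (hΓ : IsClosed Γ)
    (hc : IsCov X V G c r d lam θ) (hΓθ : ∀ y ∈ O, v y ∈ V → θ (G (v y)) ≠ 0 → y ∉ Γ)
    {n : ℕ} {ζ : Fin n → X.pt → ℂ} (hζ : IsCoord X V ζ)
    {a : Fin d → X.pt → ℂ} {b : Cm 4 → ℂ}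
    (hb : ∀ z ∈ ball c r, ContinuousAt b z ∧ b z ≠ 0)
    (hgen : ∀ l : Fin d, Gen V G c r a b (fun x => lam x ^ (l : ℕ)))
    (hgenζ : ∀ l : Fin d, ∀ f : Fin (l : ℕ) → Fin n, Gen V G c r a b (fun x => ∏ t, ζ (f t) x))
    {κ : Cm 4 → ℂ} (hκa : ∀ z ∈ ball c r, AnalyticAt ℂ κ z)
    (hκ : ∀ z ∈ ball c r, θ z ≠ 0 → ∀ x : Fin d → X.pt, Enum V G z x →
      κ z = (Matrix.of fun i k => a i (x k)).det ^ 2)
    (hL : ∀ e, IsLBx X (L e)) (hQ : ∀ e, 1 ≤ Q e) (hρ : ∀ e, 0 < ρ e)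
    (hρm : ∑ e, ρ e * m e = 1)
    (hT : ∀ e, IsIsoY (O \ Γ) v (L e) ((((Bd.can 4 Y).pow (m e)).mul (M e)).pow (Q e)) (T e))
    (hlow : ∀ y ∈ O, ∀ (ch : Chart 4 Y) (i : ∀ e, (L e).ι) (μ : ∀ e, (M e).ι), At ch y →
      (∀ e, v y ∈ (L e).U (i e)) → (∀ e, y ∈ (M e).U (μ e)) → ∃ C : ℝ, ∀ᶠ y' in 𝓝 y, y' ∉ Γ →
        -C ≤ ∑ e, ρ e / Q e * Real.log ‖T e (i e) (ch, μ e) y'‖)
    (hVL : ∀ e, V ⊆ (L e).U (i₀ e)) (h0 : w₁ 0 = 0) (hw₁ : bl w₁ ∈ ball c r)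
    (hθ : ∀ᶠ w in 𝓝 w₁, w 0 ≠ 0 → θ (bl w) ≠ 0) (hN : 1 ≤ N)
    (hs : ∀ l, 1 ≤ s l ∧ s l ∣ N)
    (hφ : ∀ l, ∀ᶠ w in 𝓝 w₁, ContinuousAt (φ l) w ∧ φ l w ∈ V ∧ G (φ l w) = pw (s l) w)
    (hE : ∀ᶠ w in 𝓝 w₁, w 0 ≠ 0 → Enum V G ![w 0 ^ N, w 1 * w 0 ^ N, w 2, w 3]
      (fun l => φ l ![w 0 ^ (N / s l), w 1, w 2, w 3]))
    (hlift : ∀ l, VL (O \ Γ) v L M m Q T ρ (φ l) w₁ i₀ (γ l) (ch l) (μ l) (τ l) (J l))
    {p : ℝ} (hκb : ∃ C : ℝ, 0 < C ∧ ∀ᶠ w in 𝓝 w₁, w 0 ≠ 0 → θ (bl w) ≠ 0 →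
      ‖κ (bl w)‖ ≤ C * ‖w 0‖ ^ p) :
    (∑ l, (2 * (∑ e, ρ e * (τ l e / Q e) + J l) + 2 * (1 - 2 * s l)) / s l) + 2 * p ≤ 0 := by
  by_contra hpos
  push Not at hpos
  have hv' := emb_diff hv hΓ
  have hne : (Finset.univ : Finset (Fin k)).Nonempty := by
    by_contra hcon
    rw [Finset.not_nonempty_iff_eq_empty.1 hcon, Finset.sum_empty] at hρm
    exact zero_ne_one hρm
  have hρs : 0 < ∑ e, ρ e := Finset.sum_pos (fun e _ => hρ e) hne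
  obtain ⟨e₀, -⟩ := hne
  have hthin := H19.stThin Y X O v hv hO V G c r d lam θ hc
  set E : Set (Cm 4) := G '' {x | x ∈ V ∧ ¬ ∃ y ∈ O, v y = x ∧ RankGe3 v G y} with hEdef
  obtain ⟨p1, p2, p3⟩ := H19.stPush Y χ hχ X O v hv V G c r d lam θ hc (G '' (V \ v '' O)) rfl
  have hsub : G '' (V \ v '' O) ⊆ E := by
    rintro _ ⟨x, ⟨hx, hx'⟩, rfl⟩
    refine ⟨x, ⟨hx, ?_⟩, rfl⟩
    rintro ⟨y, hy, hyx, -⟩
    exact hx' ⟨y, hy, hyx⟩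
  have hsub' : ball c r \ E ⊆ ball c r \ G '' (V \ v '' O) := fun z hz =>
    ⟨hz.1, fun h => hz.2 (hsub h)⟩
  have hOE : ∀ z, z ∉ E → θ z ≠ 0 → ∀ x ∈ V, G x = z → x ∈ v '' (O \ Γ) := fun z hz hθz =>
    mem_diff_of hΓθ hz hθz
  refine TD.stCoreX c r hc.pos θ hc.an hc.ne E hthin (pushH χ O v V G)
    (fun z hz hθz => p1 z (hsub' hz) hθz) (fun z hz => p2 z (hsub' hz))
    (fun a ha hac has i j k => p3 a ha hac (has.trans hsub') i j k) w₁ h0 hw₁ ?_ hθ _ hpos ?_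
  · obtain ⟨C, hC⟩ := pushH_le hχ hv' hc.holo h0 hN hs hφ hE fun l => vl_nlift (hlift l) e₀
    refine ⟨C, ?_⟩
    filter_upwards [hC] with w h1 hw hwE hθw
    have h2 : pushH χ O v V G (bl w) = pushH χ (O \ Γ) v V G (bl w) := by
      have h3 : {y | y ∈ O ∧ v y ∈ V ∧ G (v y) = bl w} =
          {y | y ∈ O \ Γ ∧ v y ∈ V ∧ G (v y) = bl w} := by
        ext y
        constructor
        · rintro ⟨g1, g2, g3⟩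
          exact ⟨⟨g1, hΓθ y g1 g2 (by rw [g3]; exact hθw)⟩, g2, g3⟩
        · rintro ⟨g1, g2, g3⟩
          exact ⟨g1.1, g2, g3⟩
      rw [pushH, pushH, h3]
    rw [h2]
    exact h1 hw (hOE _ hwE hθw)
  · intro δ hδ
    choose ψ hψ hcurv using fun e => hNef e (δ / ∑ e, ρ e) (div_pos hδ hρs)
    choose idx hidx using fun e => (hM e).cover
    refine ⟨phi O v V G (LamS T v G ρ i₀ ψ idx) 1 κ, ?_, ?_, ?_⟩
    · intro z hz hθz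
      obtain ⟨D, σ, hzD, hDs, hbr⟩ := exists_br hv' hc hz.1 hθz (hOE z hz.2 hθz)
      have h1 := phi_pshS hχ hM hv hΓ hc.holo hL hQ hρ hT hVL hbr hψ hcurv hidx
        (κ := κ) (fun w hw => ⟨hκa w (hDs hw).1,
          kappa_ne_zero hc hgen hκ (hDs hw).1 (hDs hw).2 (hb _ (hDs hw).1).2⟩) hzD
      rw [mul_div_cancel₀ _ hρs.ne'] at h1
      exact h1
    · exact locBdS hM hv hΓ hc hΓθ hL hQ hρm hT hlow hVL hζ hb hgenζ hκ hψ hidx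
    · obtain ⟨C, hC⟩ := phi_geS hM hv hΓ hc hb hgen hκ hL hQ hρ hρm hT hVL h0 hw₁ hθ hN hs hφ
        hE hlift e₀ hκb hψ hidx
      refine ⟨C, ?_⟩
      filter_upwards [hC, hθ] with w h1 h2 hw hwE
      exact h1 hw (hOE _ hwE (h2 hw))

end

end Vale.Agent.P277Z.Val.Reg
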