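import Vale.Agent.P277Z.Val.Sub
import Vale.Agent.P277Z.Val.Fin
import Vale.Agent.P277Z.Pj.Nrm
import Vale.Agent.P277Z.Pj.Rem
import Vale.Agent.P277.A.Emb

/-!
# P277, block VAL: the images of the components which are not exceptional
-/

open scoped Manifold ContDiff Topology
open Vale.Agent.P272.K Vale.Agent.P285.H281.FD Vale.Agent.P277 Set Filter
open Vale.Agent.P277.PH (HolF)

noncomputable section

namespace Vale.Agent.P277Z.Val.RegT

theorem exists_comb {k : ℕ} {D : Set (Fin k → ℂ)} (hD : D.Countable) (h : ∀ a ∈ D, a ≠ 0) :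
    ∃ s : ℂ, ∀ a ∈ D, ∑ i : Fin k, s ^ (i : ℕ) * a i ≠ 0 := by
  set P : (Fin k → ℂ) → Polynomial ℂ := fun a => ∑ i : Fin k, Polynomial.monomial i (a i) with hP
  have h1 : ∀ a ∈ D, P a ≠ 0 := fun a ha e => h a ha (funext fun i => by
    have := congrArg (fun p => p.coeff i) e
    simpa only [hP, Polynomial.finsetSum_coeff, Polynomial.coeff_monomial, Fin.val_inj,
      Finset.sum_ite_eq', Finset.mem_univ, if_true, Polynomial.coeff_zero, Pi.zero_apply]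
      using this)
  obtain ⟨s, hs⟩ := ((hD.biUnion fun a ha =>
    (Polynomial.finite_setOfPred_isRoot (h1 a ha)).countable).dense_compl ℂ).nonempty
  refine ⟨s, fun a ha e => hs (mem_biUnion ha ?_)⟩
  show (P a).eval s = 0
  simp only [hP, Polynomial.eval_finsetSum, Polynomial.eval_monomial, mul_comm (a _), e]

variable {V : Lg} {Y : CSp} {ψ : V.W → Y.pt} {exc : Finset (Fin V.r)}

theorem sub_O {y : V.W} (hy : y ∉ V.E) : y ∉ ⋃ l ∈ exc, V.G l := fun h => by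
  obtain ⟨l, -, h⟩ := mem_iUnion₂.1 h
  exact hy (mem_iUnion.2 ⟨l, h⟩)

/-- the image of a component which is not exceptional is analytic -/
theorem an_img (h : Res V Y ψ exc) {l : Fin V.r} (hl : l ∉ exc) {N k : ℕ} {U : Set Y.pt}
    {Ω : Set (Cm N)} {f : Fin k → Cm N → ℂ} {φ : Y.pt → Cm N} (hM : IsModel Y.Hol U Ω f φ)
    {x : Y.pt} (hx : x ∈ U) : ∃ (m : ℕ) (g : Fin m → Cm N → ℂ), (∀ i, AnalyticAt ℂ (g i) (φ x)) ∧
      ∀ᶠ x' in 𝓝 x, x' ∈ ψ '' V.G l ↔ ∀ i, g i (φ x') = 0 := by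
  obtain ⟨H, _, _, _, _, _, _, ι, hι, hr⟩ := stSub V l
  have : SecondCountableTopology H := ChartedSpace.secondCountable_of_sigmaCompact (Cm 3) H
  have h1 : Pj.HolTo 3 Y fun u => ψ (ι u) := ⟨h.cont.comp hι.cont, fun u g hg e he => by
    have he' := PH.at_chartAt (n := 4) (ι u)
    refine AnM.hol (n := 4) (γ := fun z => ι (e.symm z)) (f := fun y => g (ψ y)) ?_ ?_
    · refine anM_of (hι.cont.continuousAt.comp (e.continuousAt_symm (e.map_source he.2)))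
        (by rw [e.left_inv he.2]; exact he') (hι.holo u e _ he he').1
    · rw [e.left_inv he.2]
      exact h.hol _ g hg⟩
  have h2 : Dense {u | Pj.ImmTo 3 Y (fun u => ψ (ι u)) u} := by
    intro u
    have h3 := (hι.cont.isClosedEmbedding hι.inj).isInducing.nhds_eq_comap u
    rw [mem_closure_iff_frequently, h3, frequently_comap]
    refine (Lg.freq1 (l := l) (hr ▸ mem_range_self u)).mono fun y hy => ?_
    obtain ⟨v, rfl⟩ : y ∈ range ι := hr ▸ hy.1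
    have h4 : ι v ∈ (⋃ l ∈ exc, V.G l)ᶜ := fun e => by
      obtain ⟨j, k1, k2⟩ := mem_iUnion₂.1 e
      exact hy.2 j (fun e => hl (e ▸ k1)) k2
    have he' := PH.at_chartAt (n := 4) (ι v)
    refine ⟨v, rfl, 4, fun x => chartAt (Cm 4) (ι v) (h.emb.inv (ι v) x),
      fun a => h.emb.hol_chart _ h4 he' a,
      Pj.Imm.congr (t := fun u => chartAt (Cm 4) (ι v) (ι u))
        (fun e he => (hι.holo v e _ he he').2) ?_⟩
    filter_upwards [hι.cont.continuousAt.eventually (h.emb.isOpen.mem_nhds h4)] with u' k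
    rw [h.emb.inv_apply _ k]
  obtain ⟨m, g, h3, h4⟩ := Pj.rem_of Pj.br Pj.prj 2 H N _ _ Ω (Pj.Nrm.gfin h1 h2 hM) (φ x)
    (Pj.Nrm.mem_zero hM hx).1
  refine ⟨m, g, h3, ?_⟩
  filter_upwards [(hM.continuousAt hx).eventually h4, hM.isOpen.mem_nhds hx] with x' k1 k2
  rw [← k1, ← hr]
  constructor
  · rintro ⟨_, ⟨u, rfl⟩, rfl⟩
    exact ⟨u, k2, rfl⟩
  · rintro ⟨u, k3, k4⟩
    exact ⟨_, ⟨u, rfl⟩, hM.injOn k3 k2 k4⟩

/-- an equation which is nowhere identically zero -/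
theorem exists_eqn (h : Res V Y ψ exc) (x : Y.pt) : ∃ g : Y.pt → ℂ, Y.Hol g x ∧
    ∀ᶠ x' in 𝓝 x, (¬ g =ᶠ[𝓝 x'] 0) ∧ (x' ∈ ψ '' (⋃ l ∉ exc, V.G l) → g x' = 0) := by
  classical
  have : SecondCountableTopology V.W := ChartedSpace.secondCountable_of_sigmaCompact (Cm 4) V.W
  obtain ⟨D, hD, hD'⟩ := TopologicalSpace.exists_countable_dense V.W
  obtain ⟨N, k, U, Ω, f, φ, hx, hM⟩ := Y.model x
  have key : ∀ l, ∃ g : Cm N → ℂ, AnalyticAt ℂ g (φ x) ∧ ∀ᶠ x' in 𝓝 x,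
      (l ∉ exc → x' ∈ ψ '' V.G l → g (φ x') = 0) ∧
        ∀ y ∈ D, y ∉ V.E → ψ y = x' → g (φ x') ≠ 0 := by
    intro l
    by_cases hl : l ∈ exc
    · exact ⟨fun _ => 1, analyticAt_const, Eventually.of_forall fun _ =>
        ⟨fun e => absurd hl e, fun _ _ _ _ => one_ne_zero⟩⟩
    obtain ⟨m, g, h1, h2⟩ := an_img h hl hM hx
    obtain ⟨s, hs⟩ := exists_comb (D := (fun y i => g i (φ (ψ y))) ''
      {y | y ∈ D ∧ y ∉ V.E ∧ (ψ y ∈ ψ '' V.G l ↔ ∀ i, g i (φ (ψ y)) = 0)})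
      ((hD.mono fun y hy => hy.1).image _) (by
        rintro _ ⟨y, ⟨-, k1, k2⟩, rfl⟩ e
        obtain ⟨y', k3, k4⟩ := k2.2 (congrFun e)
        exact k1 (mem_iUnion.2 ⟨l, h.inj y y' (sub_O k1) k4 ▸ k3⟩))
    refine ⟨fun z => ∑ i : Fin m, s ^ (i : ℕ) * g i z,
      Finset.analyticAt_fun_sum _ fun i _ => analyticAt_const.fun_mul (h1 i), ?_⟩
    filter_upwards [h2] with x' k
    refine ⟨fun _ e => by simp [k.1 e], ?_⟩
    rintro y k1 k2 rfl
    exact hs _ ⟨y, ⟨k1, k2, k⟩, rfl⟩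
  choose g h1 h2 using key
  refine ⟨fun x => ∏ l, g l (φ x), (hM.hol x hx _).2 ⟨fun z => ∏ l, g l z,
    Finset.analyticAt_fun_prod _ fun l _ => h1 l, Eventually.of_forall fun _ => rfl⟩, ?_⟩
  filter_upwards [(eventually_all.2 h2).eventually_nhds] with x' k
  refine ⟨fun e => ?_, ?_⟩
  · obtain ⟨y, rfl⟩ := h.surj x'
    obtain ⟨y', k1, k2⟩ := ((V.freqE y).and_eventually
      (h.cont.continuousAt.eventually (k.and e)).eventually_nhds).exists
    obtain ⟨z, k3, k4⟩ := hD'.inter_nhds_nonempty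
      (k2.and (V.closedE.isOpen_compl.mem_nhds k1))
    obtain ⟨l, -, k5⟩ := Finset.prod_eq_zero_iff.1 k4.1.2
    exact (k4.1.1 l).2 z k3 k4.2 rfl k5
  · rintro ⟨y, k1, rfl⟩
    obtain ⟨l, k2, k3⟩ := mem_iUnion₂.1 k1
    exact Finset.prod_eq_zero (Finset.mem_univ l) ((k.self_of_nhds l).1 k2 ⟨y, k3, rfl⟩)

end Vale.Agent.P277Z.Val.RegT
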