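import Vale.Agent.P277Z.Val.Tw1

/-!
# P277, block VAL: the slice condition for one step
-/

open Vale.Agent.P272.K Vale.Agent.P285.H281.FD Vale.Agent.P277 Set

noncomputable section

namespace Vale.Agent.P277Z.Val

/-- (SL) -/
theorem sl_of (h : StSlc) : Tw.StSL := by
  classical
  intro k ρ m X Z X' f f' L L' c c' V χ M p p' exc n n' Λ h1 h2 h3 hS h4 h5 h6
  obtain ⟨g, w, -⟩ := id h6
  obtain ⟨x, hx, -, J, _, cv, o, q, κ, dm, nn, H⟩ := h k ρ m V χ M X' L' c' p' exc n' h1 h2 h3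
    hS.pm' _ ∅ h6 ⟨fun _ => ∅, fun _ _ => g w, fun _ => isOpen_empty, fun _ _ h => h.elim,
      empty_subset _⟩
  have hA : ∀ y, p' y = x → f (p y) ∈ Amin f := fun y hy => by
    rw [← hS.comm, hy]
    exact hx
  obtain ⟨y, hy⟩ := hS.pm'.res.surj x
  obtain ⟨l, a1, a2⟩ := hS.cover y (hA y hy)
  obtain ⟨b₀, -⟩ := H.cover y hy l (hS.lt l a2).1 a1
  obtain ⟨d, d1, d2⟩ := H.neg
  refine ⟨J, inferInstance, ⟨b₀⟩, o, ⟨q, κ, fun b => ∑ e, ρ e * dm e b +
    ∑ l with l ∉ exc, -disc ρ c' n' l * nn l b, d, H.symm, fun b b' e => by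
      rw [H.off b b' e]; exact Int.natCast_nonneg _, d1, d2, H.adj, fun b => ?_, fun b => ?_⟩,
    fun b => ?_⟩
  · refine Λ.add_mem (Λ.sum_mem fun e _ => ?_) (Λ.sum_mem fun l hl => ?_)
    · rw [mul_comm, ← nsmul_eq_mul]
      exact Λ.nsmul_mem (h4 e) _
    · rw [mul_comm, ← nsmul_eq_mul]
      exact Λ.nsmul_mem (h5 l (Finset.mem_filter.1 hl).2) _
  · have := H.eqn b
    simp only [sub_add_cancel_left, neg_mul, Finset.sum_neg_distrib] at this ⊢
    linarith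
  · obtain ⟨z, b1, b2⟩ := (H.inf b).exists_notMem_finite
      (finite_iUnion fun l : {l // l ≠ o b} => H.fin b l l.2)
    obtain ⟨l, b3, b4⟩ := hS.cover z (hA z (H.sub b b1).2)
    obtain rfl : l = o b := by_contra fun e => b2 (mem_iUnion.2 ⟨⟨l, e⟩, b1, b3⟩)
    exact (hS.lt _ b4).2

end Vale.Agent.P277Z.Val
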