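import Vale.Agent.P277Z.Val.USk
import Vale.Agent.P277.A.Dim

/-!
# P277, block VAL: the count at the generic point of a surface
-/

open scoped Topology
open Vale.Agent.P277 Set Filter
open P277Z.Num (wt Dat Conn)

noncomputable section

namespace Vale.Agent.P277Z.Val

namespace Srf

variable {V : Lg} {X : CSp} {p : V.W → X.pt} {exc : Finset (Fin V.r)} {k : ℕ} {ρ : Fin k → ℝ}
  {a : Fin V.r → ℝ} {x : X.pt} {J : Type} [Fintype J] {cv : J → Set V.W} {o : J → Fin V.r}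
  {q : J → J → ℤ} {κ : J → ℤ} {dm : Fin k → J → ℕ} {nn : Fin V.r → J → ℕ}

theorem meet (h : Slc V p exc ρ a x cv o q κ dm nn) (hR : Res V X p exc)
    (hc : IsPreconnected (p ⁻¹' {x})) {A : Set J} (h1 : A.Nonempty) (h2 : Aᶜ.Nonempty) :
    ∃ b ∈ A, ∃ b' ∉ A, o b ≠ o b' ∧ (cv b ∩ cv b').Nonempty := by
  have key : ∀ B : Set J, B.Nonempty → (p ⁻¹' {x} ∩ ⋃ b ∈ B, cv b).Nonempty := fun B ⟨b, hb⟩ =>
    let ⟨y, hy⟩ := (h.inf b).nonempty
    ⟨y, (h.sub b hy).2, mem_biUnion hb hy⟩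
  have cl : ∀ B : Set J, IsClosed (⋃ b ∈ B, cv b) := fun B =>
    (toFinite B).isClosed_biUnion fun b _ => h.closed b
  obtain ⟨y, -, k1, k2⟩ := isPreconnected_closed_iff.1 hc _ _ (cl A) (cl Aᶜ) (fun y hy => by
    obtain ⟨b, -⟩ := h1
    obtain ⟨z, hz⟩ := (h.inf b).nonempty
    have k1 : y ∈ ⋃ l ∈ exc, V.G l := by_contra fun k => k (hR.inj y z k
      ((h.sub b hz).2.trans hy.symm) ▸ mem_biUnion (h.own b) (h.sub b hz).1)
    obtain ⟨l, k2, k3⟩ := mem_iUnion₂.1 k1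
    obtain ⟨b', -, k4⟩ := h.cover y hy l k2 k3
    by_cases k5 : b' ∈ A
    · exact .inl (mem_biUnion k5 k4)
    · exact .inr (mem_biUnion k5 k4)) (key A h1) (key _ h2)
  obtain ⟨b, a1, a2⟩ := mem_iUnion₂.1 k1
  obtain ⟨b', a3, a4⟩ := mem_iUnion₂.1 k2
  exact ⟨b, a1, b', a3, fun e => disjoint_left.1 (h.disj b b' (fun e' => a3 (e' ▸ a1)) e) a2 a4,
    y, a2, a4⟩

theorem conn (h : Slc V p exc ρ a x cv o q κ dm nn) (hR : Res V X p exc)
    (hc : IsPreconnected (p ⁻¹' {x})) : Conn Finset.univ q := fun A _ h1 h2 => by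
  obtain ⟨b, k1, b', k2, k3, k4⟩ := meet h hR hc (A := A) h1
    (nonempty_compl.2 fun e => h2 (Finset.coe_eq_univ.1 e))
  refine ⟨b, k1, b', Finset.mem_univ _, k2, ?_⟩
  rw [h.off b b' fun e => k3 (congrArg o e), Nat.cast_pos]
  exact (ncard_pos ((h.fin b _ k3.symm).subset
    (inter_subset_inter_right _ fun _ hy => (h.sub b' hy).1))).2 k4

open Classical in
theorem dat (h : Slc V p exc ρ a x cv o q κ dm nn) : Dat Finset.univ q κ
    (Sum.elim dm fun l b => if l ∈ exc then 0 else nn l b)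
    (Sum.elim ρ fun l => if l ∈ exc then 0 else -a l) fun b => a (o b) := by
  refine ⟨fun b _ b' _ => h.symm b b', fun b _ b' _ e => h.off b b' e ▸ Nat.cast_nonneg _,
    h.neg.imp fun c hc => ⟨fun b _ => hc.1 b, fun b _ => hc.2 b⟩, fun b _ => h.adj b,
    fun b _ => ?_⟩
  rw [← h.eqn b, Fintype.sum_sum_type, add_assoc, Finset.sum_filter]
  refine congrArg _ (congrArg₂ _ rfl (Finset.sum_congr rfl fun l _ => ?_))
  by_cases hl : l ∈ exc <;> simp [hl]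

end Srf

open Srf

theorem surf_of (h1 : StSlc) (h2 : StBig) (h3 : StImg) (h4 : StAn) : StSurf := by
  classical
  intro k ρ m V χ M Y L c ψ n hT α hα C hC
  set a := disc ρ c n with ha
  have hR := hT.pm.res
  have hol : HolTo V Y ψ := ⟨hR.cont, hR.hol⟩
  have hpos : ∀ l, l ∈ pos a ↔ 0 < a l := fun l => by simp [pos]
  have himg : ∀ l k S, IsCC V l k S → k ∈ pos a → ¬ DimLe Y 1 (ψ '' S) → ψ '' V.G k = ψ '' S :=
    fun l k S h hk => h3 V Y ψ l k S hol h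
      (hR.dim.mono (image_mono (subset_biUnion_of_mem (u := V.G) hk)))
  have hTp : ∀ γ ∈ Tp V a α, ∃ k, IsCC V γ.1 k γ.2 ∧ V.eC a γ = a k ∧ k ∈ pos a ∧ γ.1 ∉ pos a ∧
      a γ.1 + 1 < α := fun γ hγ => by
    obtain ⟨k1, k2, k3⟩ := Finset.mem_filter.1 hγ
    obtain ⟨k, hk⟩ := Lg.cmp_iff.1 k1
    exact ⟨k, hk, hk.eC a, (hpos k).2 (hk.eC a ▸ k3), fun e => by linarith [(hpos _).1 e], k2⟩
  obtain ⟨γ₀, h5, rfl⟩ := Finset.mem_image.1 hC
  obtain ⟨h5, h6⟩ := Finset.mem_filter.1 h5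
  obtain ⟨k₀, h7, -, h8, -⟩ := hTp γ₀ h5
  have : Nonempty Y.pt := hR.dim.nonempty
  obtain ⟨x, hx, hD, J, _, cv, o, q, κ, dm, nn, hS⟩ := h1 k ρ m V χ M Y L c ψ _ n hT.sum hT.lb
    hT.hc hT.pm _ (⋃ γ ∈ {γ | γ ∈ V.cmp ∧ DimLe Y 1 (ψ '' γ.2)}, ψ '' γ.2)
    (h2.2 V Y ψ _ _ _ hol h7 h6)
    (dimLe_biUnion (V.cmp.finite_toSet.subset fun _ h => h.1).countable fun _ h => h.2)
  obtain ⟨P, c', τ, p1, p2, p3, p4⟩ := hR.amp
  have hc := (h4 V Y ψ _ P c' τ hT.normal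
    ⟨hol, hR.surj, hR.emb, hR.inj, hR.dim, p1, p2, p3, p4⟩).2.1 x
  set Γ := (Tp V a α).filter fun γ => ψ '' γ.2 = ψ '' γ₀.2 with hΓ
  have h9 : ∀ γ ∈ Γ, ∃ b y, IsCC V γ.1 (o b) γ.2 ∧ y ∈ γ.2 ∧ y ∈ cv b := fun γ hγ => by
    obtain ⟨k1, k2⟩ := Finset.mem_filter.1 hγ
    obtain ⟨k, k3, -, k4, -⟩ := hTp γ k1
    obtain ⟨y, k5, k6⟩ : x ∈ ψ '' γ.2 := k2 ▸ hx
    obtain ⟨b, rfl, k7⟩ := hS.cover y k6 k k4 (k3.sub k5).2
    exact ⟨b, y, k3, k5, k7⟩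
  have h0 : γ₀ ∈ Γ := Finset.mem_filter.2 ⟨h5, rfl⟩
  have : Nonempty J := ⟨(h9 γ₀ h0).choose⟩
  have : Nonempty V.W := ⟨hx.choose⟩
  choose! j y j1 j2 j3 using h9
  have hn : ∀ γ ∈ Γ, γ.1 ∉ pos a ∧ a γ.1 + 1 < α := fun γ hγ =>
    let ⟨_, h⟩ := hTp γ (Finset.mem_filter.1 hγ).1
    h.2.2.2
  have hf : ∀ b, ∀ l ∉ pos a, (cv b ∩ V.G l).Finite := fun b l hl =>
    hS.fin b l fun e => hl (e ▸ hS.own b)
  have hall : ∀ b, ψ '' V.G (o b) = ψ '' γ₀.2 := by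
    by_contra e
    obtain ⟨b, k1, b', k2, k3, z, k4, k5⟩ := meet hS hR hc
      (A := {b | ψ '' V.G (o b) = ψ '' γ₀.2}) ⟨_, himg _ _ _ (j1 γ₀ h0) (hS.own _) h6⟩
      (not_forall.1 e)
    have k6 : z ∈ V.G (o b') ∩ V.G (o b) := ⟨(hS.sub b' k5).1, (hS.sub b k4).1⟩
    have k7 := isCC_cc k3 k6
    have k8 : ¬ DimLe Y 1 (ψ '' connectedComponentIn (V.G (o b') ∩ V.G (o b)) z) := fun k =>
      hD (mem_biUnion (x := (o b', _)) ⟨Lg.cmp_iff.2 ⟨_, k7⟩, k⟩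
        ⟨z, mem_connectedComponentIn k6, (hS.sub b k4).2⟩)
    exact k2 ((himg _ _ _ k7.symm (hS.own _) k8).trans
      ((himg _ _ _ k7 (hS.own _) k8).symm.trans k1))
  have key := P277Z.Num.count (fun t => by
      rcases t with e | l
      · exact (hT.hρ e).le
      · dsimp only [Sum.elim_inr]
        split_ifs with hl
        · exact le_rfl
        · exact neg_nonneg.2 (not_lt.1 fun e => hl ((hpos l).2 e)))
    (dat hS) (conn hS hR hc) (fun b _ => (hpos _).1 (hS.own b)) Γ ⟨_, h0⟩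
    (fun γ => Sum.inr γ.1) j (fun _ _ => Finset.mem_univ _) (fun γ hγ => by
      rw [Sum.elim_inr, if_neg (hn γ hγ).1, hS.nn_eq _ _ (hn γ hγ).1]
      exact (ncard_pos (hf _ _ (hn γ hγ).1)).2 ⟨_, j3 γ hγ, ((j1 γ hγ).sub (j2 γ hγ)).1⟩)
    (fun s => by
      rcases s with e | l
      · simp
      by_cases hl : l ∈ pos a
      · exact (Finset.card_eq_zero.2 (Finset.filter_eq_empty_iff.2 fun γ hγ e =>
          (hn γ hγ).1 ((Sum.inr.inj e : γ.1 = l).symm ▸ hl))).trans_le (Nat.zero_le _)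
      rw [Finset.card_eq_sum_card_fiberwise (f := j) (t := Finset.univ) fun _ _ => by simp]
      refine Finset.sum_le_sum fun b _ => ?_
      rw [Sum.elim_inr, if_neg hl, hS.nn_eq _ _ hl, ← ncard_coe_finset]
      refine ncard_le_ncard_of_injOn y (fun γ hγ => ?_) (fun γ hγ γ' hγ' e => ?_) (hf b l hl)
      · obtain ⟨k1, rfl⟩ := Finset.mem_filter.1 (Finset.mem_coe.1 hγ)
        obtain ⟨k3, k2⟩ := Finset.mem_filter.1 k1
        exact ⟨j3 γ k3, (Sum.inr.inj k2 : γ.1 = l) ▸ ((j1 γ k3).sub (j2 γ k3)).1⟩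
      · obtain ⟨k1, k2⟩ := Finset.mem_filter.1 (Finset.mem_coe.1 hγ)
        obtain ⟨k1, k3⟩ := Finset.mem_filter.1 k1
        obtain ⟨k4, k5⟩ := Finset.mem_filter.1 (Finset.mem_coe.1 hγ')
        obtain ⟨k4, k6⟩ := Finset.mem_filter.1 k4
        have k7 := Sum.inr.inj (k3.trans k6.symm)
        refine Prod.ext k7 ?_
        rw [(j1 γ k1).eq _ (j2 γ k1), (j1 γ' k4).eq _ (j2 γ' k4), e, k7, k2, k5])
    hα fun γ hγ => by
      rw [Sum.elim_inr, if_neg (hn γ hγ).1]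
      linarith [(hn γ hγ).2]
  refine (congrArg (1 + ·) (Finset.sum_congr rfl fun γ hγ => ?_)).trans_le (key.trans
    (Nat.add_le_add_right (Nat.add_le_add ?_ (Finset.sum_congr rfl fun γ hγ => ?_).le) _))
  · rw [Sum.elim_inr, if_neg (hn γ hγ).1]
  swap
  · rw [Sum.elim_inr, if_neg (hn γ hγ).1, (j1 γ hγ).eC a]
  refine (Finset.card_le_card fun t ht => ?_).trans (Finset.card_image_le (f := a))
  obtain ⟨b, k1, rfl⟩ := Finset.mem_image.1 ht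
  exact Finset.mem_image_of_mem a (Finset.mem_filter.2 ⟨Finset.mem_univ _, (hpos _).1 (hS.own b),
    (Finset.mem_filter.1 k1).2, hall b⟩)

end Vale.Agent.P277Z.Val
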