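import Vale.Agent.P277Z.Val.Tw0
import Vale.Agent.P277Z.Val.Ghp
import Vale.Agent.P277Z.Val.Glue
import Vale.Agent.P277Z.Glc.Sk0
import Vale.Agent.P277.HD.Conv

/-!
# P277, block VAL: the tower of the models
-/

open scoped Manifold ContDiff Topology
open Vale.Agent.P272.K Vale.Agent.P285.H281.FD Vale.Agent.P277 Set Filter

noncomputable section

namespace Vale.Agent.P277Z.Val.Tw

/-- the slice condition for one step -/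
def StSL : Prop :=
  ∀ (k : ℕ) (ρ : Fin k → ℝ) (m : Fin k → ℕ) (X Z X' : CSp) (f : X.pt → Z.pt) (f' : X'.pt → Z.pt)
    (L : Fin k → Bd X.pt) (L' : Fin k → Bd X'.pt) (c c' : Fin k → ℕ) (V : Lg) (χ : V.Fm)
    (M : Fin k → Bd V.W) (p : V.W → X.pt) (p' : V.W → X'.pt) exc n n' (Λ : AddSubmonoid ℝ),
    ∑ e, ρ e * m e = 1 → (∀ e, IsLBx X' (L' e)) → (∀ e, 1 ≤ c' e) →
    Step ρ m f f' L L' c c' V χ M p p' exc n n' → (∀ e, ρ e ∈ Λ) →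
    (∀ l ∉ exc, -disc ρ c' n' l ∈ Λ) → BigX X' {x' | f' x' ∈ Amin f} →
    SL Λ (disc ρ c n) (disc ρ c' n')

variable {k : ℕ} {ρ : Fin k → ℝ} (T : Glc.Seq k ρ) (m : Fin k → ℕ) (Λ : AddSubmonoid ℝ)

/-- `V` is a model of the pair number `j`, with the discrepancies `a` -/
def Lv (j : ℕ) (V : Lg) (a : Fin V.r → ℝ) : Prop :=
  ∃ (χ : V.Fm) (M : Fin k → Bd V.W) (p : V.W → (T.X j).pt) (exc : Finset (Fin V.r))
    (L : Fin k → Bd (T.X j).pt) (c : Fin k → ℕ) (n : Fin k → Fin V.r → ℤ), (∀ e, 1 ≤ c e) ∧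
    IsFlipR (T.X j) (T.Z j) (T.X (j + 1)) (T.f j) (T.f' j) (T.A j) L (T.L (j + 1)) c
      (T.c (j + 1)) ρ ∧
    IsPM m V χ M (T.X j) L c p exc n ∧ a = disc ρ c n ∧ ∀ l ∉ exc, -a l ∈ Λ

/-- a surface is flipped -/
def PP (j : ℕ) : Prop := BigX (T.X (j + 1)) {x' | T.f' j x' ∈ Amin (T.f j)}

variable {T m Λ} {j : ℕ} {V V' : Lg} {a : Fin V.r → ℝ} {π : V'.W → V.W}

theorem nex {s : Fin V.r → Fin V'.r} {exc₁ : Finset (Fin V'.r)} {exc : Finset (Fin V.r)}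
    (h : ∀ k, k ∈ exc₁ ↔ k ∉ range s) {l' : Fin V'.r} (hl : l' ∉ exc₁ ∪ exc.image s) :
    ∃ l ∉ exc, s l = l' := by
  rw [Finset.mem_union, not_or, h, not_not] at hl
  obtain ⟨⟨l, rfl⟩, c⟩ := hl
  exact ⟨l, fun d => c (Finset.mem_image_of_mem s d), rfl⟩

theorem Lv.blw (hP : StPull) (hm : ∑ e, ρ e * m e = 1) (h : Lv T m Λ j V a) {χ' exc₁ Z₀}
    (hb : Blw V' V π χ' exc₁ Z₀) : ∃ a', Lv T m Λ j V' a' ∧ Crep V' V π a' a := by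
  obtain ⟨χ, M, p, exc, L, c, n, h1, h2, h3, rfl, h4⟩ := h
  obtain ⟨s, hs⟩ := stStr _ _ _ hb.hom
  obtain ⟨n', k1, k2, -, k4⟩ := hP k m V χ M _ L c p exc n h2.normal h2.lb h1 h3 V' π χ' exc₁ Z₀ s
    hb hs
  refine ⟨_, ⟨χ', _, _, _, L, c, n', h1, h2, k1, rfl, fun l' hl => ?_⟩, k4 ρ hm⟩
  obtain ⟨l, d, rfl⟩ := nex k2 hl
  rw [(stStrA _ _ _ s _ _ hb.hom hs (k4 ρ hm)).2]
  exact h4 l d

theorem sep (hP : StPull) (hS : StSepGn) (hm : ∑ e, ρ e * m e = 1) : Sep (Lv T m Λ) := by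
  intro j V a h
  obtain ⟨χ, M, p, exc, L, c, n, -, -, h3, -⟩ := id h
  obtain ⟨V', π, χ', exc₁, Z₀, hb, hd⟩ := hS V χ (Ghp.nonempty h3.res) h3.kahler
  obtain ⟨s, hs⟩ := stStr _ _ _ hb.hom
  obtain ⟨a', k1, k2⟩ := h.blw hP hm hb
  exact ⟨V', π, a', s, k1, hb.hom, k2, hs, hd s hs⟩

theorem Lv.step (hS : StStep) (hL : StSL) (hm : ∑ e, ρ e * m e = 1) (hρ : ∀ e, ρ e ∈ Λ)
    (h : Lv T m Λ j V a) : ∃ (V' : Lg) (π : V'.W → V.W) (a₀ a' : Fin V'.r → ℝ), Hom V' V π ∧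
      Crep V' V π a₀ a ∧ Lv T m Λ (j + 1) V' a' ∧ a₀ ≤ a' ∧ (PP T j → SL Λ a₀ a') := by
  obtain ⟨χ, M, p, exc, L, c, n, h1, h2, h3, rfl, h4⟩ := h
  obtain ⟨V', π, χ', exc₁, s, p', q, n₀, n', hb, hs, hq, k1, -, k3, k4⟩ :=
    hS k ρ m _ _ _ _ _ _ L _ c _ hm h1 h2 V χ M p exc n h3
  have hf := flip_pow (T.flip (j + 1)).old hq
  have hc : ∀ e, 1 ≤ T.c (j + 1) e * q e := fun e => Nat.mul_pos (T.hc _ e) (hq e)
  have hn : ∀ l ∉ exc₁ ∪ exc.image s, -disc ρ (fun e => T.c (j + 1) e * q e) n' l ∈ Λ := by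
    intro l' hl
    rw [k4.eq l' fun d => hl (k4.lt l' d).1]
    obtain ⟨l, d, rfl⟩ := nex k1 hl
    rw [(stStrA _ _ _ s _ _ hb.hom hs k3).2]
    exact h4 l d
  refine ⟨V', π, _, _, hb.hom, k3, ⟨χ', _, p', _, _, _, n', hc, hf, k4.pm', rfl, hn⟩, fun l => ?_,
    hL k ρ m _ _ _ _ _ _ _ _ _ V' χ' _ _ p' _ n₀ n' Λ hm hf.lb hc k4 hρ hn⟩
  by_cases d : Ov V' (T.f j) (fun y => p (π y)) l
  · exact (k4.lt l d).2.le
  · exact (k4.eq l d).ge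

/-- the discrepancies of the pairs number `j₀, …, N` on a common model -/
structure Tow (P : ℕ → Prop) (Λ : AddSubmonoid ℝ) (j₀ N : ℕ) (V V₀ : Lg) (π : V.W → V₀.W)
    (a : ℕ → Fin V.r → ℝ) (a₀ : Fin V₀.r → ℝ) : Prop where
  hom : Hom V V₀ π
  crep : Crep V V₀ π (a j₀) a₀
  step : ∀ j, j₀ ≤ j → j < N → a j ≤ a (j + 1) ∧ (P j → SL Λ (a j) (a (j + 1)))

variable {P : ℕ → Prop} {j₀ N : ℕ} {V₀ : Lg} {θ : V.W → V₀.W} {b : ℕ → Fin V.r → ℝ}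
  {a₀ : Fin V₀.r → ℝ}

theorem Tow.pull (h : Tow P Λ j₀ N V V₀ θ b a₀) (hπ : Hom V' V π) {a'}
    (hc : Crep V' V π a' (b N)) : ∃ b', b' N = a' ∧ Tow P Λ j₀ N V' V₀ (fun y => θ (π y)) b' a₀ := by
  choose b' hb using fun j => hπ.hom0.exists_crep (b j)
  exact ⟨b', (hb N).unique hc, h.hom.trans hπ, h.crep.trans h.hom.hom0 hπ.hom0 (hb j₀),
    fun j c d => ⟨(hb j).mono hπ (hb _) (h.step j c d).1,
      fun e => ((h.step j c d).2 e).pull hπ (hb j) (hb _)⟩⟩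

theorem Tow.good (h : Tow P Λ j₀ N V V₀ θ b a₀) (hg : Good V₀ a₀) (hN : j₀ ≤ N) : Good V (b N) :=
  (hg.up h.hom h.crep).le (mono_of_succ (fun j c d => (h.step j c d).1) le_rfl hN le_rfl)

theorem Tow.thin (h : Tow P Λ j₀ N V V₀ θ b a₀) (hg : Good V₀ a₀) (hN : j₀ ≤ N) {l : Fin V.r}
    (hl : T3.ThinM 4 2 (θ '' V.G l)) : 0 < b N l :=
  (hg.thin h.hom h.crep hl).trans_le
    (mono_of_succ (fun j c d => (h.step j c d).1) le_rfl hN le_rfl l)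

theorem tower (hS : StStep) (hL : StSL) (hm : ∑ e, ρ e * m e = 1) (hρ : ∀ e, ρ e ∈ Λ)
    (h : Lv T m Λ j₀ V₀ a₀) (N : ℕ) (hN : j₀ ≤ N) : ∃ (V : Lg) (θ : V.W → V₀.W)
      (b : ℕ → Fin V.r → ℝ), Tow (PP T) Λ j₀ N V V₀ θ b a₀ ∧ Lv T m Λ N V (b N) := by
  induction N, hN using Nat.le_induction with
  | base => exact ⟨V₀, _, fun _ => a₀, ⟨Hom.refl V₀, Crep.refl V₀ a₀, fun j c d => by omega⟩, h⟩
  | succ N hN ih =>
    obtain ⟨V, θ, b, h1, h2⟩ := ih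
    obtain ⟨V', π, a₁, a', k1, k2, k3, k4, k5⟩ := h2.step hS hL hm hρ
    obtain ⟨b', rfl, k6⟩ := h1.pull k1 k2
    refine ⟨V', _, fun j => if j ≤ N then b' j else a', ⟨k6.hom, ?_, fun j c d => ?_⟩, ?_⟩
    · simpa only [if_pos hN] using k6.crep
    · obtain e | rfl := (Nat.lt_succ_iff.1 d).lt_or_eq
      · simpa only [if_pos e.le, if_pos (Nat.succ_le_of_lt e)] using k6.step j c e
      · simpa only [if_pos le_rfl, if_neg (Nat.not_succ_le_self j)] using And.intro k4 k5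
    · simpa only [if_neg (Nat.not_succ_le_self N)] using k3

theorem exists_lv (hS : StStep) (hL : StSL) (hm : ∑ e, ρ e * m e = 1) (hρ : ∀ e, ρ e ∈ Λ)
    (h : Lv T m Λ j₀ V₀ a₀) (N : ℕ) (hN : j₀ ≤ N) : HD.HasRes (T.X N) := by
  obtain ⟨V, -, -, -, χ, M, p, exc, L, c, n, -, -, h3, -⟩ := tower hS hL hm hρ h N hN
  refine ⟨V.W, _, inferInstance, inferInstance, _, inferInstance, p, _, h3.res.cont,
    fun y e he g hg => h3.res.hol y g hg e he, h3.res.emb, h3.res.dim.mono fun x hx => ?_⟩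
  obtain ⟨y, rfl⟩ := h3.res.surj x
  exact ⟨y, by_contra fun d => hx ⟨y, d, rfl⟩, rfl⟩

end Vale.Agent.P277Z.Val.Tw
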