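import Vale.Agent.P277Z.Val.Tw1
import Vale.Agent.P277Z.Val.ResF
import Vale.Agent.P277Z.Top.Sk
import Vale.Agent.P277Z.St.Sk
import Vale.Agent.P277.H884.T.Tail0

/-!
# P277, block VAL: the terminal model, the klt case
-/

open scoped Manifold ContDiff Topology
open Vale.Agent.P272.K Vale.Agent.P285.H281.FD Vale.Agent.P277 Set Filter
open Vale.Agent.P277.HD (pull)

noncomputable section

namespace Vale.Agent.P277Z.Val.Tw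

/-- a model which dominates a given resolution -/
def StDom1 : Prop :=
  ∀ (V : Lg) (χ : V.Fm) (Y : CSp) (ψ : V.W → Y.pt) exc (U : Lg) (p : U.W → Y.pt), IsKahler χ →
    IsNormal 4 Y → Res V Y ψ exc → Res U Y p Finset.univ →
    ∃ (V' : Lg) (π : V'.W → V.W) (χ' : V'.Fm) (exc₁ : Finset (Fin V'.r)) (Z₀ : Set V.W)
      (μ : V'.W → U.W), Blw V' V π χ' exc₁ Z₀ ∧ HolTo V' U.X μ ∧ ∀ y, p (μ y) = ψ (π y)

variable {k : ℕ} {ρ : Fin k → ℝ} {T : Glc.Seq k ρ} {m : Fin k → ℕ} {Λ : AddSubmonoid ℝ}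
  {j : ℕ} {V V' : Lg} {a : Fin V.r → ℝ} {π : V'.W → V.W} {Y : CSp} {ψ : V.W → Y.pt}

theorem lb_triv (V : Lg) : IsLB 4 (triv V.W) :=
  ⟨fun _ => isOpen_univ, fun _ => ⟨(), trivial⟩, fun _ _ _ _ _ _ _ => contDiffAt_const,
    fun _ _ _ _ _ => one_ne_zero, fun _ _ _ _ _ _ _ => mul_one _⟩

variable (ρ m V a Y ψ) in
/-- `V` is a good model of the terminal pair on `Y` -/
def Pk : Prop := (∃ χ M L c n, Trm ρ m V χ M Y L c ψ n ∧ a = disc ρ c n) ∧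
  ∀ m₀ b, QCar V Y ψ (pos a) m₀ b

theorem Pk.blw (hP : StPull) (hC : StCmpP) (h : Pk ρ m V a Y ψ) {χ' exc₁ Z₀}
    (hb : Blw V' V π χ' exc₁ Z₀) {a'} (hc : Crep V' V π a' a) :
    Pk ρ m V' a' Y fun y => ψ (π y) := by
  obtain ⟨⟨χ, M, L, c, n, h1, rfl⟩, h2⟩ := h
  obtain ⟨s, hs⟩ := stStr _ _ _ hb.hom
  obtain ⟨n', k1, k2, -, k4⟩ := hP k m V χ M _ L c ψ _ n h1.normal h1.lb h1.hc h1.pm V' π χ' exc₁ Z₀
    s hb hs
  obtain rfl := hc.unique (k4 ρ h1.sum)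
  have e := pos_up hb.hom hs hc h1.good k2
  refine ⟨⟨χ', _, L, c, n', ⟨h1.hρ, h1.sum, h1.normal, h1.lb, h1.hc, e ▸ k1,
    h1.good.up hb.hom hc⟩, rfl⟩, fun m₀ b => ?_⟩
  obtain ⟨L₀, q, ν, d1, d2, d3, d4⟩ := h2 m₀ fun l => b (s l)
  obtain ⟨ν', e1, e2, -⟩ := hC V' V π s hb.hom hs Y ψ 1 (fun _ => m₀) (fun _ => q)
    (fun _ => triv V.W) (fun _ => L₀) (fun _ => ν) h1.pm.res.cont (fun _ => d1)
    (fun _ => lb_triv V) (fun _ => d2) d3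
  obtain ⟨ν'', rfl⟩ : ∃ ν'', ν' = fun _ => ν'' :=
    ⟨ν' 0, funext fun i => congrArg ν' (Subsingleton.elim _ _)⟩
  refine ⟨L₀, q, ν'', d1, d2, e1, fun l' hl => ?_⟩
  obtain ⟨l, d, rfl⟩ := nex k2 (e ▸ hl)
  exact (e2 0 l).trans (d4 l d)

theorem Lv.extr (hE : StExtrV) (hP : StPull) (hρ : ∀ e, 0 < ρ e) (hm : ∑ e, ρ e * m e = 1)
    (hΛ : ∀ x ∈ Λ, 0 ≤ x) (h : Lv T m Λ j V a) (hg : Good V a) :
    ∃ (V' : Lg) (π : V'.W → V.W) (a' : Fin V'.r → ℝ) (Y : CSp) (ψ : V'.W → Y.pt), Hom V' V π ∧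
      Crep V' V π a' a ∧ Lv T m Λ j V' a' ∧ Pk ρ m V' a' Y ψ := by
  obtain ⟨χ, M, p, exc, L, c, n, h1, h2, h3, rfl, h4⟩ := id h
  obtain ⟨V', π, χ', exc₁, Z₀, s, Y, g, ψ, Λ₀, hb, hs, k1, k2, k3, -, -, k4, k5⟩ :=
    hE k ρ m V χ M _ L c p exc n hρ hm h2.normal h2.lb h1 h3 hg.klt fun l d =>
      neg_nonneg.1 (hΛ _ (h4 l d))
  obtain ⟨a', e1, e2⟩ := h.blw hP hm hb
  obtain ⟨n', d1, d2, -, d4⟩ := hP k m V χ M _ L c p exc n h2.normal h2.lb h1 h3 V' π χ' exc₁ Z₀ s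
    hb hs
  obtain rfl := e2.unique (d4 ρ hm)
  have e := pos_up hb.hom hs e2 hg d2
  rw [e] at k4 k5
  obtain ⟨t, ht⟩ := d1.cmp
  simp only [← k3] at ht
  exact ⟨V', π, _, Y, ψ, hb.hom, e2, e1, ⟨χ', _, fun e => pull g (L e), c, n', ⟨hρ, hm, k1,
    fun e => RF.lbx_pull k2 (h2.lb e), h1, ⟨d1.kahler, d1.lb, d1.nef, k4, t, ht.div, ht.change⟩,
    hg.up hb.hom e2⟩, rfl⟩, k5⟩

theorem Pk.top (hT : Top.StTop) (hV : StVol) (hC : StCar) (h : Pk ρ m V a Y ψ) {U V₀ : Lg}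
    {p : U.W → Y.pt} {μ : V.W → U.W} {θ : V.W → V₀.W} (hU : Res U Y p Finset.univ)
    (hd : DimLe Y 1 (p '' U.E)) (hμ : HolTo V U.X μ) (e : ∀ y, p (μ y) = ψ y)
    (hn : NoEcho V a Y ψ) (hθ : Hom V V₀ θ) (ht : ∀ l, T3.ThinM 4 2 (θ '' V.G l) → 0 < a l)
    {α : ℝ} (hα : α ≤ 1) : Top V a Y ψ α V₀.cmp.card := by
  obtain ⟨⟨χ, M, L, c, n, h1, rfl⟩, h2⟩ := h
  refine hT V V₀ U _ Y ψ α θ μ p ⟨hα, h1.normal, h1.good, h1.pm.res, hU, hd, ⟨hμ.cont,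
    fun x e e' he he' => AnalyticAt.pi fun i => hμ.hol x (fun y => e' y i) ?_ e he⟩, e,
    ⟨k, m, χ, M, L, c, n, ρ, h1.pm.kahler, fun e => ⟨h1.pm.lb e, h1.pm.nef e, h1.lb e, h1.hc e,
      (h1.hρ e).le⟩, h1.sum, rfl, h1.pm.cmp⟩, hV k ρ m V χ M Y L c ψ n U p μ h1 (h2 1 0) hU hμ e,
    fun l hl => hC V Y ψ _ l h1.normal h1.pm.res (by simp [pos]; linarith) (h2 _ _),
    fun c c1 c2 c3 => by linarith [hn c c1 c2 c3, h1.good.klt c.1]⟩ hθ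
    fun l c d => lt_asymm c (ht l d)
  exact fun e₁ he₁ => analyticAt_pi_iff.1 (PH.chg_analyticAt he' he₁) i

/-- the inputs -/
structure In : Prop where
  step : StStep
  sl : StSL
  pull : StPull
  cmp : StCmpP
  sep : StSepGn
  extr : StExtrV
  reg : StRegT
  gh0 : StGH0
  dom : StDom1
  vg : StVG
  surf : StSurf
  top : Top.StTop
  vol : StVol
  car : StCar
  big : StBig
  val : StVal

theorem up (H : In) (hρ : ∀ e, 0 < ρ e) (hm : ∑ e, ρ e * m e = 1) {I : Set ℝ}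
    (hI : ∀ x ∈ I, 0 ≤ x) (hρI : ∀ e, ρ e ∈ I) :
    Up (Lv T m (AddSubmonoid.closure I)) (PP T) I := by
  have hΛ : ∀ x ∈ AddSubmonoid.closure I, 0 ≤ x := fun x hx =>
    AddSubmonoid.closure_induction hI le_rfl (fun _ _ _ _ => add_nonneg) hx
  intro j₀ V₀ a₀ h hg
  refine ⟨V₀.cmp.card, fun N hN => ?_⟩
  obtain ⟨V, θ, b, t0, l0⟩ := tower H.step H.sl hm
    (fun e => AddSubmonoid.subset_closure (hρI e)) h N hN
  obtain ⟨V₁, π₁, a₁, Y, ψ, c1, c2, l1, p1⟩ := l0.extr H.extr H.pull hρ hm hΛ (t0.good hg hN)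
  obtain ⟨b₁, rfl, t1⟩ := t0.pull c1 c2
  obtain ⟨⟨χ, M, L, c, n, r1, r2⟩, -⟩ := id p1
  obtain ⟨U, p, hU, hU'⟩ := H.gh0 Y r1.normal
  have hd : DimLe Y 1 (p '' U.E) := (H.reg k ρ m V₁ χ M Y L c ψ n r1).mono (by
    rintro _ ⟨y, hy, rfl⟩
    obtain ⟨l, hl⟩ := mem_iUnion.1 hy
    exact hU' l y hl)
  obtain ⟨V₂, π₂, χ₂, exc₂, Z₂, μ, d1, d2, d3⟩ :=
    H.dom V₁ χ Y ψ _ U p r1.pm.kahler r1.normal r1.pm.res hU
  obtain ⟨a₂, l2, d4⟩ := l1.blw H.pull hm d1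
  have p2 := p1.blw H.pull H.cmp d1 d4
  obtain ⟨b₂, rfl, t2⟩ := t1.pull d1.hom d4
  obtain ⟨⟨χ', M', L', c', n', r3, r4⟩, -⟩ := id p2
  obtain ⟨V₃, π₃, χ₃, exc₃, Z₃, e1, e2⟩ := H.vg V₂ χ₂ (b₂ N) Y _ d1.kahler (t2.good hg hN)
    (r4 ▸ r3.pm.res)
  obtain ⟨a₃, l3, e3⟩ := l2.blw H.pull hm e1
  have p3 := p2.blw H.pull H.cmp e1 e3
  obtain ⟨b₃, rfl, t3⟩ := t2.pull e1.hom e3
  obtain ⟨⟨χ'', M'', L'', c'', n'', r5, r6⟩, -⟩ := id p3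
  refine ⟨V₃, _, b₃, Y, _, t3.hom, t3.crep, l3, t3.step, r6 ▸ r5.pm.res, fun _ α _ hα =>
    ⟨r6 ▸ H.surf k ρ m V₃ _ _ Y _ _ _ _ r5 α hα, p3.top H.top H.vol H.car (μ := fun y => μ (π₃ y)) hU
      hd ⟨d2.cont.comp e1.hom.cont, fun y g hg' => e1.hom.hom0.holF (d2.hol _ g hg')⟩
      (fun y => d3 _) (e2 _ e3) t3.hom (fun l => t3.thin hg hN) hα⟩⟩

theorem gklt_of (H : In) : St.MOD fun x => x < 1 := by
  intro k m ρ T V χ M p exc n _ _ hρ hm hp hS hn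
  have hk : 1 ≤ k := Nat.pos_of_ne_zero (by rintro rfl; simp at hm)
  set I : Set ℝ := range ρ ∪ (fun l => -disc ρ (T.c 0) n l) '' {l | l ∉ exc} with hI
  have hI0 : ∀ x ∈ I, 0 ≤ x := by
    rintro _ (⟨e, rfl⟩ | ⟨l, hl, rfl⟩)
    exacts [(hρ e).le, neg_nonneg.2 (hn l hl)]
  have h0 : Lv T m (AddSubmonoid.closure I) 0 V (disc ρ (T.c 0) n) :=
    ⟨χ, M, p, exc, _, _, n, T.hc 0, (T.flip 0).old, hp, rfl, fun l hl =>
      AddSubmonoid.subset_closure (Or.inr ⟨l, hl, rfl⟩)⟩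
  obtain ⟨J, hJ⟩ := H.val _ (PP T) I ((finite_range ρ).union ((toFinite _).image _)) hI0
    ⟨0, V, _, h0, fun l => by linarith [hS l]⟩ (sep H.pull H.sep hm)
    (up H hρ hm hI0 fun e => Or.inl ⟨e, rfl⟩)
  choose p₁ q₁ s d a _ _ hD _ using fun j => H615.exists_flipD (T.flip j).old (T.hc j)
  obtain ⟨j, hj, hb⟩ := H884.T.tail0 (fun j => (hD j).flip none) (fun N => ⟨N, le_rfl,
    exists_lv H.step H.sl hm (fun e => AddSubmonoid.subset_closure (Or.inl ⟨e, rfl⟩)) h0 N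
      (Nat.zero_le N)⟩) J
  have hs := (hD j).small'
  refine hJ j hj (H.big.1 _ _ (fun x _ => ?_) hs.dim fun c => hb (c.mono ?_))
  · obtain ⟨r, h, h1, h2⟩ := hs.an (T.f' j x) trivial
    exact ⟨r, fun i => h i ∘ T.f' j, fun i => hs.holo x _ (h1 i), hs.cont.continuousAt.eventually h2⟩
  · rintro x ⟨x', h1, h2⟩
    exact by_contra fun c => h2 (hs.inj x x' c h1)

end Vale.Agent.P277Z.Val.Tw
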