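import Vale.Agent.P277Z.Val.Imm

/-!
# P277, block VAL: uniqueness of the echoes
-/

set_option linter.unusedSectionVars false

open scoped Manifold ContDiff
open Set Filter Metric Topology Function
open Vale.Agent.P272.K Vale.Agent.P277.PH
open Vale.Agent.P277.T3 (ThinM IsAnAt)
open Vale.Agent.P277.H762 (Cv)

noncomputable section

namespace Vale.Agent.P277Z.Val.U

variable {V V' : Lg} {π : V'.W → V.W}

section lift
variable {σ : Cm 4 → V.W} {γ γ' : Cm 4 → V'.W} {w : Cm 4}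

/-- `γ` is a lift of `σ` near `w` -/
def Lf (π : V'.W → V.W) (σ : Cm 4 → V.W) (γ : Cm 4 → V'.W) (w : Cm 4) : Prop :=
  AnM 4 γ w ∧ ∀ᶠ w' in 𝓝 w, π (γ w') = σ w'

theorem Lf.eventually (h : Lf π σ γ w) : ∀ᶠ w' in 𝓝 w, Lf π σ γ w' :=
  h.1.eventually.and h.2.eventually_nhds

theorem Lf.uniq (h : Hom V' V π) (hd : ∃ᶠ w' in 𝓝 w, σ w' ∈ π '' V'.Eᶜ) (h1 : Lf π σ γ w)
    (h2 : Lf π σ γ' w) : γ w = γ' w := by
  refine tendsto_nhds_unique_of_frequently_eq h1.1.1 h2.1.1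
    ((hd.and_eventually (h1.2.and h2.2)).mono ?_)
  rintro w' ⟨⟨y, e1, e2⟩, e3, e4⟩
  exact (h.inj y _ e1 (e3.trans e2.symm)).trans (h.inj y _ e1 (e4.trans e2.symm)).symm

theorem Lf.iff (h : Hom V' V π) (hd : ∀ᶠ w' in 𝓝 w, ∃ᶠ w'' in 𝓝 w', σ w'' ∈ π '' V'.Eᶜ)
    (h1 : Lf π σ γ w) (G : Set V'.W) :
    ∀ᶠ w' in 𝓝 w, w' ∈ {w | ∃ γ, Lf π σ γ w ∧ γ w ∈ G} ↔ γ w' ∈ G := by
  filter_upwards [hd, h1.eventually] with w' e1 e2
  exact ⟨fun ⟨_, e3, e4⟩ => (e3.uniq h e1 e2) ▸ e4, fun e => ⟨γ, e2, e⟩⟩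

theorem Lf.anAt (h : Hom V' V π) (hd : ∀ᶠ w' in 𝓝 w, ∃ᶠ w'' in 𝓝 w', σ w'' ∈ π '' V'.Eᶜ)
    (h1 : Lf π σ γ w) (m : Fin V'.r) : AnAt {w | ∃ γ, Lf π σ γ w ∧ γ w ∈ V'.G m} w := by
  obtain ⟨k, f, e1, e2⟩ := anAt_comp h1.1 (isAnAt_G V' m _)
  exact ⟨k, f, e1, ((h1.iff h hd _).and e2).mono fun _ e => e.1.trans e.2⟩

theorem lift_off (h : Hom V' V π) {W : Set (Cm 4)} (hW : IsOpen W)
    (hσ : ∀ w ∈ W, AnM 4 σ w ∧ ∃ᶠ w' in 𝓝 w, σ w' ∈ π '' V'.Eᶜ) :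
    ∃ T, Cv 2 T ∧ ∀ w ∈ W, w 0 = 0 → w ∉ T → ∃ γ, Lf π σ γ w := by
  refine ⟨_, h.lifts W hW σ (fun w hw => P277.H60.Z.holAt_iff.2 (hσ w hw).1) fun w hw =>
    mem_closure_iff_frequently.2 (((hσ w hw).2.and_eventually (hW.mem_nhds hw)).mono
      fun _ e => ⟨e.2, e.1⟩), fun w e1 e2 e3 => ?_⟩
  obtain ⟨γ, f1, f2, f3⟩ := not_not.1 fun e => e3 ⟨e1, e2, e⟩
  refine ⟨γ, ⟨f1, f2⟩, ?_⟩
  filter_upwards [AnM.eventually ⟨f1, f2⟩, f3.eventually_nhds, hW.mem_nhds e1] with w' g1 g2 g3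
  exact tendsto_nhds_unique_of_frequently_eq (h.cont.continuousAt.comp g1.1) (hσ w' g3).1.1
    (((hσ w' g3).2.and_eventually g2).mono fun _ e => (e.2 e.1).2)

end lift

theorem jd_blw (q : ℕ) (w : Cm 4) : jd (blw q) w = w 0 ^ q := by
  have := det_blw_comp q (ψ := fun w : Cm 4 => w) (w := w) analyticAt_id
  rw [fderiv_fun_id] at this
  exact this.trans (by rw [show (ContinuousLinearMap.id ℂ (Cm 4)).det = 1 from LinearMap.det_id,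
    mul_one])

theorem blw_D {q : ℕ} (hq : 1 ≤ q) {w : Cm 4} (h : w 0 = 0) : blw q w = pl (pr w) := by
  rw [← pl_pr ((blw_zero q w).trans h) (by rw [blw_one, h, zero_pow (by omega), zero_mul])]
  exact congrArg pl (funext fun i => blw_ne q w (i := i.succ.succ) (by fin_cases i <;> decide))

theorem freq_blw (h : Hom V' V π) {c : V.W → Cm 4} {ξ : Cm 4 → V.W} (q : ℕ) {w : Cm 4}
    (hc : ∀ᶠ u in 𝓝 (blw q w), Crd c ξ (ξ u) ∧ c (ξ u) = u) :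
    ∃ᶠ w' in 𝓝 w, ξ (blw q w') ∈ π '' V'.Eᶜ := by
  refine frequently_frequently_nhds.1 (((freq_ne w).and_eventually
    ((an_blw q w).continuousAt.eventually hc)).mono ?_)
  rintro w' ⟨e1, e2, e3⟩
  obtain ⟨θ, k1, k2, -, k4⟩ := LocIso.exists_inv ⟨an_blw q w', show jd _ _ ≠ 0 by
    rw [jd_blw]; exact pow_ne_zero _ e1⟩
  obtain ⟨y, hy⟩ := h.surj (ξ (blw q w'))
  have f1 : Tendsto (fun y => c (π y)) (𝓝 y) (𝓝 (blw q w')) := by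
    rw [← e3]
    exact e2.cont.tendsto.comp (hy ▸ h.cont.continuousAt)
  have f2 : Tendsto θ (𝓝 (blw q w')) (𝓝 w') := by
    have := k1.1.continuousAt
    rwa [ContinuousAt, k2] at this
  refine (f2.comp f1).frequently (((freq_notE V' y).and_eventually ((f1.eventually k4).and
    (h.cont.continuousAt.eventually (hy ▸ e2.left)))).mono ?_)
  rintro y' ⟨g1, g2, g3⟩
  exact ⟨y', g1, g3.symm.trans (congrArg ξ g2.symm)⟩

/-- `γ` is a wedge of the echo number `q` of the image of `S` near `y` -/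
structure Wd (π : V'.W → V.W) (l : Fin V.r) (S : Set V'.W) (q : ℕ) (y : V'.W) (γ : Cm 4 → V'.W)
    (w₁ : Cm 4) : Prop where
  an : AnM 4 γ w₁
  zero : w₁ 0 = 0
  base : π (γ w₁) = π y
  br : ∀ N ∈ 𝓝 y, ∀ᶠ w in 𝓝 w₁, w 0 = 0 → π (γ w) ∈ π '' (N ∩ S)
  ord : ∃ (c : V.W → Cm 4) (ξ : Cm 4 → V.W) (ζ : Fin V.r → V.W → ℂ), Crd c ξ (π y) ∧
    V.Eq (π y) ζ ∧ OrdGe (fun w => ζ l (π (γ w))) w₁ q ∧ OrdEq (jd fun w => c (π (γ w))) w₁ q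

/-- adapted coordinates -/
structure Ad (π : V'.W → V.W) (l : Fin V.r) (S : Set V'.W) (y : V'.W) (c' : V'.W → Cm 4)
    (ξ' : Cm 4 → V'.W) (c : V.W → Cm 4) (ξ : Cm 4 → V.W) : Prop where
  sc : Sc S y c' ξ'
  crd : Crd c ξ (π y)
  eq : ∃ ζ, V.Eq (π y) ζ ∧ ∀ᶠ z in 𝓝 (π y), c z 1 = ζ l z
  id : ∀ᶠ x in 𝓝 y, x ∈ S → c (π x) = c' x

/-- the centre of the wedge is contained in the component `m` -/
def Mk (γ : Cm 4 → V'.W) (w₁ : Cm 4) (m : Fin V'.r) : Prop :=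
  ∀ᶠ w in 𝓝 w₁, w 0 = 0 → γ w ∈ V'.G m

variable {l : Fin V.r} {S : Set V'.W} {q : ℕ} {y : V'.W} {γ : Cm 4 → V'.W} {w₁ : Cm 4}
  {c' : V'.W → Cm 4} {ξ' : Cm 4 → V'.W} {c : V.W → Cm 4} {ξ : Cm 4 → V.W}

theorem Wd.ord' (h : Hom V' V π) (hw : Wd π l S q y γ w₁) (hc : Crd c ξ (π y)) {ζ}
    (hζ : V.Eq (π y) ζ) :
    OrdGe (fun w => ζ l (π (γ w))) w₁ q ∧ OrdEq (jd fun w => c (π (γ w))) w₁ q := by
  obtain ⟨c₁, ξ₁, ζ₁, h1, h2, h3, h4⟩ := hw.ord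
  have h5 := hw.an.map (holM h _)
  rw [← hw.base] at hc hζ h1 h2
  obtain ⟨u, h6, h7⟩ := h2.unit hζ
  have h8 := h5.hol (h6 l).1
  have h9 := h1.chg hc
  have h10 := h1.an_comp h5
  refine ⟨(h3.mul (ordGe_zero h8)).congr
    ((h5.1.eventually h7).mono fun w e => (e l).symm),
    (LocIso.ordEq h9 h10 h4).congr ?_⟩
  filter_upwards [(h5.1.eventually h1.left).eventually_nhds] with w e
  exact congrArg ContinuousLinearMap.det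
    (EventuallyEq.fderiv_eq (e.mono fun _ e => congrArg c e))

theorem Ad.eventually (h : Hom V' V π) (ha : Ad π l S y c' ξ' c ξ) :
    ∀ᶠ x in 𝓝 y, Ad π l S x c' ξ' c ξ := by
  obtain ⟨ζ, h1, h2⟩ := ha.eq
  filter_upwards [ha.sc.eventually, ha.id.eventually_nhds, h.cont.continuousAt.eventually
    (ha.crd.eventually.and (h1.eventually.and h2.eventually_nhds))] with x e1 e2 e3
  exact ⟨e1, e3.1, ⟨ζ, e3.2⟩, e2⟩

theorem exists_ad (h : Hom V' V π) (hS : IsSf S) (hl : π '' S ⊆ V.G l) (hy : Imm π S y) :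
    ∃ c' ξ' c ξ, Ad π l S y c' ξ' c ξ := by
  obtain ⟨c', ξ', h'⟩ := hS y hy.mem
  obtain ⟨c, ξ, lab, hc, h1⟩ := exists_ch1 (hl ⟨y, hy.mem, rfl⟩) 1
  obtain ⟨c₂, ξ₂, k1, k2, k3⟩ := hy.adapt h' (holM h y) hc.crd
    ((h.cont.continuousAt.eventually (hc.mem_iff h1)).mono fun x e hx => e.1 (hl ⟨x, hx, rfl⟩))
  exact ⟨c', ξ', c₂, ξ₂, h', k1, ⟨_, hc.eq, by simpa only [eqs, h1, Option.elim_some] using k2⟩, k3⟩

/-- every wedge is the standard one -/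
theorem Wd.std (h : Hom V' V π) (hw : Wd π l S q y γ w₁) (ha : Ad π l S y c' ξ' c ξ) (hq : 1 ≤ q) :
    ∃ᶠ w₂ in 𝓝 w₁, w₂ 0 = 0 ∧ ∃ (x : Cm 4) (γ' : Cm 4 → V'.W), x 0 = 0 ∧
      blw q x = c (π (γ w₂)) ∧ Lf π (fun w => ξ (blw q w)) γ' x ∧ ∀ m, Mk γ w₂ m ↔ Mk γ' x m := by
  obtain ⟨ζ, h1, h2⟩ := ha.eq
  obtain ⟨h3, h4⟩ := hw.ord' h ha.crd h1
  have h5 := hw.an.map (holM h _)
  have hc := ha.crd
  rw [← hw.base] at hc h2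
  have h6 := hc.an_comp h5
  refine ((echo_gen h6 hw.zero hq (ordGe_one (analyticAt_pi_iff.1 h6 0) hw.zero ?_)
    (h3.congr ((h5.1.eventually h2).mono fun _ e => e.symm)) h4).and_eventually
    (hw.an.eventually.and (h5.1.eventually hc.left).eventually_nhds)).mono ?_
  · filter_upwards [hw.br _ (ha.id.and ha.sc.mem)] with w e1 e2
    obtain ⟨x, ⟨⟨e3, e4⟩, e5⟩, e6⟩ := e1 e2
    rw [← e6, e3 e5, (e4.1 e5).1]
  · rintro w₂ ⟨⟨e1, ψ, e2, e3, e4⟩, e5, e6⟩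
    obtain ⟨θ, k1, k2, k3, k4⟩ := e2.exists_inv
    have k5 : Tendsto θ (𝓝 (ψ w₂)) (𝓝 w₂) := by
      have := k1.1.continuousAt
      rwa [ContinuousAt, k2] at this
    refine ⟨e1, ψ w₂, fun x => γ (θ x), e3.zero_iff.self_of_nhds.2 e1, e4.self_of_nhds.symm,
      ⟨AnM.comp (by rwa [k2]) k1.1, ?_⟩, fun m => ⟨fun hm => ?_, fun hm => ?_⟩⟩
    · filter_upwards [k5.eventually (e4.and e6), k4] with x f1 f2
      rw [← f1.2, f1.1, f2]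
    · filter_upwards [k5.eventually (e3.zero_iff.and hm), k4] with x f1 f2 f3
      exact f1.2 (f1.1.1 (by rwa [f2]))
    · filter_upwards [e2.1.continuousAt.eventually hm, e3.zero_iff, k3] with x f1 f2 f3 f4
      exact f3 ▸ f1 (f2.2 f4)

/-- the lifts of the standard wedge -/
theorem Lf.wd (h : Hom V' V π) (ha : Ad π l S y c' ξ' c ξ) (hy : y ∈ S) (hq : 1 ≤ q)
    (h0 : w₁ 0 = 0) (hp : pr w₁ = pr (c' y)) (hγ : Lf π (fun w => ξ (blw q w)) γ w₁) :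
    Wd π l S q y γ w₁ := by
  have h1 : blw q w₁ = c (π y) := by rw [blw_D hq h0, hp, ha.sc.pl hy, ha.id.self_of_nhds hy]
  have h2 : π (γ w₁) = π y := hγ.2.self_of_nhds.trans ((congrArg ξ h1).trans ha.crd.inv)
  have h3 : ∀ᶠ w in 𝓝 w₁, c (π (γ w)) = blw q w := by
    filter_upwards [hγ.2, (an_blw q w₁).continuousAt.eventually (h1 ▸ ha.crd.right)] with w e1 e2
    rw [e1, e2]
  obtain ⟨ζ, h4, h5⟩ := ha.eq
  refine ⟨hγ.1, h0, h2, fun N hN => ?_, c, ξ, ζ, ha.crd, h4,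
    ⟨fun w => w 1, an_coord _ _, ?_⟩, ⟨fun _ => 1, analyticAt_const, one_ne_zero, ?_⟩⟩
  · have e1 : Tendsto pr (𝓝 w₁) (𝓝 (pr (c' y))) := pr.continuous.tendsto' _ _ hp
    filter_upwards [hγ.2, e1.eventually ((ha.sc.par hy).and ((ha.sc.tend hy).eventually
      (ha.sc.eventually.and (ha.id.and (Eventually.and hN
        (h.cont.continuousAt.eventually ha.crd.left))))))] with w f1 ⟨f2, f3, f4, f5, f6⟩ f7
    refine ⟨_, ⟨f5, f2.1⟩, ?_⟩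
    rw [f1, ← f6, f4 f2.1, ← f3.pl f2.1, f2.2, blw_D hq f7]
  · filter_upwards [h3, (hγ.1.map (holM h _)).1.eventually (h2 ▸ h5)] with w e1 e2
    rw [← e2, e1, blw_one]
  · filter_upwards [h3.eventually_nhds] with w e
    rw [mul_one, ← jd_blw]
    exact congrArg ContinuousLinearMap.det (EventuallyEq.fderiv_eq e)

theorem std_lift (h : Hom V' V π) {z : V.W} (hc : Crd c ξ z) (q : ℕ) : ∃ r > 0, ∃ T, Cv 2 T ∧
    ∀ w, blw q w ∈ ball (c z) r → (∀ᶠ w' in 𝓝 w, ∃ᶠ w'' in 𝓝 w', ξ (blw q w'') ∈ π '' V'.Eᶜ) ∧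
      (w 0 = 0 → w ∉ T → ∃ γ, Lf π (fun w => ξ (blw q w)) γ w) := by
  obtain ⟨r, hr, hb⟩ := Metric.eventually_nhds_iff_ball.1
    ((hc.tend.eventually hc.eventually).and hc.right)
  have hW : IsOpen {w : Cm 4 | blw q w ∈ ball (c z) r} :=
    isOpen_ball.preimage (continuous_iff_continuousAt.2 fun w => (an_blw (m := 2) q w).continuousAt)
  have hd : ∀ w : Cm 4, blw q w ∈ ball (c z) r → ∃ᶠ w' in 𝓝 w, ξ (blw q w') ∈ π '' V'.Eᶜ :=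
    fun w hw => freq_blw h q (eventually_of_mem (isOpen_ball.mem_nhds hw) hb)
  have ha : ∀ w : Cm 4, blw q w ∈ ball (c z) r → AnM 4 (fun w => ξ (blw q w)) w := fun w hw => by
    have e := (hb _ hw).1.an
    rw [(hb _ hw).2] at e
    exact e.comp (an_blw q w)
  obtain ⟨T, t1, t2⟩ := lift_off h hW fun w hw => ⟨ha w hw, hd w hw⟩
  exact ⟨r, hr, T, t1, fun w hw => ⟨eventually_of_mem (hW.mem_nhds hw) hd, t2 w hw⟩⟩

theorem exists_wd (h : Hom V' V π) (ha : Ad π l S y c' ξ' c ξ) (hy : y ∈ S) (hq : 1 ≤ q) :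
    ∃ᶠ x in 𝓝 y, ∃ γ w, Wd π l S q x γ w := by
  obtain ⟨r, hr, T, t1, t2⟩ := std_lift h ha.crd q
  have e1 : ∃ᶠ t in 𝓝 (tl 3 (c' y)), t ∉ tl 3 '' T := fun e =>
    P277.H762.not_cv_nhds (k := 2) (S := tl 3 '' T) (x := tl 3 (c' y)) (by simp)
      (e.mono fun _ e => not_not.1 e)
      (t1.image isOpen_univ (subset_univ _) fun z _ => (tl 3).analyticAt z)
  have e2 : Tendsto (tl 2) (𝓝 (tl 3 (c' y))) (𝓝 (pr (c' y))) := (tl 2).continuous.tendsto _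
  have e3 : Tendsto (fun t => pl (tl 2 t)) (𝓝 (tl 3 (c' y))) (𝓝 (c (π y))) :=
    (pl.continuous.tendsto' _ _ (by rw [ha.sc.pl hy, ha.id.self_of_nhds hy])).comp e2
  refine ((ha.sc.tend hy).comp e2).frequently ((e1.and_eventually ((e2.eventually
    ((ha.sc.par hy).and ((ha.sc.tend hy).eventually (ha.eventually h)))).and
      (e3.eventually (ball_mem_nhds _ hr)))).mono ?_)
  rintro t ⟨f1, ⟨f2, f3⟩, f4⟩
  obtain ⟨γ, hγ⟩ := (t2 (inc 3 t) (by rw [blw_D hq (inc_zero t)]; exact f4)).2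
    (inc_zero t) fun e => f1 ⟨_, e, tl_inc t⟩
  exact ⟨γ, _, hγ.wd h f3 f2.1 hq (inc_zero t) f2.2.symm⟩

theorem loc_wd (h : Hom V' V π) (ha : Ad π l S y c' ξ' c ξ) (hq : 1 ≤ q) :
    ∃ N ∈ 𝓝 y, ∀ y₁ ∈ N, ∀ y₂ ∈ N, ∀ γ₁ w₁ γ₂ w₂ m,
      Wd π l S q y₁ γ₁ w₁ → Wd π l S q y₂ γ₂ w₂ → Mk γ₁ w₁ m → Mk γ₂ w₂ m := by
  obtain ⟨r, hr, T, t1, t2⟩ := std_lift h ha.crd q
  refine ⟨{x | Ad π l S x c' ξ' c ξ ∧ c (π x) ∈ ball (c (π y)) r}, (ha.eventually h).and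
    ((ha.crd.cont.tendsto.comp h.cont.continuousAt).eventually (ball_mem_nhds _ hr)),
    fun y₁ h1 y₂ h2 γ₁ w₁ γ₂ w₂ m k1 k2 hm => ?_⟩
  have key : ∀ {y₁ γ₁ w₁}, Wd π l S q y₁ γ₁ w₁ → Ad π l S y₁ c' ξ' c ξ →
      c (π y₁) ∈ ball (c (π y)) r → ∀ᶠ w in 𝓝 w₁, c (π (γ₁ w)) ∈ ball (c (π y)) r := by
    intro y₁ γ₁ w₁ k1 k2 k3
    have k4 := k2.crd
    rw [← k1.base] at k3 k4
    exact (k4.an_comp (k1.an.map (holM h _))).continuousAt.eventually (isOpen_ball.mem_nhds k3)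
  obtain ⟨v₁, ⟨-, x₁, β₁, a1, a2, a3, a4⟩, a5, a6⟩ := ((k1.std h h1.1 hq).and_eventually
    ((key k1 h1.1 h1.2).and hm.eventually_nhds)).exists
  rw [← a2] at a5
  refine anAt_hyp (Z := γ₂ ⁻¹' V'.G m) k2.zero (anAt_comp k2.an (isAnAt_G V' m _))
    (((k2.std h h2.1 hq).and_eventually (key k2 h2.1 h2.2)).mono ?_)
  rintro v₂ ⟨⟨b0, x₂, β₂, b1, b2, b3, b4⟩, b5⟩
  rw [← b2] at b5
  refine ⟨b0, (b4 m).2 ?_⟩
  have hU : ∀ {w : Cm 4}, w 0 = 0 →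
      (tl 3 w ∈ (fun t => pl (tl 2 t)) ⁻¹' ball (c (π y)) r ↔ blw q w ∈ ball (c (π y)) r) :=
    fun e => by rw [blw_D hq e]; rfl
  have hcv : Convex ℝ ((fun t => pl (tl 2 t)) ⁻¹' ball (c (π y)) r) :=
    (convex_ball _ _).is_linear_preimage ((pl.comp (tl 2)).restrictScalars ℝ).isLinear
  have h3 := ident_hyp (Z := {w | ∃ γ, Lf π (fun w => ξ (blw q w)) γ w ∧ γ w ∈ V'.G m})
    (isOpen_ball.preimage (pl.continuous.comp (tl 2).continuous)) hcv t1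
    (fun w e1 e2 e3 => ((t2 w ((hU e1).1 e2)).2 e1 e3).elim fun γ hγ =>
      hγ.anAt h (t2 w ((hU e1).1 e2)).1 m) a1 ((hU a1).2 a5) b1 ((hU b1).2 b5)
    (b3.anAt h (t2 _ b5).1 m)
    (((a3.iff h (t2 _ a5).1 _).and ((a4 m).1 a6)).mono fun _ e e' => e.1.2 (e.2 e'))
  exact ((b3.iff h (t2 _ b5).1 _).and h3).mono fun _ e e' => e.1.1 (e.2 e')

/-- (UNIQ) -/
theorem uniq_wd (h : Hom V' V π) (hS : IsSf S) (hc : IsPreconnected S) (hl : π '' S ⊆ V.G l)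
    (hq : 1 ≤ q) {y₁ y₂ : V'.W} (h1 : Imm π S y₁) (h2 : Imm π S y₂) {γ₁ γ₂ : Cm 4 → V'.W}
    {w₁ w₂ : Cm 4} (k1 : Wd π l S q y₁ γ₁ w₁) (k2 : Wd π l S q y₂ γ₂ w₂) {m : Fin V'.r}
    (hm : Mk γ₁ w₁ m) : Mk γ₂ w₂ m := by
  have loc := fun y (hy : Imm π S y) => (exists_ad h hS hl hy).elim fun _ e => e.elim fun _ e =>
    e.elim fun _ e => e.elim fun _ e => And.intro (exists_wd h e hy.mem hq) (loc_wd h e hq)
  refine (conn_prop (conn_imm hS hc (holM h))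
    (p := fun y => ∀ᶠ x in 𝓝 y, ∀ γ w, Wd π l S q x γ w → Mk γ w m)
    (fun x _ hp => hp.eventually_nhds.mono fun _ e _ => e) (fun x hx hp => ?_) h1 ?_ y₂
    h2).self_of_nhds _ _ k2
  · obtain ⟨N, e1, e2⟩ := (loc x hx).2
    obtain ⟨x₁, ⟨e3, e4⟩, e5⟩ := (hp.and_eventually (eventually_mem_nhds_iff.2 e1)).exists
    obtain ⟨x₂, ⟨γ, w, e6⟩, e7, e8⟩ := ((loc x₁ e3).1.and_eventually (e4.and e5)).exists
    filter_upwards [e1] with x' e9 γ' w' e10 using e2 _ e8 _ e9 _ _ _ _ _ e6 e10 (e7 _ _ e6)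
  · obtain ⟨N, e1, e2⟩ := (loc y₁ h1).2
    filter_upwards [e1] with x' e9 γ' w' e10 using
      e2 _ (mem_of_mem_nhds e1) _ e9 _ _ _ _ _ k1 e10 hm

end Vale.Agent.P277Z.Val.U
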