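import Vale.Agent.P277Z.Val.Man
import Vale.Agent.P277.H762.CL1

/-!
# P277, block VAL: units, logarithms, unramified wedges
-/

open Set Filter Metric Topology
open Vale.Agent.P272.K

noncomputable section

namespace Vale.Agent.P277Z.Val

variable {m : ℕ}

/-- a function which vanishes only on `{w 0 = 0}` is a power of `w 0` times a unit -/
theorem exists_ordEq {f : Cm (m + 1) → ℂ} {w₁ : Cm (m + 1)} (hf : AnalyticAt ℂ f w₁)
    (h0 : w₁ 0 = 0) (hne : ∀ᶠ w in 𝓝 w₁, w 0 ≠ 0 → f w ≠ 0) : ∃ g, OrdEq f w₁ g := by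
  obtain ⟨g, ⟨u, h1, h2⟩, h3⟩ := exists_ord hf h0
    (((freq_ne w₁).and_eventually hne).mono fun w hw => hw.2 hw.1)
  refine ⟨g, u, h1, ?_, h2⟩
  have h4 : ∃ᶠ w in 𝓝 w₁, w 0 = 0 ∧ u w ≠ 0 := by
    refine (h3.and_eventually (h1.eventually_analyticAt.and h2.eventually_nhds)).mono ?_
    rintro w ⟨⟨e1, u', e2, e3, e4⟩, e5, e6⟩
    refine ⟨e1, ?_⟩
    rw [eq_of_ne (F := u) (G := u') e5.continuousAt e2.continuousAt ?_]
    · exact e3
    · filter_upwards [e4, e6] with z e7 e8 e9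
      exact mul_left_cancel₀ (pow_ne_zero g e9) (e8.symm.trans e7)
  have h5 : ∀ᶠ w in 𝓝 w₁, AnalyticAt ℂ u w ∧ (w 0 ≠ 0 → u w ≠ 0) := by
    filter_upwards [h1.eventually_analyticAt, h2, hne] with w e1 e2 e3
    exact ⟨e1, fun e4 e5 => e3 e4 (by rw [e2, e5, mul_zero])⟩
  obtain ⟨r, hr, hb⟩ : ∃ r > 0, ∀ w ∈ closedBall w₁ (2 * r), AnalyticAt ℂ u w ∧
      (w 0 ≠ 0 → u w ≠ 0) := by
    obtain ⟨r, hr, h⟩ := Metric.eventually_nhds_iff_ball.1 h5
    exact ⟨r / 4, by positivity, fun w hw => h w (closedBall_subset_ball (by linarith) hw)⟩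
  set K : Set (Cm (m + 1)) := closedBall w₁ (2 * r) ∩ {w | ‖w 0‖ = r} with hK
  have hKc : IsCompact K := (isCompact_closedBall _ _).inter_right
    (isClosed_eq (continuous_apply 0).norm continuous_const)
  have hK0 : ∀ w ∈ K, u w ≠ 0 := fun w hw => (hb w hw.1).2 fun h => by
    have := hw.2
    rw [mem_ofPred_eq, h, norm_zero] at this
    exact hr.ne this
  obtain ⟨C, hC⟩ := hKc.exists_bound_of_continuousOn (f := fun w => (u w)⁻¹) fun w hw =>
    ((hb w hw.1).1.continuousAt.inv₀ (hK0 w hw)).continuousWithinAt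
  set v : Cm (m + 1) := Pi.single 0 (r : ℂ) with hv
  have hvn : ‖v‖ = r := by rw [hv, Pi.norm_single, Complex.norm_real, Real.norm_of_nonneg hr.le]
  have h6 : ∃ᶠ w in 𝓝 w₁, 1 ≤ C * ‖u w‖ := by
    refine (h4.and_eventually (closedBall_mem_nhds w₁ hr)).mono ?_
    rintro w ⟨⟨e1, e2⟩, e3⟩
    have e4 : ∀ ζ ∈ closedBall (0 : ℂ) 1, w + ζ • v ∈ closedBall w₁ (2 * r) := by
      intro ζ hζ
      rw [mem_closedBall, dist_zero_right] at hζ
      rw [dist_eq_norm] at e3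
      rw [mem_closedBall, dist_eq_norm]
      calc ‖w + ζ • v - w₁‖ = ‖(w - w₁) + ζ • v‖ := by congr 1; abel
        _ ≤ ‖w - w₁‖ + ‖ζ‖ * ‖v‖ := by rw [← norm_smul]; exact norm_add_le _ _
        _ ≤ 2 * r := by rw [hvn]; nlinarith
    have e5 : ∀ ζ : ℂ, (w + ζ • v) 0 = ζ * r := fun ζ => by simp [hv, e1]
    have e6 : ‖(u w)⁻¹‖ ≤ C := by
      refine P277.H762.disc_bound (f := fun w => (u w)⁻¹) (v := v) (fun ζ hζ => ?_) fun ζ hζ => ?_
      · refine (hb _ (e4 ζ hζ)).1.inv ?_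
        by_cases hz : ζ = 0
        · simpa [hz] using e2
        · exact (hb _ (e4 ζ hζ)).2 (by rw [e5]; exact mul_ne_zero hz (by exact_mod_cast hr.ne'))
      · refine hC _ ⟨e4 ζ (sphere_subset_closedBall hζ), ?_⟩
        rw [mem_sphere, dist_zero_right] at hζ
        rw [mem_ofPred_eq, e5, norm_mul, hζ, one_mul, Complex.norm_real, Real.norm_of_nonneg hr.le]
    rw [norm_inv, inv_le_iff_one_le_mul₀ (norm_pos_iff.2 e2)] at e6
    exact e6
  intro hz
  have h7 : ∀ᶠ w in 𝓝 w₁, C * ‖u w‖ < 1 :=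
    (continuousAt_const.mul h1.continuousAt.norm).eventually_lt continuousAt_const (by simp [hz])
  exact (h6.and_eventually h7).exists.elim fun w hw => absurd hw.1 (not_le.2 hw.2)

/-- `F` is `c * log ‖w 0‖` up to a bounded function -/
def LogE (F : Cm (m + 1) → ℝ) (w₁ : Cm (m + 1)) (c : ℝ) : Prop :=
  ∃ C : ℝ, ∀ᶠ w in 𝓝 w₁, w 0 ≠ 0 → |F w - c * Real.log ‖w 0‖| ≤ C

theorem OrdEq.logE {f : Cm (m + 1) → ℂ} {w₁ : Cm (m + 1)} {g : ℕ} (h : OrdEq f w₁ g) :
    LogE (fun w => Real.log ‖f w‖) w₁ g := by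
  obtain ⟨u, h1, h2, h3⟩ := h
  have h4 : ContinuousAt (fun w => |Real.log ‖u w‖|) w₁ :=
    (h1.continuousAt.norm.log (norm_ne_zero_iff.2 h2)).abs
  refine ⟨|Real.log ‖u w₁‖| + 1, ?_⟩
  filter_upwards [h3, h1.continuousAt.eventually_ne h2,
    h4.eventually_lt continuousAt_const (lt_add_one _)] with w e1 e2 e3 e4
  rw [e1, norm_mul, norm_pow, Real.log_mul (pow_ne_zero _ (norm_ne_zero_iff.2 e4))
    (norm_ne_zero_iff.2 e2), Real.log_pow, add_sub_cancel_left]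
  exact e3.le

theorem LogE.add {F F' : Cm (m + 1) → ℝ} {w₁ : Cm (m + 1)} {c c' : ℝ} (h : LogE F w₁ c)
    (h' : LogE F' w₁ c') : LogE (fun w => F w + F' w) w₁ (c + c') := by
  obtain ⟨C, h⟩ := h
  obtain ⟨C', h'⟩ := h'
  refine ⟨C + C', ?_⟩
  filter_upwards [h, h'] with w e1 e2 e3
  have e4 := abs_add_le (F w - c * Real.log ‖w 0‖) (F' w - c' * Real.log ‖w 0‖)
  rw [show F w + F' w - (c + c') * Real.log ‖w 0‖ =
    F w - c * Real.log ‖w 0‖ + (F' w - c' * Real.log ‖w 0‖) by ring]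
  linarith [e1 e3, e2 e3]

theorem LogE.mul {F : Cm (m + 1) → ℝ} {w₁ : Cm (m + 1)} {c : ℝ} (a : ℝ) (h : LogE F w₁ c) :
    LogE (fun w => a * F w) w₁ (a * c) := by
  obtain ⟨C, h⟩ := h
  refine ⟨|a| * C, ?_⟩
  filter_upwards [h] with w e1 e3
  rw [mul_assoc, ← mul_sub, abs_mul]
  exact mul_le_mul_of_nonneg_left (e1 e3) (abs_nonneg a)

theorem logE_sum {ι : Type*} (s : Finset ι) {F : ι → Cm (m + 1) → ℝ} {w₁ : Cm (m + 1)}
    {c : ι → ℝ} (h : ∀ i ∈ s, LogE (F i) w₁ (c i)) :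
    LogE (fun w => ∑ i ∈ s, F i w) w₁ (∑ i ∈ s, c i) := by
  classical
  induction s using Finset.induction_on with
  | empty => exact ⟨0, Eventually.of_forall fun w _ => by simp⟩
  | insert a s ha ih =>
    simp only [Finset.sum_insert ha]
    exact (h a (Finset.mem_insert_self a s)).add
      (ih fun i hi => h i (Finset.mem_insert_of_mem hi))

theorem LogE.eq_zero {F : Cm (m + 1) → ℝ} {w₁ : Cm (m + 1)} {c C : ℝ} (h0 : w₁ 0 = 0)
    (h : LogE F w₁ c) (h' : ∀ᶠ w in 𝓝 w₁, w 0 ≠ 0 → |F w| ≤ C) : c = 0 := by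
  obtain ⟨C', h⟩ := h
  by_contra hc
  have h1 : 0 < |c| := abs_pos.2 hc
  have h2 : ∀ᶠ w in 𝓝 w₁, ‖w 0‖ < Real.exp (-((C + C' + 1) / |c|)) :=
    (continuous_apply 0).norm.continuousAt.eventually_lt continuousAt_const
      (by simpa [h0] using Real.exp_pos _)
  obtain ⟨w, e1, e2, e3, e4⟩ := ((freq_ne w₁).and_eventually (h.and (h'.and h2))).exists
  have e5 : Real.log ‖w 0‖ < -((C + C' + 1) / |c|) :=
    (Real.log_lt_iff_lt_exp (norm_pos_iff.2 e1)).2 e4
  have e6 : |c * Real.log ‖w 0‖| ≤ C + C' := by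
    have := abs_sub (F w) (F w - c * Real.log ‖w 0‖)
    rw [sub_sub_cancel] at this
    linarith [e2 e1, e3 e1]
  rw [abs_mul] at e6
  have e7 : (C + C' + 1) / |c| < |Real.log ‖w 0‖| := by
    linarith [neg_abs_le (Real.log ‖w 0‖)]
  rw [div_lt_iff₀ h1] at e7
  linarith

theorem OrdEq.zero_iff {f : Cm (m + 1) → ℂ} {w₁ : Cm (m + 1)} (h : OrdEq f w₁ 1) :
    ∀ᶠ w in 𝓝 w₁, f w = 0 ↔ w 0 = 0 := by
  obtain ⟨u, h1, h2, h3⟩ := h
  filter_upwards [h3, h1.continuousAt.eventually_ne h2] with w e1 e2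
  rw [e1]
  simp [e2]

theorem det_of_rows {A : Matrix (Fin (m + 1)) (Fin (m + 1)) ℂ} (h : ∀ j : Fin m, A 0 j.succ = 0) :
    A.det = A 0 0 * (Matrix.of fun i j : Fin m => A i.succ j.succ).det := by
  rw [Matrix.det_succ_row_zero, Fin.sum_univ_succ]
  simp only [h, mul_zero, zero_mul, Finset.sum_const_zero, add_zero]
  simp only [Fin.val_zero, pow_zero, one_mul, Fin.succAbove_zero]
  rfl

/-- a wedge which is injective outside `{w 0 = 0}` and maps `{w 0 = 0}` to `{z 0 = 0}` with maximal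
rank is a local isomorphism -/
theorem locIso_of_injOn {γ : Cm (m + 1) → Cm (m + 1)} {w₁ : Cm (m + 1)} (hγ : AnalyticAt ℂ γ w₁)
    (h0 : w₁ 0 = 0) {g : ℕ} (hg : 1 ≤ g) (hy : OrdEq (fun w => γ w 0) w₁ g)
    (hd : (Matrix.of fun i j : Fin m => Jm γ w₁ i.succ j.succ).det ≠ 0)
    (hinj : ∀ᶠ p in 𝓝 w₁ ×ˢ 𝓝 w₁, p.1 0 ≠ 0 → γ p.2 = γ p.1 → p.2 = p.1) :
    g = 1 ∧ LocIso γ w₁ := by
  obtain ⟨u, h1, h2, h3⟩ := hy
  -- a root of the unit
  set v : Cm (m + 1) → ℂ := fun w => Complex.exp (Complex.log (u w / u w₁) / g) with hv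
  have hva : AnalyticAt ℂ v w₁ := by
    refine AnalyticAt.cexp' (AnalyticAt.div_const ?_)
    exact (h1.div_const).clog (by rw [div_self h2]; exact Complex.one_mem_slitPlane)
  have hg0 : (g : ℂ) ≠ 0 := by exact_mod_cast (by omega : g ≠ 0)
  have hvg : ∀ᶠ w in 𝓝 w₁, u w = u w₁ * v w ^ g := by
    filter_upwards [h1.continuousAt.eventually_ne h2] with w e1
    rw [hv, ← Complex.exp_nat_mul, mul_div_cancel₀ _ hg0, Complex.exp_log (div_ne_zero e1 h2)]
    field_simp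
  set φ : Cm (m + 1) → Cm (m + 1) := fun w => Function.update (γ w) 0 (w 0 * v w) with hφ
  have hφa : AnalyticAt ℂ φ w₁ := an_update 0 hγ ((an_coord 0 w₁).mul hva)
  have hφ0 : ∀ w, φ w 0 = w 0 * v w := fun w => Function.update_self _ _ _
  have hφs : ∀ w (i : Fin m), φ w i.succ = γ w i.succ := fun w i =>
    Function.update_of_ne (Fin.succ_ne_zero i) _ _
  have hrow : ∀ j, Jm φ w₁ 0 j = if 0 = j then v w₁ else 0 := by
    intro j
    rw [Jm_apply hφa.differentiableAt]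
    simp only [hφ0]
    rw [pd_mul (an_coord 0 w₁).differentiableAt hva.differentiableAt, pd_coord, h0]
    simp
  have hφi : LocIso φ w₁ := by
    refine ⟨hφa, ?_⟩
    rw [det_eq_Jm, det_of_rows fun j => by rw [hrow, if_neg (Fin.succ_ne_zero j).symm], hrow,
      if_pos rfl]
    refine mul_ne_zero (Complex.exp_ne_zero _) ?_
    convert hd using 3
    funext i j
    rw [Jm_apply hφa.differentiableAt, Jm_apply hγ.differentiableAt]
    simp only [hφs]
  have hfac : ∀ᶠ w in 𝓝 w₁, γ w = Function.update (φ w) 0 (u w₁ * φ w 0 ^ g) := by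
    filter_upwards [h3, hvg] with w e1 e2
    funext i
    refine Fin.cases ?_ (fun i => ?_) i
    · rw [Function.update_self, hφ0, e1, e2]
      ring
    · rw [Function.update_of_ne (Fin.succ_ne_zero i), hφs]
  have hg1 : g = 1 := by
    by_contra hne
    obtain ⟨θ, t1, t2, t3, t4⟩ := hφi.exists_inv
    have hθ : Tendsto θ (𝓝 (φ w₁)) (𝓝 w₁) := by
      have := t1.1.continuousAt
      rwa [ContinuousAt, t2] at this
    obtain ⟨μ, hμ⟩ : ∃ μ : ℂ, IsPrimitiveRoot μ g := ⟨_, Complex.isPrimitiveRoot_exp g (by omega)⟩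
    set R : Cm (m + 1) → Cm (m + 1) := fun s => Function.update s 0 (μ * s 0) with hR
    have hRt : Tendsto R (𝓝 (φ w₁)) (𝓝 (φ w₁)) := by
      have e1 : ContinuousAt R (φ w₁) :=
        (an_update 0 analyticAt_id (analyticAt_const.mul (an_coord 0 _))).continuousAt
      have e2 : R (φ w₁) = φ w₁ := by
        simp only [hR]
        rw [hφ0, h0, zero_mul, mul_zero, Function.update_eq_self_iff, hφ0, h0, zero_mul]
      rwa [ContinuousAt, e2] at e1
    have e1 := (hθ.prodMk (hθ.comp hRt)).eventually hinj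
    obtain ⟨s, f1, f2, f3, f4, f5, f6⟩ := ((freq_ne (φ w₁)).and_eventually (e1.and (t4.and
      ((hRt.eventually t4).and ((hθ.eventually hfac).and
        ((hθ.comp hRt).eventually hfac)))))).exists
    have f7 : θ s 0 ≠ 0 := fun h => f1 (by rw [← f3, hφ0, h, zero_mul])
    have f8 : θ (R s) = θ s := by
      refine f2 f7 ?_
      change γ (θ (R s)) = γ (θ s)
      change γ (θ (R s)) = Function.update (φ (θ (R s))) 0 (u w₁ * φ (θ (R s)) 0 ^ g) at f6
      rw [f5, f6, f3, f4]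
      simp only [hR, Function.update_idem, Function.update_self, mul_pow, hμ.pow_eq_one, one_mul]
    have f9 : R s 0 = s 0 := by rw [← f4, f8, f3]
    simp only [hR, Function.update_self] at f9
    exact hμ.ne_one (by omega) (mul_right_cancel₀ f1 (by rw [f9, one_mul]))
  subst hg1
  refine ⟨rfl, hγ, ?_⟩
  have hrow' : ∀ j, Jm γ w₁ 0 j = if 0 = j then u w₁ else 0 := by
    intro j
    rw [Jm_apply hγ.differentiableAt, pd_congr h3, pd_pow_mul (g := 0) h1, h0]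
    simp
  rw [det_eq_Jm, det_of_rows fun j => by rw [hrow', if_neg (Fin.succ_ne_zero j).symm], hrow',
    if_pos rfl]
  exact mul_ne_zero h2 hd

end Vale.Agent.P277Z.Val
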