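import Vale.Agent.P277Z.Val.USk2
import Vale.Agent.P277Z.Val.ResF
import Vale.Agent.P277Z.Lbd.Can
import Vale.Agent.P272.K.C2.Wirt

/-!
# P277, block VAL: Cartier divisors and pluricanonical forms on the terminal model
-/

open scoped Manifold ContDiff Topology ComplexOrder
open Vale.Agent.P272.K Vale.Agent.P285.H281.FD Vale.Agent.P277 Set Filter
open Vale.Agent.P277.T2 (IsLEq IsCmpV)
open Vale.Agent.P277.PH (HolF)
open Vale.Agent.P277.T3 (ThinM)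

noncomputable section

namespace Vale.Agent.P277Z.Val

/-- (DOMV) a map of resolutions is an isomorphism in codimension one of the target -/
def StDomV : Prop :=
  ∀ (V U : Lg) (Y : CSp) (ψ : V.W → Y.pt) exc (μ : V.W → U.W) (p : U.W → Y.pt), IsNormal 4 Y →
    Res V Y ψ exc → Res U Y p Finset.univ → HolTo V U.X μ → (∀ y, p (μ y) = ψ y) →
    ∃ T : Set U.W, IsClosed T ∧ ThinM 4 2 T ∧
      ∀ x ∉ T, ∃ y, μ y = x ∧ (∀ y', μ y' = x → y' = y) ∧ Val.U.LI μ y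

namespace VolH

variable {V : Lg} {y : V.W}

/-- the continuous extension across the boundary -/
def rg (V : Lg) (a : V.W → ℂ) (y : V.W) : ℂ := limUnder (𝓝[V.Eᶜ] y) a

theorem rg_mon {ζ} (hζ : V.Eq y ζ) {u a : V.W → ℂ} (hu : HolF 4 u y) (h0 : u y ≠ 0)
    {n : Fin V.r → ℤ} (hn : ∀ k, y ∈ V.G k → 0 ≤ n k)
    (h : ∀ᶠ x in 𝓝 y, x ∉ V.E → a x = u x * ∏ k, ζ k x ^ n k) :
    HolF 4 (rg V a) y ∧ (rg V a y = 0 ↔ ∃ k, y ∈ V.G k ∧ n k ≠ 0) ∧
      ∀ᶠ x in 𝓝 y, x ∉ V.E → rg V a x = a x := by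
  have h1 := hζ.iff.self_of_nhds
  have h2 : HolF 4 (fun x => u x * ∏ k, ζ k x ^ n k) y := hu.mul fun e he =>
    Finset.analyticAt_fun_prod _ fun k _ => by
      by_cases c : y ∈ V.G k
      · exact (hζ.hol k e he).fun_zpow_nonneg (hn k c)
      · exact (hζ.hol k e he).fun_zpow (by rw [e.left_inv he.2]; exact mt (h1 k).1 c)
  have h3 : ∀ᶠ x in 𝓝 y, u x * ∏ k, ζ k x ^ n k = rg V a x := by
    filter_upwards [holF_ev h2, h.eventually_nhds] with x a1 a2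
    have := mem_closure_iff_nhdsWithin_neBot.1 (V.dense x)
    have h4 : Tendsto a (𝓝[V.Eᶜ] x) (𝓝 _) :=
      ((holF_cont a1).tendsto.mono_left nhdsWithin_le_nhds).congr'
        (eventually_nhdsWithin_iff.2 (a2.mono fun z b c => (b c).symm))
    exact h4.limUnder_eq.symm
  refine ⟨h2.congr h3, ?_, by filter_upwards [h3, h] with x a b c using a.symm.trans (b c).symm⟩
  rw [← h3.self_of_nhds, mul_eq_zero, or_iff_right h0, Finset.prod_eq_zero_iff]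
  refine exists_congr fun k => ⟨fun ⟨_, c⟩ => ⟨(h1 k).1 (eq_zero_of_zpow_eq_zero c), fun d => ?_⟩,
    fun ⟨c, d⟩ => ⟨Finset.mem_univ _, by rw [(h1 k).2 c, zero_zpow _ d]⟩⟩
  simp [d] at c

theorem nz {X : CSp} (hX : IsNormal 4 X) {O B : Set X.pt} (hO : IsOpen O) (hB : DimLe X 2 (O ∩ B))
    {f : X.pt → ℂ} (hf : ∀ x ∈ O, X.Hol f x) (h0 : ∀ x ∈ O \ B, f x ≠ 0)
    (hE : (∀ x ∈ O \ B, X.Hol (fun x => (f x)⁻¹) x) →
      ∃ g : X.pt → ℂ, (∀ x ∈ O, X.Hol g x) ∧ ∀ x ∈ O \ B, g x = (f x)⁻¹) : ∀ x ∈ O, f x ≠ 0 := by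
  obtain ⟨g, h1, h2⟩ := hE fun x hx => hol_inv (hf x hx.1) (h0 x hx)
  refine fun x hx => left_ne_zero_of_mul_eq_one (eventuallyEq_of_dense
    (dense_compl_of_dimLe (by norm_num) hX.dense hB) (hol_mul (hf x hx) (h1 x hx)) (hol_const 1 x)
    ((hO.eventually_mem hx).mono fun z a b => ?_)).self_of_nhds
  have c : z ∈ O \ B := ⟨a, fun d => b ⟨a, d⟩⟩
  rw [h2 z c, mul_inv_cancel₀ (h0 z c)]

variable {Y : CSp} {ψ : V.W → Y.pt} {L : Bd Y.pt} {N : Bd V.W} {ν : Fin V.r → ℤ}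
  {t : ∀ _ : Fin 1, L.ι → N.ι → V.W → ℂ}

theorem chg (h : IsCmpV ψ (fun _ : Fin 1 => L) (fun _ => N) V.G (fun _ => ν) t) (hL : IsLBx Y L)
    {i : L.ι} {j j' : N.ι} (hy : y ∉ V.E) (hi : ψ y ∈ L.U i) (hj : y ∈ N.U j) (hj' : y ∈ N.U j') :
    t 0 i j y = N.g j j' y * t 0 i j' y := by
  have h1 : L.g i i (ψ y) = 1 :=
    mul_left_cancel₀ (hL.ne_zero i i _ hi hi) ((hL.cocycle i i i _ hi hi hi).trans (mul_one _).symm)
  rw [h.change y 0 i i j' j hy hi hi hj' hj, h1, one_mul, mul_comm]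

theorem closed_exc (exc : Finset (Fin V.r)) : IsClosed (⋃ l ∈ exc, V.G l) :=
  exc.finite_toSet.isClosed_biUnion fun l _ => V.closed l

theorem can_g {W : Type} [TopologicalSpace W] [ChartedSpace (Cm 4) W] [IsManifold 𝓘(ℂ, Cm 4) ω W]
    {e e' : Chart 4 W} {x : W} (he : At e x) (he' : At e' x) :
    (Bd.can 4 W).g e e' x = jac (fun y => y) e e' x := Lb.CanH.jacM_det he he'

theorem desc {U : Lg} {μ : V.W → U.W} (hμ : HolM 4 4 μ y) (hl : Val.U.LI μ y) {F : V.W → ℂ}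
    (hF : HolF 4 F y) {g : U.W → ℂ} (h : ∀ᶠ z in 𝓝 y, g (μ z) = F z) : HolF 4 g (μ y) := by
  intro e he
  have he' := PH.at_chartAt (n := 4) y
  obtain ⟨ξ, h1⟩ := Val.U.crd_pull hμ (crd_chart he') (crd_chart he)
    ⟨Val.U.an_loc hμ (crd_chart he') (crd_chart he), hl _ _ he' he⟩
  refine (h1.an.hol (by rwa [h1.inv])).congr ?_
  filter_upwards [h1.right, h1.tend.eventually (h.and (hμ.1.eventually (ev_at he)))] with w a b
  rw [← b.1, ← congrArg e.symm a, e.left_inv b.2.2]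

theorem nonneg (hN : StNegV) {k : ℕ} {ρ : Fin k → ℝ} {m : Fin k → ℕ} {χ M L' c n}
    (h : Trm ρ m V χ M Y L' c ψ n) {q : ℕ} (hL : IsLBx Y L) (hq : 1 ≤ q) {t}
    (ht : IsCmpV ψ (fun _ : Fin 1 => L) (fun _ => (((Bd.can 4 V.W).pow 1).mul (triv V.W)).pow q)
      V.G (fun _ => ν) t) (h0 : ∀ l ∉ pos (disc ρ c n), ν l = 0) (l : Fin V.r) : 0 ≤ ν l := by
  obtain ⟨s, hs⟩ := h.pm.cmp
  have e : ∀ l, disc (Fin.cons (-1) ρ) (Fin.cons q c) (Fin.cons ν n) l = disc ρ c n l - ν l / q :=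
    fun l => by
      simp only [disc, Fin.sum_univ_succ, Fin.cons_zero, Fin.cons_succ]
      ring
  have h1 := hN (k + 1) (Fin.cons (-1) ρ) (Fin.cons 1 m) V χ (Fin.cons (triv V.W) M) Y
    (Fin.cons L L') (Fin.cons q c) ψ (pos (disc ρ c n)) (Fin.cons ν n) h.normal
    (Fin.cases hL h.lb) (Fin.cases hq h.hc)
    ⟨h.pm.kahler, Fin.cases ⟨fun _ => isOpen_univ, fun _ => ⟨(), trivial⟩,
      fun _ _ _ _ _ _ _ => contDiffAt_const, fun _ _ _ _ _ => one_ne_zero,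
      fun _ _ _ _ _ _ _ => mul_one _⟩ h.pm.lb, Fin.cases (fun δ hδ => ⟨fun _ _ => 0,
        ⟨fun _ _ _ _ _ => contDiffAt_const, fun _ _ _ _ _ => by
          show (0 : ℝ) = 0 + Real.log (‖(1 : ℂ)‖ ^ 2)
          simp⟩, fun _ e x he _ => by
          rw [C2.cHess_const, zero_add]
          exact (h.pm.kahler.posDef e x he).posSemidef.smul (by exact_mod_cast hδ.le)⟩) h.pm.nef,
      h.pm.res, Fin.cases (t 0) s, fun y => by
        obtain ⟨ζ, a1, a2⟩ := hs.div y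
        obtain ⟨ζ', b1, b2⟩ := ht.div y
        obtain ⟨w, c1, c2⟩ := Lg.Eq.unit (V := V) a1 b1
        refine ⟨ζ, a1, Fin.cases (fun i j hi hj => ?_) a2⟩
        obtain ⟨u, d1, d2, d3⟩ := b2 0 i j hi hj
        refine ⟨fun x => u x * ∏ l, w l x ^ ν l, mul_ne_zero d1 (Finset.prod_ne_zero_iff.2
          fun l _ => zpow_ne_zero _ (c1 l).2), fun e he => (d2 e he).mul
            (Finset.analyticAt_fun_prod _ fun l _ => ((c1 l).1 e he).fun_zpow (by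
              rw [e.left_inv he.2]; exact (c1 l).2)), ?_⟩
        filter_upwards [d3, c2] with x f1 f2 f3
        refine (f1 f3).trans ?_
        simp only [f2, mul_zpow, Finset.prod_mul_distrib, Fin.cons_zero]
        ring, fun y => Fin.cases (ht.change y 0) (hs.change y)⟩
    (Fin.cases (fun _ => rfl) fun e a => absurd (h.hρ e) (not_lt.2 a.le))
    (by simp [Fin.sum_univ_succ, h.sum]) (fun l hl => by
      rw [e, h0 l hl]
      simpa [pos] using hl) l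
  by_cases c : l ∈ pos (disc ρ c n)
  · have h2 : (0 : ℝ) < ν l / q := by
      rw [e] at h1
      linarith [(Finset.mem_filter.1 c).2]
    exact_mod_cast ((div_pos_iff_of_pos_right (by exact_mod_cast hq)).1 h2).le
  · exact (h0 l c).ge

end VolH

open VolH

theorem car : StCar := by
  classical
  intro V Y ψ exc l hY R hl ⟨L, q, ν, hL, hq, ⟨t, ht⟩, hν⟩ y₀
  obtain ⟨i, hi⟩ := hL.cover y₀
  set F := rg V fun y => (t 0 i (chartAt (Cm 4) y, ()) y)⁻¹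
  have h1 : ∀ y, y ∉ ⋃ k ∈ exc, V.G k → ψ y ∈ L.U i → HolF 4 F y ∧ (F y = 0 ↔ y ∈ V.G l) := by
    intro y hy hi
    have hn : ∀ k, y ∈ V.G k → -ν k = if k = l then (q : ℤ) else 0 := fun k c => by
      rw [hν k fun d => hy (mem_biUnion d c), neg_neg, Pi.single_apply]
      split_ifs <;> simp
    obtain ⟨ζ, a1, a2⟩ := ht.div y
    have he := PH.at_chartAt (n := 4) y
    obtain ⟨u, b1, b2, b3⟩ := a2 0 i (chartAt (Cm 4) y, ()) hi ⟨he, trivial⟩
    obtain ⟨c1, c2, -⟩ := rg_mon (a := fun y => (t 0 i (chartAt (Cm 4) y, ()) y)⁻¹)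
      (u := fun x => (u x)⁻¹) (n := fun k => -ν k) a1
      (fun e he => (b2 e he).fun_inv (by rwa [e.left_inv he.2])) (inv_ne_zero b1)
      (fun k c => by rw [hn k c]; positivity) (by
        filter_upwards [b3, ev_at he, R.cont.continuousAt.eventually ((hL.isOpen i).mem_nhds hi)]
          with x d1 d2 d3 d4
        rw [chg ht hL (j := (chartAt (Cm 4) x, ())) (j' := (chartAt (Cm 4) y, ())) d4 d3
          ⟨PH.at_chartAt (n := 4) x, trivial⟩ ⟨d2, trivial⟩, d1 d4]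
        simp [Bd.pow, Bd.mul, triv, mul_comm])
    refine ⟨c1, c2.trans ⟨fun ⟨k, d1, d2⟩ => ?_, fun d => ⟨l, d, ?_⟩⟩⟩
    · rw [hn k d1] at d2
      exact (by_contra fun d => d2 (if_neg d) : k = l) ▸ d1
    · rw [hn l d, if_pos rfl]
      omega
  have h2 : ∀ y, y ∉ ⋃ k ∈ exc, V.G k → Function.surjInv R.surj (ψ y) = y := fun y hy =>
    R.inj y _ hy (Function.surjInv_eq _ _)
  have h3 : ∀ y, y ∉ ⋃ k ∈ exc, V.G k → ψ y ∉ ψ '' ⋃ k ∈ exc, V.G k := fun y hy ⟨z, a, b⟩ =>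
    hy (R.inj y z hy b ▸ a)
  obtain ⟨f, f1, f2⟩ := hY.ext (L.U i) _ (hL.isOpen i) (R.an.mono (subset_univ _))
    (R.dim.mono inter_subset_right) (fun x => F (Function.surjInv R.surj x)) fun x hx => by
      obtain ⟨y, rfl⟩ := R.surj x
      have a : y ∉ ⋃ k ∈ exc, V.G k := fun c => hx.2 ⟨y, c, rfl⟩
      have he := PH.at_chartAt (n := 4) y
      have b : HolF 4 (fun z => F (Function.surjInv R.surj (ψ z))) y := (h1 y a hx.1).1.congr
        (((closed_exc exc).isOpen_compl.eventually_mem a).mono fun z b => congrArg F (h2 z b).symm)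
      exact (R.emb.hol y a _ he _).2 (b _ he)
  have h4 : ∀ y, y ∉ ⋃ k ∈ exc, V.G k → ψ y ∈ L.U i → (f (ψ y) = 0 ↔ y ∈ V.G l) :=
    fun y a b => by rw [f2 _ ⟨b, h3 y a⟩, h2 y a, (h1 y a b).2]
  have hO := (hL.isOpen i).sdiff (R.cont.isClosedMap _ (V.closed l))
  refine ⟨f, f1 _ hi, ((hL.isOpen i).eventually_mem hi).mono fun x hx =>
    ⟨fun a => by_contra fun b => nz hY hO (R.dim.mono inter_subset_right) (fun x c => f1 x c.1)
      (fun x c d => ?_) (hY.ext _ _ hO (R.an.mono (subset_univ _)) (R.dim.mono inter_subset_right)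
        _) x ⟨hx, b⟩ a, ?_⟩⟩
  · obtain ⟨y, rfl⟩ := R.surj x
    exact c.1.2 ⟨y, (h4 y (fun e => c.2 ⟨y, e, rfl⟩) c.1.1).1 d, rfl⟩
  · rintro ⟨y, hy, rfl⟩
    refine tendsto_nhds_unique_of_frequently_eq
      ((hol_continuousAt (f1 _ hx)).comp R.cont.continuousAt) tendsto_const_nhds
      (((Lg.freq1 hy).and_eventually (R.cont.continuousAt.eventually
        ((hL.isOpen i).mem_nhds hx))).mono fun z a => (h4 z (fun b => ?_) a.2).2 a.1.1)
    obtain ⟨k, c, d⟩ := mem_iUnion₂.1 b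
    exact a.1.2 k (fun e => hl (e ▸ c)) d

theorem vol_of (hN : StNegV) (hX : StNX) (hE : StExtC) (hD : StDomV) : StVol := by
  intro k ρ m V χ M Y L' c ψ n U p μ h ⟨L, q, ν, hL, hq, ⟨t, ht⟩, hν⟩ R hμ hp y₀
  replace hν : ∀ l ∉ pos (disc ρ c n), ν l = 0 := fun l hl => by simpa using hν l hl
  have h0 := nonneg hN h hL hq ht hν
  obtain ⟨i, hi⟩ := hL.cover y₀
  obtain ⟨T, T1, T2, T3⟩ := hD V U Y ψ _ μ p h.normal h.pm.res R hμ hp
  obtain ⟨x₀, -⟩ := R.surj y₀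
  have hU := hX U ⟨x₀⟩
  have hm : ∀ y, HolM 4 4 μ y := fun y => ⟨hμ.cont.continuousAt, hμ.hol y⟩
  have ha : ∀ y e' e, At e' y → At e (μ y) → AnalyticAt ℂ (fun z => e (μ (e'.symm z))) (e' y) :=
    fun y _ _ a b => Val.U.an_loc (hm y) (crd_chart a) (crd_chart b)
  set w : Chart 4 V.W → V.W → ℂ := fun e => rg V (t 0 i (e, ()))
  have h1 : ∀ y e, At e y → ψ y ∈ L.U i → HolF 4 (w e) y ∧
      (w e y = 0 ↔ ∃ k, y ∈ V.G k ∧ ν k ≠ 0) ∧ ∀ᶠ x in 𝓝 y, x ∉ V.E → w e x = t 0 i (e, ()) x := by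
    intro y e he hi
    obtain ⟨ζ, a1, a2⟩ := ht.div y
    obtain ⟨u, b1, b2, b3⟩ := a2 0 i (e, ()) hi ⟨he, trivial⟩
    exact rg_mon a1 b2 b1 (fun k _ => h0 k) b3
  have h2 : ∀ y e e', At e y → At e' y → ψ y ∈ L.U i →
      w e y = jac (fun y => y) e e' y ^ q * w e' y := by
    intro y e e' he he' hi
    refine tendsto_nhds_unique_of_frequently_eq (holF_cont (h1 y e he hi).1)
      (((holF_cont (jac_id he he').1).pow q).mul (holF_cont (h1 y e' he' hi).1))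
      ((V.freqE y).mp ?_)
    filter_upwards [(h1 y e he hi).2.2, (h1 y e' he' hi).2.2, ev_at he, ev_at he',
      h.pm.res.cont.continuousAt.eventually ((hL.isOpen i).mem_nhds hi)] with x a1 a2 a3 a4 a5 a6
    rw [a1 a6, Pi.mul_apply, a2 a6, chg ht hL (j := (e, ())) (j' := (e', ())) a6 a5 ⟨a3, trivial⟩
      ⟨a4, trivial⟩, Pi.pow_apply, ← can_g a3 a4]
    simp [Bd.pow, Bd.mul, triv]
  have : Nonempty V.W := ⟨(h.pm.res.surj y₀).choose⟩
  set σ := Function.invFun μ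
  let η : Chart 4 U.W → U.W → ℂ := fun e x =>
    w (chartAt (Cm 4) (σ x)) (σ x) / jac μ (chartAt (Cm 4) (σ x)) e (σ x) ^ q
  have h3 : ∀ y e' e, μ y ∉ T → At e' y → At e (μ y) → ψ y ∈ L.U i →
      jac μ e' e y ≠ 0 ∧ η e (μ y) = w e' y / jac μ e' e y ^ q := by
    intro y e' e a he' he hi
    obtain ⟨z, b1, b2, b3⟩ := T3 _ a
    obtain rfl := b2 y rfl
    have hc := PH.at_chartAt (n := 4) y
    refine ⟨b3 _ _ he' he, ?_⟩
    simp only [η]
    rw [show σ (μ y) = y from b2 _ (Function.invFun_eq ⟨y, rfl⟩), h2 y _ e' hc he' hi,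
      jac_comp (σ := fun y => y) continuousAt_id hc.2 he'.2 (ha y _ _ he' he)
        (PH.chg_analyticAt he' hc), mul_pow, mul_comm (jac μ e' e y ^ q),
      mul_div_mul_left _ _ (pow_ne_zero _ (jac_id hc he').2)]
  have hO : ∀ e : Chart 4 U.W, IsOpen {x | p x ∈ L.U i ∧ At e x} := fun e =>
    ((hL.isOpen i).preimage R.cont).inter (isOpen_iff_eventually.2 fun _ => ev_at)
  have T4 : DimLe U.X 2 T := H60.Z.thinM_iff.1 T2
  choose η' k1 k2 using fun e => hE U.X hU _ T (hO e) T1 (T4.mono inter_subset_right) (η e)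
    fun x hx => by
      obtain ⟨y, rfl, -, b⟩ := T3 x hx.2
      have hc := PH.at_chartAt (n := 4) y
      have hi : ψ y ∈ L.U i := hp y ▸ hx.1.1
      refine desc (hm y) b (F := fun z => w (chartAt (Cm 4) y) z / jac μ (chartAt (Cm 4) y) e z ^ q)
        (fun e' he' => ((h1 y _ hc hi).1 e' he').fun_div
          ((holF_jac hc (ha y _ _ hc hx.1.2) e' he').fun_pow q)
          (by rw [e'.left_inv he'.2]; exact pow_ne_zero _ (b _ _ hc hx.1.2))) ?_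
      filter_upwards [ev_at hc, hμ.cont.continuousAt.eventually
        (((hO e).sdiff T1).eventually_mem hx)] with z a1 a2
        using (h3 z _ e a2.2 a1 a2.1.2 (hp z ▸ a2.1.1)).2
  refine ⟨L.U i, q, η', hL.isOpen i, hi, hq, fun x hx => ⟨fun e he => ⟨k1 e x ⟨hx, he⟩, fun a => ?_⟩,
    fun e e' he he' => ?_⟩⟩
  · have b1 := (hO e).sdiff U.closedE
    have b2 : DimLe U.X 2 (({x | p x ∈ L.U i ∧ At e x} \ U.E) ∩
        (T ∪ μ '' ⋃ l ∈ pos (disc ρ c n), V.G l)) := by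
      refine (T4.union (H60.Z.thinM_iff.1 (RF.thin_preimage R.emb x h.pm.res.dim))).mono ?_
      rintro z ⟨c1, c2 | ⟨y, c2, rfl⟩⟩
      exacts [Or.inl c2, Or.inr ⟨fun d => c1.2 (iUnion₂_subset_iUnion _ _ d), y, c2, (hp y).symm⟩]
    refine nz hU b1 b2 (fun z c => k1 e z c.1) (fun z c => ?_)
      (hE U.X hU _ _ b1 (T1.union (hμ.cont.isClosedMap _ (closed_exc _))) b2 _) x ⟨⟨hx, he⟩, a⟩
    have c1 : z ∉ T := fun d => c.2 (Or.inl d)
    obtain ⟨y, rfl, -⟩ := T3 z c1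
    have hc := PH.at_chartAt (n := 4) y
    have hi : ψ y ∈ L.U i := hp y ▸ c.1.1.1
    obtain ⟨d1, d2⟩ := h3 y _ e c1 hc c.1.1.2 hi
    rw [k2 e _ ⟨c.1.1, c1⟩, d2]
    refine div_ne_zero (fun d => ?_) (pow_ne_zero _ d1)
    obtain ⟨l, d3, d4⟩ := (h1 y _ hc hi).2.1.1 d
    exact c.2 (Or.inr ⟨y, mem_biUnion (by_contra fun d5 => d4 (hν l d5)) d3, rfl⟩)
  · rw [can_g he he']
    refine (eventuallyEq_of_dense (dense_compl_of_dimLe (by norm_num) hU.dense T4)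
      (k1 e x ⟨hx, he⟩) (hol_mul (hol_pow (X := U.X) (jac_id he he').1 q) (k1 e' x ⟨hx, he'⟩))
      ?_).self_of_nhds
    filter_upwards [(hO e).eventually_mem ⟨hx, he⟩, ev_at (W := U.W) he'] with z a1 a2 a3
    obtain ⟨y, rfl, -⟩ := T3 z a3
    have hc := PH.at_chartAt (n := 4) y
    have hi : ψ y ∈ L.U i := hp y ▸ a1.1
    rw [k2 e _ ⟨a1, a3⟩, k2 e' _ ⟨⟨a1.1, a2⟩, a3⟩, (h3 y _ e a3 hc a1.2 hi).2,
      (h3 y _ e' a3 hc a2 hi).2, show jac μ _ e' y = _ from jac_comp (π := fun y : U.W => y)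
        (hm y).1 hc.2 a1.2.2 (PH.chg_analyticAt a2 a1.2) (ha y _ _ hc a1.2), mul_pow,
      ← mul_div_assoc, mul_div_mul_left _ _ (pow_ne_zero _ (jac_id (W := U.W) a1.2 a2).2)]

end Vale.Agent.P277Z.Val
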